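import Vale.Agent.P080.MathlibUsed
import Vale.Agent.P080.Defs

set_option linter.all false

section

section

set_option linter.unusedSectionVars false

namespace Vale.Agent.P080

open Topology Filter Metric Set
open scoped RealInnerProductSpace

variable {E : Type*} [NormedAddCommGroup E] [InnerProductSpace ℝ E] [CompleteSpace E]

theorem infLaplacian_congr {φ ψ : E → ℝ} {z : E} (h : φ =ᶠ[𝓝 z] ψ) :
    infLaplacian φ z = infLaplacian ψ z := by
  have h1 : fderiv ℝ φ =ᶠ[𝓝 z] fderiv ℝ ψ := h.fderiv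
  have h2 : fderiv ℝ (fderiv ℝ φ) z = fderiv ℝ (fderiv ℝ ψ) z := h1.fderiv_eq
  have h3 : gradient φ z = gradient ψ z := by
    unfold gradient
    rw [h.fderiv_eq]
  unfold infLaplacian
  rw [h2, h3]

theorem infLaplacian_neg (φ : E → ℝ) (z : E) :
    infLaplacian (fun x => - φ x) z = - infLaplacian φ z := by
  have h1 : fderiv ℝ (fun x => - φ x) = fun x => - fderiv ℝ φ x := by
    funext x
    exact fderiv_fun_neg
  have h3 : gradient (fun x => - φ x) z = - gradient φ z := by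
    unfold gradient
    rw [h1]
    simp only [map_neg]
  unfold infLaplacian
  rw [h3, h1]
  have : fderiv ℝ (fun x => - fderiv ℝ φ x) z = - fderiv ℝ (fderiv ℝ φ) z := fderiv_fun_neg
  rw [this]
  simp only [neg_apply, map_neg, neg_neg]

theorem exists_contDiff_eventuallyEq {φ : E → ℝ} {z : E} (h : ContDiffAt ℝ 2 φ z) :
    ∃ ψ : E → ℝ, ContDiff ℝ 2 ψ ∧ ψ =ᶠ[𝓝 z] φ := by
  have h1 : ∀ᶠ y in 𝓝 z, ContDiffAt ℝ 2 φ y := h.eventually (by simp)
  obtain ⟨ε, hε, h2⟩ := Metric.eventually_nhds_iff_ball.1 h1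
  let f : ContDiffBump z := ⟨ε / 4, ε / 2, by positivity, by linarith only [hε]⟩
  refine ⟨fun x => f x * φ x, ?_, ?_⟩
  · rw [contDiff_iff_contDiffAt]
    intro y
    by_cases hy : y ∈ ball z ε
    · exact f.contDiffAt.mul (h2 y hy)
    · have hy2 : y ∉ tsupport f := by
        rw [f.tsupport_eq]
        intro h3
        apply hy
        rw [mem_closedBall] at h3
        rw [mem_ball]
        have : f.rOut = ε / 2 := rfl
        rw [this] at h3
        linarith only [hε, h3]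
      have h4 : f =ᶠ[𝓝 y] 0 := notMem_tsupport_iff_eventuallyEq.1 hy2
      have h5 : (fun x => f x * φ x) =ᶠ[𝓝 y] fun _ => (0 : ℝ) := by
        filter_upwards [h4] with x hx
        simp [hx]
      exact contDiffAt_const.congr_of_eventuallyEq h5
  · filter_upwards [f.eventuallyEq_one] with x hx
    simp [hx]

theorem IsInfHarmonicOn.sub_local {u : E → ℝ} {Ω : Set E} (hu : IsInfHarmonicOn u Ω) {z : E}
    (hz : z ∈ Ω) {φ : E → ℝ} (hφ : ContDiffAt ℝ 2 φ z)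
    (hmax : IsLocalMax (fun x => u x - φ x) z) : 0 ≤ infLaplacian φ z := by
  obtain ⟨ψ, h1, h2⟩ := exists_contDiff_eventuallyEq hφ
  rw [← infLaplacian_congr h2]
  refine hu.sub z hz ψ h1 ?_
  have h3 : (fun x => u x - φ x) =ᶠ[𝓝 z] fun x => u x - ψ x := by
    filter_upwards [h2] with x hx
    rw [hx]
  exact hmax.congr h3

theorem IsInfHarmonicOn.neg {u : E → ℝ} {Ω : Set E} (hu : IsInfHarmonicOn u Ω) :
    IsInfHarmonicOn (fun x => - u x) Ω := by
  refine ⟨hu.continuousOn.neg, ?_, ?_⟩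
  · intro z hz φ hφ hmax
    have h1 := hu.super z hz (fun x => - φ x) hφ.neg ?_
    · rw [infLaplacian_neg] at h1
      linarith
    · have : (fun x => u x - - φ x) = fun x => - (- u x - φ x) := by
        funext x; ring
      rw [this]
      exact hmax.neg
  · intro z hz φ hφ hmin
    have h1 := hu.sub z hz (fun x => - φ x) hφ.neg ?_
    · rw [infLaplacian_neg] at h1
      linarith
    · have : (fun x => u x - - φ x) = fun x => - (- u x - φ x) := by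
        funext x; ring
      rw [this]
      exact hmin.neg

theorem infLaplacian_eq_of_line {φ : E → ℝ} {z : E} (hφ : ContDiffAt ℝ 2 φ z) {v : E}
    (hv : gradient φ z = v) {g : ℝ → ℝ} {c : ℝ}
    (hg : (fun t : ℝ => φ (z + t • v)) =ᶠ[𝓝 0] g) (hg' : HasDerivAt (deriv g) c 0) :
    infLaplacian φ z = c := by
  have h1 : ∀ᶠ y in 𝓝 z, ContDiffAt ℝ 2 φ y := hφ.eventually (by simp)
  have hline : Tendsto (fun t : ℝ => z + t • v) (𝓝 0) (𝓝 z) := by
    have : Continuous fun t : ℝ => z + t • v := by fun_prop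
    simpa only [zero_smul, add_zero] using this.tendsto 0
  have h2 : ∀ᶠ t : ℝ in 𝓝 0, ContDiffAt ℝ 2 φ (z + t • v) := hline.eventually h1
  have hl : ∀ t : ℝ, HasDerivAt (fun t : ℝ => z + t • v) v t := by
    intro t
    simpa using ((hasDerivAt_id t).smul_const v).const_add z
  have h3 : ∀ᶠ t : ℝ in 𝓝 0,
      deriv (fun t : ℝ => φ (z + t • v)) t = fderiv ℝ φ (z + t • v) v := by
    filter_upwards [h2] with t ht
    have hd : DifferentiableAt ℝ φ (z + t • v) := ht.differentiableAt (by simp)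
    exact (hd.hasFDerivAt.comp_hasDerivAt t (hl t)).deriv
  have h4 : deriv g =ᶠ[𝓝 0] fun t => fderiv ℝ φ (z + t • v) v := by
    have := hg.deriv
    filter_upwards [h3, this] with t ht ht2
    rw [← ht2, ht]
  have hd2 : DifferentiableAt ℝ (fderiv ℝ φ) z := by
    have : ContDiffAt ℝ 1 (fderiv ℝ φ) z := hφ.fderiv_right (by norm_num)
    exact this.differentiableAt (by simp)
  have h5 : HasDerivAt (fun t : ℝ => fderiv ℝ φ (z + t • v) v)
      (fderiv ℝ (fderiv ℝ φ) z v v) 0 := by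
    have hd2' : HasFDerivAt (fderiv ℝ φ) (fderiv ℝ (fderiv ℝ φ) z) (z + (0 : ℝ) • v) := by
      simpa using hd2.hasFDerivAt
    have h6 := hd2'.comp_hasDerivAt (0 : ℝ) (hl 0)
    have h7 := h6.clm_apply (hasDerivAt_const (0 : ℝ) v)
    simpa using h7
  have h8 := h5.congr_of_eventuallyEq h4
  unfold infLaplacian
  rw [hv]
  exact h8.unique hg'

theorem hasFDerivAt_norm_sub {x z : E} (h : x ≠ z) :
    HasFDerivAt (fun y : E => ‖y - z‖) (‖x - z‖⁻¹ • innerSL ℝ (x - z)) x := by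
  have h0 : ‖x - z‖ ≠ 0 := by
    rw [norm_ne_zero_iff]; exact sub_ne_zero.2 h
  have h1 : HasFDerivAt (fun y : E => ‖y - z‖ ^ 2) (2 • (innerSL ℝ (x - z))) x := by
    have := ((hasFDerivAt_id x).sub_const z).norm_sq
    simpa only [map_sub, id_eq, ContinuousLinearMap.comp_id] using this
  have h2 := h1.sqrt (by positivity)
  have h3 : (fun y : E => √(‖y - z‖ ^ 2)) = fun y : E => ‖y - z‖ := by
    funext y
    exact Real.sqrt_sq (norm_nonneg _)
  rw [h3] at h2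
  convert h2 using 1
  rw [Real.sqrt_sq (norm_nonneg _)]
  ext y
  simp
  (clear * - h0; field_simp)

theorem gradient_cone {x z : E} (h : x ≠ z) (a b ε : ℝ) :
    gradient (fun y : E => a + b * ‖y - z‖ - ε * ‖y - z‖ ^ 2) x
      = (b * ‖x - z‖⁻¹ - 2 * ε) • (x - z) := by
  have h1 : HasFDerivAt (fun y : E => ‖y - z‖ ^ 2) (2 • (innerSL ℝ (x - z))) x := by
    have := ((hasFDerivAt_id x).sub_const z).norm_sq
    simpa only [map_sub, id_eq, ContinuousLinearMap.comp_id] using this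
  have h2 := ((hasFDerivAt_norm_sub h).const_mul b).const_add a
  have h3 := h2.fun_sub (h1.const_mul ε)
  have h4 : HasGradientAt (fun y : E => a + b * ‖y - z‖ - ε * ‖y - z‖ ^ 2)
      ((b * ‖x - z‖⁻¹ - 2 * ε) • (x - z)) x := by
    rw [hasGradientAt_iff_hasFDerivAt]
    refine h3.congr_fderiv ?_
    ext y
    simp only [map_smul, FunLike.coe_sub, FunLike.coe_smul, Pi.sub_apply, Pi.smul_apply,
      smul_eq_mul, InnerProductSpace.toDual_apply_apply, innerSL_apply_apply, map_sub,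
      two_smul, add_apply]
    ring
  exact h4.gradient

theorem infLaplacian_cone {x z : E} (h : x ≠ z) (a b ε : ℝ) :
    infLaplacian (fun y : E => a + b * ‖y - z‖ - ε * ‖y - z‖ ^ 2) x
      = - (2 * ε) * (b - 2 * ε * ‖x - z‖) ^ 2 := by
  have h0 : 0 < ‖x - z‖ := by
    rw [norm_pos_iff]; exact sub_ne_zero.2 h
  have hc : ContDiffAt ℝ 2 (fun y : E => a + b * ‖y - z‖ - ε * ‖y - z‖ ^ 2) x := by
    have h1 : ContDiffAt ℝ 2 (fun y : E => ‖y - z‖) x := by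
      apply ContDiffAt.norm ℝ (by fun_prop)
      exact sub_ne_zero.2 h
    exact (contDiffAt_const.add (contDiffAt_const.mul h1)).sub (contDiffAt_const.mul (h1.pow 2))
  set k : ℝ := b * ‖x - z‖⁻¹ - 2 * ε with hk
  refine infLaplacian_eq_of_line hc (gradient_cone h a b ε)
    (g := fun t => a + b * ((1 + k * t) * ‖x - z‖) - ε * ((1 + k * t) * ‖x - z‖) ^ 2) ?_ ?_
  · have hpos : ∀ᶠ t : ℝ in 𝓝 0, 0 < 1 + k * t := by
      have : Tendsto (fun t : ℝ => 1 + k * t) (𝓝 0) (𝓝 1) := by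
        have hcont : Continuous fun t : ℝ => 1 + k * t := by fun_prop
        simpa using hcont.tendsto 0
      exact this.eventually (lt_mem_nhds one_pos)
    filter_upwards [hpos] with t ht
    have h2 : x + t • k • (x - z) - z = (1 + k * t) • (x - z) := by
      module
    have h3 : ‖x + t • k • (x - z) - z‖ = (1 + k * t) * ‖x - z‖ := by
      rw [h2, norm_smul, Real.norm_of_nonneg ht.le]
    rw [h3]
  · have hd : deriv (fun t : ℝ => a + b * ((1 + k * t) * ‖x - z‖) - ε * ((1 + k * t) * ‖x - z‖) ^ 2)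
        = fun t => b * (k * ‖x - z‖) - 2 * ε * ((1 + k * t) * ‖x - z‖) * (k * ‖x - z‖) := by
      funext t
      have h1 : HasDerivAt (fun t : ℝ => (1 + k * t) * ‖x - z‖) (k * ‖x - z‖) t := by
        have := (((hasDerivAt_id t).const_mul k).const_add 1).mul_const ‖x - z‖
        simpa using this
      have h2 := ((h1.const_mul b).const_add a).fun_sub ((h1.fun_pow 2).const_mul ε)
      rw [h2.deriv]
      simp
      ring
    rw [hd]
    have h1 : HasDerivAt (fun t : ℝ => (1 + k * t) * ‖x - z‖) (k * ‖x - z‖) 0 := by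
      have := (((hasDerivAt_id (0:ℝ)).const_mul k).const_add 1).mul_const ‖x - z‖
      simpa using this
    have h2 := (((h1.const_mul (2 * ε)).mul_const (k * ‖x - z‖))).const_sub (b * (k * ‖x - z‖))
    refine h2.congr_deriv ?_
    have hk2 : k * ‖x - z‖ = b - 2 * ε * ‖x - z‖ := by
      rw [hk]; (clear * - h0; field_simp)
    rw [hk2]; ring

end Vale.Agent.P080
end
end

section

section
set_option linter.unusedSectionVars false

namespace Vale.Agent.P080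

open Topology Filter Metric Set
open scoped RealInnerProductSpace

variable {E : Type*} [NormedAddCommGroup E] [InnerProductSpace ℝ E]

/-- Comparison with cones (nonnegative slopes), from above and from below. -/
structure ConeComp (u : E → ℝ) (Ω : Set E) : Prop where
  cont : ContinuousOn u Ω
  above : ∀ V : Set E, IsOpen V → Bornology.IsBounded V → closure V ⊆ Ω →
    ∀ (z : E) (a b : ℝ), 0 ≤ b → (∀ x ∈ frontier V, u x ≤ a + b * ‖x - z‖) →
    (z ∈ V → u z ≤ a) → ∀ x ∈ V, u x ≤ a + b * ‖x - z‖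
  below : ∀ V : Set E, IsOpen V → Bornology.IsBounded V → closure V ⊆ Ω →
    ∀ (z : E) (a b : ℝ), 0 ≤ b → (∀ x ∈ frontier V, a - b * ‖x - z‖ ≤ u x) →
    (z ∈ V → a ≤ u z) → ∀ x ∈ V, a - b * ‖x - z‖ ≤ u x

theorem ConeComp.neg {u : E → ℝ} {Ω : Set E} (hu : ConeComp u Ω) :
    ConeComp (fun x => - u x) Ω := by
  refine ⟨hu.cont.neg, ?_, ?_⟩
  · intro V hV hb hc z a b hb0 hf hz x hx
    have := hu.below V hV hb hc z (-a) b hb0 (fun y hy => by linarith [hf y hy])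
      (fun h => by linarith [hz h]) x hx
    linarith
  · intro V hV hb hc z a b hb0 hf hz x hx
    have := hu.above V hV hb hc z (-a) b hb0 (fun y hy => by linarith [hf y hy])
      (fun h => by linarith [hz h]) x hx
    linarith

variable [FiniteDimensional ℝ E]

theorem IsInfHarmonicOn.cone_above [CompleteSpace E] {u : E → ℝ} {Ω : Set E}
    (hu : IsInfHarmonicOn u Ω)
    {V : Set E} (hV : IsOpen V) (hb : Bornology.IsBounded V) (hc : closure V ⊆ Ω)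
    {z : E} {a b : ℝ} (hb0 : 0 ≤ b) (hf : ∀ x ∈ frontier V, u x ≤ a + b * ‖x - z‖)
    (hz : z ∈ V → u z ≤ a) : ∀ x ∈ V, u x ≤ a + b * ‖x - z‖ := by
  by_contra hcon
  push Not at hcon
  obtain ⟨x1, hx1, hlt⟩ := hcon
  have hcomp : IsCompact (closure V) := hb.isCompact_closure
  obtain ⟨D, hD⟩ : ∃ D : ℝ, ∀ x ∈ closure V, ‖x - z‖ ≤ D := by
    have h1 : ContinuousOn (fun x : E => ‖x - z‖) (closure V) := by fun_prop
    obtain ⟨D, hD⟩ := hcomp.bddAbove_image h1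
    exact ⟨D, fun x hx => hD (mem_image_of_mem _ hx)⟩
  have hD0 : 0 ≤ D := (norm_nonneg _).trans (hD x1 (subset_closure hx1))
  set gap : ℝ := u x1 - (a + b * ‖x1 - z‖) with hgap
  have hgap0 : 0 < gap := by rw [hgap]; linarith
  set ε : ℝ := gap / (6 * (D + 1) ^ 2) with hε
  have hε0 : 0 < ε := by positivity
  have hεD : 3 * ε * (D + 1) ^ 2 = gap / 2 := by
    rw [hε]; field_simp; ring
  set ψ : E → ℝ := fun y => a + (b + 3 * ε * (D + 1)) * ‖y - z‖ - ε * ‖y - z‖ ^ 2 with hψ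
  have hψge : ∀ y ∈ closure V, a + b * ‖y - z‖ ≤ ψ y := by
    intro y hy
    have h1 := hD y hy
    have h2 := norm_nonneg (y - z)
    simp only [hψ]
    linarith only [mul_nonneg (mul_nonneg hε0.le h2) (by linarith : 0 ≤ 3 * (D+1) - ‖y - z‖)]
  have hψx1 : ψ x1 < u x1 := by
    have h1 := hD x1 (subset_closure hx1)
    have h2 := norm_nonneg (x1 - z)
    have h3 : ψ x1 ≤ a + b * ‖x1 - z‖ + 3 * ε * (D + 1) ^ 2 := by
      simp only [hψ]
      linarith only [mul_nonneg hε0.le (sq_nonneg ‖x1 - z‖), mul_nonneg (mul_nonneg hε0.le (by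
          linarith : 0 ≤ D + 1)) (by linarith : 0 ≤ D + 1 - ‖x1 - z‖)]
    rw [hεD] at h3
    have : a + b * ‖x1 - z‖ = u x1 - gap := by rw [hgap]; ring
    linarith only [hgap0, h3]
  have hcont : ContinuousOn (fun y => u y - ψ y) (closure V) := by
    refine (hu.continuousOn.mono hc).sub (Continuous.continuousOn ?_)
    have hn : Continuous fun y : E => ‖y - z‖ := (continuous_id.sub continuous_const).norm
    exact (continuous_const.add (hn.const_mul _)).sub ((hn.pow 2).const_mul _)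
  obtain ⟨x0, hx0, hmax⟩ := hcomp.exists_isMaxOn ⟨x1, subset_closure hx1⟩ hcont
  have hpos : 0 < u x0 - ψ x0 := by
    have := hmax (subset_closure hx1)
    simp only [mem_ofPred_eq] at this
    linarith only [hψx1, this]
  have hx0V : x0 ∈ V := by
    by_contra hx0V
    have h1 : x0 ∈ frontier V := by
      rw [frontier, hV.interior_eq]
      exact ⟨hx0, hx0V⟩
    have := hf x0 h1
    have := hψge x0 hx0
    linarith
  have hne : x0 ≠ z := by
    intro h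
    have h1 := hz (h ▸ hx0V)
    rw [h] at hpos
    simp only [hψ, sub_self, norm_zero] at hpos
    simp at hpos
    linarith only [h1, hpos]
  have hloc : IsLocalMax (fun y => u y - ψ y) x0 := by
    apply (hmax.on_subset subset_closure).isLocalMax (hV.mem_nhds hx0V)
  have hcd : ContDiffAt ℝ 2 ψ x0 := by
    have h1 : ContDiffAt ℝ 2 (fun y : E => ‖y - z‖) x0 := by
      apply ContDiffAt.norm ℝ (by fun_prop)
      exact sub_ne_zero.2 hne
    exact (contDiffAt_const.add (contDiffAt_const.mul h1)).sub (contDiffAt_const.mul (h1.pow 2))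
  have h1 := hu.sub_local (hc (subset_closure hx0V)) hcd hloc
  rw [hψ, infLaplacian_cone hne] at h1
  have h2 := hD x0 hx0
  have h3 : 0 < (b + 3 * ε * (D + 1) - 2 * ε * ‖x0 - z‖) := by
    have : 0 < ε * (D + 1) := by (clear * - hlt hD0; positivity)
    linarith only [hb0, hε0, this, mul_le_mul_of_nonneg_left h2 hε0.le]
  have h4 : 0 < (2 * ε) * (b + 3 * ε * (D + 1) - 2 * ε * ‖x0 - z‖) ^ 2 := by (clear * - hlt hD0 h3; positivity)
  linarith only [h4, h1]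

theorem IsInfHarmonicOn.coneComp [CompleteSpace E] {u : E → ℝ} {Ω : Set E}
    (hu : IsInfHarmonicOn u Ω) : ConeComp u Ω := by
  refine ⟨hu.continuousOn, ?_, ?_⟩
  · intro V hV hb hc z a b hb0 hf hz
    exact hu.cone_above hV hb hc hb0 hf hz
  · intro V hV hb hc z a b hb0 hf hz x hx
    have := hu.neg.cone_above hV hb hc hb0 (z := z) (a := -a)
      (fun y hy => by linarith [hf y hy]) (fun h => by linarith [hz h]) x hx
    linarith

end Vale.Agent.P080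
end
end

section

section
set_option linter.unusedSectionVars false

namespace Vale.Agent.P080

open Topology Filter Metric Set
open scoped RealInnerProductSpace

variable {E : Type*} [NormedAddCommGroup E] [InnerProductSpace ℝ E]

/-- `u` is Lipschitz with constant `b` near `x`. -/
def LipNear (u : E → ℝ) (x : E) (b : ℝ) : Prop :=
  ∃ δ > 0, ∀ y ∈ ball x δ, ∀ z ∈ ball x δ, |u y - u z| ≤ b * ‖y - z‖

/-- local Lipschitz constant of `u` at `x` -/
noncomputable def locLip (u : E → ℝ) (x : E) : ℝ := sInf {b : ℝ | 0 ≤ b ∧ LipNear u x b}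

theorem LipNear.mono {u : E → ℝ} {x : E} {b b' : ℝ} (h : LipNear u x b) (hb : b ≤ b') :
    LipNear u x b' := by
  obtain ⟨δ, hδ, h⟩ := h
  exact ⟨δ, hδ, fun y hy z hz => (h y hy z hz).trans
    (mul_le_mul_of_nonneg_right hb (norm_nonneg _))⟩

theorem LipNear.neg {u : E → ℝ} {x : E} {b : ℝ} (h : LipNear u x b) :
    LipNear (fun y => - u y) x b := by
  obtain ⟨δ, hδ, h⟩ := h
  refine ⟨δ, hδ, fun y hy z hz => ?_⟩
  have := h z hz y hy
  rw [norm_sub_rev z y] at this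
  have h2 : - u y - - u z = u z - u y := by ring
  rw [h2]; exact this

theorem lipNear_neg_iff {u : E → ℝ} {x : E} {b : ℝ} :
    LipNear (fun y => - u y) x b ↔ LipNear u x b := by
  refine ⟨fun h => ?_, fun h => h.neg⟩
  simpa using h.neg

theorem locLip_neg (u : E → ℝ) (x : E) : locLip (fun y => - u y) x = locLip u x := by
  unfold locLip
  simp only [lipNear_neg_iff]

theorem locLip_nonneg (u : E → ℝ) (x : E) : 0 ≤ locLip u x :=
  Real.sInf_nonneg fun _ hb => hb.1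

theorem locLip_le {u : E → ℝ} {x : E} {b : ℝ} (hb : 0 ≤ b) (h : LipNear u x b) :
    locLip u x ≤ b :=
  csInf_le ⟨0, fun _ hb => hb.1⟩ ⟨hb, h⟩

theorem lipNear_of_locLip_lt {u : E → ℝ} {x : E} {b : ℝ} (hne : ∃ b₀, LipNear u x b₀)
    (h : locLip u x < b) : LipNear u x b := by
  obtain ⟨b₀, hb₀⟩ := hne
  have hne' : {b : ℝ | 0 ≤ b ∧ LipNear u x b}.Nonempty :=
    ⟨max b₀ 0, le_max_right _ _, hb₀.mono (le_max_left _ _)⟩
  obtain ⟨b', hb', hlt⟩ := exists_lt_of_csInf_lt hne' h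
  exact hb'.2.mono hlt.le

/-- Key local estimate: slopes to the frontier control the local Lipschitz constant. -/
theorem ConeComp.lipNear_of_frontier {u : E → ℝ} {Ω : Set E} (hu : ConeComp u Ω)
    {V : Set E} (hV : IsOpen V) (hb : Bornology.IsBounded V) (hc : closure V ⊆ Ω)
    {x : E} (hx : x ∈ V) {b : ℝ} (hb0 : 0 ≤ b)
    (hf : ∀ y ∈ frontier V, u y - u x ≤ b * ‖y - x‖) {ε : ℝ} (hε : 0 < ε) :
    LipNear u x (b + ε) := by
  obtain ⟨δ₀, hδ₀, hball⟩ := Metric.isOpen_iff.1 hV x hx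
  have hcont : ContinuousAt u x :=
    hu.cont.continuousAt (mem_of_superset (hV.mem_nhds hx) (subset_closure.trans hc))
  have h1 : ∀ᶠ x' in 𝓝 x, |u x' - u x| < ε * δ₀ / 4 := by
    have h2 := hcont.tendsto (Metric.ball_mem_nhds (u x) (by positivity : 0 < ε * δ₀ / 4))
    filter_upwards [h2] with x' hx'
    simpa [Real.dist_eq] using hx'
  obtain ⟨δ₁, hδ₁, h1⟩ := Metric.eventually_nhds_iff_ball.1 h1
  set δ : ℝ := min (min δ₁ (δ₀ / 2)) (ε * δ₀ / (4 * (b + 1))) with hδ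
  have hδpos : 0 < δ := by (clear * - hδ₁ hδ₀ hε hb0; positivity)
  have hcone : ∀ x' ∈ ball x δ, ∀ y ∈ V, u y ≤ u x' + (b + ε) * ‖y - x'‖ := by
    intro x' hx'
    have hx'1 : ‖x' - x‖ < δ := by simpa [dist_eq_norm] using hx'
    have hδ1 : δ ≤ δ₁ := (min_le_left _ _).trans (min_le_left _ _)
    have hδ2 : δ ≤ δ₀ / 2 := (min_le_left _ _).trans (min_le_right _ _)
    have hδ3 : δ ≤ ε * δ₀ / (4 * (b + 1)) := min_le_right _ _
    have hux : |u x' - u x| < ε * δ₀ / 4 := h1 x' (ball_subset_ball hδ1 hx')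
    apply hu.above V hV hb hc x' (u x') (b + ε) (by linarith only [hb0, hε])
    · intro y hy
      have hyV : y ∉ V := by
        rw [frontier, hV.interior_eq] at hy
        exact hy.2
      have hyd : δ₀ ≤ ‖y - x‖ := by
        by_contra hlt
        push Not at hlt
        exact hyV (hball (by simpa [dist_eq_norm] using hlt))
      have h3 : ‖y - x‖ ≤ ‖y - x'‖ + ‖x' - x‖ := by
        have : y - x = (y - x') + (x' - x) := by abel
        rw [this]; exact norm_add_le _ _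
      have h4 : δ₀ / 2 ≤ ‖y - x'‖ := by linarith only [hx'1, hδ2, hyd, h3]
      have h5 := hf y hy
      have h6 : b * δ ≤ ε * δ₀ / 4 := by
        have : b * δ ≤ (b + 1) * (ε * δ₀ / (4 * (b + 1))) :=
          mul_le_mul (by linarith only []) hδ3 hδpos.le (by linarith only [hb0])
        have h7 : (b + 1) * (ε * δ₀ / (4 * (b + 1))) = ε * δ₀ / 4 := by
          (clear * - hb0 hδ₀ hε; field_simp)
        linarith only [this, h7]
      have h8 : b * ‖y - x‖ ≤ b * ‖y - x'‖ + b * δ := by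
        have := mul_le_mul_of_nonneg_left h3 hb0
        have := mul_le_mul_of_nonneg_left hx'1.le hb0
        (clear hb hf hball hδ₁ h1 hδ hδpos hδ1 hδ2 hδ3 hux hy hyV hyd h4 h5 h6; linarith)
      have h9 : ε * (δ₀ / 2) ≤ ε * ‖y - x'‖ := mul_le_mul_of_nonneg_left h4 hε.le
      have h10 := (abs_lt.1 hux).1
      linarith only [h5, h6, h8, h9, h10]
    · intro _; exact le_rfl
  refine ⟨δ, hδpos, fun y hy z hz => ?_⟩
  have hsub : ball x δ ⊆ V := (ball_subset_ball (by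
    have : δ ≤ δ₀ / 2 := (min_le_left _ _).trans (min_le_right _ _)
    linarith only [hδpos, this])).trans hball
  have h1 := hcone z hz y (hsub hy)
  have h2 := hcone y hy z (hsub hz)
  rw [norm_sub_rev z y] at h2
  rw [abs_le]
  constructor <;> linarith

theorem ConeComp.exists_lipNear [FiniteDimensional ℝ E] {u : E → ℝ} {Ω : Set E}
    (hu : ConeComp u Ω) (hΩ : IsOpen Ω)
    {x : E} (hx : x ∈ Ω) : ∃ b, LipNear u x b := by
  obtain ⟨δ, hδ, hball⟩ := Metric.isOpen_iff.1 hΩ x hx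
  have hcl : closure (ball x (δ / 2)) ⊆ Ω :=
    (closure_ball_subset_closedBall).trans ((closedBall_subset_ball (by linarith only [hδ])).trans hball)
  have hcpt : IsCompact (closedBall x (δ / 2)) := isCompact_closedBall _ _
  have hcon : ContinuousOn (fun y => u y - u x) (closedBall x (δ / 2)) :=
    (hu.cont.mono ((closedBall_subset_ball (by linarith only [hδ])).trans hball)).sub continuousOn_const
  obtain ⟨M, hM⟩ := hcpt.bddAbove_image hcon
  refine ⟨(|M| / (δ / 2)) + 1, hu.lipNear_of_frontier (V := ball x (δ / 2)) isOpen_ball isBounded_ball hcl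
    (mem_ball_self (by linarith)) (by (clear * - hδ; positivity)) ?_ one_pos⟩
  intro y hy
  have hy1 : y ∈ sphere x (δ / 2) := by
    exact frontier_ball_subset_sphere hy
  have hy2 : ‖y - x‖ = δ / 2 := by simpa [dist_eq_norm] using hy1
  have hy3 : u y - u x ≤ M := hM (mem_image_of_mem _ (sphere_subset_closedBall hy1))
  rw [hy2]
  have : |M| / (δ / 2) * (δ / 2) = |M| := by (clear * - hδ; field_simp)
  rw [this]
  exact hy3.trans (le_abs_self M)

end Vale.Agent.P080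
end
end

section

section

set_option linter.unusedSectionVars false

namespace Vale.Agent.P080

open Topology Filter Metric Set
open scoped RealInnerProductSpace

variable {E : Type*} [NormedAddCommGroup E] [InnerProductSpace ℝ E]

variable [FiniteDimensional ℝ E]

end Vale.Agent.P080
end
end

section

section

set_option linter.unusedSectionVars false

namespace Vale.Agent.P080

open Topology Filter Metric Set
open scoped RealInnerProductSpace

variable {E : Type*} [NormedAddCommGroup E] [InnerProductSpace ℝ E]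

/-- `u` is the (extended) potential of the convex ring `Ω \ K` (comparison with cones form). -/
structure Ring (u : E → ℝ) (Ω K : Set E) : Prop where
  cont : Continuous u
  hΩo : IsOpen Ω
  hΩc : Convex ℝ Ω
  hΩb : Bornology.IsBounded Ω
  hKc : Convex ℝ K
  hKk : IsCompact K
  hKn : K.Nonempty
  hKΩ : K ⊆ Ω
  one : ∀ x ∈ K, u x = 1
  zero : ∀ x, x ∉ Ω → u x = 0
  cc : ConeComp u (Ω \ K)

variable [FiniteDimensional ℝ E]

namespace Ring

variable {u : E → ℝ} {Ω K : Set E}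

end Ring

end Vale.Agent.P080
end
end

section

section

set_option linter.unusedSectionVars false

namespace Vale.Agent.P080

open Topology Filter Metric Set
open scoped RealInnerProductSpace

variable {E : Type*} [NormedAddCommGroup E] [InnerProductSpace ℝ E] [FiniteDimensional ℝ E]
  [Nontrivial E]

namespace Ring

variable {u : E → ℝ} {Ω K : Set E}

end Ring

end Vale.Agent.P080
end
end

section

section

set_option linter.unusedSectionVars false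

namespace Vale.Agent.P080

open Topology Filter Metric Set
open scoped RealInnerProductSpace Pointwise

variable {E : Type*} [NormedAddCommGroup E] [InnerProductSpace ℝ E]

/-- rescaled function around `A` -/
noncomputable def rescale (u : E → ℝ) (A : E) (R Λ : ℝ) : E → ℝ :=
  fun x => (u (A + R • x) - u A) / (Λ * R)

theorem rescale_key {u : E → ℝ} {A : E} {R Λ : ℝ} (hR : 0 < R) (hΛ : 0 < Λ) (x : E) :
    u (A + R • x) = u A + Λ * R * rescale u A R Λ x := by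
  unfold rescale
  field_simp
  ring

theorem rescale_key' {u : E → ℝ} {A : E} {R Λ : ℝ} (hR : 0 < R) (hΛ : 0 < Λ) (y : E) :
    u y = u A + Λ * R * rescale u A R Λ (R⁻¹ • (y - A)) := by
  rw [← rescale_key (u := u) hR hΛ]
  congr 1
  rw [smul_smul, mul_inv_cancel₀ hR.ne', one_smul]
  abel

/-- the affine homeomorphism `y ↦ R⁻¹ • (y - A)` -/
noncomputable def affHomeo (A : E) (R : ℝ) (hR : R ≠ 0) : E ≃ₜ E :=
  (Homeomorph.addRight (-A)).trans (Homeomorph.smulOfNeZero R⁻¹ (inv_ne_zero hR))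

theorem affHomeo_apply (A : E) (R : ℝ) (hR : R ≠ 0) (y : E) :
    affHomeo A R hR y = R⁻¹ • (y - A) := by
  simp only [affHomeo, Homeomorph.trans_apply, Homeomorph.coe_addRight, Homeomorph.smulOfNeZero_apply, smul_add, smul_neg, sub_eq_add_neg]

theorem norm_aff {A : E} {R : ℝ} (hR : 0 < R) (y z : E) :
    R * ‖R⁻¹ • (y - A) - z‖ = ‖y - (A + R • z)‖ := by
  have : y - (A + R • z) = R • (R⁻¹ • (y - A) - z) := by
    rw [smul_sub, smul_smul, mul_inv_cancel₀ hR.ne', one_smul]; abel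
  rw [this, norm_smul, Real.norm_of_nonneg hR.le]

theorem ConeComp.rescale {u : E → ℝ} {Ω : Set E} (hu : ConeComp u Ω) (A : E) {R Λ : ℝ}
    (hR : 0 < R) (hΛ : 0 < Λ) :
    ConeComp (rescale u A R Λ) ((fun x => A + R • x) ⁻¹' Ω) := by
  have hcf : Continuous (fun x : E => A + R • x) := by fun_prop
  have hmain : ∀ V : Set E, IsOpen V → Bornology.IsBounded V →
      closure V ⊆ ((fun x => A + R • x) ⁻¹' Ω) →
      IsOpen (affHomeo A R hR.ne' ⁻¹' V) ∧ Bornology.IsBounded (affHomeo A R hR.ne' ⁻¹' V) ∧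
      closure (affHomeo A R hR.ne' ⁻¹' V) ⊆ Ω ∧
      frontier (affHomeo A R hR.ne' ⁻¹' V) = affHomeo A R hR.ne' ⁻¹' (frontier V) := by
    intro V hV hb hc
    refine ⟨hV.preimage (affHomeo A R hR.ne').continuous, ?_, ?_, ?_⟩
    · obtain ⟨C, hC⟩ := hb.subset_closedBall 0
      apply (isBounded_closedBall (x := A) (r := R * C)).subset
      intro y hy
      have h1 : affHomeo A R hR.ne' y ∈ closedBall (0 : E) C := hC hy
      rw [affHomeo_apply, mem_closedBall, dist_zero_right] at h1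
      rw [mem_closedBall, dist_eq_norm]
      have h2 := norm_aff hR (A := A) y 0
      rw [smul_zero, add_zero, sub_zero] at h2
      rw [← h2]
      (clear * - h1 hR; gcongr)
    · rw [← Homeomorph.preimage_closure]
      intro y hy
      have h1 := hc hy
      simp only [mem_preimage, affHomeo_apply] at h1
      rwa [smul_smul, mul_inv_cancel₀ hR.ne', one_smul, add_sub_cancel] at h1
    · rw [← Homeomorph.preimage_frontier]
  refine ⟨?_, ?_, ?_⟩
  · unfold P080.rescale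
    apply ContinuousOn.div_const
    apply ContinuousOn.sub _ continuousOn_const
    exact hu.cont.comp hcf.continuousOn (fun x hx => hx)
  · intro V hV hb hc z a b hb0 hf hz x hx
    obtain ⟨h1, h2, h3, h4⟩ := hmain V hV hb hc
    have h5 := hu.above _ h1 h2 h3 (A + R • z) (u A + Λ * R * a) (Λ * b) (by positivity) ?_ ?_
      (A + R • x) ?_
    · rw [rescale_key (u := u) hR hΛ] at h5
      have h6 : ‖A + R • x - (A + R • z)‖ = R * ‖x - z‖ := by
        have : A + R • x - (A + R • z) = R • (x - z) := by rw [smul_sub]; abel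
        rw [this, norm_smul, Real.norm_of_nonneg hR.le]
      rw [h6] at h5
      have h7 : Λ * R * P080.rescale u A R Λ x ≤ Λ * R * (a + b * ‖x - z‖) := by linarith only
            [h5]
      exact le_of_mul_le_mul_left h7 (by positivity)
    · intro y hy
      rw [h4] at hy
      have h6 := hf _ hy
      rw [affHomeo_apply] at h6
      rw [rescale_key' (u := u) (A := A) hR hΛ y, ← norm_aff hR]
      have h7 := mul_le_mul_of_nonneg_left h6 (by positivity : 0 ≤ Λ * R)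
      linarith only [h7]
    · intro hzV
      rw [mem_preimage, affHomeo_apply, add_sub_cancel_left, smul_smul,
        inv_mul_cancel₀ hR.ne', one_smul] at hzV
      have h6 := hz hzV
      rw [rescale_key (u := u) hR hΛ]
      have h7 := mul_le_mul_of_nonneg_left h6 (by positivity : 0 ≤ Λ * R)
      linarith
    · rw [mem_preimage, affHomeo_apply, add_sub_cancel_left, smul_smul,
        inv_mul_cancel₀ hR.ne', one_smul]
      exact hx
  · intro V hV hb hc z a b hb0 hf hz x hx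
    obtain ⟨h1, h2, h3, h4⟩ := hmain V hV hb hc
    have h5 := hu.below _ h1 h2 h3 (A + R • z) (u A + Λ * R * a) (Λ * b) (by positivity) ?_ ?_
      (A + R • x) ?_
    · rw [rescale_key (u := u) hR hΛ] at h5
      have h6 : ‖A + R • x - (A + R • z)‖ = R * ‖x - z‖ := by
        have : A + R • x - (A + R • z) = R • (x - z) := by rw [smul_sub]; abel
        rw [this, norm_smul, Real.norm_of_nonneg hR.le]
      rw [h6] at h5
      have h7 : Λ * R * (a - b * ‖x - z‖) ≤ Λ * R * P080.rescale u A R Λ x := by linarith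
      exact le_of_mul_le_mul_left h7 (by positivity)
    · intro y hy
      rw [h4] at hy
      have h6 := hf _ hy
      rw [affHomeo_apply] at h6
      rw [rescale_key' (u := u) (A := A) hR hΛ y, ← norm_aff hR]
      have h7 := mul_le_mul_of_nonneg_left h6 (by positivity : 0 ≤ Λ * R)
      linarith
    · intro hzV
      rw [mem_preimage, affHomeo_apply, add_sub_cancel_left, smul_smul,
        inv_mul_cancel₀ hR.ne', one_smul] at hzV
      have h6 := hz hzV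
      rw [rescale_key (u := u) hR hΛ]
      have h7 := mul_le_mul_of_nonneg_left h6 (by positivity : 0 ≤ Λ * R)
      linarith
    · rw [mem_preimage, affHomeo_apply, add_sub_cancel_left, smul_smul,
        inv_mul_cancel₀ hR.ne', one_smul]
      exact hx

theorem lipNear_rescale {u : E → ℝ} {A : E} {R Λ : ℝ} (hR : 0 < R) (hΛ : 0 < Λ) (x : E) (b : ℝ) :
    LipNear (rescale u A R Λ) x b ↔ LipNear u (A + R • x) (Λ * b) := by
  have hn : ∀ y z : E, ‖(A + R • y) - (A + R • z)‖ = R * ‖y - z‖ := by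
    intro y z
    have : A + R • y - (A + R • z) = R • (y - z) := by rw [smul_sub]; abel
    rw [this, norm_smul, Real.norm_of_nonneg hR.le]
  constructor
  · rintro ⟨δ, hδ, h⟩
    refine ⟨R * δ, by positivity, fun y hy z hz => ?_⟩
    have hmem : ∀ y ∈ ball (A + R • x) (R * δ), R⁻¹ • (y - A) ∈ ball x δ := by
      intro y hy
      rw [mem_ball, dist_eq_norm] at hy ⊢
      rw [← norm_aff hR] at hy
      exact lt_of_mul_lt_mul_left hy hR.le
    have h1 := h _ (hmem y hy) _ (hmem z hz)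
    rw [rescale_key' (u := u) (A := A) hR hΛ y, rescale_key' (u := u) (A := A) hR hΛ z]
    have h2 : ‖y - z‖ = R * ‖R⁻¹ • (y - A) - R⁻¹ • (z - A)‖ := by
      rw [norm_aff hR, smul_smul, mul_inv_cancel₀ hR.ne', one_smul]
      congr 1; abel
    rw [h2]
    have h3 : u A + Λ * R * rescale u A R Λ (R⁻¹ • (y - A)) -
      (u A + Λ * R * rescale u A R Λ (R⁻¹ • (z - A))) =
      Λ * R * (rescale u A R Λ (R⁻¹ • (y - A)) - rescale u A R Λ (R⁻¹ • (z - A))) := by ring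
    rw [h3, abs_mul, abs_of_pos (by positivity : 0 < Λ * R)]
    have h4 := mul_le_mul_of_nonneg_left h1 (by positivity : 0 ≤ Λ * R)
    linarith only [h4]
  · rintro ⟨δ, hδ, h⟩
    refine ⟨δ / R, by positivity, fun y hy z hz => ?_⟩
    have hmem : ∀ y ∈ ball x (δ / R), A + R • y ∈ ball (A + R • x) δ := by
      intro y hy
      rw [mem_ball, dist_eq_norm] at hy ⊢
      rw [hn]
      rwa [lt_div_iff₀' hR] at hy
    have h1 := h _ (hmem y hy) _ (hmem z hz)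
    rw [rescale_key (u := u) hR hΛ y, rescale_key (u := u) hR hΛ z, hn] at h1
    have h3 : u A + Λ * R * rescale u A R Λ y - (u A + Λ * R * rescale u A R Λ z) =
      Λ * R * (rescale u A R Λ y - rescale u A R Λ z) := by ring
    rw [h3, abs_mul, abs_of_pos (by positivity : 0 < Λ * R)] at h1
    have h4 : Λ * R * |rescale u A R Λ y - rescale u A R Λ z| ≤ Λ * R * (b * ‖y - z‖) := by
      linarith
    exact le_of_mul_le_mul_left h4 (by positivity)

theorem locLip_rescale {u : E → ℝ} {A : E} {R Λ : ℝ} (hR : 0 < R) (hΛ : 0 < Λ) (x : E) :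
    locLip (rescale u A R Λ) x = locLip u (A + R • x) / Λ := by
  unfold locLip
  have : {b : ℝ | 0 ≤ b ∧ LipNear (rescale u A R Λ) x b} =
      Λ⁻¹ • {b : ℝ | 0 ≤ b ∧ LipNear u (A + R • x) b} := by
    ext b
    rw [Set.mem_inv_smul_set_iff₀ hΛ.ne', mem_ofPred_eq, mem_ofPred_eq, lipNear_rescale hR hΛ,
      smul_eq_mul]
    have : 0 ≤ Λ * b ↔ 0 ≤ b := by
      constructor
      · intro h
        by_contra hneg
        push Not at hneg
        linarith only [h, (mul_pos hΛ (sub_pos.2 hneg))]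
      · intro h; positivity
    rw [this]
  rw [this, Real.sInf_smul_of_nonneg (by positivity), smul_eq_mul, div_eq_inv_mul]

end Vale.Agent.P080
end
end

section

section
set_option linter.unusedSectionVars false

namespace Vale.Agent.P080

open Topology Filter Metric Set
open scoped RealInnerProductSpace

variable {E : Type*} [NormedAddCommGroup E] [InnerProductSpace ℝ E]

/-- quadratic majorant -/
noncomputable def lvQ (V0 : ℝ) (p : E) (M1 : ℝ) (h : E) : ℝ := V0 + ⟪p, h⟫ + M1 * ‖h‖ ^ 2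

theorem lvQ_add (V0 : ℝ) (p : E) (M1 : ℝ) (h k : E) :
    lvQ V0 p M1 (h + k) - lvQ V0 p M1 h = ⟪p + (2 * M1) • h, k⟫ + M1 * ‖k‖ ^ 2 := by
  unfold lvQ
  rw [norm_add_sq_real, inner_add_right, inner_add_left, real_inner_smul_left]
  ring

/-- If `‖h + 2 t q‖ ≤ 2 t`, `‖q‖ = 1`, then `4 t ⟪q, h⟫ ≤ - ‖h‖²`. -/
theorem inner_le_of_ball {q h : E} (hq : ‖q‖ = 1) {t : ℝ} (ht : 0 < t)
    (hh : ‖h + (2 * t) • q‖ ≤ 2 * t) : 4 * t * ⟪q, h⟫ ≤ - ‖h‖ ^ 2 := by
  have h1 : ‖h + (2 * t) • q‖ ^ 2 ≤ (2 * t) ^ 2 := by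
    apply pow_le_pow_left₀ (norm_nonneg _) hh
  rw [norm_add_sq_real, real_inner_smul_right, norm_smul, hq, Real.norm_of_nonneg (by positivity),
    real_inner_comm] at h1
  linarith only [h1]

theorem norm_le_of_ball {q h : E} (hq : ‖q‖ = 1) {t : ℝ} (ht : 0 < t)
    (hh : ‖h + (2 * t) • q‖ ≤ 2 * t) : ‖h‖ ≤ 4 * t := by
  have h1 : h = (h + (2 * t) • q) - (2 * t) • q := by abel
  rw [h1]
  refine (norm_sub_le _ _).trans ?_
  rw [norm_smul, hq, Real.norm_of_nonneg (by positivity)]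
  linarith

theorem norm_le_of_ball' {q h : E} (hq : ‖q‖ = 1) {t : ℝ} (ht : 0 < t)
    (hh : ‖h + (2 * t) • q‖ ≤ 2 * t) : ‖h + t • q‖ ≤ 3 * t := by
  have h1 : h + t • q = (h + (2 * t) • q) - t • q := by module
  rw [h1]
  refine (norm_sub_le _ _).trans ?_
  rw [norm_smul, hq, Real.norm_of_nonneg (by positivity)]
  linarith


/-- The penalised two-point functional. -/
noncomputable def lvPsi (u : E → ℝ) (z e p : E) (V0 M1 c0 β γ : ℝ) (w : E × E) : ℝ :=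
  u (w.1 + z + w.2) - u w.1 - lvQ V0 p M1 w.2 + β * (u w.1 - c0 - ⟪e, w.1⟫) ^ 2 - γ * ‖w.1‖ ^ 2

theorem lvPsi_exists_max [FiniteDimensional ℝ E] {u : E → ℝ} {z e p : E}
    {L V0 M1 c0 β γ ρ ρ0 : ℝ} (hρ : 0 ≤ ρ) (hρ0 : 0 ≤ ρ0) (hρ1 : ρ0 ≤ 1)
    (hlip : ∀ x y, ‖x‖ ≤ ρ + ‖z‖ + 1 → ‖y‖ ≤ ρ + ‖z‖ + 1 → |u x - u y| ≤ L * ‖x - y‖) :
    ∃ y h : E, ‖y‖ ≤ ρ ∧ ‖h‖ ≤ ρ0 ∧ ∀ y' h' : E, ‖y'‖ ≤ ρ → ‖h'‖ ≤ ρ0 →
      lvPsi u z e p V0 M1 c0 β γ (y', h') ≤ lvPsi u z e p V0 M1 c0 β γ (y, h) := by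
  have huc : ContinuousOn u (closedBall 0 (ρ + ‖z‖ + 1)) := by
    have : LipschitzOnWith (Real.toNNReal L) u (closedBall 0 (ρ + ‖z‖ + 1)) := by
      apply LipschitzOnWith.of_dist_le_mul
      intro x hx y hy
      rw [Real.dist_eq, dist_eq_norm]
      refine (hlip x y (by simpa only [mem_closedBall, dist_zero_right] using hx) (by simpa using hy)).trans ?_
      exact mul_le_mul_of_nonneg_right (Real.le_coe_toNNReal L) (norm_nonneg _)
    exact this.continuousOn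
  have hK : IsCompact (closedBall (0 : E) ρ ×ˢ closedBall (0 : E) ρ0) :=
    (isCompact_closedBall _ _).prod (isCompact_closedBall _ _)
  have hne : (closedBall (0 : E) ρ ×ˢ closedBall (0 : E) ρ0).Nonempty :=
    ⟨(0, 0), by simp [hρ, hρ0]⟩
  have hc : ContinuousOn (lvPsi u z e p V0 M1 c0 β γ)
      (closedBall (0 : E) ρ ×ˢ closedBall (0 : E) ρ0) := by
    have h1 : ContinuousOn (fun w : E × E => u (w.1 + z + w.2))
        (closedBall (0 : E) ρ ×ˢ closedBall (0 : E) ρ0) := by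
      refine huc.comp (by fun_prop) ?_
      rintro ⟨a, b⟩ ⟨ha, hb⟩
      simp only [mem_closedBall, dist_zero_right] at ha hb ⊢
      calc ‖a + z + b‖ ≤ ‖a‖ + ‖z‖ + ‖b‖ := (norm_add_le _ _).trans (by gcongr; exact norm_add_le _ _)
        _ ≤ _ := by linarith
    have h2 : ContinuousOn (fun w : E × E => u w.1)
        (closedBall (0 : E) ρ ×ˢ closedBall (0 : E) ρ0) := by
      refine huc.comp (by fun_prop) ?_
      rintro ⟨a, b⟩ ⟨ha, hb⟩
      simp only [mem_closedBall, dist_zero_right] at ha hb ⊢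
      have := norm_nonneg z
      linarith
    have h3 : ContinuousOn (fun w : E × E => lvQ V0 p M1 w.2)
        (closedBall (0 : E) ρ ×ˢ closedBall (0 : E) ρ0) := by
      unfold lvQ
      (clear * -; fun_prop)
    have h4 : ContinuousOn (fun w : E × E => ⟪e, w.1⟫)
        (closedBall (0 : E) ρ ×ˢ closedBall (0 : E) ρ0) := by
      fun_prop
    have h5 : ContinuousOn (fun w : E × E => γ * ‖w.1‖ ^ 2)
        (closedBall (0 : E) ρ ×ˢ closedBall (0 : E) ρ0) := by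
      fun_prop
    exact (((h1.sub h2).sub h3).add ((((h2.sub continuousOn_const).sub h4).pow 2).const_mul β)).sub h5
  obtain ⟨⟨y, h⟩, ⟨hy, hh⟩, hmax⟩ := hK.exists_isMaxOn hne hc
  refine ⟨y, h, by simpa using hy, by simpa using hh, ?_⟩
  intro y' h' hy' hh'
  exact hmax (show (y', h') ∈ _ from ⟨by simpa using hy', by simpa using hh'⟩)

end Vale.Agent.P080
end
end

section

attribute [-instance] ProperSMul.toContinuousSMul IsTopologicalTorsor.toContinuousSMul IdemSemiring.toCanonicallyOrderedAdd IdemSemiring.toMulLeftMono IdemSemiring.toMulRightMono AddQuantale.instAddLeftMono AddQuantale.instAddRightMono Quantale.instMulLeftMono Quantale.instMulRightMono FiniteDimensional.rclike_to_real IsScalarTower.complexToReal FiniteDimensional.complexToReal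

section
set_option linter.unusedSectionVars false
set_option linter.unusedVariables false

namespace Vale.Agent.P080

open Topology Filter Metric Set
open scoped RealInnerProductSpace

/-- The scalar part of the one-scale estimate. -/
theorem one_scale_scalar {A A' A'' B Bb B' G Gb G' N Nb N' Qm Qp Qn κ t β γ θ ρ τ a0 ε E0 P : ℝ}
    (hβ : 0 < β) (hθ : θ = 2 * β * (ε * ρ)) (hθ1 : θ ≤ 1) (hε : 0 < ε) (hρ : 0 < ρ)
    (hτ : 0 < τ) (hP : 0 < P) (hE0 : 0 ≤ E0) (ha0 : 0 < a0)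
    (hκ : κ = P / (16 * τ)) (ht : 0 ≤ t) (hγρ : γ * ρ ≤ 4 * θ)
    (hθ2 : θ ^ 2 = 4 * a0 * β) (hγ : γ = 8 * ε ^ 2 * β)
    (I1 : A'' - Bb - Qp + β * Gb ^ 2 - γ * Nb ≤ A - B - Qm + β * G ^ 2 - γ * N)
    (I2 : A' - B' - Qn + β * G' ^ 2 - γ * N' ≤ A - B - Qm + β * G ^ 2 - γ * N)
    (I5 : 2 * A ≤ A' + A'') (I6 : Bb + B' ≤ 2 * B)
    (hQp : Qp ≤ Qm) (hQn : Qn ≤ Qm - κ * t ^ 2)
    (hN : Nb + N' - 2 * N ≤ ρ * t + 10 * τ ^ 2)
    (hG : |G| ≤ ε * ρ)
    (hg : |(Gb - G) + (G' - G) + (2 * B - Bb - B')| ≤ E0 * t) :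
    (Gb - G) ^ 2 ≤ 16 * a0 * τ * (E0 + 4) ^ 2 / P + 80 * ε ^ 2 * τ ^ 2 := by
  set d := 2 * B - Bb - B' with hd
  have hd0 : 0 ≤ d := by linarith only [I6]
  set gb := Gb - G with hgb
  set g' := G' - G with hg'
  have hγ0 : 0 ≤ γ := by rw [hγ]; positivity
  have hθ0 : 0 ≤ θ := by rw [hθ]; positivity
  have e1 : β * Gb ^ 2 + β * G' ^ 2 - 2 * (β * G ^ 2)
      = β * (gb ^ 2 + g' ^ 2) + 2 * β * G * (gb + g') := by
    rw [hgb, hg']; ring
  have hlow : -(θ * (d + E0 * t)) ≤ 2 * β * G * (gb + g') := by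
    have h1 : |2 * β * G * (gb + g')| ≤ θ * (d + E0 * t) := by
      rw [abs_mul, abs_mul, abs_of_pos (by positivity : 0 < 2 * β), hθ]
      have h2 : |gb + g'| ≤ d + E0 * t := by
        have h3 := abs_le.1 hg
        rw [abs_le]
        constructor <;> (first | (linarith only [h3.1]) | (linarith only [hd0, h3.2]))
      have h4 : 2 * β * |G| ≤ 2 * β * (ε * ρ) := by (clear * - hG hβ; gcongr)
      exact mul_le_mul h4 h2 (abs_nonneg _) (by positivity)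
    exact (abs_le.1 h1).1
  have hsum : β * (gb ^ 2 + g' ^ 2) ≤ -(1 - θ) * d - κ * t ^ 2 + θ * E0 * t
      + γ * (ρ * t + 10 * τ ^ 2) := by
    have h5 : γ * (Nb + N' - 2 * N) ≤ γ * (ρ * t + 10 * τ ^ 2) := by (clear * - hN hγ0; gcongr)
    have h5' : γ * Nb + γ * N' - 2 * (γ * N) ≤ γ * (ρ * t + 10 * τ ^ 2) := by linarith only [h5]
    have h5'' : θ * (d + E0 * t) = θ * d + θ * E0 * t := by ring
    have h5d : -(1 - θ) * d = - d + θ * d := by ring
    rw [h5d]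
    rw [h5''] at hlow
    linarith only [I1, I2, I5, hQp, hQn, hlow, h5']
  have hκ0 : 0 < κ := by rw [hκ]; positivity
  have h6 : β * gb ^ 2 ≤ θ ^ 2 * (E0 + 4) ^ 2 / (4 * κ) + 10 * γ * τ ^ 2 := by
    have h7 : β * gb ^ 2 ≤ - κ * t ^ 2 + θ * (E0 + 4) * t + 10 * γ * τ ^ 2 := by
      have h8 : 0 ≤ (1 - θ) * d := mul_nonneg (by linarith only [hθ1]) hd0
      have h9 : γ * ρ * t ≤ 4 * θ * t := by (clear * - hγρ ht; gcongr)
      have h10 : 0 ≤ β * g' ^ 2 := by (clear * - hβ; positivity)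
      have h13 : γ * (ρ * t + 10 * τ ^ 2) = γ * ρ * t + 10 * γ * τ ^ 2 := by ring
      have h14 : θ * (E0 + 4) * t = θ * E0 * t + 4 * θ * t := by ring
      have h15 : β * (gb ^ 2 + g' ^ 2) = β * gb ^ 2 + β * g' ^ 2 := by ring
      have h16 : -(1 - θ) * d = - ((1 - θ) * d) := by ring
      rw [h13, h15, h16] at hsum
      rw [h14]
      linarith only [hsum, h8, h9, h10]
    have h11 : - κ * t ^ 2 + θ * (E0 + 4) * t ≤ θ ^ 2 * (E0 + 4) ^ 2 / (4 * κ) := by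
      rw [le_div_iff₀ (by positivity)]
      have h17 := sq_nonneg (2 * κ * t - θ * (E0 + 4))
      have h18 : (2 * κ * t - θ * (E0 + 4)) ^ 2 = θ ^ 2 * (E0 + 4) ^ 2
          - (- κ * t ^ 2 + θ * (E0 + 4) * t) * (4 * κ) := by ring
      rw [h18] at h17
      linarith only [h17]
    linarith only [h7, h11]
  have h12 : θ ^ 2 * (E0 + 4) ^ 2 / (4 * κ) + 10 * γ * τ ^ 2
      = β * (16 * a0 * τ * (E0 + 4) ^ 2 / P + 80 * ε ^ 2 * τ ^ 2) := by
    rw [hθ2, hγ, hκ]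
    field_simp
    ring
  rw [h12] at h6
  exact le_of_mul_le_mul_left h6 hβ


variable {E : Type*} [NormedAddCommGroup E] [InnerProductSpace ℝ E]

/-- Localisation of the maximum point. -/
theorem scale_max [FiniteDimensional ℝ E] {u : E → ℝ} {z e p : E}
    {L V0 M c0 ρ ρ0 a0 ε δ β γ : ℝ} (hM : 0 ≤ M) (ha0 : 0 < a0)
    (hε : 0 < ε) (hρ0 : 0 < ρ0) (hρ01 : ρ0 ≤ 1) (hδ : 8 * δ ≤ a0) (hρ : 0 < ρ)
    (hlip : ∀ x y, ‖x‖ ≤ ρ + ‖z‖ + 1 → ‖y‖ ≤ ρ + ‖z‖ + 1 → |u x - u y| ≤ L * ‖x - y‖)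
    (hflat : ∀ x, ‖x‖ ≤ ρ → |u x - c0 - ⟪e, x⟫| ≤ ε * ρ)
    (hmaj : ∀ y h, ‖y‖ ≤ ρ → ‖h‖ ≤ ρ0 → u (y + z + h) - u y ≤ V0 + ⟪p, h⟫ + M * ‖h‖ ^ 2 + δ)
    (hnear : ∃ y0, 6 * ‖y0‖ ≤ ρ ∧ V0 - δ ≤ u (y0 + z) - u y0)
    (hs1 : 8 * a0 ≤ ρ0 ^ 2) (hβdef : β = a0 / (ε * ρ) ^ 2) (hγdef : γ = 8 * a0 / ρ ^ 2) :
    ∃ y h : E, ‖y‖ ≤ ρ / 2 ∧ ‖h‖ ≤ ρ0 / 2 ∧ ‖h‖ ^ 2 ≤ 2 * a0 ∧
      ∀ y' h' : E, ‖y'‖ ≤ ρ → ‖h'‖ ≤ ρ0 →
      lvPsi u z e p V0 (M + 1) c0 β γ (y', h') ≤ lvPsi u z e p V0 (M + 1) c0 β γ (y, h) := by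
  have hβ : 0 < β := by rw [hβdef]; positivity
  have hγ0 : 0 < γ := by rw [hγdef]; positivity
  obtain ⟨y, h, hy, hh, hmax⟩ := lvPsi_exists_max (u := u) (z := z) (e := e) (p := p) (L := L)
    (V0 := V0) (M1 := M + 1) (c0 := c0) (β := β) (γ := γ) hρ.le hρ0.le hρ01 hlip
  refine ⟨y, h, ?_⟩
  obtain ⟨Ψ, hΨ⟩ : ∃ Ψ, Ψ = lvPsi u z e p V0 (M + 1) c0 β γ (y, h) := ⟨_, rfl⟩
  rw [← hΨ] at hmax ⊢
  have hβa : ∀ x, ‖x‖ ≤ ρ → β * (u x - c0 - ⟪e, x⟫) ^ 2 ≤ a0 := by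
    intro x hx
    have h1 := hflat x hx
    have h2 : (u x - c0 - ⟪e, x⟫) ^ 2 ≤ (ε * ρ) ^ 2 := by
      rw [← sq_abs]
      exact pow_le_pow_left₀ (abs_nonneg _) h1 2
    calc β * (u x - c0 - ⟪e, x⟫) ^ 2 ≤ β * (ε * ρ) ^ 2 := by (clear * - h2 hβ; gcongr)
      _ = a0 := by rw [hβdef]; field_simp
  -- lower bound for the maximum
  have hlow : - (a0 / 2) ≤ Ψ := by
    obtain ⟨y0, hy0, hy1⟩ := hnear
    have hy0' : ‖y0‖ ≤ ρ := by linarith only [hρ, hy0]
    have h1 := hmax y0 0 hy0' (by simpa using hρ0.le)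
    have h2 : lvPsi u z e p V0 (M + 1) c0 β γ (y0, 0)
        = u (y0 + z) - u y0 - V0 + β * (u y0 - c0 - ⟪e, y0⟫) ^ 2 - γ * ‖y0‖ ^ 2 := by
      simp only [lvPsi, add_zero, lvQ, inner_zero_right, norm_zero, ne_eq, OfNat.ofNat_ne_zero, not_false_eq_true, zero_pow, mul_zero]
    have h3 : γ * ‖y0‖ ^ 2 ≤ 8 * a0 / 36 := by
      have h4 : ‖y0‖ ^ 2 ≤ (ρ / 6) ^ 2 := pow_le_pow_left₀ (norm_nonneg _) (by linarith only [hy0]) 2
      calc γ * ‖y0‖ ^ 2 ≤ γ * (ρ / 6) ^ 2 := by (clear * - h4 hγ0; gcongr)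
        _ = 8 * a0 / 36 := by rw [hγdef]; field_simp; ring
    have h5 : 0 ≤ β * (u y0 - c0 - ⟪e, y0⟫) ^ 2 := by (clear * - hβ; positivity)
    rw [h2] at h1
    linarith only [ha0, hδ, hy1, h1, h3, h5]
  -- upper bound
  have hupp : Ψ ≤ δ - ‖h‖ ^ 2 + a0 - γ * ‖y‖ ^ 2 := by
    have h1 := hmaj y h hy hh
    have h2 := hβa y hy
    have h3 : Ψ = u (y + z + h) - u y - (V0 + ⟪p, h⟫ + (M + 1) * ‖h‖ ^ 2)
        + β * (u y - c0 - ⟪e, y⟫) ^ 2 - γ * ‖y‖ ^ 2 := by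
      rw [hΨ]; rfl
    rw [h3]; linarith only [h1, h2]
  have hh2 : ‖h‖ ^ 2 ≤ 2 * a0 := by
    have : 0 ≤ γ * ‖y‖ ^ 2 := by (clear * - hγ0; positivity)
    linarith only [ha0, hδ, hlow, hupp, this]
  have hy2 : ‖y‖ ≤ ρ / 2 := by
    have h1 : γ * ‖y‖ ^ 2 ≤ 2 * a0 := by
      have : 0 ≤ ‖h‖ ^ 2 := by positivity
      linarith only [ha0, hδ, hlow, hupp, this]
    have h2 : ‖y‖ ^ 2 ≤ (ρ / 2) ^ 2 := by
      have h3 : γ * (ρ / 2) ^ 2 = 2 * a0 := by rw [hγdef]; field_simp; ring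
      rw [← h3] at h1
      exact le_of_mul_le_mul_left h1 hγ0
    exact le_of_sq_le_sq h2 (by positivity)
  have hh3 : ‖h‖ ≤ ρ0 / 2 := by
    have h2 : ‖h‖ ^ 2 ≤ (ρ0 / 2) ^ 2 := by
      have : (ρ0 / 2) ^ 2 = ρ0 ^ 2 / 4 := by ring
      rw [this]; linarith only [hs1, hh2]
    exact le_of_sq_le_sq h2 (by positivity)
  exact ⟨hy2, hh3, hh2, hmax⟩

/-- Geometry of one step: vectors. -/
theorem step_quad {p h q pb : E} {V0 M τ : ℝ} (hM : 0 ≤ M) (hτ : 0 < τ)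
    (hpb : pb = p + (2 * (M + 1)) • h) (hq1 : ‖q‖ = 1) (hpbq : pb = ‖pb‖ • q)
    (hpb1 : ‖p‖ / 2 ≤ ‖pb‖) (hs4 : 16 * (M + 1) * τ ≤ ‖p‖) {k : E}
    (hk : ‖k + (2 * τ) • q‖ ≤ 2 * τ) :
    lvQ V0 p (M + 1) (h + k) ≤ lvQ V0 p (M + 1) h - ‖p‖ / (16 * τ) * ‖k‖ ^ 2 := by
  have hinner : ⟪pb, k⟫ = ‖pb‖ * ⟪q, k⟫ := by
    conv_lhs => rw [hpbq]
    rw [real_inner_smul_left]
  have hd := lvQ_add V0 p (M + 1) h k
  rw [← hpb, hinner] at hd
  have hM1 : M + 1 ≤ ‖pb‖ / (8 * τ) := by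
    rw [le_div_iff₀ (by positivity)]
    linarith only [hpb1, hs4]
  have h1 := inner_le_of_ball hq1 hτ hk
  have h2 : ‖pb‖ * ⟪q, k⟫ ≤ - (‖pb‖ / (4 * τ)) * ‖k‖ ^ 2 := by
    have h3 : ⟪q, k⟫ ≤ - ‖k‖ ^ 2 / (4 * τ) := by
      rw [le_div_iff₀ (by positivity)]; linarith only [h1]
    calc ‖pb‖ * ⟪q, k⟫ ≤ ‖pb‖ * (- ‖k‖ ^ 2 / (4 * τ)) := by (clear * - h3; gcongr)
      _ = _ := by ring
  have h4 : (M + 1) * ‖k‖ ^ 2 ≤ ‖pb‖ / (8 * τ) * ‖k‖ ^ 2 := by (clear * - hM1; gcongr)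
  have h5 : ‖p‖ / (16 * τ) * ‖k‖ ^ 2 ≤ ‖pb‖ / (8 * τ) * ‖k‖ ^ 2 := by
    have : ‖p‖ / (16 * τ) ≤ ‖pb‖ / (8 * τ) := by
      rw [div_le_div_iff₀ (by positivity) (by positivity)]
      linarith only [(mul_nonneg (le_of_lt hτ) (sub_nonneg.2 hpb1))]
    (clear * - this; gcongr)
  have h6 : ‖pb‖ / (4 * τ) = 2 * (‖pb‖ / (8 * τ)) := by field_simp; ring
  rw [h6] at h2
  linarith only [hd, h2, h4, h5]

theorem quad_back {p h q pb : E} {V0 M τ : ℝ} (hτ : 0 < τ)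
    (hpb : pb = p + (2 * (M + 1)) • h) (hq1 : ‖q‖ = 1) (hpbq : pb = ‖pb‖ • q) :
    lvQ V0 p (M + 1) (h + (-(τ • q)))
      ≤ lvQ V0 p (M + 1) h - τ * ‖pb‖ + (M + 1) * τ ^ 2 := by
  have hqq : ⟪q, q⟫ = 1 := by rw [real_inner_self_eq_norm_sq, hq1]; norm_num
  have hτq : ‖τ • q‖ = τ := by rw [norm_smul, hq1, Real.norm_of_nonneg hτ.le, mul_one]
  have hinner : ⟪pb, -(τ • q)⟫ = - (τ * ‖pb‖) := by
    conv_lhs => rw [hpbq]
    rw [real_inner_smul_left, inner_neg_right, real_inner_smul_right, hqq]; ring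
  have h1 := lvQ_add V0 p (M + 1) h (-(τ • q))
  rw [← hpb, hinner, norm_neg, hτq] at h1
  linarith

theorem quad_fwd {p h q pb hm : E} {V0 M τ : ℝ} (hM : 0 ≤ M) (hτ : 0 < τ)
    (hpb : pb = p + (2 * (M + 1)) • h) (hq1 : ‖q‖ = 1) (hpbq : pb = ‖pb‖ • q)
    (hmball : ‖hm + (2 * τ) • q‖ ≤ 2 * τ) :
    lvQ V0 p (M + 1) (h + (hm + τ • q))
      ≤ lvQ V0 p (M + 1) h + τ * ‖pb‖ + 9 * (M + 1) * τ ^ 2 := by
  have hqq : ⟪q, q⟫ = 1 := by rw [real_inner_self_eq_norm_sq, hq1]; norm_num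
  have hm3 : ‖hm + τ • q‖ ≤ 3 * τ := norm_le_of_ball' hq1 hτ hmball
  have hinner : ⟪pb, hm + τ • q⟫ = ‖pb‖ * ⟪q, hm⟫ + τ * ‖pb‖ := by
    conv_lhs => rw [hpbq]
    rw [real_inner_smul_left, inner_add_right, real_inner_smul_right, hqq]; ring
  have h1 := lvQ_add V0 p (M + 1) h (hm + τ • q)
  rw [← hpb, hinner] at h1
  have h2 : ⟪q, hm⟫ ≤ 0 := by
    have h3 := inner_le_of_ball hq1 hτ hmball
    have h4 : 4 * τ * ⟪q, hm⟫ ≤ 0 := h3.trans (by linarith only [sq_nonneg ‖hm‖])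
    by_contra h5
    push Not at h5
    have : 0 < 4 * τ * ⟪q, hm⟫ := by positivity
    linarith
  have h6 : ‖pb‖ * ⟪q, hm⟫ ≤ 0 := mul_nonpos_of_nonneg_of_nonpos (norm_nonneg _) h2
  have h7 : (M + 1) * ‖hm + τ • q‖ ^ 2 ≤ (M + 1) * (9 * τ ^ 2) := by
    have : ‖hm + τ • q‖ ^ 2 ≤ 9 * τ ^ 2 := by
      calc ‖hm + τ • q‖ ^ 2 ≤ (3 * τ) ^ 2 := pow_le_pow_left₀ (norm_nonneg _) hm3 2
        _ = 9 * τ ^ 2 := by ring
    (clear * - this hM; gcongr)
  linarith only [h1, h6, h7]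

theorem final_combine {e q pb : E} {τ D g Err : ℝ} (hτ : 0 < τ) (hpb0 : 0 < ‖pb‖)
    (hpbq : pb = ‖pb‖ • q) (hg : g = (D - τ * ⟪e, q⟫) / τ)
    (hD : |D - τ * ‖pb‖| ≤ τ * Err) :
    |‖pb‖ ^ 2 - ⟪e, pb⟫| ≤ ‖pb‖ * (|g| + Err) := by
  have h1 : ‖pb‖ ^ 2 - ⟪e, pb⟫ = ‖pb‖ * (‖pb‖ - ⟪e, q⟫) := by
    have : ⟪e, pb⟫ = ‖pb‖ * ⟪e, q⟫ := by
      conv_lhs => rw [hpbq]
      rw [real_inner_smul_right]
    rw [this]; ring
  rw [h1, abs_mul, abs_of_pos hpb0]
  have h2 : ‖pb‖ - ⟪e, q⟫ = g - (D - τ * ‖pb‖) / τ := by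
    rw [hg]
    field_simp
    ring
  have h3 : |(D - τ * ‖pb‖) / τ| ≤ Err := by
    rw [abs_div, abs_of_pos hτ, div_le_iff₀ hτ]
    linarith only [hD]
  rw [h2]
  exact mul_le_mul_of_nonneg_left ((abs_sub _ _).trans (by gcongr)) hpb0.le

/-- Scalar facts about the two new points `b = y + τ q`, `y' = y - (hm + τ q)`. -/
theorem step_points {e y q hm b y' : E} {τ ρ : ℝ} (hτ : 0 < τ) (hq1 : ‖q‖ = 1)
    (hb : b = y + τ • q) (hy' : y' = y - (hm + τ • q)) (hmball : ‖hm + (2 * τ) • q‖ ≤ 2 * τ)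
    (hy2 : ‖y‖ ≤ ρ / 2) (hρ : 10 * τ ≤ ρ) :
    ‖b‖ ≤ ρ ∧ ‖y'‖ ≤ ρ ∧ ⟪e, b⟫ = ⟪e, y⟫ + τ * ⟪e, q⟫ ∧
    ⟪e, y'⟫ = ⟪e, y⟫ - ⟪e, hm⟫ - τ * ⟪e, q⟫ ∧
    ‖b‖ ^ 2 + ‖y'‖ ^ 2 - 2 * ‖y‖ ^ 2 ≤ ρ * ‖hm‖ + 10 * τ ^ 2 ∧
    ‖b‖ ^ 2 - ‖y‖ ^ 2 ≤ 2 * (ρ * τ) ∧ ‖y'‖ ^ 2 - ‖y‖ ^ 2 ≤ 4 * (ρ * τ) ∧
    ‖b - y‖ ≤ τ ∧ ‖y' - y‖ ≤ 3 * τ := by
  have hm3 : ‖hm + τ • q‖ ≤ 3 * τ := norm_le_of_ball' hq1 hτ hmball
  have hτq : ‖τ • q‖ = τ := by rw [norm_smul, hq1, Real.norm_of_nonneg hτ.le, mul_one]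
  have hρ0 : 0 < ρ := by linarith only [hτ, hρ]
  have h9 : ‖hm + τ • q‖ ^ 2 ≤ 9 * τ ^ 2 := by
    calc ‖hm + τ • q‖ ^ 2 ≤ (3 * τ) ^ 2 := pow_le_pow_left₀ (norm_nonneg _) hm3 2
      _ = 9 * τ ^ 2 := by ring
  have hbN : ‖b‖ ^ 2 = ‖y‖ ^ 2 + 2 * τ * ⟪y, q⟫ + τ ^ 2 := by
    rw [hb, norm_add_sq_real, real_inner_smul_right, hτq]; ring
  have hy'N : ‖y'‖ ^ 2 = ‖y‖ ^ 2 - 2 * ⟪y, hm + τ • q⟫ + ‖hm + τ • q‖ ^ 2 := by
    rw [hy', norm_sub_sq_real]
  have hym : |⟪y, hm⟫| ≤ ‖y‖ * ‖hm‖ := abs_real_inner_le_norm _ _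
  have hyq : |⟪y, q⟫| ≤ ‖y‖ := by
    have := abs_real_inner_le_norm y q
    rwa [hq1, mul_one] at this
  have hym2 : |⟪y, hm + τ • q⟫| ≤ ρ / 2 * (3 * τ) := by
    refine (abs_real_inner_le_norm _ _).trans ?_
    (clear * - hy2 hm3 hρ0; gcongr)
  have hττ : τ ^ 2 ≤ ρ * τ / 10 := by linarith only [(mul_nonneg (le_of_lt hτ) (sub_nonneg.2 hρ))]
  have hρτ : 0 < ρ * τ := by positivity
  refine ⟨?_, ?_, ?_, ?_, ?_, ?_, ?_, ?_, ?_⟩
  · have : ‖b‖ ≤ ‖y‖ + ‖τ • q‖ := by rw [hb]; exact norm_add_le _ _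
    rw [hτq] at this; linarith only [hτ, hy2, hρ, this]
  · have : ‖y'‖ ≤ ‖y‖ + ‖hm + τ • q‖ := by rw [hy']; exact norm_sub_le _ _
    linarith only [hτ, hy2, hρ, hm3, this]
  · rw [hb, inner_add_right, real_inner_smul_right]
  · rw [hy', inner_sub_right, inner_add_right, real_inner_smul_right]; ring
  · rw [hbN, hy'N, inner_add_right, real_inner_smul_right]
    have h10 : ‖y‖ * ‖hm‖ ≤ ρ / 2 * ‖hm‖ := by (clear * - hy2; gcongr)
    have h11 := (abs_le.1 hym).1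
    linarith only [h9, h10, h11]
  · rw [hbN]
    have h12 : τ * ⟪y, q⟫ ≤ τ * (ρ / 2) := by
      have := (abs_le.1 hyq).2
      gcongr
      linarith only [hy2, this]
    linarith only [hττ, hρτ, h12]
  · rw [hy'N]
    have := (abs_le.1 hym2).1
    linarith only [h9, hττ, hρτ, this]
  · rw [hb, add_sub_cancel_left, hτq]
  · have : y' - y = - (hm + τ • q) := by rw [hy']; abel
    rw [this, norm_neg]; exact hm3

theorem final_scalar {A B Bb B' G Gb G' N Nb N' Qm Q1 Q2 β γ θ ρ τ a0 ε K M1 P : ℝ}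
    (hβ : 0 < β) (hθ : θ = 2 * β * (ε * ρ)) (hε : 0 < ε) (hρ : 0 < ρ) (hτ : 0 < τ)
    (hγ : 0 < γ) (hγρ : γ * ρ = 8 * a0 / ρ) (ha0 : 0 < a0) (hM1 : 0 ≤ M1) (hK : 0 ≤ K)
    (I3 : A - Bb - Q1 + β * Gb ^ 2 - γ * Nb ≤ A - B - Qm + β * G ^ 2 - γ * N)
    (I4 : A - B' - Q2 + β * G' ^ 2 - γ * N' ≤ A - B - Qm + β * G ^ 2 - γ * N)
    (I6 : Bb + B' ≤ 2 * B)
    (hQ1 : Q1 ≤ Qm - τ * P + M1 * τ ^ 2) (hQ2 : Q2 ≤ Qm + τ * P + 9 * M1 * τ ^ 2)
    (hGb : |Gb - G| ≤ K * τ) (hG' : |G' - G| ≤ K * (3 * τ)) (hG : |G| ≤ ε * ρ)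
    (hNb : Nb - N ≤ 2 * (ρ * τ)) (hN' : N' - N ≤ 4 * (ρ * τ)) :
    |Bb - B - τ * P| ≤ τ * (9 * M1 * τ + 3 * θ * K + 32 * a0 / ρ) := by
  have key : ∀ G1 t : ℝ, 0 ≤ t → |G1 - G| ≤ K * t →
      - (θ * (K * t)) ≤ β * G1 ^ 2 - β * G ^ 2 := by
    intro G1 t ht h1
    have h2 : β * G1 ^ 2 - β * G ^ 2 = 2 * β * G * (G1 - G) + β * (G1 - G) ^ 2 := by ring
    have h3 : |2 * β * G * (G1 - G)| ≤ θ * (K * t) := by
      rw [abs_mul, abs_mul, abs_of_pos (by positivity : 0 < 2 * β), hθ]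
      have h4 : 2 * β * |G| ≤ 2 * β * (ε * ρ) := by (clear * - hG hβ; gcongr)
      exact mul_le_mul h4 h1 (abs_nonneg _) (by positivity)
    have h5 := (abs_le.1 h3).1
    have h6 : 0 ≤ β * (G1 - G) ^ 2 := by (clear * - hβ; positivity)
    rw [h2]; linarith only [h5, h6]
  have k1 := key Gb τ hτ.le hGb
  have k2 := key G' (3 * τ) (by positivity) hG'
  have hθ0 : 0 ≤ θ := by rw [hθ]; positivity
  have n1 : γ * (Nb - N) ≤ 16 * a0 / ρ * τ := by
    calc γ * (Nb - N) ≤ γ * (2 * (ρ * τ)) := by (clear * - hNb hγ; gcongr)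
      _ = 2 * (γ * ρ) * τ := by ring
      _ = 16 * a0 / ρ * τ := by rw [hγρ]; ring
  have n2 : γ * (N' - N) ≤ 32 * a0 / ρ * τ := by
    calc γ * (N' - N) ≤ γ * (4 * (ρ * τ)) := by (clear * - hN' hγ; gcongr)
      _ = 4 * (γ * ρ) * τ := by ring
      _ = 32 * a0 / ρ * τ := by rw [hγρ]; ring
  have e0 : 0 ≤ θ * K * τ := by (clear * - hθ0 hK hτ; positivity)
  have e1 : 0 ≤ a0 / ρ * τ := by positivity
  have e2 : 0 ≤ M1 * τ ^ 2 := by positivity
  have m1 : γ * (Nb - N) = γ * Nb - γ * N := by ring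
  have m2 : γ * (N' - N) = γ * N' - γ * N := by ring
  have m3 : θ * (K * (3 * τ)) = 3 * (θ * K * τ) := by ring
  have m4 : θ * (K * τ) = θ * K * τ := by ring
  have m5 : τ * (9 * M1 * τ + 3 * θ * K + 32 * a0 / ρ)
      = 9 * (M1 * τ ^ 2) + 3 * (θ * K * τ) + 32 * (a0 / ρ * τ) := by ring
  have m6 : 16 * a0 / ρ * τ = 16 * (a0 / ρ * τ) := by ring
  have m7 : 32 * a0 / ρ * τ = 32 * (a0 / ρ * τ) := by ring
  rw [m1, m6] at n1
  rw [m2, m7] at n2
  rw [m3] at k2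
  rw [m4] at k1
  rw [m5, abs_le]
  constructor
  · linarith only [I3, hQ1, k1, n1, e0, e1, e2]
  · linarith only [I4, I6, hQ2, k2, n2]

/-- The one-scale estimate (discrete doubling of variables). -/
theorem one_scale [FiniteDimensional ℝ E] {u : E → ℝ} {z e p : E}
    {L V0 M c0 ρ ρ0 τ a0 ε δ : ℝ} (hL : 0 ≤ L) (hM : 0 ≤ M) (hτ : 0 < τ) (ha0 : 0 < a0)
    (hε : 0 < ε) (hε1 : ε ≤ 1) (hρ0 : 0 < ρ0) (hρ01 : ρ0 ≤ 1) (hδ : 8 * δ ≤ a0) (hρ1 : 1 ≤ ρ)
    (hlip : ∀ x y, ‖x‖ ≤ ρ + ‖z‖ + 1 → ‖y‖ ≤ ρ + ‖z‖ + 1 → |u x - u y| ≤ L * ‖x - y‖)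
    (hup : ∀ x, ‖x‖ ≤ ρ + ‖z‖ + 1 → ∀ q : E, ‖q‖ = 1 → ∃ x', ‖x' - (x - τ • q)‖ ≤ 2 * τ ∧
      2 * u x ≤ u (x - τ • q) + u x')
    (hdn : ∀ y, ‖y‖ ≤ ρ → ∀ q : E, ‖q‖ = 1 → ∃ y', ‖y' - (y + τ • q)‖ ≤ 2 * τ ∧
      u (y + τ • q) + u y' ≤ 2 * u y)
    (hflat : ∀ x, ‖x‖ ≤ ρ → |u x - c0 - ⟪e, x⟫| ≤ ε * ρ)
    (hmaj : ∀ y h, ‖y‖ ≤ ρ → ‖h‖ ≤ ρ0 → u (y + z + h) - u y ≤ V0 + ⟪p, h⟫ + M * ‖h‖ ^ 2 + δ)
    (hnear : ∃ y0, 6 * ‖y0‖ ≤ ρ ∧ V0 - δ ≤ u (y0 + z) - u y0)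
    (hs1 : 8 * a0 ≤ ρ0 ^ 2) (hs2 : 8 * τ ≤ ρ0) (hs3 : 4 * (M + 1) * ρ0 ≤ ‖p‖)
    (hs4 : 16 * (M + 1) * τ ≤ ‖p‖) (hs5 : 10 * τ ≤ ρ) (hs6 : 2 * a0 ≤ ε * ρ) :
    ∃ (h : E) (g : ℝ), ‖h‖ ^ 2 ≤ 2 * a0 ∧
      g ^ 2 ≤ 16 * a0 * (‖e‖ + 4) ^ 2 / (‖p‖ * τ) + 80 * ε ^ 2 ∧
      |‖p + (2 * (M + 1)) • h‖ ^ 2 - ⟪e, p + (2 * (M + 1)) • h⟫| ≤
        ‖p + (2 * (M + 1)) • h‖ * (|g| + (9 * (M + 1) * τ
          + 3 * (2 * a0 / (ε * ρ)) * (L + ‖e‖) + 32 * a0 / ρ)) := by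
  have hρ : 0 < ρ := by linarith only [hτ, hs5]
  have hp0 : 0 < ‖p‖ := by
    have : 0 < 4 * (M + 1) * ρ0 := by positivity
    linarith only [hs3, this]
  obtain ⟨β, hβdef⟩ : ∃ β, β = a0 / (ε * ρ) ^ 2 := ⟨_, rfl⟩
  obtain ⟨γ, hγdef⟩ : ∃ γ, γ = 8 * a0 / ρ ^ 2 := ⟨_, rfl⟩
  obtain ⟨θ, hθdef⟩ : ∃ θ, θ = 2 * a0 / (ε * ρ) := ⟨_, rfl⟩
  have hβ : 0 < β := by rw [hβdef]; positivity
  have hγ0 : 0 < γ := by rw [hγdef]; positivity
  have hθβ : θ = 2 * β * (ε * ρ) := by rw [hθdef, hβdef]; field_simp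
  have hθ1 : θ ≤ 1 := by rw [hθdef, div_le_one (by positivity)]; exact hs6
  have hθ2 : θ ^ 2 = 4 * a0 * β := by rw [hθdef, hβdef]; field_simp; ring
  have hγβ : γ = 8 * ε ^ 2 * β := by rw [hγdef, hβdef]; (clear * - hε hρ1 ha0; field_simp)
  have hγρ : γ * ρ = 8 * a0 / ρ := by rw [hγdef]; field_simp
  have hγρθ : γ * ρ ≤ 4 * θ := by
    rw [hγρ, hθdef]
    have h1 : 8 * a0 / ρ ≤ 8 * a0 / (ε * ρ) := by
      apply div_le_div_of_nonneg_left (by positivity) (by positivity)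
      linarith only [(mul_nonneg (sub_nonneg.2 hε1) (le_of_lt hρ))]
    have h2 : 4 * (2 * a0 / (ε * ρ)) = 8 * a0 / (ε * ρ) := by ring
    rw [h2]; exact h1
  obtain ⟨y, h, hy2, hh3, hh2, hmax⟩ := scale_max (u := u) (z := z) (e := e) (p := p) (L := L)
    (V0 := V0) (M := M) (c0 := c0) (β := β) (γ := γ) hM ha0 hε hρ0 hρ01 hδ hρ hlip hflat hmaj
    hnear hs1 hβdef hγdef
  rw [← hθdef]
  -- the direction
  obtain ⟨pb, hpb⟩ : ∃ pb : E, pb = p + (2 * (M + 1)) • h := ⟨_, rfl⟩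
  have hpb1 : ‖p‖ / 2 ≤ ‖pb‖ := by
    have h1 : ‖p‖ ≤ ‖pb‖ + ‖(2 * (M + 1)) • h‖ := by
      have : p = pb - (2 * (M + 1)) • h := by rw [hpb]; abel
      calc ‖p‖ = ‖pb - (2 * (M + 1)) • h‖ := by rw [← this]
        _ ≤ _ := norm_sub_le _ _
    rw [norm_smul, Real.norm_of_nonneg (by positivity)] at h1
    have h2 : 2 * (M + 1) * ‖h‖ ≤ (M + 1) * ρ0 := by linarith only [hh3, (mul_nonneg hM                                                          (sub_nonneg.2 hh3))]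
    linarith only [hs3, hp0, h1, h2]
  have hpb0 : 0 < ‖pb‖ := by linarith only [hp0, hpb1]
  obtain ⟨q, hq⟩ : ∃ q : E, q = (‖pb‖)⁻¹ • pb := ⟨_, rfl⟩
  have hq1 : ‖q‖ = 1 := by
    rw [hq, norm_smul, norm_inv, norm_norm]
    exact inv_mul_cancel₀ hpb0.ne'
  have hpbq : pb = ‖pb‖ • q := by
    rw [hq, smul_smul, mul_inv_cancel₀ hpb0.ne', one_smul]
  obtain ⟨xb, hxb⟩ : ∃ xb : E, xb = y + z + h := ⟨_, rfl⟩
  have hxbn : ‖xb‖ ≤ ρ + ‖z‖ + 1 := by
    have : ‖xb‖ ≤ ‖y‖ + ‖z‖ + ‖h‖ := by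
      rw [hxb]; exact (norm_add_le _ _).trans (by gcongr; exact norm_add_le _ _)
    linarith only [this, hh3, hy2, hs5, hρ01, hτ]
  obtain ⟨x', hx'1, hx'2⟩ := hup xb hxbn q hq1
  obtain ⟨y', hy'1, hy'2⟩ := hdn y (by linarith only [hτ, hs5, hy2]) q hq1
  obtain ⟨b, hb⟩ : ∃ b : E, b = y + τ • q := ⟨_, rfl⟩
  obtain ⟨hp, hhp⟩ : ∃ hp : E, hp = x' - xb - τ • q := ⟨_, rfl⟩
  obtain ⟨hm, hhm⟩ : ∃ hm : E, hm = y - τ • q - y' := ⟨_, rfl⟩
  rw [← hb] at hy'1 hy'2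
  have hpball : ‖hp + (2 * τ) • q‖ ≤ 2 * τ := by
    have : hp + (2 * τ) • q = x' - (xb - τ • q) := by rw [hhp]; module
    rw [this]; exact hx'1
  have hmball : ‖hm + (2 * τ) • q‖ ≤ 2 * τ := by
    have : hm + (2 * τ) • q = - (y' - b) := by rw [hhm, hb]; module
    rw [this, norm_neg]; exact hy'1
  have hp4 := norm_le_of_ball hq1 hτ hpball
  have hm4 := norm_le_of_ball hq1 hτ hmball
  have hm3 : ‖hm + τ • q‖ ≤ 3 * τ := norm_le_of_ball' hq1 hτ hmball
  have hτq : ‖τ • q‖ = τ := by rw [norm_smul, hq1, Real.norm_of_nonneg hτ.le, mul_one]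
  have hy'e : y' = y - (hm + τ • q) := by rw [hhm]; abel
  obtain ⟨hbn, hy'n, ie, ie', hNN, hNb, hN', hbd, hy'd⟩ :=
    step_points (e := e) hτ hq1 hb hy'e hmball hy2 hs5
  -- the four comparisons
  have c1 := hmax b (h + hp) hbn ((norm_add_le _ _).trans (by linarith only [hs2, hh3, hp4]))
  have c2 := hmax y' (h + hm) hy'n ((norm_add_le _ _).trans (by linarith only [hs2, hh3, hm4]))
  have c3 := hmax b (h + (-(τ • q))) hbn
    ((norm_add_le _ _).trans (by rw [norm_neg, hτq]; linarith only [hτ, hs2, hh3]))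
  have c4 := hmax y' (h + (hm + τ • q)) hy'n ((norm_add_le _ _).trans (by linarith only [hτ, hs2,
        hh3, hm3]))
  have a1 : b + z + (h + hp) = x' := by rw [hb, hhp, hxb]; abel
  have a2 : y' + z + (h + hm) = xb - τ • q := by rw [hhm, hxb]; abel
  have a3 : b + z + (h + (-(τ • q))) = xb := by rw [hb, hxb]; abel
  have a4 : y' + z + (h + (hm + τ • q)) = xb := by rw [hhm, hxb]; abel
  simp only [lvPsi] at c1 c2 c3 c4
  rw [a1, ← hxb] at c1
  rw [a2, ← hxb] at c2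
  rw [a3, ← hxb] at c3
  rw [a4, ← hxb] at c4
  clear hmax
  have kp := step_quad (V0 := V0) hM hτ hpb hq1 hpbq hpb1 hs4 hpball
  have km := step_quad (V0 := V0) hM hτ hpb hq1 hpbq hpb1 hs4 hmball
  have kp0 : lvQ V0 p (M + 1) (h + hp) ≤ lvQ V0 p (M + 1) h := by
    have : 0 ≤ ‖p‖ / (16 * τ) * ‖hp‖ ^ 2 := by (clear * - hp0 hτ; positivity)
    linarith only [kp, this]
  have hem : |⟪e, hm⟫| ≤ ‖e‖ * ‖hm‖ := abs_real_inner_le_norm _ _
  have hsc := one_scale_scalar (A := u xb) (A' := u (xb - τ • q)) (A'' := u x') (B := u y)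
    (Bb := u b) (B' := u y') (G := u y - c0 - ⟪e, y⟫) (Gb := u b - c0 - ⟪e, b⟫)
    (G' := u y' - c0 - ⟪e, y'⟫) (N := ‖y‖ ^ 2) (Nb := ‖b‖ ^ 2) (N' := ‖y'‖ ^ 2)
    (Qm := lvQ V0 p (M + 1) h) (Qp := lvQ V0 p (M + 1) (h + hp))
    (Qn := lvQ V0 p (M + 1) (h + hm)) (κ := ‖p‖ / (16 * τ)) (t := ‖hm‖) (β := β) (γ := γ)
    (θ := θ) (ρ := ρ) (τ := τ) (a0 := a0) (ε := ε) (E0 := ‖e‖) (P := ‖p‖)
    hβ hθβ hθ1 hε hρ hτ hp0 (norm_nonneg _) ha0 rfl (norm_nonneg _) hγρθ hθ2 hγβ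
    c1 c2 hx'2 hy'2 kp0 km hNN (hflat y (by linarith only [hτ, hs5, hy2]))
    (by
      rw [ie, ie']
      have : u b - c0 - (⟪e, y⟫ + τ * ⟪e, q⟫) - (u y - c0 - ⟪e, y⟫)
          + (u y' - c0 - (⟪e, y⟫ - ⟪e, hm⟫ - τ * ⟪e, q⟫) - (u y - c0 - ⟪e, y⟫))
          + (2 * u y - u b - u y') = ⟪e, hm⟫ := by ring
      rw [this]; exact hem)
  have hgb : u b - c0 - ⟪e, b⟫ - (u y - c0 - ⟪e, y⟫) = u b - u y - τ * ⟪e, q⟫ := by
    rw [ie]; ring
  rw [hgb] at hsc
  have hyn : ‖y‖ ≤ ρ := by linarith only [hτ, hs5, hy2]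
  have hz0 := norm_nonneg z
  have hG : ∀ v : E, ‖v‖ ≤ ρ → |u v - c0 - ⟪e, v⟫ - (u y - c0 - ⟪e, y⟫)|
      ≤ (L + ‖e‖) * ‖v - y‖ := by
    intro v hv
    have h1 := hlip v y (by linarith only [hv, hz0]) (by linarith only [hz0, hy2, hs5, hτ])
    have h2 : |⟪e, v - y⟫| ≤ ‖e‖ * ‖v - y‖ := abs_real_inner_le_norm _ _
    have h3 : u v - c0 - ⟪e, v⟫ - (u y - c0 - ⟪e, y⟫) = (u v - u y) - ⟪e, v - y⟫ := by
      rw [inner_sub_right]; ring
    rw [h3, add_mul]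
    exact (abs_sub _ _).trans (add_le_add h1 h2)
  have hK : 0 ≤ L + ‖e‖ := by (clear * - hL; positivity)
  have hQ1 := quad_back (V0 := V0) hτ hpb hq1 hpbq
  have hQ2 := quad_fwd (V0 := V0) hM hτ hpb hq1 hpbq hmball
  have hfin := final_scalar (A := u xb) (B := u y)
    (Bb := u b) (B' := u y') (G := u y - c0 - ⟪e, y⟫) (Gb := u b - c0 - ⟪e, b⟫)
    (G' := u y' - c0 - ⟪e, y'⟫) (N := ‖y‖ ^ 2) (Nb := ‖b‖ ^ 2) (N' := ‖y'‖ ^ 2)
    (Qm := lvQ V0 p (M + 1) h) (Q1 := lvQ V0 p (M + 1) (h + (-(τ • q))))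
    (Q2 := lvQ V0 p (M + 1) (h + (hm + τ • q))) (β := β) (γ := γ)
    (θ := θ) (ρ := ρ) (τ := τ) (a0 := a0) (ε := ε) (K := L + ‖e‖) (M1 := M + 1) (P := ‖pb‖)
    hβ hθβ hε hρ hτ hγ0 hγρ ha0 (by linarith only [hM]) hK c3 c4 hy'2 hQ1 hQ2
    ((hG b hbn).trans (by (clear * - hbd hL; gcongr))) ((hG y' hy'n).trans (by (clear * - hy'd hL; gcongr))) (hflat y hyn) hNb hN'
  refine ⟨h, (u b - u y - τ * ⟪e, q⟫) / τ, hh2, ?_, ?_⟩
  · rw [div_pow, div_le_iff₀ (by positivity)]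
    refine hsc.trans (le_of_eq ?_)
    (clear * - hp0 hτ ha0 hε; field_simp)
  · rw [← hpb]
    exact final_combine hτ hpb0 hpbq rfl hfin

end Vale.Agent.P080
end
end

section

attribute [-instance] ProperSMul.toContinuousSMul IsTopologicalTorsor.toContinuousSMul IdemSemiring.toCanonicallyOrderedAdd IdemSemiring.toMulLeftMono IdemSemiring.toMulRightMono AddQuantale.instAddLeftMono AddQuantale.instAddRightMono Quantale.instMulLeftMono Quantale.instMulRightMono FiniteDimensional.rclike_to_real IsScalarTower.complexToReal FiniteDimensional.complexToReal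

section
set_option linter.unusedSectionVars false

namespace Vale.Agent.P080

open Topology Filter Metric Set
open scoped RealInnerProductSpace

variable {E : Type*} [NormedAddCommGroup E] [InnerProductSpace ℝ E]

/-- Regularity of `v` on the ball of radius `R` : Lipschitz bound and one-step growth. -/
structure LvGood (v : E → ℝ) (L R : ℝ) : Prop where
  lip : ∀ x y, ‖x‖ ≤ R → ‖y‖ ≤ R → |v x - v y| ≤ L * ‖x - y‖
  up : ∀ x, ‖x‖ ≤ R → ∀ τ, 0 < τ → τ ≤ 1 → ∀ q : E, ‖q‖ = 1 →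
    ∃ x', ‖x' - (x - τ • q)‖ ≤ 2 * τ ∧ 2 * v x ≤ v (x - τ • q) + v x'
  dn : ∀ y, ‖y‖ ≤ R → ∀ τ, 0 < τ → τ ≤ 1 → ∀ q : E, ‖q‖ = 1 →
    ∃ y', ‖y' - (y + τ • q)‖ ≤ 2 * τ ∧ v (y + τ • q) + v y' ≤ 2 * v y

theorem touch_scalar_g {s α P1 P E0 g : ℝ} (hs : 0 < s) (hα : 0 ≤ α) (hP1 : 0 < P1) (hP : P1 ≤ P)
    (hE0 : 0 ≤ E0) (hE : E0 ≤ α)
    (hg : g ^ 2 ≤ 16 * s ^ 3 * (E0 + 4) ^ 2 / (P * s) + 80 * s ^ 2) :
    |g| ≤ (4 * (α + 4) / √P1 + 9) * s := by
  have hP0 : 0 < P := lt_of_lt_of_le hP1 hP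
  have hsq1 : 0 < √P1 := Real.sqrt_pos.2 hP1
  have hsq2 : √P1 ^ 2 = P1 := Real.sq_sqrt hP1.le
  apply abs_le_of_sq_le_sq _ (by positivity)
  have h1 : 16 * s ^ 3 * (E0 + 4) ^ 2 / (P * s) ≤ (4 * (α + 4) / √P1) ^ 2 * s ^ 2 := by
    rw [div_pow, hsq2]
    have h2 : 16 * s ^ 3 * (E0 + 4) ^ 2 / (P * s) = 16 * (E0 + 4) ^ 2 / P * s ^ 2 := by
      field_simp
    rw [h2]
    apply mul_le_mul_of_nonneg_right _ (by positivity)
    have h3 : (4 * (α + 4)) ^ 2 = 16 * (α + 4) ^ 2 := by ring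
    rw [h3]
    apply div_le_div₀ (by positivity) _ hP1 hP
    have : (E0 + 4) ^ 2 ≤ (α + 4) ^ 2 := pow_le_pow_left₀ (by positivity) (by linarith only [hE]) _
    linarith only [this]
  have h4 : 0 ≤ 4 * (α + 4) / √P1 := by positivity
  have h5 : (4 * (α + 4) / √P1) ^ 2 * s ^ 2 + 80 * s ^ 2
    ≤ ((4 * (α + 4) / √P1 + 9) * s) ^ 2 := by
    have : ((4 * (α + 4) / √P1 + 9) * s) ^ 2 = (4 * (α + 4) / √P1) ^ 2 * s ^ 2 + 81 * s ^ 2
      + 18 * (4 * (α + 4) / √P1) * s ^ 2 := by ring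
    rw [this]
    have : 0 ≤ (4 * (α + 4) / √P1) * s ^ 2 := by positivity
    linarith only [(sq_nonneg (1 * s)), this]
  linarith

theorem touch_scalar_err {s α L M E0 ρ Q g : ℝ} (hs : 0 < s) (hs1 : s ≤ 1)
    (hL : 0 ≤ L) (hE0 : 0 ≤ E0) (hE : E0 ≤ α) (hρ : 1 ≤ ρ) (hg : |g| ≤ (Q + 9) * s) :
    |g| + (9 * (M + 1) * s + 3 * (2 * s ^ 3 / (s * ρ)) * (L + E0) + 32 * s ^ 3 / ρ)
      ≤ (Q + 9 + 9 * (M + 1) + 6 * (L + α) + 32) * s := by
  have hρ0 : 0 < ρ := by linarith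
  have hss : s ^ 3 ≤ s ^ 2 := pow_le_pow_of_le_one hs.le hs1 (by norm_num)
  have hs2 : s ^ 2 ≤ s := by linarith only [(mul_nonneg (le_of_lt hs) (sub_nonneg.2 hs1))]
  have h2 : 3 * (2 * s ^ 3 / (s * ρ)) * (L + E0) ≤ 6 * (L + α) * s := by
    have h3 : 2 * s ^ 3 / (s * ρ) ≤ 2 * s := by
      rw [div_le_iff₀ (by positivity)]
      have : 2 * s * (s * ρ) = 2 * s ^ 2 * ρ := by ring
      rw [this]
      have : s ^ 2 * 1 ≤ s ^ 2 * ρ := mul_le_mul_of_nonneg_left hρ (sq_nonneg s)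
      linarith only [hss, this]
    calc 3 * (2 * s ^ 3 / (s * ρ)) * (L + E0) ≤ 3 * (2 * s) * (L + α) := by (clear * - h3 hE hL hE0 hs; gcongr)
      _ = _ := by ring
  have h3 : 32 * s ^ 3 / ρ ≤ 32 * s := by
    rw [div_le_iff₀ hρ0]
    have : 32 * s * 1 ≤ 32 * s * ρ := mul_le_mul_of_nonneg_left hρ (by positivity)
    linarith only [hss, hs2, this]
  have e : (Q + 9 + 9 * (M + 1) + 6 * (L + α) + 32) * s
      = (Q + 9) * s + 9 * (M + 1) * s + 6 * (L + α) * s + 32 * s := by ring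
  rw [e]
  linarith

/-- scalar part of `touch_quant` -/
theorem touch_scalar {s α L M P1 P2 P E0 g ρ A B hn D : ℝ} (hs : 0 < s) (hs1 : s ≤ 1)
    (hα : 0 ≤ α) (hL : 0 ≤ L) (hM : 0 ≤ M) (hP1 : 0 < P1) (hP : P1 ≤ P) (hPP2 : P ≤ P2)
    (hE0 : 0 ≤ E0) (hE : E0 ≤ α) (hρ : 1 ≤ ρ)
    (hhn : hn ^ 2 ≤ 2 * s ^ 3)
    (hg : g ^ 2 ≤ 16 * s ^ 3 * (E0 + 4) ^ 2 / (P * s) + 80 * s ^ 2)
    (hA0 : 0 ≤ A) (hA : A ≤ P + 2 * (M + 1) * hn)
    (hB : |B| ≤ A * (|g| + (9 * (M + 1) * s + 3 * (2 * s ^ 3 / (s * ρ)) * (L + E0)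
      + 32 * s ^ 3 / ρ)))
    (hD : |D - B| ≤ 2 * (M + 1) * hn * (A + P + E0)) :
    |D| ≤ ((P2 + 4 * (M + 1)) * (4 * (α + 4) / √P1 + 9 + 9 * (M + 1) + 6 * (L + α) + 32)
      + 4 * (M + 1) * (2 * P2 + 4 * (M + 1) + α)) * s := by
  have hg1 := touch_scalar_g hs hα hP1 hP hE0 hE hg
  have hq0 : 0 < 4 * (α + 4) / √P1 := by positivity
  obtain ⟨Q, hQ⟩ : ∃ Q, Q = 4 * (α + 4) / √P1 := ⟨_, rfl⟩
  rw [← hQ] at hg1 hq0 ⊢
  have h4 := touch_scalar_err (M := M) hs hs1 hL hE0 hE hρ hg1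
  obtain ⟨T, hT⟩ : ∃ T, T = |g| + (9 * (M + 1) * s + 3 * (2 * s ^ 3 / (s * ρ)) * (L + E0)
      + 32 * s ^ 3 / ρ) := ⟨_, rfl⟩
  obtain ⟨U, hU⟩ : ∃ U, U = (Q + 9 + 9 * (M + 1) + 6 * (L + α) + 32) := ⟨_, rfl⟩
  rw [← hT, ← hU] at h4
  rw [← hT] at hB
  rw [← hU]
  have hT0 : 0 ≤ T := by
    rw [hT]
    have : 0 ≤ 32 * s ^ 3 / ρ := by positivity
    have : 0 ≤ 3 * (2 * s ^ 3 / (s * ρ)) * (L + E0) := by (clear * - hs hρ hL hE0; positivity)
    (clear * - hM hs hρ hL hE0; positivity)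
  have hss : s ^ 3 ≤ s ^ 2 := pow_le_pow_of_le_one hs.le hs1 (by norm_num)
  have hn1 : hn ≤ 2 * s := by
    apply le_of_sq_le_sq _ (by positivity)
    have : (2 * s) ^ 2 = 4 * s ^ 2 := by ring
    rw [this]
    linarith only [(sq_nonneg (hn)), hhn, hss]
  have hmm : 2 * (M + 1) * hn ≤ 4 * (M + 1) * s := by
    calc 2 * (M + 1) * hn ≤ 2 * (M + 1) * (2 * s) := by (clear * - hn1 hM; gcongr)
      _ = _ := by ring
  have hmm1 : 4 * (M + 1) * s ≤ 4 * (M + 1) := by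
    have : 4 * (M + 1) * s ≤ 4 * (M + 1) * 1 := by (clear * - hs1 hM; gcongr)
    linarith only [this]
  have hA1 : A ≤ P2 + 4 * (M + 1) := by linarith only [hPP2, hA, hmm, hmm1]
  have h5 : |B| ≤ (P2 + 4 * (M + 1)) * (U * s) :=
    hB.trans (mul_le_mul hA1 h4 hT0 (by linarith only [hM, hP1, hP, hPP2]))
  have h6 : |D - B| ≤ 4 * (M + 1) * s * (2 * P2 + 4 * (M + 1) + α) := by
    refine hD.trans ?_
    have hP0 : 0 < P := lt_of_lt_of_le hP1 hP
    apply mul_le_mul hmm (by linarith only [hPP2, hE, hA1]) (by positivity) (by positivity)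
  have h7 : |D| ≤ |D - B| + |B| := by
    have : D = (D - B) + B := by ring
    calc |D| = |(D - B) + B| := by rw [← this]
      _ ≤ _ := abs_add_le _ _
  calc |D| ≤ |D - B| + |B| := h7
    _ ≤ 4 * (M + 1) * s * (2 * P2 + 4 * (M + 1) + α)
      + (P2 + 4 * (M + 1)) * (U * s) := add_le_add h6 h5
    _ = _ := by ring

theorem touch_quant [FiniteDimensional ℝ E] {v : E → ℝ} {z e p : E}
    {L V0 M c0 ρ ρ0 s P1 P2 α δ : ℝ} (hL : 0 ≤ L) (hM : 0 ≤ M) (hα : 0 ≤ α) (hP1 : 0 < P1)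
    (hs : 0 < s) (hs1 : s ≤ 1) (hρ0 : 0 < ρ0) (hρ01 : ρ0 ≤ 1) (hρ1 : 1 ≤ ρ)
    (hg : LvGood v L (ρ + ‖z‖ + 1)) (he : ‖e‖ ≤ α) (hp1 : P1 ≤ ‖p‖) (hp2 : ‖p‖ ≤ P2)
    (hflat : ∀ x, ‖x‖ ≤ ρ → |v x - c0 - ⟪e, x⟫| ≤ s * ρ)
    (hmaj : ∀ y h, ‖y‖ ≤ ρ → ‖h‖ ≤ ρ0 → v (y + z + h) - v y ≤ V0 + ⟪p, h⟫ + M * ‖h‖ ^ 2 + δ)
    (hnear : ∃ y0, 6 * ‖y0‖ ≤ ρ ∧ V0 - δ ≤ v (y0 + z) - v y0)
    (hδ : 8 * δ ≤ s ^ 3)
    (h1 : 8 * s ^ 3 ≤ ρ0 ^ 2) (h2 : 8 * s ≤ ρ0) (h3 : 4 * (M + 1) * ρ0 ≤ P1)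
    (h4 : 16 * (M + 1) * s ≤ P1) (h5 : 10 * s ≤ ρ) :
    |‖p‖ ^ 2 - ⟪e, p⟫| ≤
      ((P2 + 4 * (M + 1)) * (4 * (α + 4) / √P1 + 9 + 9 * (M + 1) + 6 * (L + α) + 32)
      + 4 * (M + 1) * (2 * P2 + 4 * (M + 1) + α)) * s := by
  have hz0 := norm_nonneg z
  obtain ⟨h, g, hh, hgg, hmain⟩ := one_scale (u := v) (z := z) (e := e) (p := p) (L := L)
    (V0 := V0) (M := M) (c0 := c0) (ρ := ρ) (ρ0 := ρ0) (τ := s) (a0 := s ^ 3) (ε := s) (δ := δ)
    hL hM hs (by positivity) hs hs1 hρ0 hρ01 hδ hρ1 hg.lip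
    (fun x hx q hq => hg.up x hx s hs hs1 q hq)
    (fun y hy q hq => hg.dn y (by linarith) s hs hs1 q hq)
    hflat hmaj hnear h1 h2 (h3.trans hp1) (h4.trans hp1) h5 (by linarith only [(mul_nonneg (le_of_lt hs) (sub_nonneg.2 h5)), (mul_nonneg (sub_nonneg.2 hρ01) (sq_nonneg s)), (mul_nonneg (sub_nonneg.2 h2) (sq_nonneg s)), sq_nonneg s])
  have hM1 : 0 < M + 1 := by linarith only [hM]
  have hk : ‖(2 * (M + 1)) • h‖ = 2 * (M + 1) * ‖h‖ := by
    rw [norm_smul, Real.norm_of_nonneg (by positivity)]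
  have hA : ‖p + (2 * (M + 1)) • h‖ ≤ ‖p‖ + 2 * (M + 1) * ‖h‖ := by
    refine (norm_add_le _ _).trans ?_
    rw [hk]
  refine touch_scalar (P := ‖p‖) (E0 := ‖e‖) (A := ‖p + (2 * (M + 1)) • h‖) (hn := ‖h‖)
    (B := ‖p + (2 * (M + 1)) • h‖ ^ 2 - ⟪e, p + (2 * (M + 1)) • h⟫) (g := g) (ρ := ρ)
    hs hs1 hα hL hM hP1 hp1 hp2 (norm_nonneg _) he hρ1 hh hgg (norm_nonneg _) hA
    hmain ?_
  have e1 : ‖p‖ ^ 2 - ⟪e, p⟫ - (‖p + (2 * (M + 1)) • h‖ ^ 2 - ⟪e, p + (2 * (M + 1)) • h⟫)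
      = (‖p‖ - ‖p + (2 * (M + 1)) • h‖) * (‖p + (2 * (M + 1)) • h‖ + ‖p‖)
        + ⟪e, (2 * (M + 1)) • h⟫ := by
    rw [inner_add_right]
    ring
  rw [e1]
  have e2 : |‖p‖ - ‖p + (2 * (M + 1)) • h‖| ≤ 2 * (M + 1) * ‖h‖ := by
    have := abs_norm_sub_norm_le p (p + (2 * (M + 1)) • h)
    rw [sub_add_cancel_left, norm_neg, hk] at this
    exact this
  have e3 : |⟪e, (2 * (M + 1)) • h⟫| ≤ 2 * (M + 1) * ‖h‖ * ‖e‖ := by
    have := abs_real_inner_le_norm e ((2 * (M + 1)) • h)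
    rw [hk] at this
    linarith only [this]
  calc |(‖p‖ - ‖p + (2 * (M + 1)) • h‖) * (‖p + (2 * (M + 1)) • h‖ + ‖p‖)
        + ⟪e, (2 * (M + 1)) • h⟫|
      ≤ |(‖p‖ - ‖p + (2 * (M + 1)) • h‖) * (‖p + (2 * (M + 1)) • h‖ + ‖p‖)|
        + |⟪e, (2 * (M + 1)) • h⟫| := abs_add_le _ _
    _ = |‖p‖ - ‖p + (2 * (M + 1)) • h‖| * (‖p + (2 * (M + 1)) • h‖ + ‖p‖)
        + |⟪e, (2 * (M + 1)) • h⟫| := by
        rw [abs_mul, abs_of_nonneg (a := ‖p + (2 * (M + 1)) • h‖ + ‖p‖) (by (clear * -; positivity))]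
    _ ≤ (2 * (M + 1) * ‖h‖) * (‖p + (2 * (M + 1)) • h‖ + ‖p‖) + 2 * (M + 1) * ‖h‖ * ‖e‖ := by
        (clear * - e2 e3; gcongr)
    _ = _ := by ring

theorem touch_eps [FiniteDimensional ℝ E] {L M α P2 η ρV : ℝ} (hL : 0 ≤ L) (hM : 0 ≤ M)
    (hα : 0 ≤ α) (hP2 : 0 ≤ P2) (hη : 0 < η) (hρV : 0 < ρV) :
    ∃ s δ ρ0 N : ℝ, 0 < s ∧ 0 < δ ∧ 0 < ρ0 ∧ ρ0 ≤ 1 ∧ ρ0 ≤ ρV ∧ 1 ≤ N ∧
      ∀ (v : E → ℝ) (z e p : E) (V0 c0 ρ : ℝ), N ≤ ρ → LvGood v L (ρ + ‖z‖ + 1) →
      ‖e‖ ≤ α → ‖p‖ ≤ P2 →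
      (∀ x, ‖x‖ ≤ ρ → |v x - c0 - ⟪e, x⟫| ≤ s * ρ) →
      (∀ y h, ‖y‖ ≤ ρ → ‖h‖ ≤ ρ0 → v (y + z + h) - v y ≤ V0 + ⟪p, h⟫ + M * ‖h‖ ^ 2 + δ) →
      (∃ y0, 6 * ‖y0‖ ≤ ρ ∧ V0 - δ ≤ v (y0 + z) - v y0) →
      |‖p‖ ^ 2 - ⟪e, p⟫| ≤ η := by
  obtain ⟨P1, hP1, hP1η⟩ : ∃ P1 : ℝ, 0 < P1 ∧ P1 ^ 2 + α * P1 ≤ η := by
    refine ⟨min 1 (η / (1 + α)), by positivity, ?_⟩
    have h1 : min 1 (η / (1 + α)) ≤ 1 := min_le_left _ _
    have h2 : min 1 (η / (1 + α)) ≤ η / (1 + α) := min_le_right _ _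
    have h3 : 0 < min 1 (η / (1 + α)) := by positivity
    have h4 : (1 + α) * (η / (1 + α)) = η := by field_simp
    linarith only [h2, h4, (mul_nonneg (sub_nonneg.2 h1) (le_of_lt h3)), (mul_nonneg hα
        (sub_nonneg.2 h2))]
  have hM1 : 0 < M + 1 := by linarith
  obtain ⟨ρ0, hρ0, hρ01, hρ0V, hρ0P⟩ : ∃ ρ0 : ℝ, 0 < ρ0 ∧ ρ0 ≤ 1 ∧ ρ0 ≤ ρV ∧
      4 * (M + 1) * ρ0 ≤ P1 := by
    refine ⟨min (min 1 ρV) (P1 / (4 * (M + 1))), by positivity,
      (min_le_left _ _).trans (min_le_left _ _), (min_le_left _ _).trans (min_le_right _ _), ?_⟩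
    have h1 : min (min 1 ρV) (P1 / (4 * (M + 1))) ≤ P1 / (4 * (M + 1)) := min_le_right _ _
    calc 4 * (M + 1) * min (min 1 ρV) (P1 / (4 * (M + 1)))
        ≤ 4 * (M + 1) * (P1 / (4 * (M + 1))) := by gcongr
      _ = P1 := by field_simp
  obtain ⟨C, hC⟩ : ∃ C, C = (P2 + 4 * (M + 1)) *
      (4 * (α + 4) / √P1 + 9 + 9 * (M + 1) + 6 * (L + α) + 32)
      + 4 * (M + 1) * (2 * P2 + 4 * (M + 1) + α) := ⟨_, rfl⟩
  have hsq1 : 0 < √P1 := Real.sqrt_pos.2 hP1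
  have hC0 : 0 < C := by rw [hC]; (clear * - hP2 hM hα hP1 hL; positivity)
  obtain ⟨s, hs, hs1, hs2, hs3, hs4, hs5⟩ : ∃ s : ℝ, 0 < s ∧ s ≤ 1 ∧ 8 * s ^ 3 ≤ ρ0 ^ 2 ∧
      8 * s ≤ ρ0 ∧ 16 * (M + 1) * s ≤ P1 ∧ C * s ≤ η := by
    refine ⟨min (min (ρ0 / 8) (P1 / (16 * (M + 1)))) (η / C), by positivity, ?_, ?_, ?_, ?_, ?_⟩
    · calc min (min (ρ0 / 8) (P1 / (16 * (M + 1)))) (η / C) ≤ ρ0 / 8 :=
          (min_le_left _ _).trans (min_le_left _ _)
        _ ≤ 1 := by linarith only [hρ01]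
    · have h1 : min (min (ρ0 / 8) (P1 / (16 * (M + 1)))) (η / C) ≤ ρ0 / 8 :=
          (min_le_left _ _).trans (min_le_left _ _)
      have h0 : 0 < min (min (ρ0 / 8) (P1 / (16 * (M + 1)))) (η / C) := by positivity
      have h2 : (min (min (ρ0 / 8) (P1 / (16 * (M + 1)))) (η / C)) ^ 3 ≤ (ρ0 / 8) ^ 3 := by
        (clear * - hρ0 hP1 hM hη hC0 h1; gcongr)
      have h3 : (ρ0 / 8) ^ 3 * 8 ≤ ρ0 ^ 2 := by
        have : ρ0 ^ 3 ≤ ρ0 ^ 2 := pow_le_pow_of_le_one hρ0.le hρ01 (by norm_num)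
        have h4 : 0 ≤ ρ0 ^ 2 := by positivity
        linarith only [(sq_nonneg (1 * ρ0)), this]
      linarith only [h2, h3]
    · have h1 : min (min (ρ0 / 8) (P1 / (16 * (M + 1)))) (η / C) ≤ ρ0 / 8 :=
          (min_le_left _ _).trans (min_le_left _ _)
      linarith only [h1]
    · have h1 : min (min (ρ0 / 8) (P1 / (16 * (M + 1)))) (η / C) ≤ P1 / (16 * (M + 1)) :=
          (min_le_left _ _).trans (min_le_right _ _)
      calc 16 * (M + 1) * min (min (ρ0 / 8) (P1 / (16 * (M + 1)))) (η / C)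
          ≤ 16 * (M + 1) * (P1 / (16 * (M + 1))) := by (clear * - h1 hM; gcongr)
        _ = P1 := by field_simp
    · have h1 : min (min (ρ0 / 8) (P1 / (16 * (M + 1)))) (η / C) ≤ η / C := min_le_right _ _
      calc C * min (min (ρ0 / 8) (P1 / (16 * (M + 1)))) (η / C)
          ≤ C * (η / C) := by (clear * - h1 hC0; gcongr)
        _ = η := by field_simp
  refine ⟨s, s ^ 3 / 8, ρ0, 10, hs, by positivity, hρ0, hρ01, hρ0V, by norm_num, ?_⟩
  intro v z e p V0 c0 ρ hρ hg he hp2 hflat hmaj hnear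
  rcases le_or_gt P1 ‖p‖ with hp1 | hp1
  · have := touch_quant hL hM hα hP1 hs hs1 hρ0 hρ01 (by linarith only [hρ]) hg he hp1 hp2 hflat hmaj hnear
      (by linarith only []) hs2 hs3 hρ0P hs4 (by linarith only [hρ, hs3, hρ01])
    rw [← hC] at this
    exact this.trans hs5
  · have h1 : |⟪e, p⟫| ≤ α * P1 := by
      refine (abs_real_inner_le_norm e p).trans ?_
      (clear * - he hp1 hα; gcongr)
    have h2 : ‖p‖ ^ 2 ≤ P1 ^ 2 := by (clear * - hp1; gcongr)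
    calc |‖p‖ ^ 2 - ⟪e, p⟫| ≤ |‖p‖ ^ 2| + |⟪e, p⟫| := abs_sub _ _
      _ = ‖p‖ ^ 2 + |⟪e, p⟫| := by rw [abs_of_nonneg (sq_nonneg _)]
      _ ≤ η := by linarith only [hP1η, h1, h2]

end Vale.Agent.P080
end
end

section

attribute [-instance] ProperSMul.toContinuousSMul IsTopologicalTorsor.toContinuousSMul IdemSemiring.toCanonicallyOrderedAdd IdemSemiring.toMulLeftMono IdemSemiring.toMulRightMono AddQuantale.instAddLeftMono AddQuantale.instAddRightMono Quantale.instMulLeftMono Quantale.instMulRightMono FiniteDimensional.rclike_to_real IsScalarTower.complexToReal FiniteDimensional.complexToReal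

section
set_option linter.unusedSectionVars false

namespace Vale.Agent.P080

open Topology Filter Metric Set
open scoped RealInnerProductSpace

variable {E : Type*} [NormedAddCommGroup E] [InnerProductSpace ℝ E] [FiniteDimensional ℝ E]

theorem ConeComp.ball_grow {u : E → ℝ} {Ω : Set E} (hu : ConeComp u Ω) {a : E} {R : ℝ}
    (hR : 0 < R) (hc : closedBall a R ⊆ Ω) :
    ∃ z, ‖z - a‖ ≤ R ∧ (∀ y, ‖y - a‖ ≤ R → u y ≤ u z) ∧
      ∀ y, ‖y - a‖ ≤ R → u y - u a ≤ ‖y - a‖ / R * (u z - u a) := by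
  have hK : IsCompact (closedBall a R) := isCompact_closedBall a R
  obtain ⟨z, hz, hmax⟩ := hK.exists_isMaxOn ⟨a, mem_closedBall_self hR.le⟩ (hu.cont.mono hc)
  have hmax' : ∀ y, ‖y - a‖ ≤ R → u y ≤ u z := by
    intro y hy
    exact hmax (by rwa [mem_closedBall, dist_eq_norm])
  have hza : ‖z - a‖ ≤ R := by rwa [mem_closedBall, dist_eq_norm] at hz
  have h0 : u a ≤ u z := hmax' a (by simp [hR.le])
  refine ⟨z, hza, hmax', ?_⟩
  intro y hy
  rcases hy.lt_or_eq with hlt | heq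
  · have hV : y ∈ ball a R := by rwa [mem_ball, dist_eq_norm]
    have h1 := hu.above (ball a R) isOpen_ball isBounded_ball
      (by rw [closure_ball a hR.ne']; exact hc) a (u a) ((u z - u a) / R)
      (by apply div_nonneg (by linarith) hR.le) ?_ (fun _ => le_rfl) y hV
    · have : (u z - u a) / R * ‖y - a‖ = ‖y - a‖ / R * (u z - u a) := by ring
      linarith only [h1, this]
    · intro x hx
      rw [frontier_ball a hR.ne', mem_sphere, dist_eq_norm] at hx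
      rw [hx, div_mul_cancel₀ _ hR.ne']
      have := hmax' x hx.le
      linarith
  · rw [heq, div_self hR.ne', one_mul]
    have := hmax' y hy
    linarith

theorem lvGood_up {u : E → ℝ} {Ω : Set E} (hu : ConeComp u Ω) {x0 : E} {t R : ℝ}
    (ht : 0 < t) (hc : closedBall x0 (t * (R + 3)) ⊆ Ω) {x : E} (hx : ‖x‖ ≤ R) {τ : ℝ}
    (hτ : 0 < τ) (hτ1 : τ ≤ 1) {q : E} (hq : ‖q‖ = 1) :
    ∃ x', ‖x' - (x - τ • q)‖ ≤ 2 * τ ∧
      2 * ((u (x0 + t • x) - u x0) / t) ≤ (u (x0 + t • (x - τ • q)) - u x0) / t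
        + (u (x0 + t • x') - u x0) / t := by
  have hsub : closedBall (x0 + t • (x - τ • q)) (2 * τ * t) ⊆ Ω := by
    refine Subset.trans ?_ hc
    intro y hy
    rw [mem_closedBall, dist_eq_norm] at hy ⊢
    have h1 : y - x0 = (y - (x0 + t • (x - τ • q))) + t • (x - τ • q) := by abel
    rw [h1]
    refine (norm_add_le _ _).trans ?_
    rw [norm_smul, Real.norm_of_nonneg ht.le]
    have h2 : ‖x - τ • q‖ ≤ R + τ := by
      refine (norm_sub_le _ _).trans ?_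
      rw [norm_smul, hq, Real.norm_of_nonneg hτ.le, mul_one]
      linarith
    have h3 : t * ‖x - τ • q‖ ≤ t * (R + τ) := by gcongr
    have h4 : 2 * τ * t + t * (R + τ) = t * (R + 3 * τ) := by ring
    have h5 : t * (R + 3 * τ) ≤ t * (R + 3) := by gcongr; linarith only [hτ1]
    linarith only [hy, h3, h5]
  obtain ⟨z, hz, -, hg⟩ := hu.ball_grow (a := x0 + t • (x - τ • q)) (R := 2 * τ * t)
    (by positivity) hsub
  refine ⟨t⁻¹ • (z - x0), ?_, ?_⟩
  · have h1 : t⁻¹ • (z - x0) - (x - τ • q) = t⁻¹ • (z - (x0 + t • (x - τ • q))) := by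
      rw [← sub_sub, smul_sub t⁻¹ (z - x0), smul_smul, inv_mul_cancel₀ ht.ne', one_smul]
    rw [h1, norm_smul, norm_inv, Real.norm_of_nonneg ht.le, inv_mul_le_iff₀ ht]
    linarith only [hz]
  · have h1 : x0 + t • (t⁻¹ • (z - x0)) = z := by
      rw [smul_smul, mul_inv_cancel₀ ht.ne', one_smul]; abel
    rw [h1]
    have h2 : (x0 + t • x) - (x0 + t • (x - τ • q)) = (t * τ) • q := by
      rw [smul_sub, smul_smul]; abel
    have h3 : ‖(x0 + t • x) - (x0 + t • (x - τ • q))‖ = t * τ := by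
      rw [h2, norm_smul, hq, Real.norm_of_nonneg (by positivity), mul_one]
    have h4 := hg (x0 + t • x) (by
      rw [h3]
      have : 0 < τ * t := by positivity
      linarith)
    rw [h3] at h4
    have h5 : t * τ / (2 * τ * t) = 1 / 2 := by field_simp
    rw [h5] at h4
    have h6 : 2 * u (x0 + t • x) ≤ u (x0 + t • (x - τ • q)) + u z := by linarith only [h4]
    have h7 : 2 * ((u (x0 + t • x) - u x0) / t) = (2 * u (x0 + t • x) - 2 * u x0) / t := by ring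
    have h8 : (u (x0 + t • (x - τ • q)) - u x0) / t + (u z - u x0) / t
      = (u (x0 + t • (x - τ • q)) + u z - 2 * u x0) / t := by ring
    rw [h7, h8]
    apply div_le_div_of_nonneg_right _ ht.le
    linarith only [h6]

theorem lvGood_of_coneComp {u : E → ℝ} {Ω : Set E} (hu : ConeComp u Ω) {x0 : E} {t R L : ℝ}
    (ht : 0 < t) (hc : closedBall x0 (t * (R + 3)) ⊆ Ω)
    (hlip : ∀ x y, ‖x - x0‖ ≤ t * R → ‖y - x0‖ ≤ t * R → |u x - u y| ≤ L * ‖x - y‖) :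
    LvGood (fun x => (u (x0 + t • x) - u x0) / t) L R := by
  have hn : ∀ x : E, ‖x‖ ≤ R → ‖(x0 + t • x) - x0‖ ≤ t * R := by
    intro x hx
    rw [add_sub_cancel_left, norm_smul, Real.norm_of_nonneg ht.le]
    (clear * - hx ht; gcongr)
  refine ⟨?_, ?_, ?_⟩
  · intro x y hx hy
    have h1 := hlip _ _ (hn x hx) (hn y hy)
    have h2 : (u (x0 + t • x) - u x0) / t - (u (x0 + t • y) - u x0) / t
      = (u (x0 + t • x) - u (x0 + t • y)) / t := by ring
    have h3 : (x0 + t • x) - (x0 + t • y) = t • (x - y) := by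
      rw [smul_sub]; abel
    rw [h3, norm_smul, Real.norm_of_nonneg ht.le] at h1
    rw [h2, abs_div, abs_of_pos ht, div_le_iff₀ ht]
    linarith only [h1]
  · intro x hx τ hτ hτ1 q hq
    exact lvGood_up hu ht hc hx hτ hτ1 hq
  · intro y hy τ hτ hτ1 q hq
    obtain ⟨y', h1, h2⟩ := lvGood_up hu.neg ht hc hy hτ hτ1 (q := -q) (by rw [norm_neg, hq])
    have e1 : y - τ • (-q) = y + τ • q := by rw [smul_neg, sub_neg_eq_add]
    rw [e1] at h1 h2
    refine ⟨y', h1, ?_⟩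
    have e2 : ∀ w : E, (-u w - -u x0) / t = - ((u w - u x0) / t) := by
      intro w; ring
    rw [e2, e2, e2] at h2
    linarith only [h2]

end Vale.Agent.P080
end
end

section

attribute [-instance] ProperSMul.toContinuousSMul IsTopologicalTorsor.toContinuousSMul IdemSemiring.toCanonicallyOrderedAdd IdemSemiring.toMulLeftMono IdemSemiring.toMulRightMono AddQuantale.instAddLeftMono AddQuantale.instAddRightMono Quantale.instMulLeftMono Quantale.instMulRightMono FiniteDimensional.rclike_to_real IsScalarTower.complexToReal FiniteDimensional.complexToReal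

section
set_option linter.unusedSectionVars false

namespace Vale.Agent.P080

open Topology Filter Metric Set
open scoped RealInnerProductSpace

variable {E : Type*} [NormedAddCommGroup E] [InnerProductSpace ℝ E]

theorem norm_sub_le_quad {w x : E} {R : ℝ} (hR : 0 < R) (hw : ‖w‖ ≤ R) :
    ‖x - w‖ ≤ R - ⟪w, x⟫ / R + ‖x‖ ^ 2 / (2 * R) := by
  have h1 : ‖x - w‖ ^ 2 = ‖x‖ ^ 2 - 2 * ⟪x, w⟫ + ‖w‖ ^ 2 := norm_sub_sq_real x w
  rw [real_inner_comm] at h1
  have h2 : ‖w‖ ^ 2 ≤ R ^ 2 := pow_le_pow_left₀ (norm_nonneg _) hw _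
  have h3 : 2 * R * ‖x - w‖ ≤ R ^ 2 + ‖x - w‖ ^ 2 := by linarith only [sq_nonneg (R - ‖x - w‖)]
  have h4 : R - ⟪w, x⟫ / R + ‖x‖ ^ 2 / (2 * R)
    = (2 * R ^ 2 - 2 * ⟪w, x⟫ + ‖x‖ ^ 2) / (2 * R) := by
    field_simp
    try ring
  rw [h4, le_div_iff₀ (by positivity)]
  linarith only [h1, h2, h3]

theorem norm_add_le_two {z w : E} {L R d : ℝ} (hL : 0 ≤ L) (hR : 0 < R) (hd : 0 ≤ d)
    (hz : ‖z‖ ≤ R) (hw : ‖w‖ ≤ R) (h : 2 * (L - d) * R ≤ L * ‖z - w‖) :
    L * ‖z + w‖ ≤ √(8 * L * d) * R := by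
  apply le_of_sq_le_sq _ (by positivity)
  rw [mul_pow, mul_pow, Real.sq_sqrt (by positivity)]
  have h1 : ‖z + w‖ ^ 2 + ‖z - w‖ ^ 2 = 2 * ‖z‖ ^ 2 + 2 * ‖w‖ ^ 2 := by
    have h2 := norm_add_sq_real z w
    have h3 := norm_sub_sq_real z w
    (exact Mathlib.Tactic.Linarith.eq_of_not_lt_of_not_gt _ _ (by linarith only [h2, h3]) (by
        linarith only [h2, h3]))
  have h2 : ‖z‖ ^ 2 ≤ R ^ 2 := pow_le_pow_left₀ (norm_nonneg _) hz _
  have h3 : ‖w‖ ^ 2 ≤ R ^ 2 := pow_le_pow_left₀ (norm_nonneg _) hw _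
  have h4 : ‖z + w‖ ^ 2 ≤ 4 * R ^ 2 - ‖z - w‖ ^ 2 := by linarith only [h1, h2, h3]
  have h5 : L ^ 2 * ‖z + w‖ ^ 2 ≤ L ^ 2 * (4 * R ^ 2 - ‖z - w‖ ^ 2) := by (clear * - h4; gcongr)
  rcases le_or_gt d L with h6 | h6
  · have h7 : (2 * (L - d) * R) ^ 2 ≤ (L * ‖z - w‖) ^ 2 :=
      pow_le_pow_left₀ (by have : 0 ≤ L - d := by linarith
                           positivity) h _
    have h8 : L ^ 2 * (4 * R ^ 2 - ‖z - w‖ ^ 2) = 4 * L ^ 2 * R ^ 2 - (L * ‖z - w‖) ^ 2 := by ring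
    have h9 : 4 * L ^ 2 * R ^ 2 - (2 * (L - d) * R) ^ 2 = 8 * L * d * R ^ 2 - 4 * d ^ 2 * R ^ 2 := by
      ring
    have h10 : 0 ≤ 4 * d ^ 2 * R ^ 2 := by positivity
    linarith only [h5, h7, h10]
  · have h7 : L ^ 2 * (4 * R ^ 2 - ‖z - w‖ ^ 2) ≤ L ^ 2 * (4 * R ^ 2) := by
      gcongr
      linarith only [sq_nonneg ‖z - w‖]
    have h8 : L ^ 2 ≤ L * d := by linarith only [(mul_nonneg hL (le_of_lt (sub_pos.2 h6)))]
    have h9 : L ^ 2 * (4 * R ^ 2) ≤ L * d * (4 * R ^ 2) := by (clear * - h8 hR; gcongr)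
    have h10 : 0 ≤ L * d * R ^ 2 := by positivity
    linarith only [h5, h7, h9, h10]

theorem flat_of_two {v : E → ℝ} {z w : E} {L R d : ℝ} (hL : 0 ≤ L) (hR : 0 < R) (hd : 0 ≤ d)
    (hz : ‖z‖ ≤ R) (hw : ‖w‖ ≤ R)
    (hlip : ∀ x y, ‖x‖ ≤ R → ‖y‖ ≤ R → |v x - v y| ≤ L * ‖x - y‖)
    (h1 : (L - d) * R ≤ v z - v 0) (h2 : (L - d) * R ≤ v 0 - v w) {x : E} (hx : ‖x‖ ≤ R) :
    |v x - v 0 - ⟪(L / R) • z, x⟫| ≤ d * R + L * ‖x‖ ^ 2 / (2 * R) + √(8 * L * d) * ‖x‖ := by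
  have hzw : 2 * (L - d) * R ≤ L * ‖z - w‖ := by
    have := (le_abs_self _).trans (hlip z w hz hw)
    linarith
  have hzw' := norm_add_le_two hL hR hd hz hw hzw
  have e1 : ⟪(L / R) • z, x⟫ = L / R * ⟪z, x⟫ := real_inner_smul_left _ _ _
  have hs0 : 0 ≤ √(8 * L * d) * ‖x‖ := by positivity
  rw [e1, abs_le]
  constructor
  · have h3 := (abs_le.1 (hlip z x hz hx)).2
    rw [norm_sub_rev] at h3
    have h4 := norm_sub_le_quad (x := x) hR hz
    have h5 : L * ‖x - z‖ ≤ L * (R - ⟪z, x⟫ / R + ‖x‖ ^ 2 / (2 * R)) := by (clear * - h4 hL; gcongr)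
    have h6 : L * (R - ⟪z, x⟫ / R + ‖x‖ ^ 2 / (2 * R))
      = L * R - L / R * ⟪z, x⟫ + L * ‖x‖ ^ 2 / (2 * R) := by ring
    linarith only [h1, hs0, h3, h5, h6]
  · have h3 := (abs_le.1 (hlip x w hx hw)).2
    have h4 := norm_sub_le_quad (x := x) hR hw
    have h5 : L * ‖x - w‖ ≤ L * (R - ⟪w, x⟫ / R + ‖x‖ ^ 2 / (2 * R)) := by (clear * - h4 hL; gcongr)
    have h6 : L * (R - ⟪w, x⟫ / R + ‖x‖ ^ 2 / (2 * R))
      = L * R - L / R * ⟪w, x⟫ + L * ‖x‖ ^ 2 / (2 * R) := by ring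
    have h7 : - (L / R * ⟪w, x⟫) = L / R * ⟪z, x⟫ - L / R * ⟪z + w, x⟫ := by
      rw [inner_add_left]; ring
    have h8 : - (L / R * ⟪z + w, x⟫) ≤ √(8 * L * d) * ‖x‖ := by
      have h9 : - ⟪z + w, x⟫ ≤ ‖z + w‖ * ‖x‖ := by
        have := (abs_le.1 (abs_real_inner_le_norm (z + w) x)).1
        linarith only [this]
      calc - (L / R * ⟪z + w, x⟫) = L / R * (- ⟪z + w, x⟫) := by ring
        _ ≤ L / R * (‖z + w‖ * ‖x‖) := by (clear * - h9 hL hR; gcongr)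
        _ = (L * ‖z + w‖) / R * ‖x‖ := by ring
        _ ≤ (√(8 * L * d) * R) / R * ‖x‖ := by (clear * - hzw' hR; gcongr)
        _ = _ := by rw [mul_div_assoc, div_self hR.ne', mul_one]
    linarith only [h2, h3, h5, h6, h7, h8]

theorem flat_scale {α ε : ℝ} (hα : 0 ≤ α) (hε : 0 < ε) :
    ∃ θ d : ℝ, 0 < θ ∧ θ ≤ 1 ∧ 0 < d ∧ ∀ (v : E → ℝ) (R : ℝ) (z w : E), 0 < R →
      (∀ x y, ‖x‖ ≤ R → ‖y‖ ≤ R → |v x - v y| ≤ (α + d) * ‖x - y‖) → ‖z‖ ≤ R → ‖w‖ ≤ R →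
      (α - d) * R ≤ v z - v 0 → (α - d) * R ≤ v 0 - v w →
      ∃ e' : E, α - ε ≤ ‖e'‖ ∧ ‖e'‖ ≤ α + ε ∧
        ∀ x, ‖x‖ ≤ θ * R → |v x - v 0 - ⟪e', x⟫| ≤ ε * (θ * R) := by
  obtain ⟨θ, hθ0, hθ1, hθ2⟩ : ∃ θ : ℝ, 0 < θ ∧ θ ≤ 1 ∧ (α + 1) * θ ≤ ε := by
    refine ⟨min 1 (ε / (α + 1)), by positivity, min_le_left _ _, ?_⟩
    calc (α + 1) * min 1 (ε / (α + 1)) ≤ (α + 1) * (ε / (α + 1)) := by
          gcongr; exact min_le_right _ _
      _ = ε := by field_simp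
  obtain ⟨d, hd0, hd1, hd2, hd3, hd4⟩ : ∃ d : ℝ, 0 < d ∧ d ≤ 1 ∧ d ≤ ε ∧ 8 * d ≤ θ * ε ∧
      16 * ((α + 1) * (2 * d)) ≤ ε ^ 2 / 8 := by
    refine ⟨min (min 1 ε) (min (θ * ε / 8) (ε ^ 2 / (256 * (α + 1)))), by positivity,
      (min_le_left _ _).trans (min_le_left _ _), (min_le_left _ _).trans (min_le_right _ _), ?_, ?_⟩
    · have h1 : min (min 1 ε) (min (θ * ε / 8) (ε ^ 2 / (256 * (α + 1)))) ≤ θ * ε / 8 :=
        (min_le_right _ _).trans (min_le_left _ _)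
      linarith
    · have h1 : min (min 1 ε) (min (θ * ε / 8) (ε ^ 2 / (256 * (α + 1))))
        ≤ ε ^ 2 / (256 * (α + 1)) := (min_le_right _ _).trans (min_le_right _ _)
      calc 16 * ((α + 1) * (2 * min (min 1 ε) (min (θ * ε / 8) (ε ^ 2 / (256 * (α + 1))))))
          ≤ 16 * ((α + 1) * (2 * (ε ^ 2 / (256 * (α + 1))))) := by gcongr
        _ = ε ^ 2 / 8 := by field_simp; ring
  refine ⟨θ, d, hθ0, hθ1, hd0, ?_⟩
  intro v R z w hR hlip hz hw h1 h2
  have hL : 0 ≤ α + d := by positivity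
  refine ⟨((α + d) / R) • z, ?_, ?_, ?_⟩
  · have h3 := (le_abs_self _).trans (hlip z 0 hz (by simpa using hR.le))
    rw [sub_zero] at h3
    rw [norm_smul, Real.norm_of_nonneg (by positivity)]
    have h4 : (α - d) * R ≤ (α + d) * ‖z‖ := h1.trans h3
    calc α - ε ≤ α - d := by linarith only [hd2]
      _ = (α - d) * R / R := by (clear * - hR; field_simp)
      _ ≤ (α + d) * ‖z‖ / R := by (clear * - h4 hR; gcongr)
      _ = _ := by ring
  · rw [norm_smul, Real.norm_of_nonneg (by positivity)]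
    calc (α + d) / R * ‖z‖ ≤ (α + d) / R * R := by (clear * - hz hα hd0 hR; gcongr)
      _ = α + d := by field_simp
      _ ≤ _ := by linarith only [hd2]
  · intro x hx
    have hxR : ‖x‖ ≤ R := by linarith only [hx, (mul_nonneg (sub_nonneg.2 hθ1) (le_of_lt hR))]
    have h3 := flat_of_two (v := v) (z := z) (w := w) (L := α + d) (R := R) (d := 2 * d) hL hR
      (by positivity) hz hw hlip (by linarith only [h1]) (by linarith only [h2]) hxR
    refine h3.trans ?_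
    have hx2 : ‖x‖ ^ 2 ≤ (θ * R) ^ 2 := pow_le_pow_left₀ (norm_nonneg _) hx _
    have t1 : 2 * d * R ≤ ε / 4 * (θ * R) := by linarith only [(mul_nonneg (sub_nonneg.2 hd3)
                                                    (le_of_lt hR))]
    have t2 : (α + d) * ‖x‖ ^ 2 / (2 * R) ≤ ε / 2 * (θ * R) := by
      calc (α + d) * ‖x‖ ^ 2 / (2 * R) ≤ (α + 1) * (θ * R) ^ 2 / (2 * R) := by (clear * - hd1 hx2 hα hR; gcongr)
        _ = ((α + 1) * θ) / 2 * (θ * R) := by field_simp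
        _ ≤ ε / 2 * (θ * R) := by (clear * - hθ2 hθ0 hR; gcongr)
    have t3 : √(8 * (α + d) * (2 * d)) * ‖x‖ ≤ ε / 4 * (θ * R) := by
      have h5 : √(8 * (α + d) * (2 * d)) ≤ ε / 4 := by
        apply Real.sqrt_le_iff.2 ⟨by positivity, ?_⟩
        have h6 : (α + d) * (2 * d) ≤ (α + 1) * (2 * d) := by (clear * - hd1 hd0; gcongr)
        linarith only [hd4, h6]
      (clear * - h5 hx hε; gcongr)
    linarith only [t3, t2, t1]

end Vale.Agent.P080
end
end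

section

attribute [-instance] ProperSMul.toContinuousSMul IsTopologicalTorsor.toContinuousSMul IdemSemiring.toCanonicallyOrderedAdd IdemSemiring.toMulLeftMono IdemSemiring.toMulRightMono AddQuantale.instAddLeftMono AddQuantale.instAddRightMono Quantale.instMulLeftMono Quantale.instMulRightMono FiniteDimensional.rclike_to_real IsScalarTower.complexToReal FiniteDimensional.complexToReal

section
set_option linter.unusedSectionVars false

namespace Vale.Agent.P080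

open Topology Filter Metric Set
open scoped RealInnerProductSpace

variable {E : Type*} [NormedAddCommGroup E] [InnerProductSpace ℝ E] [FiniteDimensional ℝ E]

theorem norm_unit_add_le {z h : E} (hz : ‖z‖ = 1) : ‖z + h‖ ≤ 1 + ⟪z, h⟫ + ‖h‖ ^ 2 / 2 := by
  have h1 : ‖z + h‖ ^ 2 = ‖z‖ ^ 2 + 2 * ⟪z, h⟫ + ‖h‖ ^ 2 := norm_add_sq_real z h
  rw [hz] at h1
  linarith only [h1, sq_nonneg (1 - ‖z + h‖)]

/-- Touching at a unit vector by `ζ ↦ ⟪c, ζ⟫ + k ‖ζ‖`. -/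
theorem unit_touch {L α P2 k η : ℝ} (hL : 0 ≤ L) (hα : 0 ≤ α) (hP2 : 0 ≤ P2) (hk : 0 ≤ k)
    (hη : 0 < η) :
    ∃ s δ N : ℝ, 0 < s ∧ 0 < δ ∧ 1 ≤ N ∧
      ∀ (v : E → ℝ) (z e c : E) (c0 ρ : ℝ), ‖z‖ = 1 → N ≤ ρ → LvGood v L (ρ + 2) →
      ‖e‖ ≤ α → ‖c + k • z‖ ≤ P2 →
      (∀ x, ‖x‖ ≤ ρ → |v x - c0 - ⟪e, x⟫| ≤ s * ρ) →
      (∀ y ζ, ‖y‖ ≤ ρ → ‖ζ‖ ≤ 2 → v (y + ζ) - v y ≤ ⟪c, ζ⟫ + (k + δ) * ‖ζ‖) →
      (∃ y0, 6 * ‖y0‖ ≤ ρ ∧ ⟪c, z⟫ + (k - δ) ≤ v (y0 + z) - v y0) →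
      |‖c + k • z‖ ^ 2 - ⟪e, c + k • z⟫| ≤ η := by
  obtain ⟨s, δ, ρ0, N, hs, hδ, hρ0, hρ01, -, hN, H⟩ := touch_eps (E := E) (M := k / 2) (ρV := 1)
    hL (by positivity) hα hP2 hη one_pos
  refine ⟨s, δ / 2, N, hs, by positivity, hN, ?_⟩
  intro v z e c c0 ρ hz hρ hg he hp hflat hmaj hnear
  refine H v z e (c + k • z) (⟪c, z⟫ + k) c0 ρ hρ (by rw [hz]; convert hg using 1; ring) he hp
    hflat ?_ ?_
  · intro y h hy hh
    have h1 : ‖z + h‖ ≤ 2 := by
      refine (norm_add_le _ _).trans ?_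
      rw [hz]; linarith only [hρ01, hh]
    have h2 := hmaj y (z + h) hy h1
    rw [← add_assoc] at h2
    have h3 := norm_unit_add_le (h := h) hz
    have h4 : k * ‖z + h‖ ≤ k * (1 + ⟪z, h⟫ + ‖h‖ ^ 2 / 2) := by (clear * - h3 hk; gcongr)
    have h5 : δ / 2 * ‖z + h‖ ≤ δ := by
      have : δ / 2 * ‖z + h‖ ≤ δ / 2 * 2 := by (clear * - h1 hδ; gcongr)
      linarith only [this]
    have h6 : ⟪c, z + h⟫ = ⟪c, z⟫ + ⟪c, h⟫ := inner_add_right _ _ _
    have h7 : ⟪c + k • z, h⟫ = ⟪c, h⟫ + k * ⟪z, h⟫ := by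
      rw [inner_add_left, real_inner_smul_left]
    rw [h7]
    rw [h6] at h2
    linarith only [h2, h4, h5]
  · obtain ⟨y0, h1, h2⟩ := hnear
    exact ⟨y0, h1, by linarith only [hδ, h2]⟩

/-- rescaling around `x₀` by `t` -/
noncomputable def lvRes (u : E → ℝ) (x0 : E) (t : ℝ) : E → ℝ := fun x => (u (x0 + t • x) - u x0) / t

theorem pair_touch {u : E → ℝ} {Ω : Set E} (hu : ConeComp u Ω) {x0 e c : E}
    {L r0 k η : ℝ} (hL : 0 ≤ L) (hk : 0 ≤ k) (hr0 : 0 < r0) (hc : closedBall x0 r0 ⊆ Ω)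
    (hlipL : ∀ x y, ‖x - x0‖ ≤ r0 → ‖y - x0‖ ≤ r0 → |u x - u y| ≤ L * ‖x - y‖)
    (hflat : ∀ ε > 0, ∀ r > 0, ∃ R, 0 < R ∧ R ≤ r ∧
      ∀ x, ‖x‖ ≤ R → |u (x0 + x) - u x0 - ⟪e, x⟫| ≤ ε * R)
    (hlip : ∀ δ > 0, ∃ r > 0, ∀ x y, ‖x - x0‖ ≤ r → ‖y - x0‖ ≤ r →
      u y - u x ≤ ⟪c, y - x⟫ + (k + δ) * ‖y - x‖)
    (hη : 0 < η) :
    ∃ δ r t0 : ℝ, 0 < δ ∧ 0 < r ∧ 0 < t0 ∧ ∀ (x z : E) (t : ℝ), ‖x - x0‖ ≤ r → ‖z‖ = 1 →
      0 < t → t ≤ t0 → ⟪c, z⟫ * t + (k - δ) * t ≤ u (x + t • z) - u x →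
      |‖c + k • z‖ ^ 2 - ⟪e, c + k • z⟫| ≤ η := by
  obtain ⟨s, δ, N, hs, hδ, hN, H⟩ := unit_touch (E := E) (P2 := ‖c‖ + k) hL (norm_nonneg e)
    (by positivity) hk hη
  obtain ⟨r1, hr1, h1⟩ := hlip δ hδ
  obtain ⟨R, hR, hRr, hfl⟩ := hflat s hs (min r0 r1 / 7) (by positivity)
  have hR0 : 7 * R ≤ r0 := by
    have := min_le_left r0 r1
    linarith only [hRr, this]
  have hR1 : 7 * R ≤ r1 := by
    have := min_le_right r0 r1
    linarith only [hRr, this]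
  refine ⟨δ, R / 6, R / N, hδ, by positivity, by positivity, ?_⟩
  intro x z t hx hz ht htN hnear
  obtain ⟨ρ, hρ⟩ : ∃ ρ, ρ = R / t := ⟨_, rfl⟩
  have htρ : t * ρ = R := by rw [hρ]; field_simp
  have hNρ : N ≤ ρ := by
    rw [hρ, le_div_iff₀ ht]
    rw [le_div_iff₀ (by linarith only [hN])] at htN
    linarith only [htN]
  have htR : t ≤ R := htN.trans (div_le_self hR.le hN)
  have hnm : ∀ y : E, ‖y‖ ≤ ρ + 2 → ‖(x0 + t • y) - x0‖ ≤ 7 * R := by
    intro y hy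
    rw [add_sub_cancel_left, norm_smul, Real.norm_of_nonneg ht.le]
    have : t * ‖y‖ ≤ t * (ρ + 2) := by (clear * - hy ht; gcongr)
    linarith only [ht, htρ, htR, this]
  refine H (lvRes u x0 t) z e c 0 ρ hz hNρ ?_ le_rfl ?_ ?_ ?_ ?_
  · apply lvGood_of_coneComp hu ht
    · refine (closedBall_subset_closedBall ?_).trans hc
      linarith only [hR0, ht, htρ, htR]
    · intro a b ha hb
      have h5 : t * (ρ + 2) ≤ r0 := by linarith only [hR0, ht, htρ, htR]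
      exact hlipL a b (ha.trans h5) (hb.trans h5)
  · refine (norm_add_le _ _).trans ?_
    rw [norm_smul, hz, Real.norm_of_nonneg hk, mul_one]
  · intro y hy
    have h2 := hfl (t • y) (by
      rw [norm_smul, Real.norm_of_nonneg ht.le, ← htρ]
      (clear * - hy ht; gcongr))
    rw [real_inner_smul_right] at h2
    unfold lvRes
    have h3 : (u (x0 + t • y) - u x0) / t - 0 - ⟪e, y⟫
      = (u (x0 + t • y) - u x0 - t * ⟪e, y⟫) / t := by field_simp; ring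
    rw [h3, abs_div, abs_of_pos ht, div_le_iff₀ ht]
    calc _ ≤ s * R := h2
      _ = s * ρ * t := by rw [← htρ]; ring
  · intro y ζ hy hζ
    unfold lvRes
    have h2 := h1 (x0 + t • y) (x0 + t • (y + ζ))
      ((hnm y (by linarith only [hy])).trans hR1)
      ((hnm (y + ζ) ((norm_add_le _ _).trans (by linarith only [hy, hζ]))).trans hR1)
    have h3 : (x0 + t • (y + ζ)) - (x0 + t • y) = t • ζ := by rw [smul_add]; abel
    rw [h3, real_inner_smul_right, norm_smul, Real.norm_of_nonneg ht.le] at h2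
    have h4 : (u (x0 + t • (y + ζ)) - u x0) / t - (u (x0 + t • y) - u x0) / t
      = (u (x0 + t • (y + ζ)) - u (x0 + t • y)) / t := by ring
    rw [h4, div_le_iff₀ ht]
    linarith only [h2]
  · refine ⟨t⁻¹ • (x - x0), ?_, ?_⟩
    · rw [norm_smul, norm_inv, Real.norm_of_nonneg ht.le]
      have : t⁻¹ * ‖x - x0‖ ≤ t⁻¹ * (R / 6) := by (clear * - hx ht; gcongr)
      have h2 : 6 * (t⁻¹ * (R / 6)) = ρ := by rw [hρ]; (clear * - hR ht; field_simp)
      linarith only [this, h2]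
    · unfold lvRes
      have h2 : x0 + t • (t⁻¹ • (x - x0) + z) = x + t • z := by
        rw [smul_add, smul_smul, mul_inv_cancel₀ ht.ne', one_smul]; abel
      have h3 : x0 + t • (t⁻¹ • (x - x0)) = x := by
        rw [smul_smul, mul_inv_cancel₀ ht.ne', one_smul]; abel
      rw [h2, h3]
      have h4 : (u (x + t • z) - u x0) / t - (u x - u x0) / t
        = (u (x + t • z) - u x) / t := by ring
      rw [h4, le_div_iff₀ ht]
      linarith only [hnear]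

end Vale.Agent.P080
end
end

section

attribute [-instance] ProperSMul.toContinuousSMul IsTopologicalTorsor.toContinuousSMul IdemSemiring.toCanonicallyOrderedAdd IdemSemiring.toMulLeftMono IdemSemiring.toMulRightMono AddQuantale.instAddLeftMono AddQuantale.instAddRightMono Quantale.instMulLeftMono Quantale.instMulRightMono FiniteDimensional.rclike_to_real IsScalarTower.complexToReal FiniteDimensional.complexToReal

section
set_option linter.unusedSectionVars false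

namespace Vale.Agent.P080

open Topology Filter Metric Set
open scoped RealInnerProductSpace

variable {E : Type*} [NormedAddCommGroup E] [InnerProductSpace ℝ E] [FiniteDimensional ℝ E]

/-- the set of global Lipschitz constants -/
def lipSet (u : E → ℝ) : Set ℝ := {L | 0 ≤ L ∧ ∀ x y, |u x - u y| ≤ L * ‖x - y‖}

/-- If the growth from `a` has slope at most `m` along arbitrarily large balls, then `m` bounds
all slopes. -/
theorem ConeComp.slope_le_of_growth {u : E → ℝ} (hu : ConeComp u univ) {a : E} {m : ℝ}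
    {A : ℝ} (h : ∀ N : ℝ, ∃ R, N ≤ R ∧ ∀ z, ‖z - a‖ ≤ R → u z - u a ≤ A + m * R) (x y : E) :
    u y - u x ≤ m * ‖y - x‖ := by
  apply le_of_forall_pos_le_add
  intro ε hε
  by_cases hxy : y = x
  · rw [hxy]; simp [hε.le]
  have hd : 0 < ‖y - x‖ := norm_pos_iff.2 (sub_ne_zero.2 hxy)
  obtain ⟨B, hB⟩ : ∃ B, B = |A + u a - u x + m * ‖x - a‖| := ⟨_, rfl⟩
  have hB0 : 0 ≤ B := by rw [hB]; exact abs_nonneg _
  obtain ⟨R, hR, hg⟩ := h (‖y - x‖ + ‖x - a‖ + ‖y - x‖ * B / ε + 1)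
  have hxa := norm_nonneg (x - a)
  have hq : 0 ≤ ‖y - x‖ * B / ε := by (clear * - hd hB0 hε; positivity)
  obtain ⟨R', hR'⟩ : ∃ R', R' = R - ‖x - a‖ := ⟨_, rfl⟩
  have hR'0 : 0 < R' := by rw [hR']; linarith
  have hR'1 : ‖y - x‖ ≤ R' := by rw [hR']; linarith only [hR, hq]
  have hR'2 : ‖y - x‖ * B / ε ≤ R' := by rw [hR']; linarith only [hd, hR]
  obtain ⟨z, hz, -, hgr⟩ := hu.ball_grow (a := x) hR'0 (subset_univ _)
  have h1 := hgr y hR'1
  have h2 := hg z (by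
    have : z - a = (z - x) + (x - a) := by abel
    rw [this]
    refine (norm_add_le _ _).trans ?_
    rw [hR'] at hz
    linarith only [hz])
  have h3 : u z - u x ≤ B + m * R' := by
    have := le_abs_self (A + u a - u x + m * ‖x - a‖)
    rw [← hB] at this
    rw [hR']
    linarith only [h2, this]
  have h4 : ‖y - x‖ / R' * (u z - u x) ≤ ‖y - x‖ / R' * (B + m * R') := by (clear * - h3 hd hR'0; gcongr)
  have h5 : ‖y - x‖ / R' * (B + m * R') = ‖y - x‖ * B / R' + m * ‖y - x‖ := by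
    (clear * - hR'0 hd; field_simp)
  have h6 : ‖y - x‖ * B / R' ≤ ε := by
    rw [div_le_iff₀ hR'0]
    rw [div_le_iff₀ hε] at hR'2
    linarith only [hR'2]
  linarith only [h6, h5, h4, h1]

theorem ConeComp.mem_lipSet_of_growth {u : E → ℝ} (hu : ConeComp u univ) {a : E} {m : ℝ}
    (hm : 0 ≤ m) {A : ℝ}
    (h : ∀ N : ℝ, ∃ R, N ≤ R ∧ ∀ z, ‖z - a‖ ≤ R → u z - u a ≤ A + m * R) : m ∈ lipSet u := by
  refine ⟨hm, fun x y => ?_⟩
  rw [abs_le]
  have h1 := hu.slope_le_of_growth h x y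
  have h2 := hu.slope_le_of_growth h y x
  rw [norm_sub_rev] at h1
  constructor <;> linarith

theorem ConeComp.lipSet_nonempty {u : E → ℝ} (hu : ConeComp u univ) {C : ℝ}
    (hC : ∀ x, |u x| ≤ C * (1 + ‖x‖)) : (lipSet u).Nonempty := by
  have hC0 : 0 ≤ C := by
    have := hC 0
    rw [norm_zero, add_zero, mul_one] at this
    exact (abs_nonneg _).trans this
  refine ⟨C, hu.mem_lipSet_of_growth (a := 0) (A := C + |u 0|) hC0 ?_⟩
  intro N
  refine ⟨N, le_rfl, ?_⟩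
  intro z hz
  rw [sub_zero] at hz
  have h1 := (le_abs_self _).trans (hC z)
  have h2 := neg_abs_le (u 0)
  have h3 : C * (1 + ‖z‖) ≤ C * (1 + N) := by gcongr
  linarith

end Vale.Agent.P080
end
end

section

/-! From the interior estimate on balls to continuous differentiability on open sets. -/

namespace Vale.Agent.P080.Zy

open Set Metric Vale.Agent.P080
open scoped RealInnerProductSpace

theorem infHarmonic_mono {E : Type*} [NormedAddCommGroup E] [InnerProductSpace ℝ E]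
    [CompleteSpace E] {u : E → ℝ} {Ω Ω' : Set E} (hu : IsInfHarmonicOn u Ω) (h : Ω' ⊆ Ω) :
    IsInfHarmonicOn u Ω' :=
  ⟨hu.continuousOn.mono h, fun z hz => hu.sub z (h hz), fun z hz => hu.super z (h hz)⟩

theorem contDiffOn_open {E : Type*} [NormedAddCommGroup E] [InnerProductSpace ℝ E]
    [FiniteDimensional ℝ E]
    (h : ∀ (u : E → ℝ) (x₀ : E) (R M : ℝ), 0 < R → IsInfHarmonicOn u (ball x₀ R) →
      (∀ x ∈ ball x₀ R, ∀ y ∈ ball x₀ R, u x - u y ≤ M) → ContDiffOn ℝ 1 u (ball x₀ (R / 2)))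
    {Ω : Set E} (hΩ : IsOpen Ω) {u : E → ℝ} (hu : IsInfHarmonicOn u Ω) : ContDiffOn ℝ 1 u Ω := by
  intro x hx
  obtain ⟨R, hR, hball⟩ := Metric.isOpen_iff.1 hΩ x hx
  have hsub : closedBall x (R / 2) ⊆ Ω := (closedBall_subset_ball (by linarith)).trans hball
  have hcpt : IsCompact (closedBall x (R / 2)) := isCompact_closedBall _ _
  obtain ⟨M₁, hM₁⟩ := hcpt.bddAbove_image (hu.continuousOn.mono hsub)
  obtain ⟨M₂, hM₂⟩ := hcpt.bddBelow_image (hu.continuousOn.mono hsub)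
  have hR2 : 0 < R / 2 := by linarith
  have h1 := h u x (R / 2) (M₁ - M₂) hR2
    (infHarmonic_mono hu (ball_subset_closedBall.trans hsub)) fun a ha b hb => by
      have h2 := hM₁ (mem_image_of_mem u (ball_subset_closedBall ha))
      have h3 := hM₂ (mem_image_of_mem u (ball_subset_closedBall hb))
      linarith
  exact (h1.contDiffAt (isOpen_ball.mem_nhds (mem_ball_self (by linarith)))).contDiffWithinAt

end Vale.Agent.P080.Zy
end

section

/-! The flat Zygmund class `Z` of notes 6808 / 7019 (P080): common definitions. -/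

open Set
open scoped RealInnerProductSpace

namespace Vale.Agent.P080.Zy

variable {E : Type*} [NormedAddCommGroup E] [InnerProductSpace ℝ E]

/-- Forward regularisation `V^L(t,y) = sup_q [V(t+L, y+Lq) - L|q|²/2]`; `V^0 = V`. For `L > 0` this
is `sup_z [V(t+L,z) - |z-y|²/(2L)]`. -/
noncomputable def fu (V : ℝ → E → ℝ) (L t : ℝ) (y : E) : ℝ :=
  ⨆ q : E, (V (t + L) (y + L • q) - L / 2 * ‖q‖ ^ 2)

/-- Backward regularisation `V_L(t,y) = inf_q [V(t-L, y+Lq) + L|q|²/2]`; `V_0 = V`. -/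
noncomputable def fl (V : ℝ → E → ℝ) (L t : ℝ) (y : E) : ℝ :=
  ⨅ q : E, (V (t - L) (y + L • q) + L / 2 * ‖q‖ ^ 2)

/-- Reflection `V(t,y) ↦ -V(-t,y)`; it exchanges `fu` and `-fl` and preserves the class. -/
def refl (V : ℝ → E → ℝ) : ℝ → E → ℝ := fun t y => - V (-t) y

/-- Adaptive cell flatness at `(t, y)`, size `r`, with error `C₀ r`. -/
def CellFlat (C₀ : ℝ) (V : ℝ → E → ℝ) (t : ℝ) (y : E) (r : ℝ) : Prop :=
  ∃ (v k : ℝ) (b : E), ∀ (s : ℝ) (z : E), |s| ≤ r → ‖z‖ ≤ r →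
    |V (t + s) (y + s • b + z) - (v + ⟪b, z⟫ + k * s)| ≤ C₀ * r

/-- The class `Z` (with constant `C₀`). -/
structure ZClass (C₀ : ℝ) (V : ℝ → E → ℝ) : Prop where
  cont : Continuous (fun p : ℝ × E => V p.1 p.2)
  up : ∀ t y, ConvexOn ℝ (Ici 0) (fun L => fu V L t y)
  dn : ∀ t y, ConcaveOn ℝ (Ici 0) (fun L => fl V L t y)
  flat : ∀ t y r, 0 < r → CellFlat C₀ V t y r

/-- **Theorem Z** (target): every member of the class is affine. -/
def TheoremZ (E : Type*) [NormedAddCommGroup E] [InnerProductSpace ℝ E] : Prop :=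
  ∀ (C₀ : ℝ) (V : ℝ → E → ℝ), ZClass C₀ V →
    ∃ (a k : ℝ) (b : E), ∀ t y, V t y = a + ⟪b, y⟫ + k * t

end Vale.Agent.P080.Zy
end

section

/-! Definitions for the reduction (S1) of note 7019 (P080): from isotropic functions to the
class `Z`. -/

open Set Filter
open scoped RealInnerProductSpace Topology

namespace Vale.Agent.P080.Zy

variable {E : Type*} [NormedAddCommGroup E] [InnerProductSpace ℝ E]

/-- Convexity of `r ↦ max_{B(x,r)} u` (in the open ball of radius `R`), in attained form. -/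
def IsoUp (R : ℝ) (u : E → ℝ) : Prop :=
  ∀ (x q : E) (l₁ l₂ a b : ℝ), 0 ≤ l₁ → 0 ≤ l₂ → 0 ≤ a → 0 ≤ b → a + b = 1 →
    ‖x‖ + l₁ * ‖q‖ < R → ‖x‖ + l₂ * ‖q‖ < R →
    ∃ q₁ q₂ : E, ‖q₁‖ ≤ ‖q‖ ∧ ‖q₂‖ ≤ ‖q‖ ∧
      u (x + (a * l₁ + b * l₂) • q) ≤ a * u (x + l₁ • q₁) + b * u (x + l₂ • q₂)

/-- The isotropic class on the open ball of radius `R`. -/
structure Iso (R : ℝ) (u : E → ℝ) : Prop where
  lip : ∀ x y, ‖x‖ < R → ‖y‖ < R → |u x - u y| ≤ ‖x - y‖
  up : IsoUp R u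
  dn : IsoUp R (fun x => - u x)

/-- Adaptive flatness of `u` at `(x, r)`: error `μ r` on the cell of sizes `r/μ` (along `c`)
and `r`. -/
def MuFlat (μ : ℝ) (u : E → ℝ) (x : E) (r : ℝ) : Prop :=
  ∃ (c : E) (v k : ℝ), ‖c‖ ≤ 2 ∧ ∀ (t : ℝ) (y : E), |t| ≤ r / μ → ‖y‖ ≤ r →
    |u (x + t • c + y) - (v + ⟪c, y⟫ + k * t)| ≤ μ * r

/-- every isotropic function on the ball of radius `R` is `μ`-flat at `(0, 1)` -/
def Good (E : Type*) [NormedAddCommGroup E] [InnerProductSpace ℝ E] (R μ : ℝ) : Prop :=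
  ∀ u : E → ℝ, Iso R u → MuFlat μ u 0 1

/-- cell flatness of `W` with given data -/
def SCellD (A : ℝ) (W : ℝ → E → ℝ) (s₀ : ℝ) (z₀ : E) (r v k : ℝ) (b : E) : Prop :=
  ∀ (s : ℝ) (y : E), |s| ≤ r / A → ‖y‖ ≤ r →
    |W (s₀ + s) (z₀ + s • b + y) - (v + ⟪b, y⟫ + k * s)| ≤ A * r

/-- cell flatness of `W` at `(s₀, z₀)`, size `r`, constant `A` -/
def SCell (A : ℝ) (W : ℝ → E → ℝ) (s₀ : ℝ) (z₀ : E) (r : ℝ) : Prop :=
  ∃ (v k : ℝ) (b : E), SCellD A W s₀ z₀ r v k b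

/-- The flat convexity, attained form, up to the size `Λ`. -/
def FlatUp (ρ Λ : ℝ) (W : ℝ → E → ℝ) : Prop :=
  ∀ (t : ℝ) (y p : E) (L₁ L₂ a b : ℝ), |t| ≤ Λ → ‖y‖ ≤ Λ → ‖p‖ ≤ Λ → 0 ≤ L₁ → L₁ ≤ Λ →
    0 ≤ L₂ → L₂ ≤ Λ → 0 ≤ a → 0 ≤ b → a + b = 1 →
    ∃ p₁ p₂ : E, L₁ * ‖p₁‖ ≤ ρ / 2 ∧ L₂ * ‖p₂‖ ≤ ρ / 2 ∧
      W (t + (a * L₁ + b * L₂)) (y + (a * L₁ + b * L₂) • p) - (a * L₁ + b * L₂) / 2 * ‖p‖ ^ 2 ≤
        a * (W (t + L₁) (y + L₁ • p₁) - L₁ / 2 * ‖p₁‖ ^ 2) +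
        b * (W (t + L₂) (y + L₂ • p₂) - L₂ / 2 * ‖p₂‖ ^ 2)

/-- Approximate member of the class `Z`, on the region of size `ρ`; the constants of the cell
flatness at the scale `2 ^ i ≤ ρ ^ 2` are `2 ^ (α (i + 1))`, and `2 ^ α` at small scales. -/
structure ApproxZ (ρ Λ α : ℝ) (W : ℝ → E → ℝ) : Prop where
  le_rho : 4 * Λ ≤ ρ
  unit : ∀ s z, |s| ≤ 1 / 2 → ‖z‖ ≤ 1 → |W s z| ≤ 2
  big : ∀ s z (i : ℕ), |s| ≤ ρ → ‖z‖ ≤ ρ → (2 : ℝ) ^ i ≤ ρ ^ 2 →
    SCell (2 ^ (α * (i + 1))) W s z (2 ^ i)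
  small : ∀ s z (i : ℕ), |s| ≤ ρ → ‖z‖ ≤ ρ → SCell (2 ^ α) W s z ((2 : ℝ)⁻¹ ^ i)
  up : FlatUp ρ Λ W
  dn : FlatUp ρ Λ (refl W)

/-- The blow-up of `u` in the frame `(v, k, c)` with amplitude `μ`. -/
noncomputable def blow (u : E → ℝ) (μ v k : ℝ) (c : E) : ℝ → E → ℝ :=
  fun s z => (u (z + (s / μ) • c) - v - ⟪c, z⟫ - k * s / μ) / μ

/-- A sequence of approximate members which converges to the class `Z`. -/
structure ApproxSeq (ρ Λ α : ℕ → ℝ) (W : ℕ → ℝ → E → ℝ) : Prop where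
  rho : Tendsto ρ atTop atTop
  lam : Tendsto Λ atTop atTop
  al : Tendsto α atTop (𝓝 0)
  al0 : ∀ n, 0 ≤ α n
  al8 : ∀ n, α n ≤ 1 / 8
  ap : ∀ n, ApproxZ (ρ n) (Λ n) (α n) (W n)

/-- Locally uniform convergence along the hyperfilter. -/
def LocUnif (W : ℕ → ℝ → E → ℝ) (V : ℝ → E → ℝ) : Prop :=
  ∀ B ε : ℝ, 0 < ε → ∀ᶠ n in (hyperfilter ℕ : Filter ℕ), ∀ s z, |s| ≤ B → ‖z‖ ≤ B →
    |W n s z - V s z| ≤ ε

end Vale.Agent.P080.Zy
end

section

end

section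

/-! P080, block S1, file S1K0: the full interior estimate from the expansions of isotropic
functions. -/

open Set Filter Metric
open scoped RealInnerProductSpace Topology

namespace Vale.Agent.P080.Zy

/-! ### expansions (local copies of lemmas of `Holder.lean` and `Final.lean`) -/

section

variable {E : Type*} [NormedAddCommGroup E] [InnerProductSpace ℝ E]

/-- pointwise `C^{1,α}` expansion of `u` at `A` -/
def Expands (u : E → ℝ) (A p : E) (R₀ K C α : ℝ) : Prop :=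
  ∀ x : E, ‖x - A‖ ≤ R₀ / 12 → |u x - u A - ⟪p, x - A⟫| ≤ C * K * R₀ * (‖x - A‖ / R₀) ^ (1 + α)

theorem Expands.hasGradientAt [CompleteSpace E] {u : E → ℝ} {A p : E} {R₀ K C α : ℝ}
    (h : Expands u A p R₀ K C α) (hR : 0 < R₀) (hα : 0 < α) : HasGradientAt u p A := by
  rw [hasGradientAt_iff_hasFDerivAt, hasFDerivAt_iff_isLittleO]
  rw [Asymptotics.isLittleO_iff]
  intro c hc
  have hlim : Tendsto (fun x : E => |C * K| * (‖x - A‖ / R₀) ^ α) (𝓝 A) (𝓝 0) := by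
    have h1 : Tendsto (fun x : E => ‖x - A‖ / R₀) (𝓝 A) (𝓝 0) := by
      have : Continuous (fun x : E => ‖x - A‖ / R₀) := by (clear * -; fun_prop)
      simpa only [sub_self, norm_zero, zero_div] using this.tendsto A
    have h2 := (h1.rpow_const (p := α) (Or.inr hα.le)).const_mul |C * K|
    rwa [Real.zero_rpow hα.ne', mul_zero] at h2
  have hev : ∀ᶠ x in 𝓝 A, |C * K| * (‖x - A‖ / R₀) ^ α < c := hlim (Iio_mem_nhds hc)
  filter_upwards [hev, closedBall_mem_nhds A (by positivity : 0 < R₀ / 12)] with x hx1 hx2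
  rw [mem_closedBall, dist_eq_norm] at hx2
  have h1 := h x hx2
  have h2 : u x - u A - (InnerProductSpace.toDual ℝ E p) (x - A) = u x - u A - ⟪p, x - A⟫ := by
    rw [InnerProductSpace.toDual_apply_apply]
  rw [h2, Real.norm_eq_abs]
  refine h1.trans ?_
  rcases (norm_nonneg (x - A)).eq_or_lt with h0 | h0
  · rw [← h0, zero_div, Real.zero_rpow (by linarith only [hα]), mul_zero, mul_zero]
  · rw [Real.rpow_add (by positivity), Real.rpow_one]
    have h3 : C * K * R₀ * (‖x - A‖ / R₀ * (‖x - A‖ / R₀) ^ α) =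
      (C * K * (‖x - A‖ / R₀) ^ α) * ‖x - A‖ := by (clear * - hR h0; field_simp)
    rw [h3]
    apply mul_le_mul_of_nonneg_right _ h0.le
    refine le_trans ?_ hx1.le
    apply mul_le_mul_of_nonneg_right (le_abs_self _) (by positivity)

/-- comparison of two expansions -/
theorem Expands.norm_sub_le {u : E → ℝ} {A B p p' : E} {R₀ K C α : ℝ} (hR : 0 < R₀) (hK : 0 < K)
    (hC : 1 ≤ C) (hα : 0 < α) (hα1 : α < 1)
    (hA : Expands u A p R₀ K C α) (hB : Expands u B p' R₀ K C α) (hp : ‖p‖ ≤ K) (hp' : ‖p'‖ ≤ K) :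
    ‖p - p'‖ ≤ 48 * C * K * (‖A - B‖ / R₀) ^ α := by
  rcases eq_or_ne p p' with hpp | hpp
  · rw [hpp, sub_self, norm_zero]; (clear * - hC hK hR; positivity)
  have hpos : 0 < ‖p - p'‖ := norm_pos_iff.2 (sub_ne_zero.2 hpp)
  rcases le_or_gt ‖A - B‖ (R₀ / 24) with hsmall | hlarge
  · set h := ‖A - B‖ with hh
    rcases (norm_nonneg (A - B)).eq_or_lt with h0 | h0
    · -- `A = B`
      exfalso
      have hAB : A = B := by
        have : A - B = 0 := norm_eq_zero.1 h0.symm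
        exact sub_eq_zero.1 this
      subst hAB
      -- the gradients agree by a limiting argument
      have hlim : Tendsto (fun s : ℝ => 2 * (C * K) * (s / R₀) ^ α) (𝓝 0) (𝓝 0) := by
        have h1 : Tendsto (fun s : ℝ => s / R₀) (𝓝 0) (𝓝 0) := by
          have : Continuous (fun s : ℝ => s / R₀) := by fun_prop
          simpa using this.tendsto 0
        have h2 := (h1.rpow_const (p := α) (Or.inr hα.le)).const_mul (2 * (C * K))
        rwa [Real.zero_rpow hα.ne', mul_zero] at h2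
      have hev : ∀ᶠ s in 𝓝[>] (0 : ℝ), 2 * (C * K) * (s / R₀) ^ α < ‖p - p'‖ :=
        (hlim.mono_left nhdsWithin_le_nhds) (Iio_mem_nhds hpos)
      have hev2 : ∀ᶠ s in 𝓝[>] (0 : ℝ), s ≤ R₀ / 12 := by
        apply mem_nhdsWithin_of_mem_nhds
        exact Iic_mem_nhds (by positivity)
      obtain ⟨s, hs1, hs2, hs3⟩ := (hev.and (hev2.and self_mem_nhdsWithin)).exists
      have hs0 : 0 < s := hs3
      set x : E := A + s • ((1 / ‖p - p'‖) • (p - p')) with hx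
      have hxA : x - A = s • ((1 / ‖p - p'‖) • (p - p')) := by rw [hx]; abel
      have hn : ‖x - A‖ = s := by
        rw [hxA, norm_smul, norm_smul, Real.norm_of_nonneg hs0.le,
          Real.norm_of_nonneg (by positivity)]
        field_simp
      have h1 := hA x (by rw [hn]; exact hs2)
      have h2 := hB x (by rw [hn]; exact hs2)
      rw [hn] at h1 h2
      have h3 : ⟪p, x - A⟫ - ⟪p', x - A⟫ = s * ‖p - p'‖ := by
        rw [← inner_sub_left, hxA, real_inner_smul_right, real_inner_smul_right,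
          real_inner_self_eq_norm_sq]
        (clear * - hpos hs3; field_simp)
      have h4 : s * ‖p - p'‖ ≤ 2 * (C * K * R₀ * (s / R₀) ^ (1 + α)) := by
        rw [← h3]
        linarith only [(abs_le.1 h2).2, (abs_le.1 h1).1]
      have h5 : 2 * (C * K * R₀ * (s / R₀) ^ (1 + α)) = s * (2 * (C * K) * (s / R₀) ^ α) := by
        rw [Real.rpow_add (by positivity), Real.rpow_one]
        (clear * - hR hs3 hK hC; field_simp)
      rw [h5] at h4
      have := lt_of_lt_of_le (mul_lt_mul_of_pos_left hs1 hs0) h4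
      exact lt_irrefl _ this
    · set v : E := (1 / ‖p - p'‖) • (p - p') with hv
      have hv1 : ‖v‖ = 1 := by
        rw [hv, norm_smul, Real.norm_of_nonneg (by positivity)]
        field_simp
      set z : E := B + h • v with hz
      have hzB : z - B = h • v := by rw [hz]; abel
      have hzBn : ‖z - B‖ = h := by
        rw [hzB, norm_smul, hv1, mul_one, Real.norm_of_nonneg h0.le]
      have hzA : ‖z - A‖ ≤ 2 * h := by
        have : z - A = (z - B) - (A - B) := by abel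
        rw [this]
        refine (_root_.norm_sub_le _ _).trans ?_
        rw [hzBn]; linarith only []
      have hBA : ‖B - A‖ = h := by rw [norm_sub_rev]
      have h1 := hA z (by linarith only [hsmall, hzA])
      have h2 := hA B (by rw [hBA]; linarith only [hsmall, h0])
      have h3 := hB z (by rw [hzBn]; linarith only [hsmall, h0])
      rw [hBA] at h2
      rw [hzBn] at h3
      have hmono : (‖z - A‖ / R₀) ^ (1 + α) ≤ 4 * (h / R₀) ^ (1 + α) := by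
        calc (‖z - A‖ / R₀) ^ (1 + α) ≤ (2 * (h / R₀)) ^ (1 + α) := by
              apply Real.rpow_le_rpow (by (clear * - hR; positivity)) _ (by linarith only [hα])
              rw [mul_div_assoc']
              (clear * - hzA hR; gcongr)
          _ = 2 ^ (1 + α) * (h / R₀) ^ (1 + α) := Real.mul_rpow (by norm_num) (by positivity)
          _ ≤ 4 * (h / R₀) ^ (1 + α) := by
              apply mul_le_mul_of_nonneg_right _ (by positivity)
              calc (2 : ℝ) ^ (1 + α) ≤ 2 ^ (2 : ℝ) := by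
                    apply Real.rpow_le_rpow_of_exponent_le (by norm_num) (by linarith only [hα1])
                _ = 4 := by norm_num
      have h4 : ⟪p, z - A⟫ - ⟪p, B - A⟫ - ⟪p', z - B⟫ = h * ‖p - p'‖ := by
        rw [← inner_sub_right]
        have : z - A - (B - A) = z - B := by abel
        rw [this, ← inner_sub_left, hzB, real_inner_smul_right, hv, real_inner_smul_right,
          real_inner_self_eq_norm_sq]
        (clear * - hpos; field_simp)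
      have hCK : 0 ≤ C * K * R₀ := by positivity
      have h1' := h1.trans (mul_le_mul_of_nonneg_left hmono hCK)
      have h5 : h * ‖p - p'‖ ≤ 6 * (C * K * R₀ * (h / R₀) ^ (1 + α)) := by
        rw [← h4]
        linarith only [(abs_le.1 h1').1, (abs_le.1 h2).2, (abs_le.1 h3).2]
      have h6 : 6 * (C * K * R₀ * (h / R₀) ^ (1 + α)) = h * (6 * C * K * (h / R₀) ^ α) := by
        rw [Real.rpow_add (by positivity), Real.rpow_one]
        (clear * - hR hK hC; field_simp)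
      rw [h6] at h5
      have h7 := le_of_mul_le_mul_left h5 h0
      refine h7.trans ?_
      apply mul_le_mul_of_nonneg_right _ (by positivity)
      nlinarith only [hC, hK]
  · have h1 : ‖p - p'‖ ≤ 2 * K := (_root_.norm_sub_le _ _).trans (by linarith)
    refine h1.trans ?_
    have h2 : 1 / 24 ≤ ‖A - B‖ / R₀ := by
      rw [le_div_iff₀ hR]; linarith
    have h3 : (1 / 24 : ℝ) ≤ (‖A - B‖ / R₀) ^ α := by
      calc (1 / 24 : ℝ) = (1 / 24 : ℝ) ^ (1 : ℝ) := by rw [Real.rpow_one]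
        _ ≤ (1 / 24 : ℝ) ^ α :=
          Real.rpow_le_rpow_of_exponent_ge (by norm_num) (by norm_num) hα1.le
        _ ≤ _ := Real.rpow_le_rpow (by norm_num) h2 hα.le
    have h4 : K * 1 ≤ K * C := mul_le_mul_of_nonneg_left hC hK.le
    have h5 := mul_le_mul_of_nonneg_left h3 (by positivity : 0 ≤ 48 * C * K)
    linarith only [h4, h5]

theorem continuousOn_of_holder {E : Type*} [NormedAddCommGroup E] {F : Type*}
    [NormedAddCommGroup F] {f : E → F} {s : Set E} {C R α : ℝ} (hα : 0 < α)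
    (h : ∀ x ∈ s, ∀ y ∈ s, ‖f x - f y‖ ≤ C * (‖x - y‖ / R) ^ α) : ContinuousOn f s := by
  intro x hx
  rw [ContinuousWithinAt, tendsto_iff_norm_sub_tendsto_zero]
  have hlim : Tendsto (fun y : E => C * (‖y - x‖ / R) ^ α) (𝓝[s] x) (𝓝 0) := by
    have h1 : Tendsto (fun y : E => ‖y - x‖ / R) (𝓝 x) (𝓝 0) := by
      have : Continuous (fun y : E => ‖y - x‖ / R) := by fun_prop
      simpa only [sub_self, norm_zero, zero_div] using this.tendsto x
    have h2 := (h1.rpow_const (p := α) (Or.inr hα.le)).const_mul C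
    rw [Real.zero_rpow hα.ne', mul_zero] at h2
    exact h2.mono_left nhdsWithin_le_nhds
  refine squeeze_zero' (Eventually.of_forall fun _ => norm_nonneg _) ?_ hlim
  filter_upwards [self_mem_nhdsWithin] with y hy
  exact h y hy x hx

theorem contDiffOn_of_gradient_holder {E : Type*} [NormedAddCommGroup E] [InnerProductSpace ℝ E]
    [FiniteDimensional ℝ E] {u : E → ℝ} {s : Set E} (hs : IsOpen s) {C R α : ℝ} (hα : 0 < α)
    (hd : ∀ x ∈ s, DifferentiableAt ℝ u x)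
    (h : ∀ x ∈ s, ∀ y ∈ s, ‖gradient u x - gradient u y‖ ≤ C * (‖x - y‖ / R) ^ α) :
    ContDiffOn ℝ 1 u s := by
  have h01 : (1 : WithTop ℕ∞) = 0 + 1 := by norm_num
  rw [h01, contDiffOn_succ_iff_fderiv_of_isOpen hs]
  refine ⟨fun x hx => (hd x hx).differentiableWithinAt, by simp, ?_⟩
  rw [contDiffOn_zero]
  apply continuousOn_of_holder (C := C) (R := R) hα
  intro x hx y hy
  have h1 : ‖fderiv ℝ u x - fderiv ℝ u y‖ = ‖gradient u x - gradient u y‖ := by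
    unfold gradient
    rw [← map_sub, LinearIsometryEquiv.norm_map]
  rw [h1]
  exact h x hx y hy

end

variable {E : Type} [NormedAddCommGroup E] [InnerProductSpace ℝ E]

/-- The full interior estimate (answer to Q1) in the space `E`. -/
def FullEstimate (E : Type*) [NormedAddCommGroup E] [InnerProductSpace ℝ E] [CompleteSpace E]
    (α C : ℝ) : Prop :=
  ∀ (u : E → ℝ) (x₀ : E) (R M : ℝ), 0 < R → IsInfHarmonicOn u (Metric.ball x₀ R) →
    (∀ x ∈ Metric.ball x₀ R, ∀ y ∈ Metric.ball x₀ R, u x - u y ≤ M) →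
    ContDiffOn ℝ 1 u (Metric.ball x₀ (R / 2)) ∧
    (∀ x ∈ Metric.ball x₀ (R / 2), ‖gradient u x‖ ≤ C * (M / R)) ∧
    (∀ x ∈ Metric.ball x₀ (R / 2), ∀ y ∈ Metric.ball x₀ (R / 2),
      ‖gradient u x - gradient u y‖ ≤ C * (M / R) * (‖x - y‖ / R) ^ α)

/-- the expansion at a point of the half ball -/
theorem expands_half [FiniteDimensional ℝ E] [Nontrivial E] {α C : ℝ} (hα : 0 < α) (hα1 : α < 1)
    (hC : 1 ≤ C)
    (h : ∀ (u : E → ℝ), Iso 4 u → ∀ A : E, ‖A‖ ≤ 2 →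
      ∃ p : E, ‖p‖ ≤ 2 ∧ ∀ y : E, ‖y‖ ≤ 1 → |u (A + y) - u A - ⟪p, y⟫| ≤ C * ‖y‖ ^ (1 + α))
    {u : E → ℝ} {x : E} {R M : ℝ} (hR : 0 < R) (hM : 0 < M)
    (hiso : Iso 4 (fun y => u (x + (R / 16) • y) / (M / 4))) :
    ∃ P : E, ‖P‖ ≤ 8 * (M / R) ∧ Expands u x P (3 * R / 4) (8 * (M / R)) (6 * C) α := by
  obtain ⟨p, hp, hexp⟩ := h _ hiso 0 (by simp)
  refine ⟨(4 * (M / R)) • p, ?_, ?_⟩
  · rw [norm_smul, Real.norm_of_nonneg (by positivity)]
    have h1 : 0 ≤ 4 * (M / R) := by positivity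
    nlinarith only [hp, h1]
  · intro y hy
    have hy' : ‖y - x‖ ≤ R / 16 := by
      refine hy.trans (le_of_eq ?_)
      ring
    have h1 := hexp ((16 / R) • (y - x)) (by
      rw [norm_smul, Real.norm_of_nonneg (by positivity)]
      calc 16 / R * ‖y - x‖ ≤ 16 / R * (R / 16) := by gcongr
        _ = 1 := by field_simp)
    have h2 : x + (R / 16) • ((0 : E) + (16 / R) • (y - x)) = y := by
      rw [zero_add, smul_smul, show R / 16 * (16 / R) = 1 by field_simp, one_smul]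
      abel
    have h3 : x + (R / 16) • (0 : E) = x := by rw [smul_zero, add_zero]
    simp only [h2, h3] at h1
    rw [real_inner_smul_right, norm_smul, Real.norm_of_nonneg (by positivity : 0 ≤ 16 / R)] at h1
    have h4 : u y - u x - ⟪(4 * (M / R)) • p, y - x⟫ =
        M / 4 * (u y / (M / 4) - u x / (M / 4) - 16 / R * ⟪p, y - x⟫) := by
      rw [real_inner_smul_left]
      field_simp
      ring
    rw [h4, abs_mul, abs_of_pos (by positivity : 0 < M / 4)]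
    have h5 : (16 / R * ‖y - x‖) ^ (1 + α) ≤ 144 * (‖y - x‖ / (3 * R / 4)) ^ (1 + α) := by
      have h6 : 16 / R * ‖y - x‖ = 12 * (‖y - x‖ / (3 * R / 4)) := by
        field_simp
        ring
      rw [h6, Real.mul_rpow (by norm_num) (by positivity)]
      apply mul_le_mul_of_nonneg_right _ (by (clear * - hR; positivity))
      calc (12 : ℝ) ^ (1 + α) ≤ 12 ^ (2 : ℝ) := by
            apply Real.rpow_le_rpow_of_exponent_le (by norm_num) (by linarith only [hα1])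
        _ = 144 := by norm_num
    calc M / 4 * |u y / (M / 4) - u x / (M / 4) - 16 / R * ⟪p, y - x⟫|
        ≤ M / 4 * (C * (144 * (‖y - x‖ / (3 * R / 4)) ^ (1 + α))) := by
          apply mul_le_mul_of_nonneg_left _ (by positivity)
          exact h1.trans (mul_le_mul_of_nonneg_left h5 (by linarith only [hC]))
      _ = 6 * C * (8 * (M / R)) * (3 * R / 4) * (‖y - x‖ / (3 * R / 4)) ^ (1 + α) := by
          field_simp
          ring

/-- the estimate from the expansions of isotropic functions -/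
theorem fullEstimate_of [FiniteDimensional ℝ E] {α C : ℝ} (hα0 : 0 < α) (hα1 : α < 1)
    (hC : 1 ≤ C)
    (h : ∀ (u : E → ℝ), Iso 4 u → ∀ A : E, ‖A‖ ≤ 2 →
      ∃ p : E, ‖p‖ ≤ 2 ∧ ∀ y : E, ‖y‖ ≤ 1 → |u (A + y) - u A - ⟪p, y⟫| ≤ C * ‖y‖ ^ (1 + α))
    (hiso : Nontrivial E → ∀ (u : E → ℝ) (x₀ x : E) (R M : ℝ), 0 < R → 0 < M →
      ConeComp u (Metric.ball x₀ R) →
      (∀ x ∈ Metric.ball x₀ R, ∀ y ∈ Metric.ball x₀ R, u x - u y ≤ M) →
      ‖x - x₀‖ < R / 2 → Iso 4 (fun y => u (x + (R / 16) • y) / (M / 4))) :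
    FullEstimate E α (4608 * C) := by
  intro u x₀ R M hR hu hosc
  have hM : 0 ≤ M := by
    have := hosc x₀ (mem_ball_self hR) x₀ (mem_ball_self hR)
    linarith
  have hcc := hu.coneComp
  have hmain : (∀ x ∈ ball x₀ (R / 2), DifferentiableAt ℝ u x) ∧
      (∀ x ∈ ball x₀ (R / 2), ‖gradient u x‖ ≤ 4608 * C * (M / R)) ∧
      (∀ x ∈ ball x₀ (R / 2), ∀ y ∈ ball x₀ (R / 2),
        ‖gradient u x - gradient u y‖ ≤ 4608 * C * (M / R) * (‖x - y‖ / R) ^ α) := by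
    rcases subsingleton_or_nontrivial E with hsub | hnt
    · refine ⟨fun x _ => (hasFDerivAt_of_subsingleton u x).differentiableAt, ?_, ?_⟩
      · intro x hx
        rw [Subsingleton.elim (gradient u x) 0, norm_zero]
        (clear * - hC hM hR; positivity)
      · intro x hx y hy
        rw [Subsingleton.elim (gradient u x - gradient u y) 0, norm_zero]
        (clear * - hC hM hR; positivity)
    · rcases hM.eq_or_lt with hM0 | hM0
      · -- constant functions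
        have hconst : ∀ x ∈ ball x₀ R, u x = u x₀ := by
          intro x hx
          have h1 := hosc x hx x₀ (mem_ball_self hR)
          have h2 := hosc x₀ (mem_ball_self hR) x hx
          linarith
        have hg : ∀ x ∈ ball x₀ (R / 2), HasGradientAt u 0 x := by
          intro x hx
          have hx' : x ∈ ball x₀ R := ball_subset_ball (by linarith) hx
          have h1 : u =ᶠ[𝓝 x] fun _ => u x₀ := by
            filter_upwards [isOpen_ball.mem_nhds hx'] with y hy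
            exact hconst y hy
          exact (hasGradientAt_const x (u x₀)).congr_of_eventuallyEq h1
        refine ⟨fun x hx => (hg x hx).differentiableAt, ?_, ?_⟩
        · intro x hx
          rw [(hg x hx).gradient, norm_zero]
          positivity
        · intro x hx y hy
          rw [(hg x hx).gradient, (hg y hy).gradient, sub_zero, norm_zero]
          (clear * - hC hM hR; positivity)
      · have hE : ∀ x ∈ ball x₀ (R / 2), ∃ P : E, ‖P‖ ≤ 8 * (M / R) ∧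
            Expands u x P (3 * R / 4) (8 * (M / R)) (6 * C) α := by
          intro x hx
          rw [mem_ball, dist_eq_norm] at hx
          exact expands_half hα0 hα1 hC h hR hM0 (hiso hnt u x₀ x R M hR hM0 hcc hosc hx)
        have hg : ∀ x ∈ ball x₀ (R / 2), HasGradientAt u (gradient u x) x ∧
            ‖gradient u x‖ ≤ 8 * (M / R) ∧
            Expands u x (gradient u x) (3 * R / 4) (8 * (M / R)) (6 * C) α := by
          intro x hx
          obtain ⟨P, hP1, hP2⟩ := hE x hx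
          have h1 := hP2.hasGradientAt (by positivity) hα0
          rw [h1.gradient]
          exact ⟨h1, hP1, hP2⟩
        refine ⟨fun x hx => (hg x hx).1.differentiableAt, ?_, ?_⟩
        · intro x hx
          refine (hg x hx).2.1.trans ?_
          have h1 : 0 < M / R := by positivity
          linarith only [mul_nonneg (le_of_lt (sub_pos.2 h1)) (sub_nonneg.2 hC), h1]
        · intro x hx y hy
          have h1 := Expands.norm_sub_le (by positivity) (by positivity) (by linarith) hα0 hα1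
            (hg x hx).2.2 (hg y hy).2.2 (hg x hx).2.1 (hg y hy).2.1
          refine h1.trans ?_
          have h2 : ‖x - y‖ / (3 * R / 4) ≤ 2 * (‖x - y‖ / R) := by
            rw [div_le_iff₀ (by positivity)]
            have : 2 * (‖x - y‖ / R) * (3 * R / 4) = 3 / 2 * ‖x - y‖ := by
              field_simp
              ring
            rw [this]
            linarith only [norm_nonneg (x - y)]
          have h3 : (‖x - y‖ / (3 * R / 4)) ^ α ≤ 2 * (‖x - y‖ / R) ^ α := by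
            calc (‖x - y‖ / (3 * R / 4)) ^ α ≤ (2 * (‖x - y‖ / R)) ^ α :=
                  Real.rpow_le_rpow (by positivity) h2 hα0.le
              _ = 2 ^ α * (‖x - y‖ / R) ^ α := Real.mul_rpow (by norm_num) (by positivity)
              _ ≤ 2 * (‖x - y‖ / R) ^ α := by
                  apply mul_le_mul_of_nonneg_right _ (by positivity)
                  calc (2 : ℝ) ^ α ≤ 2 ^ (1 : ℝ) :=
                        Real.rpow_le_rpow_of_exponent_le (by norm_num) hα1.le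
                    _ = 2 := by norm_num
          calc 48 * (6 * C) * (8 * (M / R)) * (‖x - y‖ / (3 * R / 4)) ^ α
              ≤ 48 * (6 * C) * (8 * (M / R)) * (2 * (‖x - y‖ / R) ^ α) := by
                apply mul_le_mul_of_nonneg_left h3 (by positivity)
            _ = 4608 * C * (M / R) * (‖x - y‖ / R) ^ α := by ring
  exact ⟨contDiffOn_of_gradient_holder isOpen_ball hα0 hmain.1 hmain.2.2, hmain.2.1, hmain.2.2⟩

end Vale.Agent.P080.Zy
end

section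

/-! File S1A of the reduction (S1) of note 7019 (P080): elementary facts on adaptive flatness and
the isotropic class. -/

open Set Filter
open scoped RealInnerProductSpace Topology

namespace Vale.Agent.P080.Zy

variable {E : Type*} [NormedAddCommGroup E] [InnerProductSpace ℝ E]

theorem MuFlat.mono {μ μ' r : ℝ} {u : E → ℝ} {x : E} (h : MuFlat μ u x r) (hμ : 0 < μ)
    (hle : μ ≤ μ') (hr : 0 ≤ r) : MuFlat μ' u x r := by
  obtain ⟨c, v, k, hc, H⟩ := h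
  refine ⟨c, v, k, hc, fun t y ht hy => ?_⟩
  have h1 : r / μ' ≤ r / μ := div_le_div_of_nonneg_left hr hμ hle
  exact (H t y (ht.trans h1) hy).trans (mul_le_mul_of_nonneg_right hle hr)

theorem IsoUp.mono {R R' : ℝ} {u : E → ℝ} (h : IsoUp R u) (hle : R' ≤ R) : IsoUp R' u := by
  intro x q l₁ l₂ a b h1 h2 ha hb hab hx1 hx2
  exact h x q l₁ l₂ a b h1 h2 ha hb hab (hx1.trans_le hle) (hx2.trans_le hle)

theorem Iso.mono {R R' : ℝ} {u : E → ℝ} (h : Iso R u) (hle : R' ≤ R) : Iso R' u where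
  lip := fun x y hx hy => h.lip x y (hx.trans_le hle) (hy.trans_le hle)
  up := h.up.mono hle
  dn := h.dn.mono hle

theorem IsoUp.rescale {R R' r : ℝ} {u : E → ℝ} {x : E} (h : IsoUp R u) (hr : 0 < r)
    (hx : ‖x‖ + r * R' ≤ R) : IsoUp R' (fun y => u (x + r • y) / r) := by
  intro x' q l₁ l₂ a b h1 h2 ha hb hab hx1 hx2
  have key : ∀ l : ℝ, ‖x'‖ + l * ‖q‖ < R' → ‖x + r • x'‖ + (r * l) * ‖q‖ < R := by
    intro l hl
    have h3 : ‖x + r • x'‖ ≤ ‖x‖ + r * ‖x'‖ := by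
      refine (norm_add_le _ _).trans ?_
      rw [norm_smul, Real.norm_of_nonneg hr.le]
    have h4 : r * (‖x'‖ + l * ‖q‖) < r * R' := mul_lt_mul_of_pos_left hl hr
    calc ‖x + r • x'‖ + (r * l) * ‖q‖ ≤ ‖x‖ + r * ‖x'‖ + (r * l) * ‖q‖ := by linarith
      _ = ‖x‖ + r * (‖x'‖ + l * ‖q‖) := by ring
      _ < ‖x‖ + r * R' := by linarith
      _ ≤ R := hx
  obtain ⟨q₁, q₂, hq1, hq2, H⟩ := h (x + r • x') q (r * l₁) (r * l₂) a b
    (mul_nonneg hr.le h1) (mul_nonneg hr.le h2) ha hb hab (key l₁ hx1) (key l₂ hx2)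
  refine ⟨q₁, q₂, hq1, hq2, ?_⟩
  have e0 : x + r • (x' + (a * l₁ + b * l₂) • q) =
      x + r • x' + (a * (r * l₁) + b * (r * l₂)) • q := by
    rw [smul_add, smul_smul, ← add_assoc]
    congr 2
    ring
  have e1 : x + r • (x' + l₁ • q₁) = x + r • x' + (r * l₁) • q₁ := by
    rw [smul_add, smul_smul, ← add_assoc]
  have e2 : x + r • (x' + l₂ • q₂) = x + r • x' + (r * l₂) • q₂ := by
    rw [smul_add, smul_smul, ← add_assoc]
  show u (x + r • (x' + (a * l₁ + b * l₂) • q)) / r ≤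
    a * (u (x + r • (x' + l₁ • q₁)) / r) + b * (u (x + r • (x' + l₂ • q₂)) / r)
  rw [e0, e1, e2]
  calc u (x + r • x' + (a * (r * l₁) + b * (r * l₂)) • q) / r
      ≤ (a * u (x + r • x' + (r * l₁) • q₁) + b * u (x + r • x' + (r * l₂) • q₂)) / r :=
        div_le_div_of_nonneg_right H hr.le
    _ = a * (u (x + r • x' + (r * l₁) • q₁) / r) + b * (u (x + r • x' + (r * l₂) • q₂) / r) := by
        ring

theorem Iso.rescale {R R' r : ℝ} {u : E → ℝ} {x : E} (h : Iso R u) (hr : 0 < r)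
    (hx : ‖x‖ + r * R' ≤ R) : Iso R' (fun y => u (x + r • y) / r) where
  lip := by
    intro y z hy hz
    have key : ∀ w : E, ‖w‖ < R' → ‖x + r • w‖ < R := by
      intro w hw
      have h3 : ‖x + r • w‖ ≤ ‖x‖ + r * ‖w‖ := by
        refine (norm_add_le _ _).trans ?_
        rw [norm_smul, Real.norm_of_nonneg hr.le]
      have h4 : r * ‖w‖ < r * R' := mul_lt_mul_of_pos_left hw hr
      linarith
    have h5 := h.lip (x + r • y) (x + r • z) (key y hy) (key z hz)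
    have h6 : x + r • y - (x + r • z) = r • (y - z) := by
      rw [smul_sub]
      abel
    rw [h6, norm_smul, Real.norm_of_nonneg hr.le] at h5
    show |u (x + r • y) / r - u (x + r • z) / r| ≤ ‖y - z‖
    rw [← sub_div, abs_div, abs_of_pos hr, div_le_iff₀ hr]
    linarith
  up := h.up.rescale hr hx
  dn := by
    have h1 := h.dn.rescale (u := fun y => - u y) hr hx
    have h2 : (fun y => - (fun y => u (x + r • y) / r) y) = fun y => - u (x + r • y) / r := by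
      funext y
      exact (neg_div _ _).symm
    rw [h2]
    exact h1

theorem MuFlat.of_rescale {μ r : ℝ} {u : E → ℝ} {x : E} (hμ : 0 < μ) (hr : 0 < r)
    (h : MuFlat μ (fun y => u (x + r • y) / r) 0 1) : MuFlat μ u x r := by
  obtain ⟨c, v, k, hc, H⟩ := h
  refine ⟨c, r * v, k, hc, fun t y ht hy => ?_⟩
  have h1 : |t / r| ≤ 1 / μ := by
    rw [abs_div, abs_of_pos hr, div_le_iff₀ hr]
    calc |t| ≤ r / μ := ht
      _ = 1 / μ * r := by ring
  have h2 : ‖r⁻¹ • y‖ ≤ 1 := by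
    rw [norm_smul, Real.norm_of_nonneg (inv_nonneg.2 hr.le), inv_mul_le_iff₀ hr]
    linarith
  have h3 := H (t / r) (r⁻¹ • y) h1 h2
  have e1 : x + r • ((0 : E) + (t / r) • c + r⁻¹ • y) = x + t • c + y := by
    rw [zero_add, smul_add, smul_smul, smul_smul, mul_inv_cancel₀ hr.ne', one_smul,
      mul_div_cancel₀ t hr.ne', add_assoc]
  have h4 : |u (x + t • c + y) / r - (v + ⟪c, r⁻¹ • y⟫ + k * (t / r))| ≤ μ * 1 := by
    rw [← e1]
    exact h3
  rw [real_inner_smul_right] at h4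
  have e2 : u (x + t • c + y) / r - (v + r⁻¹ * ⟪c, y⟫ + k * (t / r)) =
      (u (x + t • c + y) - (r * v + ⟪c, y⟫ + k * t)) / r := by
    field_simp
  rw [e2, abs_div, abs_of_pos hr, div_le_iff₀ hr, mul_one] at h4
  exact h4

theorem Good.mono {R R' μ μ' : ℝ} (h : Good E R μ) (hR : R ≤ R') (hμ0 : 0 < μ) (hμ : μ ≤ μ') :
    Good E R' μ' := by
  intro u hu
  exact (h u (hu.mono hR)).mono hμ0 hμ zero_le_one

theorem good_one : Good E 2 1 := by
  intro u hu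
  refine ⟨0, u 0, 0, by simp, fun t y ht hy => ?_⟩
  have h1 := hu.lip y 0 (lt_of_le_of_lt hy one_lt_two) (by simp)
  rw [sub_zero] at h1
  have e1 : (0 : E) + t • (0 : E) + y = y := by
    rw [smul_zero, add_zero, zero_add]
  rw [e1, inner_zero_left, zero_mul, add_zero, add_zero, mul_one]
  exact h1.trans hy

end Vale.Agent.P080.Zy
end

section

/-! P080, reduction (S1), file S1B: the record. -/

open Set Filter
open scoped RealInnerProductSpace Topology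

namespace Vale.Agent.P080.Zy

variable {E : Type*} [NormedAddCommGroup E] [InnerProductSpace ℝ E]

/-! ### file S1B: the record -/

theorem exists_record {α K : ℝ} (hα : 0 < α) (hα8 : α ≤ 1 / 8) (hK : 1 ≤ K)
    (h : ∃ j : ℕ, ¬ Good E (2 ^ (j + 1)) (K * 2 ^ (-(α * j)))) :
    ∃ (j : ℕ) (μ : ℝ) (u : E → ℝ), 0 < μ ∧ μ < 1 ∧ μ * 2 ^ (α * j) = K ∧
      Iso (2 ^ (j + 1)) u ∧ ¬ MuFlat μ u 0 1 ∧
      (∀ (x : E) (i : ℕ), ‖x‖ ≤ 2 ^ j → i < j → MuFlat (2 ^ (α * (i + 1)) * μ) u x (2 ^ i)) ∧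
      (∀ (x : E) (i : ℕ), ‖x‖ ≤ 2 ^ j → MuFlat (2 ^ α * μ) u x ((2 : ℝ)⁻¹ ^ i)) := by
  classical
  have hK0 : 0 < K := by linarith only [hK]
  obtain ⟨j, hj, hmin⟩ : ∃ j : ℕ, ¬ Good E (2 ^ (j + 1)) (K * 2 ^ (-(α * j))) ∧
      ∀ i < j, Good E (2 ^ (i + 1)) (K * 2 ^ (-(α * i))) :=
    ⟨Nat.find h, Nat.find_spec h, fun i hi => not_not.1 (Nat.find_min h hi)⟩
  set μ : ℝ := K * 2 ^ (-(α * j)) with hμ
  have hμ0 : 0 < μ := mul_pos hK0 (Real.rpow_pos_of_pos two_pos _)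
  have hμ1 : μ < 1 := by
    by_contra h1
    push Not at h1
    refine hj (good_one.mono ?_ one_pos h1)
    calc (2 : ℝ) = 2 ^ 1 := (pow_one 2).symm
      _ ≤ 2 ^ (j + 1) := pow_le_pow_right₀ (by norm_num) (by omega)
  have hj1 : 1 ≤ j := by
    by_contra h1
    have h2 : j = 0 := by omega
    rw [hμ, h2] at hμ1
    simp at hμ1
    linarith only [hK, hμ1]
  obtain ⟨u, hu, hnu⟩ : ∃ u : E → ℝ, Iso (2 ^ (j + 1)) u ∧ ¬ MuFlat μ u 0 1 := by
    by_contra h1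
    push Not at h1
    exact hj h1
  have hdouble : (2 : ℝ) ^ (j + 1) = 2 ^ j + 2 ^ j := by ring
  refine ⟨j, μ, u, hμ0, hμ1, ?_, hu, hnu, ?_, ?_⟩
  · rw [hμ, mul_assoc, ← Real.rpow_add two_pos, neg_add_cancel, Real.rpow_zero, mul_one]
  · intro x i hx hi
    obtain ⟨k, hk⟩ : ∃ k, j = i + (k + 1) := ⟨j - i - 1, by omega⟩
    have hr : (0 : ℝ) < 2 ^ i := by positivity
    have hx2 : ‖x‖ + 2 ^ i * 2 ^ (k + 1) ≤ (2 : ℝ) ^ (j + 1) := by
      rw [← pow_add, ← hk, hdouble]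
      linarith only [hx]
    have h1 := hmin k (by omega) _ (hu.rescale hr hx2)
    have e1 : K * (2 : ℝ) ^ (-(α * k)) = 2 ^ (α * (i + 1)) * μ := by
      rw [hμ, mul_left_comm, ← Real.rpow_add two_pos]
      congr 2
      rw [hk]
      push_cast
      ring
    rw [e1] at h1
    exact MuFlat.of_rescale (by positivity) hr h1
  · intro x i hx
    have hr : (0 : ℝ) < 2⁻¹ ^ i := by positivity
    have hr1 : (2 : ℝ)⁻¹ ^ i ≤ 1 := pow_le_one₀ (by norm_num) (by norm_num)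
    have hx2 : ‖x‖ + (2 : ℝ)⁻¹ ^ i * 2 ^ ((j - 1) + 1) ≤ (2 : ℝ) ^ (j + 1) := by
      rw [Nat.sub_add_cancel hj1, hdouble]
      have h2 : (2 : ℝ)⁻¹ ^ i * 2 ^ j ≤ 1 * 2 ^ j :=
        mul_le_mul_of_nonneg_right hr1 (by positivity)
      linarith only [hx, h2]
    have h1 := hmin (j - 1) (by omega) _ (hu.rescale hr hx2)
    have e1 : K * (2 : ℝ) ^ (-(α * (j - 1 : ℕ))) = 2 ^ α * μ := by
      rw [hμ, mul_left_comm, ← Real.rpow_add two_pos]
      congr 2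
      rw [Nat.cast_sub hj1]
      push_cast
      ring
    rw [e1] at h1
    exact MuFlat.of_rescale (by positivity) hr h1

end Vale.Agent.P080.Zy
end

section

/-! P080, block S1: adaptive flatness of `u` gives cell flatness of the blow-up. -/

open Set Filter
open scoped RealInnerProductSpace Topology

namespace Vale.Agent.P080.Zy

variable {E : Type*} [NormedAddCommGroup E] [InnerProductSpace ℝ E]

theorem scell_blow {A μ v k r s₀ : ℝ} {u : E → ℝ} {c z₀ : E} (hμ : 0 < μ) (hA : 0 < A)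
    (h : MuFlat (A * μ) u (z₀ + (s₀ / μ) • c) r) : SCell A (blow u μ v k c) s₀ z₀ r := by
  obtain ⟨c', v'', k'', -, H⟩ := h
  have hμ0 : μ ≠ 0 := hμ.ne'
  refine ⟨(v'' - v - ⟪c, z₀⟫ - k * s₀ / μ) / μ,
    (k'' / μ - ⟪c, (1 / μ) • (c' - c)⟫ - k / μ) / μ, (1 / μ) • (c' - c), ?_⟩
  intro s y hs hy
  have hs' : |s / μ| ≤ r / (A * μ) := by
    rw [abs_div, abs_of_pos hμ]
    calc |s| / μ ≤ (r / A) / μ := by gcongr
      _ = r / (A * μ) := by rw [div_div]
  have H1 := H (s / μ) y hs' hy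
  have hpt : z₀ + s • (1 / μ) • (c' - c) + y + ((s₀ + s) / μ) • c =
      z₀ + (s₀ / μ) • c + (s / μ) • c' + y := by
    have e1 : s • (1 / μ) • (c' - c) = (s / μ) • c' - (s / μ) • c := by
      rw [smul_smul, ← smul_sub]
      congr 1
      ring
    have e2 : ((s₀ + s) / μ) • c = (s₀ / μ) • c + (s / μ) • c := by
      rw [← add_smul]
      congr 1
      ring
    rw [e1, e2]
    abel
  have hin : ⟪c, z₀ + s • (1 / μ) • (c' - c) + y⟫ =
      ⟪c, z₀⟫ + s * ⟪c, (1 / μ) • (c' - c)⟫ + ⟪c, y⟫ := by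
    rw [inner_add_right, inner_add_right, real_inner_smul_right]
  have hb : ⟪(1 / μ) • (c' - c), y⟫ = (⟪c', y⟫ - ⟪c, y⟫) / μ := by
    rw [real_inner_smul_left, inner_sub_left]
    ring
  have key : blow u μ v k c (s₀ + s) (z₀ + s • (1 / μ) • (c' - c) + y) -
      ((v'' - v - ⟪c, z₀⟫ - k * s₀ / μ) / μ + ⟪(1 / μ) • (c' - c), y⟫ +
        (k'' / μ - ⟪c, (1 / μ) • (c' - c)⟫ - k / μ) / μ * s) =
      (u (z₀ + (s₀ / μ) • c + (s / μ) • c' + y) - (v'' + ⟪c', y⟫ + k'' * (s / μ))) / μ := by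
    unfold blow
    rw [hpt, hin, hb]
    field_simp
    ring
  rw [key, abs_div, abs_of_pos hμ, div_le_iff₀ hμ]
  calc _ ≤ A * μ * r := H1
    _ = A * r * μ := by ring

end Vale.Agent.P080.Zy
end

section

/-! The blow-up of an isotropic function satisfies the flat convexity (note 7019, (S1)). -/

open Set Filter
open scoped RealInnerProductSpace Topology

namespace Vale.Agent.P080.Zy

variable {E : Type*} [NormedAddCommGroup E] [InnerProductSpace ℝ E]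

/-- The Galilei identity for the blow-up. -/
theorem blow_identity {μ v k t L : ℝ} {u : E → ℝ} {c y p : E} (hμ : μ ≠ 0) :
    blow u μ v k c (t + L) (y + L • p) - L / 2 * ‖p‖ ^ 2 =
      (u (y + (t / μ) • c + (L / μ) • (c + μ • p)) - (L / μ) * ‖c + μ • p‖ ^ 2 / 2
        + ((L / μ) * (‖c‖ ^ 2 / 2 - k) - v - ⟪c, y⟫ - k * t / μ)) / μ := by
  have h1 : y + L • p + ((t + L) / μ) • c = y + (t / μ) • c + (L / μ) • (c + μ • p) := by
    have h2 : (L / μ) • (μ • p) = L • p := by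
      rw [smul_smul, div_mul_cancel₀ _ hμ]
    rw [smul_add, h2, add_div, add_smul]
    abel
  have h3 : ‖c + μ • p‖ ^ 2 = ‖c‖ ^ 2 + 2 * (μ * ⟪c, p⟫) + μ ^ 2 * ‖p‖ ^ 2 := by
    rw [norm_add_sq_real, inner_smul_right, norm_smul, mul_pow, Real.norm_eq_abs, sq_abs]
  have h4 : ⟪c, y + L • p⟫ = ⟪c, y⟫ + L * ⟪c, p⟫ := by
    rw [inner_add_right, inner_smul_right]
  unfold blow
  rw [h1, h3, h4]
  field_simp
  ring

theorem flatUp_blow {R ρ Λ μ v k : ℝ} {u : E → ℝ} {c : E} (hc : ‖c‖ ≤ 2) (hμ : 0 < μ)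
    (hμ1 : μ < 1) (hu : IsoUp R u) (hΛ0 : 0 ≤ Λ) (hΛ1 : Λ ^ 2 ≤ ρ / 4) (hΛ2 : Λ ≤ μ * ρ / 16)
    (hR : ρ < R) : FlatUp ρ Λ (blow u μ v k c) := by
  intro t y p L₁ L₂ a b ht hy hp hL10 hL1 hL20 hL2 ha hb hab
  have hμ0 : μ ≠ 0 := ne_of_gt hμ
  have hρ0 : 0 ≤ ρ := by nlinarith only [hΛ1]
  have hΛμ : Λ / μ ≤ ρ / 16 := by
    rw [div_le_iff₀ hμ]
    linarith only [hΛ2]
  have hΛρ : Λ ≤ ρ / 16 := by nlinarith only [hΛ2, hμ, hμ1, hΛ0]
  have hq : ‖c + μ • p‖ ≤ 2 + μ * Λ := by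
    refine le_trans (norm_add_le _ _) ?_
    rw [norm_smul, Real.norm_eq_abs, abs_of_pos hμ]
    have := mul_le_mul_of_nonneg_left hp hμ.le
    linarith only [hc, this]
  have hx : ‖y + (t / μ) • c‖ ≤ Λ + 2 * (Λ / μ) := by
    refine le_trans (norm_add_le _ _) ?_
    rw [norm_smul, Real.norm_eq_abs, abs_div, abs_of_pos hμ]
    have h1 : |t| / μ ≤ Λ / μ := by (clear * - ht hμ; gcongr)
    have h2 : |t| / μ * ‖c‖ ≤ Λ / μ * 2 :=
      mul_le_mul h1 hc (norm_nonneg _) (le_trans (by (clear * - hμ; positivity)) h1)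
    linarith only [hy, h2]
  have key : ∀ L : ℝ, 0 ≤ L → L ≤ Λ → ∀ w : ℝ, 0 ≤ w → L / μ * (w + μ * Λ) ≤ w * (Λ / μ) + Λ ^ 2 := by
    intro L hL0 hLΛ w hw
    have h1 : L / μ ≤ Λ / μ := by (clear * - hLΛ hμ; gcongr)
    have h2 : L / μ * (w + μ * Λ) ≤ Λ / μ * (w + μ * Λ) :=
      mul_le_mul_of_nonneg_right h1 (by (clear * - hw hμ hΛ0; positivity))
    have h3 : Λ / μ * (w + μ * Λ) = w * (Λ / μ) + Λ ^ 2 := by
      (clear * - hμ0; field_simp)
    linarith only [h2, h3]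
  have hl : ∀ L : ℝ, 0 ≤ L → L ≤ Λ → ‖y + (t / μ) • c‖ + L / μ * ‖c + μ • p‖ < R := by
    intro L hL0 hLΛ
    have h1 : L / μ * ‖c + μ • p‖ ≤ L / μ * (2 + μ * Λ) :=
      mul_le_mul_of_nonneg_left hq (by positivity)
    have h2 := key L hL0 hLΛ 2 (by norm_num)
    linarith only [hΛ1, hR, hρ0, hΛμ, hΛρ, hx, h1, h2]
  obtain ⟨q₁, q₂, hq1, hq2, hiq⟩ := hu (y + (t / μ) • c) (c + μ • p) (L₁ / μ) (L₂ / μ) a b
    (by positivity) (by positivity) ha hb hab (hl L₁ hL10 hL1) (hl L₂ hL20 hL2)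
  have hpi : ∀ q : E, c + μ • (μ⁻¹ • (q - c)) = q := by
    intro q
    rw [smul_smul, mul_inv_cancel₀ hμ0, one_smul]
    abel
  have hpb : ∀ (L : ℝ) (q : E), 0 ≤ L → L ≤ Λ → ‖q‖ ≤ ‖c + μ • p‖ →
      L * ‖μ⁻¹ • (q - c)‖ ≤ ρ / 2 := by
    intro L q hL0 hLΛ hqq
    have h1 : ‖μ⁻¹ • (q - c)‖ = μ⁻¹ * ‖q - c‖ := by
      rw [norm_smul, Real.norm_eq_abs, abs_of_pos (inv_pos.mpr hμ)]
    have h2 : ‖q - c‖ ≤ 4 + μ * Λ := by
      have := norm_sub_le q c
      linarith only [hc, hq, hqq, this]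
    have h3 : L * ‖μ⁻¹ • (q - c)‖ = L / μ * ‖q - c‖ := by
      rw [h1, div_eq_mul_inv]
      ring
    have h4 : L / μ * ‖q - c‖ ≤ L / μ * (4 + μ * Λ) :=
      mul_le_mul_of_nonneg_left h2 (by (clear * - hL0 hμ; positivity))
    have h5 := key L hL0 hLΛ 4 (by norm_num)
    rw [h3]
    linarith only [h5, h4, hΛμ, hΛ1]
  refine ⟨μ⁻¹ • (q₁ - c), μ⁻¹ • (q₂ - c), hpb L₁ q₁ hL10 hL1 hq1, hpb L₂ q₂ hL20 hL2 hq2, ?_⟩
  rw [blow_identity hμ0, blow_identity hμ0, blow_identity hμ0, hpi, hpi]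
  have hlc : (a * L₁ + b * L₂) / μ = a * (L₁ / μ) + b * (L₂ / μ) := by
    ring
  rw [hlc]
  have hs1 : ‖q₁‖ ^ 2 ≤ ‖c + μ • p‖ ^ 2 := by
    have := norm_nonneg q₁
    (clear * - hq1; gcongr)
  have hs2 : ‖q₂‖ ^ 2 ≤ ‖c + μ • p‖ ^ 2 := by
    have := norm_nonneg q₂
    (clear * - hq2; gcongr)
  have hl1 : 0 ≤ a * (L₁ / μ) := by (clear * - ha hL10 hμ; positivity)
  have hl2 : 0 ≤ b * (L₂ / μ) := by (clear * - hb hL20 hμ; positivity)
  have hm1 := mul_le_mul_of_nonneg_left hs1 hl1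
  have hm2 := mul_le_mul_of_nonneg_left hs2 hl2
  have hfin : a * ((u (y + (t / μ) • c + (L₁ / μ) • q₁) - L₁ / μ * ‖q₁‖ ^ 2 / 2 +
        (L₁ / μ * (‖c‖ ^ 2 / 2 - k) - v - ⟪c, y⟫ - k * t / μ)) / μ) +
      b * ((u (y + (t / μ) • c + (L₂ / μ) • q₂) - L₂ / μ * ‖q₂‖ ^ 2 / 2 +
        (L₂ / μ * (‖c‖ ^ 2 / 2 - k) - v - ⟪c, y⟫ - k * t / μ)) / μ) =
      ((a * u (y + (t / μ) • c + (L₁ / μ) • q₁) + b * u (y + (t / μ) • c + (L₂ / μ) • q₂)) -
        (a * (L₁ / μ) * ‖q₁‖ ^ 2 + b * (L₂ / μ) * ‖q₂‖ ^ 2) / 2 +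
        ((a * (L₁ / μ) + b * (L₂ / μ)) * (‖c‖ ^ 2 / 2 - k) +
          (a + b) * (- v - ⟪c, y⟫ - k * t / μ))) / μ := by
    ring
  rw [hfin, hab]
  apply div_le_div_of_nonneg_right _ hμ.le
  linarith only [hiq, hm1, hm2]

end Vale.Agent.P080.Zy
end

section

/-! The blow-up of the record is an approximate member of the class `Z` (note 7019, (S1)). -/

open Set Filter
open scoped RealInnerProductSpace Topology

namespace Vale.Agent.P080.Zy

variable {E : Type*} [NormedAddCommGroup E] [InnerProductSpace ℝ E]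

/-- Reflection of a blow-up. -/
theorem refl_blow (u : E → ℝ) (μ v k : ℝ) (c : E) :
    refl (blow u μ v k c) = blow (fun x => - u x) μ (-v) k (-c) := by
  funext s z
  unfold refl blow
  rw [smul_neg, ← neg_smul, ← neg_div, inner_neg_left, ← neg_div]
  congr 1
  ring

theorem approx_blow {α μ ρ Λ : ℝ} {j : ℕ} {u : E → ℝ} (hα0 : 0 < α) (hα : α ≤ 1 / 8)
    (hμ0 : 0 < μ) (hμ1 : μ < 1) (hρ1 : 1 ≤ ρ) (hρ : ρ ^ 2 ≤ μ * 2 ^ j / 4) (hΛ0 : 0 ≤ Λ)
    (hΛ1 : Λ ^ 2 ≤ ρ / 4) (hΛ2 : Λ ≤ μ * ρ / 16) (hu : Iso (2 ^ (j + 1)) u)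
    (hbig : ∀ (x : E) (i : ℕ), ‖x‖ ≤ 2 ^ j → i < j → MuFlat (2 ^ (α * (i + 1)) * μ) u x (2 ^ i))
    (hsmall : ∀ (x : E) (i : ℕ), ‖x‖ ≤ 2 ^ j → MuFlat (2 ^ α * μ) u x ((2 : ℝ)⁻¹ ^ i)) :
    ∃ (v k : ℝ) (c : E), ‖c‖ ≤ 2 ∧ ApproxZ ρ Λ α (blow u μ v k c) := by
  have h2j : (0 : ℝ) < 2 ^ j := by positivity
  obtain ⟨c, v, k, hc, hf⟩ := hsmall 0 0 (by rw [norm_zero]; exact h2j.le)
  have h2α : (2 : ℝ) ^ α ≤ 2 := by
    calc (2 : ℝ) ^ α ≤ 2 ^ (1 : ℝ) :=
          Real.rpow_le_rpow_of_exponent_le (by norm_num) (by linarith only [hα])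
      _ = 2 := Real.rpow_one 2
  have h2α0 : (0 : ℝ) < 2 ^ α := Real.rpow_pos_of_pos (by norm_num) α
  have hρ0 : 0 < ρ := by linarith only [hρ1]
  have hρρ : ρ ≤ ρ ^ 2 := by nlinarith only [hρ1]
  have hμj : μ * 2 ^ j < 2 ^ j := by nlinarith only [hμ1, h2j]
  have hx : ∀ (s : ℝ) (z : E), |s| ≤ ρ → ‖z‖ ≤ ρ → ‖z + (s / μ) • c‖ ≤ 2 ^ j := by
    intro s z hs hz
    have h1 : ‖z + (s / μ) • c‖ ≤ ρ + ρ / μ * 2 := by
      refine (norm_add_le _ _).trans (add_le_add hz ?_)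
      rw [norm_smul, Real.norm_eq_abs, abs_div, abs_of_pos hμ0]
      have h3 : |s| / μ ≤ ρ / μ := by (clear * - hs hμ0; gcongr)
      exact mul_le_mul h3 hc (norm_nonneg _) (by positivity)
    have h2 : ρ + ρ / μ * 2 ≤ 2 ^ j := by
      have h3 : ρ / μ ≤ 2 ^ j / 4 := by
        rw [div_le_iff₀ hμ0]
        linarith only [hρ, hρρ]
      linarith only [hρ1, hρ, hρρ, hμj, h3]
    exact h1.trans h2
  refine ⟨v, k, c, hc, ⟨?_, ?_, ?_, ?_, ?_, ?_⟩⟩
  · linarith only [mul_nonneg (le_of_lt (sub_pos.2 hμ1)) (sub_nonneg.2 hρ1), hρ1, hΛ2, hμ1]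
  · intro s z hs hz
    have ht : |s / μ| ≤ (2 : ℝ)⁻¹ ^ 0 / (2 ^ α * μ) := by
      rw [pow_zero, abs_div, abs_of_pos hμ0, div_le_div_iff₀ hμ0 (by positivity)]
      have h1 : |s| * 2 ^ α ≤ 1 := by
        calc |s| * 2 ^ α ≤ 1 / 2 * 2 := mul_le_mul hs h2α h2α0.le (by norm_num)
          _ = 1 := by norm_num
      calc |s| * (2 ^ α * μ) = |s| * 2 ^ α * μ := by ring
        _ ≤ 1 * μ := mul_le_mul_of_nonneg_right h1 hμ0.le
    have h1 := hf (s / μ) z ht (by rw [pow_zero]; exact hz)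
    rw [pow_zero, mul_one, zero_add, add_comm ((s / μ) • c) z] at h1
    unfold blow
    rw [abs_div, abs_of_pos hμ0, div_le_iff₀ hμ0]
    have h2 : u (z + (s / μ) • c) - v - ⟪c, z⟫ - k * s / μ =
        u (z + (s / μ) • c) - (v + ⟪c, z⟫ + k * (s / μ)) := by ring
    rw [h2]
    exact h1.trans (mul_le_mul_of_nonneg_right h2α hμ0.le)
  · intro s z i hs hz hi
    refine scell_blow hμ0 (Real.rpow_pos_of_pos (by norm_num) _) (hbig _ i (hx s z hs hz) ?_)
    have h1 : (2 : ℝ) ^ i < 2 ^ j := by linarith only [hρ1, hρ, hρρ, hμj, hi]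
    exact (pow_lt_pow_iff_right₀ (by norm_num)).mp h1
  · intro s z i hs hz
    exact scell_blow hμ0 h2α0 (hsmall _ i (hx s z hs hz))
  · refine flatUp_blow hc hμ0 hμ1 hu.up hΛ0 hΛ1 hΛ2 ?_
    rw [pow_succ]
    linarith only [hρ1, hρ, hρρ, hμj]
  · rw [refl_blow]
    refine flatUp_blow (by rw [norm_neg]; exact hc) hμ0 hμ1 hu.dn hΛ0 hΛ1 hΛ2 ?_
    rw [pow_succ]
    linarith only [hρ1, hρ, hρρ, hμj]

end Vale.Agent.P080.Zy
end

section

/-! Reduction (S1), file S1F0: the limit of a sequence of approximate members. -/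

open Set Filter
open scoped RealInnerProductSpace Topology

namespace Vale.Agent.P080.Zy

variable {E : Type} [NormedAddCommGroup E] [InnerProductSpace ℝ E]

/-- pointwise limits along the hyperfilter -/
private theorem exists_pointwise {C : ℝ} (hC1 : 1 ≤ C)
    (hC : ∀ (ρ Λ α : ℝ) (W : ℝ → E → ℝ), C ≤ ρ → 0 ≤ α → α ≤ 1 / 8 → ApproxZ ρ Λ α W →
      ∀ s z, |s| ≤ ρ → ‖z‖ ≤ ρ → (W s z) ^ 2 ≤ C * (1 + |s| + ‖z‖) ^ 3)
    {ρ Λ α : ℕ → ℝ} {W : ℕ → ℝ → E → ℝ} (h : ApproxSeq ρ Λ α W) : ∃ C : ℝ, 0 ≤ C ∧ ∀ s z, ∃ v : ℝ,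
      Tendsto (fun n => W n s z) (hyperfilter ℕ : Filter ℕ) (𝓝 v) ∧
      v ^ 2 ≤ C * (1 + |s| + ‖z‖) ^ 3 := by
  refine ⟨C, zero_le_one.trans hC1, fun s z => ?_⟩
  have hev : ∀ᶠ n in (hyperfilter ℕ : Filter ℕ), (W n s z) ^ 2 ≤ C * (1 + |s| + ‖z‖) ^ 3 := by
    have h1 : ∀ᶠ n in (atTop : Filter ℕ), (W n s z) ^ 2 ≤ C * (1 + |s| + ‖z‖) ^ 3 := by
      filter_upwards [h.rho.eventually_ge_atTop C, h.rho.eventually_ge_atTop |s|,
        h.rho.eventually_ge_atTop ‖z‖] with n h1 h2 h3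
      exact hC (ρ n) (Λ n) (α n) (W n) h1 (h.al0 n) (h.al8 n) (h.ap n) s z h2 h3
    exact Nat.hyperfilter_le_atTop h1
  set G : ℝ := C * (1 + |s| + ‖z‖) ^ 3 with hG
  have hG0 : 0 ≤ G := by positivity
  have hmem : Icc (-Real.sqrt G) (Real.sqrt G) ∈
      (Ultrafilter.map (fun n => W n s z) (hyperfilter ℕ) : Filter ℝ) := by
    rw [Ultrafilter.coe_map, mem_map]
    filter_upwards [hev] with n hn
    have h2 : |W n s z| ≤ Real.sqrt G := Real.abs_le_sqrt hn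
    exact abs_le.1 h2
  obtain ⟨v, -, hv⟩ := isCompact_Icc.ultrafilter_le_nhds _ (le_principal_iff.2 hmem)
  have hv' : Tendsto (fun n => W n s z) (hyperfilter ℕ : Filter ℕ) (𝓝 v) := hv
  exact ⟨v, hv', le_of_tendsto (hv'.pow 2) hev⟩

/-- `ε/3` argument on a compact box -/
private theorem locUnif_of_pointwise [FiniteDimensional ℝ E] {W : ℕ → ℝ → E → ℝ} {V : ℝ → E → ℝ}
    (hV : ∀ s z, Tendsto (fun n => W n s z) (hyperfilter ℕ : Filter ℕ) (𝓝 (V s z)))
    (heq : ∀ B ε : ℝ, 0 < ε → ∃ δ : ℝ, 0 < δ ∧ (∀ᶠ n in (hyperfilter ℕ : Filter ℕ),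
      ∀ s z s' z', |s| ≤ B → ‖z‖ ≤ B → |s' - s| ≤ δ → ‖z' - z‖ ≤ δ →
        |W n s' z' - W n s z| ≤ ε) ∧
      ∀ s z s' z', |s| ≤ B → ‖z‖ ≤ B → |s' - s| ≤ δ → ‖z' - z‖ ≤ δ →
        |V s' z' - V s z| ≤ ε) : LocUnif W V := by
  intro B ε hε
  obtain ⟨δ, hδ, hW, hVe⟩ := heq B (ε / 3) (by linarith)
  have : ProperSpace E := FiniteDimensional.proper ℝ E
  have hK : IsCompact (Icc (-B) B ×ˢ Metric.closedBall (0 : E) B) :=
    isCompact_Icc.prod (isCompact_closedBall 0 B)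
  obtain ⟨t, htK, htf, hcov⟩ := hK.finite_cover_balls hδ
  have h1 : ∀ᶠ n in (hyperfilter ℕ : Filter ℕ), ∀ p ∈ t, |W n p.1 p.2 - V p.1 p.2| ≤ ε / 3 := by
    rw [eventually_all_finite htf]
    intro p _
    have h2 := (tendsto_order.1 (((hV p.1 p.2).sub_const (V p.1 p.2)).abs)).2 (ε / 3)
      (by rw [sub_self, abs_zero]; linarith)
    exact h2.mono fun n hn => hn.le
  filter_upwards [h1, hW] with n hn1 hn2 s z hs hz
  have hmem : (s, z) ∈ Icc (-B) B ×ˢ Metric.closedBall (0 : E) B :=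
    ⟨abs_le.1 hs, by simpa [mem_closedBall_zero_iff] using hz⟩
  obtain ⟨p, hp, hsz⟩ := mem_iUnion₂.1 (hcov hmem)
  have hpK := htK hp
  have hp1 : |p.1| ≤ B := abs_le.2 hpK.1
  have hp2 : ‖p.2‖ ≤ B := by simpa [mem_closedBall_zero_iff] using hpK.2
  rw [Metric.mem_ball, Prod.dist_eq, max_lt_iff, dist_eq_norm, dist_eq_norm] at hsz
  have hd1 : |s - p.1| ≤ δ := hsz.1.le
  have hd2 : ‖z - p.2‖ ≤ δ := hsz.2.le
  have e1 := abs_le.1 (hn2 p.1 p.2 s z hp1 hp2 hd1 hd2)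
  have e2 := abs_le.1 (hVe p.1 p.2 s z hp1 hp2 hd1 hd2)
  have e3 := abs_le.1 (hn1 p hp)
  rw [abs_le]
  constructor <;> linarith only [e1, e2, e3]

/-- a sequence of approximate members has a locally uniform limit along the hyperfilter (from the
growth and the equicontinuity of the approximate members) -/
theorem ApproxSeq.exists_limit_of [FiniteDimensional ℝ E]
    (hg : ∃ C : ℝ, 1 ≤ C ∧ ∀ (ρ Λ α : ℝ) (W : ℝ → E → ℝ), C ≤ ρ → 0 ≤ α → α ≤ 1 / 8 →
      ApproxZ ρ Λ α W → ∀ s z, |s| ≤ ρ → ‖z‖ ≤ ρ → (W s z) ^ 2 ≤ C * (1 + |s| + ‖z‖) ^ 3)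
    (he : ∀ B ε : ℝ, 0 < ε → ∃ δ ρ₀ : ℝ, 0 < δ ∧ ∀ (ρ Λ α : ℝ) (W : ℝ → E → ℝ),
      ρ₀ ≤ ρ → 0 ≤ α → α ≤ 1 / 8 → ApproxZ ρ Λ α W →
      ∀ s z s' z', |s| ≤ B → ‖z‖ ≤ B → |s' - s| ≤ δ → ‖z' - z‖ ≤ δ →
        |W s' z' - W s z| ≤ ε)
    {ρ Λ α : ℕ → ℝ} {W : ℕ → ℝ → E → ℝ}
    (h : ApproxSeq ρ Λ α W) : ∃ V : ℝ → E → ℝ, Continuous (fun p : ℝ × E => V p.1 p.2) ∧
      LocUnif W V ∧ ∃ C : ℝ, 0 ≤ C ∧ ∀ s z, (V s z) ^ 2 ≤ C * (1 + |s| + ‖z‖) ^ 3 := by
  obtain ⟨C', hC1, hg'⟩ := hg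
  obtain ⟨C, hC0, hC⟩ := exists_pointwise hC1 hg' h
  choose V hV hVC using hC
  have heq : ∀ B ε : ℝ, 0 < ε → ∃ δ : ℝ, 0 < δ ∧ (∀ᶠ n in (hyperfilter ℕ : Filter ℕ),
      ∀ s z s' z', |s| ≤ B → ‖z‖ ≤ B → |s' - s| ≤ δ → ‖z' - z‖ ≤ δ →
        |W n s' z' - W n s z| ≤ ε) ∧
      ∀ s z s' z', |s| ≤ B → ‖z‖ ≤ B → |s' - s| ≤ δ → ‖z' - z‖ ≤ δ →
        |V s' z' - V s z| ≤ ε := by
    intro B ε hε
    obtain ⟨δ, ρ₀, hδ, hE⟩ := he B ε hε
    have h1 : ∀ᶠ n in (hyperfilter ℕ : Filter ℕ),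
        ∀ s z s' z', |s| ≤ B → ‖z‖ ≤ B → |s' - s| ≤ δ → ‖z' - z‖ ≤ δ →
        |W n s' z' - W n s z| ≤ ε := by
      have h2 : ∀ᶠ n in (atTop : Filter ℕ),
          ∀ s z s' z', |s| ≤ B → ‖z‖ ≤ B → |s' - s| ≤ δ → ‖z' - z‖ ≤ δ →
          |W n s' z' - W n s z| ≤ ε := by
        filter_upwards [h.rho.eventually_ge_atTop ρ₀] with n hn
        exact hE (ρ n) (Λ n) (α n) (W n) hn (h.al0 n) (h.al8 n) (h.ap n)
      exact Nat.hyperfilter_le_atTop h2
    refine ⟨δ, hδ, h1, fun s z s' z' hs hz hs' hz' => ?_⟩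
    exact le_of_tendsto ((hV s' z').sub (hV s z)).abs
      (h1.mono fun n hn => hn s z s' z' hs hz hs' hz')
  refine ⟨V, ?_, locUnif_of_pointwise hV heq, C, hC0, hVC⟩
  rw [Metric.continuous_iff]
  intro p ε hε
  obtain ⟨δ, hδ, -, hVe⟩ := heq (max |p.1| ‖p.2‖) (ε / 2) (by linarith)
  refine ⟨δ, hδ, fun q hq => ?_⟩
  rw [Prod.dist_eq, max_lt_iff, dist_eq_norm, dist_eq_norm] at hq
  rw [Real.dist_eq]
  have := hVe p.1 p.2 q.1 q.2 (le_max_left _ _) (le_max_right _ _) hq.1.le hq.2.le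
  linarith

end Vale.Agent.P080.Zy
end

section

/-! Growth of the approximate members (P080, file S1D2). -/

open Set Filter
open scoped RealInnerProductSpace Topology

namespace Vale.Agent.P080.Zy

variable {E : Type*} [NormedAddCommGroup E] [InnerProductSpace ℝ E]

/-- comparison of two cells with the same centre -/
theorem s1d2_cmp {A A' r r' s₀ v v' k k' : ℝ} {W : ℝ → E → ℝ} {z₀ b b' : E} (hr : 0 < r)
    (hrr : r ≤ r') (hA : 1 ≤ A) (hA' : 1 ≤ A') (h : SCellD A W s₀ z₀ r v k b)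
    (h' : SCellD A' W s₀ z₀ r' v' k' b') :
    ‖b' - b‖ ≤ (A * r + A' * r') / r ∧
      |k - k' - ⟪b', b - b'⟫| ≤ (A * r + A' * r') / r * (A' + (A * r + A' * r') / r) := by
  obtain ⟨q, hq⟩ : ∃ q, q = (A * r + A' * r') / r := ⟨_, rfl⟩
  rw [← hq]
  have hq' : q * r = A * r + A' * r' := by
    rw [hq, div_mul_cancel₀ _ hr.ne']
  have hAr : A' * r ≤ A' * r' := mul_le_mul_of_nonneg_left hrr (by linarith)
  have hqA : A + A' ≤ q := by
    refine le_of_mul_le_mul_right ?_ hr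
    rw [hq']
    linarith
  have hq0 : 0 < q := by linarith
  have key : ∀ (s : ℝ) (y : E), |s| ≤ r / A → |s| ≤ r' / A' → ‖y‖ ≤ r →
      ‖s • (b - b') + y‖ ≤ r' →
      |v + ⟪b, y⟫ + k * s - (v' + ⟪b', s • (b - b') + y⟫ + k' * s)| ≤ q * r := by
    intro s y h1 h2 h3 h4
    have e1 := h s y h1 h3
    have e2 := h' s (s • (b - b') + y) h2 h4
    have e3 : z₀ + s • b' + (s • (b - b') + y) = z₀ + s • b + y := by module
    rw [e3] at e2
    rw [hq']
    rw [abs_le] at e1 e2 ⊢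
    constructor <;> linarith only [e1, e2]
  have hb : ‖b' - b‖ ≤ q := by
    by_cases hb0 : b' - b = 0
    · rw [hb0, norm_zero]
      exact hq0.le
    · have hbn : 0 < ‖b' - b‖ := norm_pos_iff.2 hb0
      have hn : ‖(r * ‖b' - b‖⁻¹ : ℝ) • (b' - b)‖ = r := by
        rw [norm_smul, norm_mul, norm_inv, norm_norm, Real.norm_of_nonneg hr.le, mul_assoc,
          inv_mul_cancel₀ hbn.ne', mul_one]
      have hi : ⟪b', (r * ‖b' - b‖⁻¹ : ℝ) • (b' - b)⟫ - ⟪b, (r * ‖b' - b‖⁻¹ : ℝ) • (b' - b)⟫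
          = r * ‖b' - b‖ := by
        rw [← inner_sub_left, inner_smul_right, real_inner_self_eq_norm_sq]
        field_simp
      have h0 : |(0 : ℝ)| ≤ r / A := by rw [abs_zero]; positivity
      have h0' : |(0 : ℝ)| ≤ r' / A' := by
        rw [abs_zero]
        exact div_nonneg (by linarith only [hr, hrr]) (by linarith only [hA'])
      have h1 := key 0 ((r * ‖b' - b‖⁻¹ : ℝ) • (b' - b)) h0 h0' hn.le (by
        rw [zero_smul, zero_add, hn]; exact hrr)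
      have h2 := key 0 (-((r * ‖b' - b‖⁻¹ : ℝ) • (b' - b))) h0 h0'
        (by rw [norm_neg]; exact hn.le) (by rw [zero_smul, zero_add, norm_neg, hn]; exact hrr)
      rw [zero_smul, zero_add] at h1 h2
      rw [inner_neg_right, inner_neg_right] at h2
      rw [abs_le] at h1 h2
      have h3 : r * ‖b' - b‖ ≤ r * q := by
        rw [← hi, mul_comm r q]
        linarith only [h1, h2]
      exact le_of_mul_le_mul_left h3 hr
  refine ⟨hb, ?_⟩
  obtain ⟨s, hs⟩ : ∃ s, s = r / (A' + q) := ⟨_, rfl⟩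
  have hAq : 0 < A' + q := by linarith
  have hs0 : 0 < s := by rw [hs]; positivity
  have hsr : s * (A' + q) = r := by rw [hs, div_mul_cancel₀ _ hAq.ne']
  have h1 : s ≤ r / A := by
    rw [le_div_iff₀ (by linarith), ← hsr]
    exact mul_le_mul_of_nonneg_left (by linarith) hs0.le
  have h2 : s ≤ r' / A' := by
    rw [le_div_iff₀ (by linarith)]
    refine le_trans ?_ hrr
    rw [← hsr]
    exact mul_le_mul_of_nonneg_left (by linarith) hs0.le
  have h3 : ‖s • (b - b')‖ ≤ r' := by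
    rw [norm_smul, Real.norm_of_nonneg hs0.le, norm_sub_rev]
    refine le_trans ?_ hrr
    rw [← hsr]
    exact mul_le_mul_of_nonneg_left (by linarith) hs0.le
  have k1 := key s 0 (by rwa [abs_of_pos hs0]) (by rwa [abs_of_pos hs0])
    (by rw [norm_zero]; exact hr.le) (by rwa [add_zero])
  have k2 := key (-s) 0 (by rwa [abs_neg, abs_of_pos hs0]) (by rwa [abs_neg, abs_of_pos hs0])
    (by rw [norm_zero]; exact hr.le) (by rwa [add_zero, neg_smul, norm_neg])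
  rw [inner_zero_right, add_zero, add_zero, inner_smul_right] at k1 k2
  have k3 : s * |k - k' - ⟪b', b - b'⟫| ≤ s * (q * (A' + q)) := by
    rw [← abs_of_pos hs0, ← abs_mul, abs_of_pos hs0]
    have : s * (q * (A' + q)) = q * r := by rw [← hsr]; ring
    rw [this]
    rw [abs_le] at k1 k2 ⊢
    constructor <;> linarith only [k1, k2]
  exact le_of_mul_le_mul_left k3 hs0

/-- a larger constant is allowed -/
theorem s1d2_mono {A A' s₀ r v k : ℝ} {W : ℝ → E → ℝ} {z₀ b : E} (hA : 0 < A) (hAA : A ≤ A')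
    (hr : 0 ≤ r) (h : SCellD A W s₀ z₀ r v k b) : SCellD A' W s₀ z₀ r v k b := by
  intro s y hs hy
  refine (h s y (hs.trans ?_) hy).trans (mul_le_mul_of_nonneg_right hAA hr)
  exact div_le_div_of_nonneg_left hr hA hAA

/-- the cells of the big scales at the origin -/
theorem s1d2_cell {ρ Λ α : ℝ} {W : ℝ → E → ℝ} (hα : α ≤ 1 / 8) (hρ : 0 ≤ ρ)
    (h : ApproxZ ρ Λ α W) (n : ℕ) (hn : (256 : ℝ) ^ n ≤ ρ ^ 2) :
    ∃ (v k : ℝ) (b : E), SCellD (2 * 2 ^ n) W 0 0 (256 ^ n) v k b := by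
  have e1 : (2 : ℝ) ^ (8 * n) = 256 ^ n := by
    rw [pow_mul]
    norm_num
  obtain ⟨v, k, b, hb⟩ := h.big 0 0 (8 * n) (by simpa only [abs_zero] using hρ) (by simpa using hρ)
    (by rw [e1]; exact hn)
  rw [e1] at hb
  refine ⟨v, k, b, s1d2_mono (Real.rpow_pos_of_pos two_pos _) ?_ (by positivity) hb⟩
  have e2 : (2 : ℝ) * 2 ^ n = 2 ^ ((n : ℝ) + 1) := by
    rw [Real.rpow_add two_pos, Real.rpow_natCast, Real.rpow_one, mul_comm]
  rw [e2]
  refine Real.rpow_le_rpow_of_exponent_le one_le_two ?_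
  have hn0 : (0 : ℝ) ≤ n := n.cast_nonneg
  push_cast
  have h8 : α * (8 * n + 1) ≤ 1 / 8 * (8 * n + 1) :=
    mul_le_mul_of_nonneg_right hα (by linarith only [])
  linarith only [h8]

/-- the data of the unit cell -/
theorem s1d2_unit {v k : ℝ} {W : ℝ → E → ℝ} {b : E}
    (hu : ∀ s z, |s| ≤ 1 / 2 → ‖z‖ ≤ 1 → |W s z| ≤ 2) (h : SCellD 2 W 0 0 1 v k b) :
    ‖b‖ ≤ 4 ∧ |k| ≤ 16 := by
  have key : ∀ (s : ℝ) (y : E), |s| ≤ 1 / 2 → ‖y‖ ≤ 1 → ‖s • b + y‖ ≤ 1 →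
      |v + ⟪b, y⟫ + k * s| ≤ 4 := by
    intro s y hs hy hz
    have h1 := h s y hs hy
    have h2 := hu s (s • b + y) hs hz
    rw [zero_add, zero_add] at h1
    rw [abs_le] at h1 h2 ⊢
    constructor <;> linarith only [h1, h2]
  have hb : ‖b‖ ≤ 4 := by
    by_cases hb0 : b = 0
    · rw [hb0, norm_zero]
      norm_num
    · have hbn : 0 < ‖b‖ := norm_pos_iff.2 hb0
      have hn : ‖(‖b‖⁻¹ : ℝ) • b‖ = 1 := by
        rw [norm_smul, norm_inv, norm_norm, inv_mul_cancel₀ hbn.ne']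
      have hi : ⟪b, (‖b‖⁻¹ : ℝ) • b⟫ = ‖b‖ := by
        rw [inner_smul_right, real_inner_self_eq_norm_sq]
        field_simp
      have h1 := key 0 ((‖b‖⁻¹ : ℝ) • b) (by norm_num) hn.le (by
        rw [zero_smul, zero_add]; exact hn.le)
      have h2 := key 0 (-((‖b‖⁻¹ : ℝ) • b)) (by norm_num) (by rw [norm_neg]; exact hn.le) (by
        rw [zero_smul, zero_add, norm_neg]; exact hn.le)
      rw [hi, mul_zero, add_zero] at h1
      rw [inner_neg_right, hi, mul_zero, add_zero] at h2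
      rw [abs_le] at h1 h2
      linarith [h1.2, h2.1]
  refine ⟨hb, ?_⟩
  have h3 : ‖(1 / 4 : ℝ) • b + (0 : E)‖ ≤ 1 := by
    rw [add_zero, norm_smul, Real.norm_of_nonneg (by norm_num)]
    linarith
  have h4 : ‖(-(1 / 4) : ℝ) • b + (0 : E)‖ ≤ 1 := by
    rw [add_zero, norm_smul, norm_neg, Real.norm_of_nonneg (by norm_num)]
    linarith
  have h1 := key (1 / 4) 0 (by norm_num [abs_of_pos]) (by simp) h3
  have h2 := key (-(1 / 4)) 0 (by norm_num [abs_of_pos]) (by simp) h4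
  rw [inner_zero_right] at h1 h2
  rw [abs_le] at h1 h2 ⊢
  constructor <;> linarith only [h1, h2]

/-- bounds for the data of all big scales -/
theorem s1d2_data {ρ Λ α : ℝ} {W : ℝ → E → ℝ} (hα : α ≤ 1 / 8) (hρ : 0 ≤ ρ)
    (h : ApproxZ ρ Λ α W) (n : ℕ) (hn : (256 : ℝ) ^ n ≤ ρ ^ 2) :
    ∃ (v k : ℝ) (b : E), SCellD (2 * 2 ^ n) W 0 0 (256 ^ n) v k b ∧ ‖b‖ ≤ 1026 * 2 ^ n ∧
      |k| ≤ 4000000 * 4 ^ n := by
  induction n with
  | zero =>
    obtain ⟨v, k, b, hb⟩ := s1d2_cell hα hρ h 0 hn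
    have h1 := s1d2_unit h.unit (by simpa using hb)
    refine ⟨v, k, b, hb, ?_, ?_⟩
    · rw [pow_zero]
      linarith only [h1]
    · rw [pow_zero]
      linarith [h1.2]
  | succ n ih =>
    have hn' : (256 : ℝ) ^ n ≤ ρ ^ 2 :=
      (pow_le_pow_right₀ (by norm_num) n.le_succ).trans hn
    obtain ⟨v, k, b, hb, hb1, hk⟩ := ih hn'
    obtain ⟨v', k', b', hb'⟩ := s1d2_cell hα hρ h (n + 1) hn
    have hp : (1 : ℝ) ≤ 2 ^ n := one_le_pow₀ one_le_two
    have hp' : (1 : ℝ) ≤ 2 ^ (n + 1) := one_le_pow₀ one_le_two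
    have hr : (0 : ℝ) < 256 ^ n := by positivity
    have hc := s1d2_cmp (r := 256 ^ n) (r' := 256 ^ (n + 1)) hr
      (pow_le_pow_right₀ (by norm_num) n.le_succ) (by linarith) (by linarith) hb hb'
    have e1 : (2 * 2 ^ n * (256 : ℝ) ^ n + 2 * 2 ^ (n + 1) * 256 ^ (n + 1)) / 256 ^ n =
        1026 * 2 ^ n := by
      rw [div_eq_iff hr.ne']
      ring
    rw [e1] at hc
    obtain ⟨hc1, hc2⟩ := hc
    have hb2 : ‖b'‖ ≤ 2052 * 2 ^ n := by
      have := norm_add_le (b' - b) b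
      rw [sub_add_cancel] at this
      linarith only [hb1, hc1, this]
    have e4 : (4 : ℝ) ^ n = 2 ^ n * 2 ^ n := by
      rw [← mul_pow]
      norm_num
    have hin : |⟪b', b - b'⟫| ≤ 2052 * 2 ^ n * (1026 * 2 ^ n) := by
      refine (abs_real_inner_le_norm _ _).trans ?_
      rw [norm_sub_rev b b']
      exact mul_le_mul hb2 hc1 (norm_nonneg _) (by positivity)
    refine ⟨v', k', b', hb', ?_, ?_⟩
    · rw [pow_succ]
      linarith only [hb2]
    · have h5 : |k'| ≤ |k| + |⟪b', b - b'⟫| + |k - k' - ⟪b', b - b'⟫| := by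
        have t1 := abs_sub (k - ⟪b', b - b'⟫) (k - k' - ⟪b', b - b'⟫)
        have t2 := abs_sub k ⟪b', b - b'⟫
        have t3 : k - ⟪b', b - b'⟫ - (k - k' - ⟪b', b - b'⟫) = k' := by ring
        rw [t3] at t1
        linarith only [t1, t2]
      rw [pow_succ, e4]
      rw [e4] at hk
      rw [pow_succ] at hc2
      obtain ⟨P, hP⟩ : ∃ P : ℝ, P = 2 ^ n * 2 ^ n := ⟨_, rfl⟩
      have hP1 : 1026 * 2 ^ n * (2 * (2 ^ n * 2) + 1026 * 2 ^ n) = 1056780 * P := by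
        rw [hP]; ring
      have hP2 : 2052 * 2 ^ n * (1026 * 2 ^ n) = 2105352 * P := by
        rw [hP]; ring
      rw [hP1] at hc2
      rw [hP2] at hin
      rw [← hP] at hk ⊢
      linarith only [h5, hc2, hin, hk, abs_nonneg k]

theorem s1d2_point {n : ℕ} {v k M : ℝ} {W : ℝ → E → ℝ} {b : E}
    (h0 : |W 0 0| ≤ 2) (h : SCellD (2 * 2 ^ n) W 0 0 (256 ^ n) v k b) (hb : ‖b‖ ≤ 1026 * 2 ^ n)
    (hk : |k| ≤ 4000000 * 4 ^ n) (hM : 1027 * M ≤ 128 ^ n) (s : ℝ) (z : E) (hM1 : 1 ≤ M)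
    (hs : |s| ≤ M) (hz : ‖z‖ ≤ M) : |W s z| ≤ 5000000 * 512 ^ n := by
  have hp : (1 : ℝ) ≤ 2 ^ n := one_le_pow₀ one_le_two
  have h128 : (0 : ℝ) < 128 ^ n := by positivity
  have h256 : (256 : ℝ) ^ n = 2 ^ n * 128 ^ n := by rw [← mul_pow]; norm_num
  have h512 : (512 : ℝ) ^ n = 2 ^ n * 2 ^ n * 128 ^ n := by
    rw [← mul_pow, ← mul_pow]; norm_num
  have h4 : (4 : ℝ) ^ n = 2 ^ n * 2 ^ n := by rw [← mul_pow]; norm_num
  have h1 := h 0 0 (by rw [abs_zero]; positivity) (by rw [norm_zero]; positivity)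
  rw [add_zero, zero_smul, add_zero, add_zero, inner_zero_right, add_zero, mul_zero,
    add_zero] at h1
  have hy : ‖z - s • b‖ ≤ 256 ^ n := by
    refine (norm_sub_le _ _).trans ?_
    rw [norm_smul, Real.norm_eq_abs]
    have : |s| * ‖b‖ ≤ M * (1026 * 2 ^ n) := mul_le_mul hs hb (norm_nonneg _) (by linarith)
    rw [h256]
    have q1 : 0 ≤ M * (2 ^ n - 1) := mul_nonneg (by linarith) (by linarith)
    have q2 : 0 ≤ 2 ^ n * ((128 : ℝ) ^ n - 1027 * M) := mul_nonneg (by linarith) (by linarith)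
    linarith only [hz, this, q1, q2]
  have hs' : |s| ≤ 256 ^ n / (2 * 2 ^ n) := by
    rw [h256, le_div_iff₀ (by positivity)]
    have q1 : 0 ≤ 2 ^ n * ((128 : ℝ) ^ n - 2 * |s|) := mul_nonneg (by linarith) (by linarith only [hM, hM1, hs])
    linarith
  have h2 := h s (z - s • b) hs' hy
  rw [zero_add, zero_add, add_sub_cancel] at h2
  have hin : |⟪b, z - s • b⟫| ≤ 1026 * 2 ^ n * 256 ^ n :=
    (abs_real_inner_le_norm _ _).trans (mul_le_mul hb hy (norm_nonneg _) (by positivity))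
  have hks : |k * s| ≤ 4000000 * 4 ^ n * 128 ^ n := by
    rw [abs_mul]
    refine mul_le_mul hk (hs.trans ?_) (abs_nonneg _) (by positivity)
    linarith only [hM, hM1]
  have h512' : (0 : ℝ) < 2 ^ n * 2 ^ n * 128 ^ n := by positivity
  have h512'' : (1 : ℝ) ≤ 2 ^ n * 2 ^ n * 128 ^ n := by
    rw [← h512]
    exact one_le_pow₀ (by norm_num)
  rw [h256] at h1 h2 hin
  rw [h4] at hks
  rw [h512]
  rw [abs_le] at h0 h1 h2 hin hks ⊢
  obtain ⟨X, hX⟩ : ∃ X : ℝ, X = 2 ^ n * 2 ^ n * 128 ^ n := ⟨_, rfl⟩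
  have hX1 : 2 * 2 ^ n * (2 ^ n * 128 ^ n) = 2 * X := by rw [hX]; ring
  have hX2 : 1026 * 2 ^ n * (2 ^ n * 128 ^ n) = 1026 * X := by rw [hX]; ring
  have hX3 : 4000000 * (2 ^ n * 2 ^ n) * 128 ^ n = 4000000 * X := by rw [hX]; ring
  rw [hX1] at h1 h2
  rw [hX2] at hin
  rw [hX3] at hks
  rw [← hX] at h512'' ⊢
  constructor
  · linarith only [h0.1, h1.2, h2.1, hin.1, hks.1, h512'']
  · linarith only [h0.2, h1.1, h2.2, hin.2, hks.2, h512'']

theorem growthS1 : ∃ C : ℝ, 1 ≤ C ∧ ∀ (E : Type) [NormedAddCommGroup E] [InnerProductSpace ℝ E]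
    (ρ Λ α : ℝ) (W : ℝ → E → ℝ), C ≤ ρ → 0 ≤ α → α ≤ 1 / 8 → ApproxZ ρ Λ α W →
    ∀ s z, |s| ≤ ρ → ‖z‖ ≤ ρ → (W s z) ^ 2 ≤ C * (1 + |s| + ‖z‖) ^ 3 := by
  refine ⟨25000000000000 * 65728 ^ 3, by norm_num, ?_⟩
  intro E _ _ ρ Λ α W hρ _ hα h s z hs hz
  have hρ1 : (1 : ℝ) ≤ ρ := le_trans (by norm_num) hρ
  obtain ⟨M, hM⟩ : ∃ M, M = 1 + |s| + ‖z‖ := ⟨_, rfl⟩
  rw [← hM]
  have hs0 := abs_nonneg s
  have hz0 := norm_nonneg z
  have hM1 : 1 ≤ M := by linarith only [hM, hs0, hz0]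
  have hMρ : M ≤ 3 * ρ := by linarith only [hρ, hs, hz, hM]
  obtain ⟨N, hN⟩ : ∃ N : ℕ, 1027 * M ≤ 64 ^ N :=
    pow_unbounded_of_one_lt (1027 * M) (by norm_num : (1 : ℝ) < 64) |>.imp fun _ h => h.le
  obtain ⟨n, hn1, hn2⟩ : ∃ n : ℕ, 1027 * M ≤ 64 ^ n ∧ (64 : ℝ) ^ n ≤ 65728 * M := by
    classical
    have hex : ∃ n : ℕ, 1027 * M ≤ 64 ^ n := ⟨N, hN⟩
    refine ⟨Nat.find hex, Nat.find_spec hex, ?_⟩
    obtain ⟨m, hm⟩ : ∃ m, Nat.find hex = m + 1 := by
      refine Nat.exists_eq_succ_of_ne_zero fun h0 => ?_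
      have := Nat.find_spec hex
      rw [h0, pow_zero] at this
      linarith only [hM, hs0, hz0, this]
    have hmin := Nat.find_min hex (m := m) (by omega)
    rw [hm, pow_succ]
    push Not at hmin
    linarith only [hmin]
  have h64 : (0 : ℝ) < 64 ^ n := by positivity
  have h256 : (256 : ℝ) ^ n ≤ ρ ^ 2 := by
    have e1 : ((256 : ℝ) ^ n) ^ 3 = (64 ^ n) ^ 4 := by
      rw [← pow_mul, ← pow_mul, mul_comm n 3, mul_comm n 4, pow_mul, pow_mul]
      norm_num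
    have e2 : ((64 : ℝ) ^ n) ^ 4 ≤ (65728 * (3 * ρ)) ^ 4 :=
      pow_le_pow_left₀ h64.le (hn2.trans (by linarith only [hρ, hs, hz, hM])) 4
    have e3 : (65728 * (3 * ρ)) ^ 4 ≤ (ρ ^ 2) ^ 3 := by
      have e4 : (65728 * 3 : ℝ) ^ 4 ≤ ρ ^ 2 := by
        refine le_trans ?_ (pow_le_pow_left₀ (by norm_num) hρ 2)
        norm_num
      have e5 : (65728 * (3 * ρ)) ^ 4 = (65728 * 3 : ℝ) ^ 4 * ρ ^ 4 := by ring
      have e6 : (ρ ^ 2) ^ 3 = ρ ^ 2 * ρ ^ 4 := by ring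
      rw [e5, e6]
      exact mul_le_mul_of_nonneg_right e4 (by positivity)
    rw [← pow_le_pow_iff_left₀ (by positivity) (by positivity) (three_ne_zero), e1]
    exact e2.trans e3
  obtain ⟨v, k, b, hb, hb1, hk⟩ := s1d2_data hα (by linarith only [hρ]) h n h256
  have h0 := h.unit 0 0 (by norm_num) (by simp)
  have hW := s1d2_point h0 hb hb1 hk (M := M)
    (hn1.trans (pow_le_pow_left₀ (by norm_num) (by norm_num) n)) s z hM1 (by linarith only [hM, hz0])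
    (by linarith only [hM, hs0])
  have e1 : ((512 : ℝ) ^ n) ^ 2 = (64 ^ n) ^ 3 := by
    rw [← pow_mul, ← pow_mul, mul_comm n 2, mul_comm n 3, pow_mul, pow_mul]
    norm_num
  calc (W s z) ^ 2 = |W s z| ^ 2 := (sq_abs _).symm
    _ ≤ (5000000 * 512 ^ n) ^ 2 := pow_le_pow_left₀ (abs_nonneg _) hW 2
    _ = 25000000000000 * (64 ^ n) ^ 3 := by rw [mul_pow, e1]; norm_num
    _ ≤ 25000000000000 * (65728 * M) ^ 3 := by
      refine mul_le_mul_of_nonneg_left (pow_le_pow_left₀ h64.le hn2 3) (by norm_num)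
    _ = 25000000000000 * 65728 ^ 3 * M ^ 3 := by rw [mul_pow]; ring

end Vale.Agent.P080.Zy
end

section

/-! Bounds for the data of a cell. -/

open Set Filter
open scoped RealInnerProductSpace Topology

namespace Vale.Agent.P080.Zy

section

variable {E : Type} [NormedAddCommGroup E] [InnerProductSpace ℝ E] {W : ℝ → E → ℝ}
  {A A' M r s₀ v k : ℝ} {z₀ b : E}

theorem s1e_v (hr : 0 < r) (hA' : 1 ≤ A') (hA : A' ≤ A)
    (h : SCellD A' W s₀ z₀ r v k b) (hM : ∀ s z, |s - s₀| ≤ r → ‖z - z₀‖ ≤ r →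
      |W s z| + A * r ≤ M) : |v| ≤ M := by
  have h1 := h 0 0 (by rw [abs_zero]; positivity) (by rw [norm_zero]; exact hr.le)
  rw [add_zero, zero_smul, add_zero, add_zero, inner_zero_right, add_zero, mul_zero,
    add_zero] at h1
  have h2 := hM s₀ z₀ (by rw [sub_self, abs_zero]; exact hr.le)
    (by rw [sub_self, norm_zero]; exact hr.le)
  have h3 : |v| ≤ |W s₀ z₀| + |W s₀ z₀ - v| := by
    have h4 := abs_sub (W s₀ z₀) (W s₀ z₀ - v)
    rwa [sub_sub_cancel] at h4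
  have h5 := mul_le_mul_of_nonneg_right hA hr.le
  linarith

theorem s1e_b (hr : 0 < r) (hA' : 1 ≤ A') (hA : A' ≤ A)
    (h : SCellD A' W s₀ z₀ r v k b) (hM : ∀ s z, |s - s₀| ≤ r → ‖z - z₀‖ ≤ r →
      |W s z| + A * r ≤ M) (hv : |v| ≤ M) : r * ‖b‖ ≤ 2 * M := by
  by_cases hb : b = 0
  · rw [hb, norm_zero, mul_zero]
    linarith [abs_nonneg v]
  have hb0 : 0 < ‖b‖ := norm_pos_iff.2 hb
  have hy : ‖(r / ‖b‖) • b‖ = r := by
    rw [norm_smul, Real.norm_of_nonneg (by positivity), div_mul_cancel₀ _ hb0.ne']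
  have h1 := h 0 ((r / ‖b‖) • b) (by rw [abs_zero]; positivity) hy.le
  rw [add_zero, zero_smul, add_zero, mul_zero, add_zero, inner_smul_right,
    real_inner_self_eq_norm_sq, show r / ‖b‖ * ‖b‖ ^ 2 = r * ‖b‖ by field_simp] at h1
  have h2 := hM s₀ (z₀ + (r / ‖b‖) • b) (by rw [sub_self, abs_zero]; exact hr.le)
    (by rw [add_sub_cancel_left]; exact hy.le)
  have h5 := mul_le_mul_of_nonneg_right hA hr.le
  have h6 := abs_le.1 h1
  have h7 := abs_le.1 (le_refl |W s₀ (z₀ + (r / ‖b‖) • b)|)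
  have h8 := abs_le.1 hv
  linarith only [h2, h5, h6, h7, h8]

theorem s1e_k (hr : 0 < r) (hA' : 1 ≤ A') (hA : A' ≤ A)
    (h : SCellD A' W s₀ z₀ r v k b) (hM : ∀ s z, |s - s₀| ≤ r → ‖z - z₀‖ ≤ r →
      |W s z| + A * r ≤ M) (hv : |v| ≤ M) : |k| * r ≤ 2 * M * (A + ‖b‖ + 1) := by
  have hA0 : 0 < A := by linarith
  have hd : 0 < A + ‖b‖ + 1 := by positivity
  set s : ℝ := r / (A + ‖b‖ + 1) with hs
  have hs0 : 0 < s := by positivity
  have hsr : s ≤ r := by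
    rw [hs, div_le_iff₀ hd]
    linarith [mul_nonneg (le_of_lt (sub_pos.2 hr)) (sub_nonneg.2 (norm_nonneg b)), mul_nonneg (le_of_lt (sub_pos.2 hr)) (sub_nonneg.2 hA), mul_nonneg (le_of_lt (sub_pos.2 hr)) (sub_nonneg.2 hA'), hr]
  have hsA : s ≤ r / A' := by
    rw [hs]
    exact div_le_div_of_nonneg_left hr.le (by linarith) (by linarith [norm_nonneg b])
  have hsb : ‖s • b‖ ≤ r := by
    rw [norm_smul, Real.norm_of_nonneg hs0.le, hs, div_mul_eq_mul_div, div_le_iff₀ hd]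
    nlinarith only [hr, hA', hA]
  have h1 := h s 0 (by rw [abs_of_pos hs0]; exact hsA) (by rw [norm_zero]; exact hr.le)
  rw [add_zero, inner_zero_right, add_zero] at h1
  have h2 := hM (s₀ + s) (z₀ + s • b) (by rw [add_sub_cancel_left, abs_of_pos hs0]; exact hsr)
    (by rw [add_sub_cancel_left]; exact hsb)
  have h5 := mul_le_mul_of_nonneg_right hA hr.le
  have h6 := abs_le.1 h1
  have h7 := abs_le.1 (le_refl |W (s₀ + s) (z₀ + s • b)|)
  have h8 := abs_le.1 hv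
  have h9 : |k * s| ≤ 2 * M := by
    rw [abs_le]
    constructor <;> linarith only [h2, h5, h6, h7, h8]
  rw [abs_mul, abs_of_pos hs0, hs, ← mul_div_assoc, div_le_iff₀ hd] at h9
  exact h9

end

theorem exists_scellD_bound {A G r : ℝ} (hr : 0 < r) (hA : 1 ≤ A) : ∃ K : ℝ, 0 ≤ K ∧
    ∀ (E : Type) [NormedAddCommGroup E] [InnerProductSpace ℝ E] (W : ℝ → E → ℝ)
      (A' s₀ v k : ℝ) (z₀ b : E), 1 ≤ A' → A' ≤ A → SCellD A' W s₀ z₀ r v k b →
      (∀ s z, |s - s₀| ≤ r → ‖z - z₀‖ ≤ r → |W s z| ≤ G) → |v| ≤ K ∧ |k| ≤ K ∧ ‖b‖ ≤ K := by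
  have hA0 : 0 < A := by linarith
  set M : ℝ := |G| + A * r with hMd
  have hM0 : 0 ≤ M := by positivity
  set N : ℝ := 2 * M / r with hN
  have hN0 : 0 ≤ N := by positivity
  refine ⟨M + N + N * (A + N + 1), by positivity, ?_⟩
  intro E _ _ W A' s₀ v k z₀ b hA' hAA h hG
  have hM : ∀ s z, |s - s₀| ≤ r → ‖z - z₀‖ ≤ r → |W s z| + A * r ≤ M := by
    intro s z h1 h2
    have h3 := hG s z h1 h2
    have h4 := le_abs_self G
    linarith
  have hv := s1e_v hr hA' hAA h hM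
  have hb := s1e_b hr hA' hAA h hM hv
  have hk := s1e_k hr hA' hAA h hM hv
  have hbN : ‖b‖ ≤ N := by
    rw [hN, le_div_iff₀ hr]
    linarith
  have hkN : |k| ≤ N * (A + ‖b‖ + 1) := by
    rw [hN, div_mul_eq_mul_div, le_div_iff₀ hr]
    exact hk
  have hp : 0 ≤ N * (A + N + 1) := by positivity
  have hq : N * (A + ‖b‖ + 1) ≤ N * (A + N + 1) :=
    mul_le_mul_of_nonneg_left (by linarith only [hbN]) hN0
  exact ⟨by linarith only [hN0, hv, hp], by linarith only [hM0, hN0, hkN, hq], by linarith only [hM0, hbN, hp]⟩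

end Vale.Agent.P080.Zy
end

section

/-! P080, block S1, file S1E2: equicontinuity of the approximate members. -/

open Set Filter
open scoped RealInnerProductSpace Topology

namespace Vale.Agent.P080.Zy

/-- one cell: continuity estimate at its centre -/
theorem scellD_cont {E : Type} [NormedAddCommGroup E] [InnerProductSpace ℝ E] {W : ℝ → E → ℝ}
    {A s₀ v k r K δ : ℝ} {z₀ b : E} (hr : 0 < r) (hA : 1 ≤ A) (hA2 : A ≤ 2)
    (h : SCellD A W s₀ z₀ r v k b) (hk : |k| ≤ K) (hb : ‖b‖ ≤ K) (hδ0 : 0 ≤ δ)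
    (hδr : δ * (1 + K) ≤ r / 2) {s : ℝ} {z : E} (hs : |s - s₀| ≤ δ) (hz : ‖z - z₀‖ ≤ δ) :
    |W s z - W s₀ z₀| ≤ 4 * r + K * δ * (2 + K) := by
  have hK : 0 ≤ K := (norm_nonneg b).trans hb
  have hA0 : 0 < A := by linarith only [hA]
  have hrA : r / 2 ≤ r / A := div_le_div_of_nonneg_left hr.le hA0 hA2
  have hAr : A * r ≤ 2 * r := mul_le_mul_of_nonneg_right hA2 hr.le
  have hδ1 : δ ≤ r / 2 := by linarith only [mul_nonneg (sub_nonneg.2 hδ0) (sub_nonneg.2 hK), hδr]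
  have h0 := h 0 0 (by rw [abs_zero]; positivity) (by rw [norm_zero]; exact hr.le)
  rw [add_zero, zero_smul, add_zero, add_zero, inner_zero_right, mul_zero, add_zero,
    add_zero] at h0
  have hsb : ‖(s - s₀) • b‖ ≤ δ * K := by
    rw [norm_smul, Real.norm_eq_abs]
    exact mul_le_mul hs hb (norm_nonneg _) hδ0
  have hy : ‖z - z₀ - (s - s₀) • b‖ ≤ δ * (1 + K) := by
    calc ‖z - z₀ - (s - s₀) • b‖ ≤ ‖z - z₀‖ + ‖(s - s₀) • b‖ := norm_sub_le _ _
      _ ≤ δ + δ * K := add_le_add hz hsb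
      _ = δ * (1 + K) := by ring
  have h1 := h (s - s₀) (z - z₀ - (s - s₀) • b) (by linarith only [hs, hrA, hδ1]) (by linarith only [hr, hδr, hy])
  have e1 : s₀ + (s - s₀) = s := by ring
  have e2 : z₀ + (s - s₀) • b + (z - z₀ - (s - s₀) • b) = z := by abel
  rw [e1, e2] at h1
  have hin : |⟪b, z - z₀ - (s - s₀) • b⟫| ≤ K * (δ * (1 + K)) :=
    (abs_real_inner_le_norm _ _).trans (mul_le_mul hb hy (norm_nonneg _) hK)
  have hks : |k * (s - s₀)| ≤ K * δ := by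
    rw [abs_mul]
    exact mul_le_mul hk hs (abs_nonneg _) hK
  rw [abs_le] at h0 h1 hin hks ⊢
  constructor
  · linarith
  · linarith

theorem equicont {B ε : ℝ} (hε : 0 < ε) : ∃ δ ρ₀ : ℝ, 0 < δ ∧
    ∀ (E : Type) [NormedAddCommGroup E] [InnerProductSpace ℝ E] (ρ Λ α : ℝ) (W : ℝ → E → ℝ),
      ρ₀ ≤ ρ → 0 ≤ α → α ≤ 1 / 8 → ApproxZ ρ Λ α W →
      ∀ s z s' z', |s| ≤ B → ‖z‖ ≤ B → |s' - s| ≤ δ → ‖z' - z‖ ≤ δ →
        |W s' z' - W s z| ≤ ε := by
  obtain ⟨C, hC1, hC⟩ := growthS1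
  obtain ⟨i, hi⟩ := exists_pow_lt_of_lt_one (show (0 : ℝ) < ε / 8 by positivity)
    (show (2 : ℝ)⁻¹ < 1 by norm_num)
  have hr : (0 : ℝ) < (2 : ℝ)⁻¹ ^ i := by positivity
  have hr1 : (2 : ℝ)⁻¹ ^ i ≤ 1 := pow_le_one₀ (by norm_num) (by norm_num)
  obtain ⟨K, hK0, hK⟩ := exists_scellD_bound (A := 2) (G := C * (3 + 2 * |B|) ^ 3 + 1) hr
    (by norm_num)
  refine ⟨min ((2 : ℝ)⁻¹ ^ i / (2 * (1 + K))) (ε / (2 * ((1 + K) * (2 + K)))),
    max C (|B| + 1), by positivity, ?_⟩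
  intro E _ _ ρ Λ α W hρ hα0 hα hW s z s' z' hs hz hs' hz'
  have hρC : C ≤ ρ := (le_max_left _ _).trans hρ
  have hρB : |B| + 1 ≤ ρ := (le_max_right _ _).trans hρ
  have hBB : B ≤ |B| := le_abs_self B
  have hB0 : 0 ≤ |B| := abs_nonneg B
  obtain ⟨v, k, b, hD⟩ := hW.small s z i (by linarith only [hs, hρB, hBB]) (by linarith only [hz, hρB, hBB])
  have hA1 : (1 : ℝ) ≤ 2 ^ α := Real.one_le_rpow (by norm_num) hα0
  have hA2 : (2 : ℝ) ^ α ≤ 2 := by
    calc (2 : ℝ) ^ α ≤ 2 ^ (1 : ℝ) := Real.rpow_le_rpow_of_exponent_le (by norm_num) (by linarith only [hα])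
      _ = 2 := Real.rpow_one 2
  have hG : ∀ t y, |t - s| ≤ (2 : ℝ)⁻¹ ^ i → ‖y - z‖ ≤ (2 : ℝ)⁻¹ ^ i →
      |W t y| ≤ C * (3 + 2 * |B|) ^ 3 + 1 := by
    intro t y ht hy
    have ht1 : |t| ≤ |B| + 1 := by
      have := abs_sub_abs_le_abs_sub t s
      linarith only [hr1, hs, hBB, ht, this]
    have hy1 : ‖y‖ ≤ |B| + 1 := by
      have := norm_sub_norm_le y z
      linarith only [hr1, hz, hBB, hy, this]
    have h2 := hC E ρ Λ α W hρC hα0 hα hW t y (ht1.trans hρB) (hy1.trans hρB)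
    have h3 : C * (1 + |t| + ‖y‖) ^ 3 ≤ C * (3 + 2 * |B|) ^ 3 := by
      have h4 : (1 + |t| + ‖y‖) ^ 3 ≤ (3 + 2 * |B|) ^ 3 :=
        pow_le_pow_left₀ (by (clear * -; positivity)) (by linarith only [ht1, hy1]) 3
      exact mul_le_mul_of_nonneg_left h4 (by linarith only [hC1])
    have h5 : 0 ≤ C * (3 + 2 * |B|) ^ 3 := by
      have : 0 ≤ C := by linarith only [hC1]
      (clear * - hC1; positivity)
    refine abs_le_of_sq_le_sq ?_ (by linarith only [h5])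
    nlinarith only [h2, h3]
  obtain ⟨-, hk, hb⟩ := hK E W (2 ^ α) s v k z b hA1 hA2 hD hG
  have hδ0 : 0 ≤ min ((2 : ℝ)⁻¹ ^ i / (2 * (1 + K))) (ε / (2 * ((1 + K) * (2 + K)))) := by
    (clear * - hK0 hε; positivity)
  have hδ1 : min ((2 : ℝ)⁻¹ ^ i / (2 * (1 + K))) (ε / (2 * ((1 + K) * (2 + K)))) * (1 + K) ≤
      (2 : ℝ)⁻¹ ^ i / 2 := by
    refine (mul_le_mul_of_nonneg_right (min_le_left _ _) (by positivity)).trans (le_of_eq ?_)
    field_simp
  have hδ2 : K * min ((2 : ℝ)⁻¹ ^ i / (2 * (1 + K))) (ε / (2 * ((1 + K) * (2 + K)))) * (2 + K) ≤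
      ε / 2 := by
    have h6 : min ((2 : ℝ)⁻¹ ^ i / (2 * (1 + K))) (ε / (2 * ((1 + K) * (2 + K)))) *
        ((1 + K) * (2 + K)) ≤ ε / 2 := by
      refine (mul_le_mul_of_nonneg_right (min_le_right _ _) (by positivity)).trans (le_of_eq ?_)
      field_simp
    nlinarith only [hδ0, h6, hK0]
  have h7 := scellD_cont hr hA1 hA2 hD hk hb hδ0 hδ1 hs' hz'
  linarith only [hi, hδ2, h7]

end Vale.Agent.P080.Zy
end

section

/-! Reduction (S1), file S1F: the limit of a sequence of approximate members. -/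

open Set Filter
open scoped RealInnerProductSpace Topology

namespace Vale.Agent.P080.Zy

variable {E : Type} [NormedAddCommGroup E] [InnerProductSpace ℝ E]

theorem ApproxSeq.exists_limit [FiniteDimensional ℝ E] {ρ Λ α : ℕ → ℝ} {W : ℕ → ℝ → E → ℝ}
    (h : ApproxSeq ρ Λ α W) : ∃ V : ℝ → E → ℝ, Continuous (fun p : ℝ × E => V p.1 p.2) ∧
      LocUnif W V ∧ ∃ C : ℝ, 0 ≤ C ∧ ∀ s z, (V s z) ^ 2 ≤ C * (1 + |s| + ‖z‖) ^ 3 := by
  obtain ⟨C, hC1, hC⟩ := growthS1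
  refine ApproxSeq.exists_limit_of ⟨C, hC1, fun ρ Λ α W => hC E ρ Λ α W⟩ (fun B ε hε => ?_) h
  obtain ⟨δ, ρ₀, hδ, hE⟩ := equicont (B := B) hε
  exact ⟨δ, ρ₀, hδ, fun ρ Λ α W => hE E ρ Λ α W⟩

end Vale.Agent.P080.Zy
end

section

/-! P080, block S1, file S1F2: cell flatness of the limit of a sequence of approximate members. -/

open Set Filter
open scoped RealInnerProductSpace Topology

namespace Vale.Agent.P080.Zy

/-- bounded sequences converge along the hyperfilter -/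
theorem S1F2_lim {X : Type*} [PseudoMetricSpace X] [ProperSpace X] (x : ℕ → X) (c : X) (K : ℝ)
    (h : ∀ᶠ n in (hyperfilter ℕ : Filter ℕ), dist (x n) c ≤ K) :
    ∃ l, Tendsto x (hyperfilter ℕ : Filter ℕ) (𝓝 l) := by
  obtain ⟨l, -, hl⟩ := (isCompact_closedBall c K).ultrafilter_le_nhds ((hyperfilter ℕ).map x) (by
    rw [le_principal_iff, Ultrafilter.coe_map, mem_map]
    exact h)
  exact ⟨l, hl⟩

variable {E : Type} [NormedAddCommGroup E] [InnerProductSpace ℝ E]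

/-- the choice of the dyadic scale -/
theorem S1F2_scale {ρ Λ α : ℕ → ℝ} {W : ℕ → ℝ → E → ℝ} (h : ApproxSeq ρ Λ α W) (t : ℝ) (y : E)
    {r : ℝ} (hr : 0 < r) : ∃ R : ℝ, 2 * r ≤ R ∧ R ≤ 4 * r ∧
      ∀ᶠ n in atTop, ∃ A : ℝ, 1 ≤ A ∧ A ≤ 2 ∧ SCell A (W n) t y R := by
  obtain ⟨m, hm1, hm2⟩ := exists_mem_Ico_zpow (x := 4 * r) (y := (2 : ℝ)) (by positivity)
    (by norm_num)
  rw [zpow_add_one₀ (by norm_num : (2 : ℝ) ≠ 0)] at hm2
  have hρ1 : ∀ᶠ n in atTop, max 1 (max |t| ‖y‖) ≤ ρ n := h.rho.eventually_ge_atTop _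
  rcases le_total 0 m with hm | hm
  · obtain ⟨i, rfl⟩ := Int.eq_ofNat_of_zero_le hm
    rw [zpow_natCast] at hm1 hm2
    refine ⟨2 ^ i, by linarith, hm1, ?_⟩
    have h2 : ∀ᶠ n in atTop, (2 : ℝ) ^ i ≤ ρ n := h.rho.eventually_ge_atTop _
    have h3 : ∀ᶠ n in atTop, α n < 1 / ((i : ℝ) + 1) :=
      h.al.eventually (gt_mem_nhds (by positivity))
    filter_upwards [hρ1, h2, h3] with n hn1 hn2 hn3
    have hn0 : 1 ≤ ρ n := (le_max_left _ _).trans hn1
    have hnt : |t| ≤ ρ n := ((le_max_left _ _).trans (le_max_right _ _)).trans hn1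
    have hny : ‖y‖ ≤ ρ n := ((le_max_right _ _).trans (le_max_right _ _)).trans hn1
    have hsq : (2 : ℝ) ^ i ≤ ρ n ^ 2 := by nlinarith only [hn2, hn0]
    refine ⟨_, ?_, ?_, (h.ap n).big t y i hnt hny hsq⟩
    · exact Real.one_le_rpow (by norm_num) (mul_nonneg (h.al0 n) (by positivity))
    · have h4 : α n * ((i : ℝ) + 1) ≤ 1 := by
        rw [lt_div_iff₀ (by positivity)] at hn3
        exact hn3.le
      calc (2 : ℝ) ^ (α n * ((i : ℝ) + 1)) ≤ 2 ^ (1 : ℝ) :=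
            Real.rpow_le_rpow_of_exponent_le (by norm_num) h4
        _ = 2 := Real.rpow_one 2
  · obtain ⟨i, hi⟩ := Int.eq_ofNat_of_zero_le (neg_nonneg.mpr hm)
    obtain rfl : m = -(i : ℤ) := by omega
    rw [zpow_neg, zpow_natCast, ← inv_pow] at hm1 hm2
    refine ⟨(2 : ℝ)⁻¹ ^ i, by linarith only [hm2], hm1, ?_⟩
    filter_upwards [hρ1] with n hn1
    have hnt : |t| ≤ ρ n := ((le_max_left _ _).trans (le_max_right _ _)).trans hn1
    have hny : ‖y‖ ≤ ρ n := ((le_max_right _ _).trans (le_max_right _ _)).trans hn1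
    refine ⟨_, ?_, ?_, (h.ap n).small t y i hnt hny⟩
    · exact Real.one_le_rpow (by norm_num) (h.al0 n)
    · calc (2 : ℝ) ^ (α n) ≤ 2 ^ (1 : ℝ) :=
            Real.rpow_le_rpow_of_exponent_le (by norm_num) (by linarith only [h.al8 n])
        _ = 2 := Real.rpow_one 2

/-- locally uniform bound -/
theorem S1F2_bound {ρ Λ α : ℕ → ℝ} {W : ℕ → ℝ → E → ℝ} (h : ApproxSeq ρ Λ α W) (t : ℝ) (y : E)
    (R : ℝ) : ∃ G : ℝ, ∀ᶠ n in atTop, ∀ s z, |s - t| ≤ R → ‖z - y‖ ≤ R →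
      |W n s z| ≤ G := by
  obtain ⟨C, hC, hg⟩ := growthS1
  set B : ℝ := |t| + ‖y‖ + R with hB
  refine ⟨1 + C * (1 + B + B) ^ 3, ?_⟩
  have h1 : ∀ᶠ n in atTop, max C B ≤ ρ n := h.rho.eventually_ge_atTop _
  filter_upwards [h1] with n hn s z hs hz
  have hs' : |s| ≤ B := by
    have := abs_sub_abs_le_abs_sub s t
    have := norm_nonneg y
    linarith
  have hz' : ‖z‖ ≤ B := by
    have := norm_sub_norm_le z y
    have := abs_nonneg t
    linarith
  have hBρ : B ≤ ρ n := (le_max_right _ _).trans hn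
  have h2 := hg E (ρ n) (Λ n) (α n) (W n) ((le_max_left _ _).trans hn) (h.al0 n) (h.al8 n)
    (h.ap n) s z (hs'.trans hBρ) (hz'.trans hBρ)
  have h3 : (1 + |s| + ‖z‖) ^ 3 ≤ (1 + B + B) ^ 3 :=
    pow_le_pow_left₀ (by positivity) (by linarith) 3
  have h4 : C * (1 + |s| + ‖z‖) ^ 3 ≤ C * (1 + B + B) ^ 3 :=
    mul_le_mul_of_nonneg_left h3 (by linarith)
  have h5 : |W n s z| ≤ 1 + (W n s z) ^ 2 := by
    rw [← sq_abs (W n s z)]
    (by_contra nlg; linarith only [nlg, mul_pos (sub_pos.2 (not_le.1 nlg)) (sub_pos.2 (not_le.1 nlg)), mul_nonneg (sq_nonneg (|W n s z| : ℝ)) (le_of_lt (sub_pos.2 (not_le.1 nlg))), mul_nonneg (sq_nonneg (|W n s z| : ℝ)) (sq_nonneg (|W n s z| : ℝ)), sq_nonneg (|W n s z| : ℝ)])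
  linarith only [h2, h4, h5]

/-- the data of the cells, as sequences -/
theorem S1F2_data {ρ Λ α : ℕ → ℝ} {W : ℕ → ℝ → E → ℝ} (h : ApproxSeq ρ Λ α W) (t : ℝ) (y : E)
    {r : ℝ} (hr : 0 < r) : ∃ (R K : ℝ) (A v k : ℕ → ℝ) (b : ℕ → E), 2 * r ≤ R ∧ R ≤ 4 * r ∧
      ∀ᶠ n in atTop, 1 ≤ A n ∧ A n ≤ 2 ∧ SCellD (A n) (W n) t y R (v n) (k n) (b n) ∧
        |v n| ≤ K ∧ |k n| ≤ K ∧ ‖b n‖ ≤ K := by
  obtain ⟨R, hR1, hR2, hcell⟩ := S1F2_scale h t y hr
  have hR : 0 < R := by linarith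
  obtain ⟨G, hG⟩ := S1F2_bound h t y R
  obtain ⟨K, -, hK⟩ := exists_scellD_bound (A := 2) (G := G) hR (by norm_num)
  have hch : ∀ n, ∃ (A v k : ℝ) (b : E), (∃ A : ℝ, 1 ≤ A ∧ A ≤ 2 ∧ SCell A (W n) t y R) →
      1 ≤ A ∧ A ≤ 2 ∧ SCellD A (W n) t y R v k b := by
    intro n
    by_cases hn : ∃ A : ℝ, 1 ≤ A ∧ A ≤ 2 ∧ SCell A (W n) t y R
    · obtain ⟨A, h1, h2, v, k, b, h3⟩ := hn
      exact ⟨A, v, k, b, fun _ => ⟨h1, h2, h3⟩⟩
    · exact ⟨0, 0, 0, 0, fun h => absurd h hn⟩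
  choose A v k b hAb using hch
  refine ⟨R, K, A, v, k, b, hR1, hR2, ?_⟩
  filter_upwards [hcell, hG] with n hn1 hn2
  obtain ⟨h1, h2, h3⟩ := hAb n hn1
  exact ⟨h1, h2, h3, hK E (W n) (A n) t (v n) (k n) y (b n) h1 h2 h3 hn2⟩

theorem ApproxSeq.cellFlat [FiniteDimensional ℝ E] {ρ Λ α : ℕ → ℝ} {W : ℕ → ℝ → E → ℝ}
    (h : ApproxSeq ρ Λ α W) {V : ℝ → E → ℝ} (hV : LocUnif W V) (t : ℝ) (y : E) {r : ℝ}
    (hr : 0 < r) : CellFlat 8 V t y r := by
  have : ProperSpace E := FiniteDimensional.proper_real E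
  obtain ⟨R, K, A, v, k, b, hR1, hR2, hdata⟩ := S1F2_data h t y hr
  have hdata' : ∀ᶠ n in (hyperfilter ℕ : Filter ℕ), 1 ≤ A n ∧ A n ≤ 2 ∧
      SCellD (A n) (W n) t y R (v n) (k n) (b n) ∧ |v n| ≤ K ∧ |k n| ≤ K ∧ ‖b n‖ ≤ K :=
    hdata.filter_mono Nat.hyperfilter_le_atTop
  obtain ⟨v₀, hv₀⟩ := S1F2_lim v 0 K (hdata'.mono fun n hn => by
    rw [dist_zero_right]
    exact hn.2.2.2.1)
  obtain ⟨k₀, hk₀⟩ := S1F2_lim k 0 K (hdata'.mono fun n hn => by
    rw [dist_zero_right]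
    exact hn.2.2.2.2.1)
  obtain ⟨b₀, hb₀⟩ := S1F2_lim b 0 K (hdata'.mono fun n hn => by
    rw [dist_zero_right]
    exact hn.2.2.2.2.2)
  refine ⟨v₀, k₀, b₀, fun s z hs hz => ?_⟩
  -- pointwise convergence
  have hW : Tendsto (fun n => W n (t + s) (y + s • b₀ + z)) (hyperfilter ℕ : Filter ℕ)
      (𝓝 (V (t + s) (y + s • b₀ + z))) := by
    rw [Metric.tendsto_nhds]
    intro ε hε
    have h1 := hV (max |t + s| ‖y + s • b₀ + z‖) (ε / 2) (by positivity)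
    filter_upwards [h1] with n hn
    have h2 := hn (t + s) (y + s • b₀ + z) (le_max_left _ _) (le_max_right _ _)
    rw [Real.dist_eq]
    linarith
  have hz : Tendsto (fun n => z + s • (b₀ - b n)) (hyperfilter ℕ : Filter ℕ) (𝓝 z) := by
    have h1 : Tendsto (fun n => z + s • (b₀ - b n)) (hyperfilter ℕ : Filter ℕ)
        (𝓝 (z + s • (b₀ - b₀))) := by
      exact tendsto_const_nhds.add ((tendsto_const_nhds.sub hb₀).const_smul s)
    simpa using h1
  have hlim : Tendsto (fun n => |W n (t + s) (y + s • b₀ + z) -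
      (v n + ⟪b n, z + s • (b₀ - b n)⟫ + k n * s)|) (hyperfilter ℕ : Filter ℕ)
      (𝓝 |V (t + s) (y + s • b₀ + z) - (v₀ + ⟪b₀, z⟫ + k₀ * s)|) :=
    (hW.sub ((hv₀.add (hb₀.inner hz)).add (hk₀.mul_const s))).abs
  refine le_of_tendsto hlim ?_
  have hclose : ∀ᶠ n in (hyperfilter ℕ : Filter ℕ), ‖b₀ - b n‖ < 1 := by
    have h1 := (Metric.tendsto_nhds.mp hb₀) 1 one_pos
    filter_upwards [h1] with n hn
    rwa [dist_comm, dist_eq_norm] at hn
  filter_upwards [hdata', hclose] with n hn hn1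
  obtain ⟨hA1, hA2, hS, -⟩ := hn
  have hRpos : 0 < R := by linarith
  have h1 : |s| ≤ R / A n := by
    rw [le_div_iff₀ (by linarith)]
    have h2 : |s| * A n ≤ r * 2 := mul_le_mul hs hA2 (by linarith) hr.le
    linarith
  have h2 : ‖z + s • (b₀ - b n)‖ ≤ R := by
    refine (norm_add_le _ _).trans ?_
    rw [norm_smul, Real.norm_eq_abs]
    have h3 : |s| * ‖b₀ - b n‖ ≤ r * 1 := mul_le_mul hs hn1.le (norm_nonneg _) hr.le
    linarith
  have h3 := hS s (z + s • (b₀ - b n)) h1 h2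
  have h4 : y + s • b n + (z + s • (b₀ - b n)) = y + s • b₀ + z := by
    rw [smul_sub]
    abel
  rw [h4] at h3
  refine h3.trans ?_
  have h5 : A n * R ≤ 2 * (4 * r) := mul_le_mul hA2 hR2 hRpos.le (by norm_num)
  linarith

end Vale.Agent.P080.Zy
end

section

/-! P080, block S1, file S1G: boundedness of the regularisation, `fl` in terms of `fu`. -/

open Set Filter
open scoped RealInnerProductSpace Topology

namespace Vale.Agent.P080.Zy

variable {E : Type} [NormedAddCommGroup E] [InnerProductSpace ℝ E]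

theorem s1g_abs_le {C L m x : ℝ} (hC : 0 ≤ C) (hL : 0 < L) (hm : 0 ≤ m)
    (h : x ^ 2 ≤ C * m ^ 3) : x ≤ 2 * C * L * m + m ^ 2 / (8 * L) := by
  have h1 : 0 ≤ 2 * C * L * m + m ^ 2 / (8 * L) := by positivity
  refine le_of_abs_le (abs_le_of_sq_le_sq (h.trans ?_) h1)
  have h2 : (2 * C * L * m + m ^ 2 / (8 * L)) ^ 2 =
      (2 * C * L * m - m ^ 2 / (8 * L)) ^ 2 + C * m ^ 3 := by
    field_simp
    ring
  rw [h2]
  exact le_add_of_nonneg_left (sq_nonneg _)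

theorem s1g_quad {C L m₀ x : ℝ} (hL : 0 < L) :
    2 * C * L * (m₀ + L * x) + (m₀ + L * x) ^ 2 / (8 * L) - L / 2 * x ^ 2 ≤
      2 * C * L * m₀ + m₀ ^ 2 / (4 * L) + 4 * C ^ 2 * L ^ 3 := by
  have h1 : (m₀ + L * x) ^ 2 / (8 * L) ≤ m₀ ^ 2 / (4 * L) + L / 4 * x ^ 2 := by
    have h2 : m₀ ^ 2 / (4 * L) + L / 4 * x ^ 2 - (m₀ + L * x) ^ 2 / (8 * L) =
        (m₀ - L * x) ^ 2 / (8 * L) := by
      field_simp
      ring
    have h3 : 0 ≤ (m₀ - L * x) ^ 2 / (8 * L) := by positivity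
    linarith only [h3, h2]
  have h4 : 0 ≤ L / 4 * (x - 4 * C * L) ^ 2 := by positivity
  linarith

theorem bddAbove_fu {V : ℝ → E → ℝ} {C : ℝ} (hC : 0 ≤ C)
    (hg : ∀ s z, (V s z) ^ 2 ≤ C * (1 + |s| + ‖z‖) ^ 3) {L t : ℝ} (hL : 0 ≤ L) (y : E) :
    BddAbove (range fun q : E => V (t + L) (y + L • q) - L / 2 * ‖q‖ ^ 2) := by
  rcases hL.eq_or_lt with h0 | hL
  · subst h0
    refine ⟨V (t + 0) y, ?_⟩
    rintro _ ⟨q, rfl⟩
    simp
  · refine ⟨2 * C * L * (1 + |t + L| + ‖y‖) + (1 + |t + L| + ‖y‖) ^ 2 / (4 * L) +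
      4 * C ^ 2 * L ^ 3, ?_⟩
    rintro _ ⟨q, rfl⟩
    have h1 : 1 + |t + L| + ‖y + L • q‖ ≤ (1 + |t + L| + ‖y‖) + L * ‖q‖ := by
      have h2 := norm_add_le y (L • q)
      rw [norm_smul, Real.norm_of_nonneg hL.le] at h2
      linarith
    have h3 : (V (t + L) (y + L • q)) ^ 2 ≤ C * ((1 + |t + L| + ‖y‖) + L * ‖q‖) ^ 3 :=
      (hg _ _).trans (mul_le_mul_of_nonneg_left (pow_le_pow_left₀ (by positivity) h1 3) hC)
    have h4 := s1g_abs_le hC hL (by positivity) h3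
    have h5 := s1g_quad (C := C) (m₀ := 1 + |t + L| + ‖y‖) (x := ‖q‖) hL
    exact le_trans (sub_le_sub_right h4 _) h5

theorem fl_eq (V : ℝ → E → ℝ) (L t : ℝ) (y : E) : fl V L t y = - fu (refl V) L (-t) y := by
  unfold fl fu refl
  rw [iInf, Real.sInf_def, iSup]
  congr 2
  ext x
  rw [Set.mem_neg, mem_range, mem_range]
  refine exists_congr fun q => ?_
  have e : -(-t + L) = t - L := by ring
  rw [e]
  constructor
  · intro h
    linarith only [h]
  · intro h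
    linarith

end Vale.Agent.P080.Zy
end

section

/-! File S1G2 of block S1 (P080, note 7019): the flat convexity passes to the limit. -/

open Set Filter
open scoped RealInnerProductSpace Topology

namespace Vale.Agent.P080.Zy

variable {E : Type} [NormedAddCommGroup E] [InnerProductSpace ℝ E]

/-- Far points do not matter: if `w ^ 2 ≤ Cg (A + L x) ^ 3` and `x` is large, then
`w - L / 2 x ^ 2 ≤ m`. -/
private theorem s1g2_far {Cg A L m w x : ℝ} (hCg : 0 ≤ Cg) (hA : 0 ≤ A) (hL : 0 < L)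
    (hx : 1 + 16 * Cg * (A + L) ^ 3 / L ^ 2 + 4 * |m| / L ≤ x)
    (hw : w ^ 2 ≤ Cg * (A + L * x) ^ 3) : w - L / 2 * x ^ 2 ≤ m := by
  have hAL : 0 ≤ A + L := by linarith only [hA, hL]
  have h1 : 0 ≤ 16 * Cg * (A + L) ^ 3 / L ^ 2 := by positivity
  have h2 : 0 ≤ 4 * |m| / L := by positivity
  have hx1 : 1 ≤ x := by linarith only [hx, h1, h2]
  have hx0 : 0 ≤ x := by linarith
  have hxm : 4 * |m| / L ≤ x := by linarith only [hx, h1]
  have hxc : 16 * Cg * (A + L) ^ 3 / L ^ 2 ≤ x := by linarith only [hx, h2]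
  have h3 : A + L * x ≤ (A + L) * x := by linarith only [mul_nonneg (sub_nonneg.2 hA) (sub_nonneg.2 h2), mul_nonneg (sub_nonneg.2 hA) (sub_nonneg.2 h1), mul_nonneg (sub_nonneg.2 hA) (sub_nonneg.2 hx)]
  have h4 : (A + L * x) ^ 3 ≤ ((A + L) * x) ^ 3 := by
    apply pow_le_pow_left₀ _ h3
    positivity
  have h5 : 16 * Cg * (A + L) ^ 3 ≤ x * L ^ 2 := by
    rw [div_le_iff₀ (by positivity)] at hxc
    exact hxc
  have h6 : w ^ 2 ≤ (L / 4 * x ^ 2) ^ 2 := by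
    calc w ^ 2 ≤ Cg * (A + L * x) ^ 3 := hw
      _ ≤ Cg * ((A + L) * x) ^ 3 := mul_le_mul_of_nonneg_left h4 hCg
      _ = (16 * Cg * (A + L) ^ 3) * (x ^ 3 / 16) := by ring
      _ ≤ (x * L ^ 2) * (x ^ 3 / 16) := mul_le_mul_of_nonneg_right h5 (by positivity)
      _ = (L / 4 * x ^ 2) ^ 2 := by ring
  have h7 : w ≤ L / 4 * x ^ 2 := by
    exact (le_abs_self w).trans (abs_le_of_sq_le_sq h6 (by positivity))
  have h8 : |m| ≤ L / 4 * x ^ 2 := by
    rw [div_le_iff₀ hL] at hxm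
    have h9 : x * L ≤ x ^ 2 * L := by
      have : x * 1 ≤ x * x := mul_le_mul_of_nonneg_left hx1 hx0
      have h10 := mul_le_mul_of_nonneg_right this hL.le
      linarith only [h10]
    linarith only [hxm, h9]
  have h9 := neg_abs_le m
  linarith only [h7, h8, h9]

/-- One of the two terms of the flat convexity, in the limit. -/
private theorem s1g2_term {V : ℝ → E → ℝ} {Wn : ℝ → E → ℝ} {Cg C L t ε P B ρn Λn : ℝ} (y p : E)
    (hC : 0 ≤ C) (hg : ∀ s z, (V s z) ^ 2 ≤ C * (1 + |s| + ‖z‖) ^ 3)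
    (hCg : 0 ≤ Cg) (hL : 0 ≤ L) (hε : 0 ≤ ε)
    (hP : 0 < L → 1 + 16 * Cg * (1 + |t + L| + ‖y‖ + L) ^ 3 / L ^ 2 + 4 * |V (t + L) y| / L ≤ P)
    (hB1 : |t + L| ≤ B) (hB2 : ‖y‖ + L * P ≤ B)
    (hclose : ∀ s z, |s| ≤ B → ‖z‖ ≤ B → |Wn s z - V s z| ≤ ε)
    (hgr : ∀ s z, |s| ≤ ρn → ‖z‖ ≤ ρn → (Wn s z) ^ 2 ≤ Cg * (1 + |s| + ‖z‖) ^ 3)
    (hΛ : 4 * Λn ≤ ρn) (hLn : L ≤ Λn) (htn : |t| ≤ Λn) (hyn : ‖y‖ ≤ Λn)
    (hp : L * ‖p‖ ≤ ρn / 2) :
    Wn (t + L) (y + L • p) - L / 2 * ‖p‖ ^ 2 ≤ fu V L t y + ε := by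
  have hbdd := bddAbove_fu hC hg (t := t) hL y
  have hle : ∀ q : E, V (t + L) (y + L • q) - L / 2 * ‖q‖ ^ 2 ≤ fu V L t y :=
    fun q => le_ciSup hbdd q
  have h0 : V (t + L) y ≤ fu V L t y := by
    have := hle 0
    simpa only [ge_iff_le, smul_zero, add_zero, norm_zero, ne_eq, OfNat.ofNat_ne_zero, not_false_eq_true,     zero_pow, mul_zero, sub_zero] using this
  rcases hL.eq_or_lt with hL0 | hLpos
  · subst hL0
    have hc := hclose (t + 0) y hB1 (by linarith only [hB2])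
    have hc2 := (abs_le.1 hc).2
    simp only [zero_smul, add_zero, zero_div, zero_mul, sub_zero] at h0 hc2 ⊢
    linarith only [h0, hc2]
  · by_cases hpP : ‖p‖ ≤ P
    · have hz : ‖y + L • p‖ ≤ B := by
        calc ‖y + L • p‖ ≤ ‖y‖ + ‖L • p‖ := norm_add_le _ _
          _ = ‖y‖ + L * ‖p‖ := by rw [norm_smul, Real.norm_of_nonneg hL]
          _ ≤ ‖y‖ + L * P := by
            have := mul_le_mul_of_nonneg_left hpP hL
            linarith only [this]
          _ ≤ B := hB2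
      have hc := (abs_le.1 (hclose (t + L) (y + L • p) hB1 hz)).2
      have := hle p
      linarith only [hc, this]
    · push Not at hpP
      have hz : ‖y + L • p‖ ≤ ‖y‖ + L * ‖p‖ := by
        calc ‖y + L • p‖ ≤ ‖y‖ + ‖L • p‖ := norm_add_le _ _
          _ = ‖y‖ + L * ‖p‖ := by rw [norm_smul, Real.norm_of_nonneg hL]
      have hz2 : ‖y + L • p‖ ≤ ρn := by linarith only [hΛ, hLn, hyn, hp, hLpos, hz]
      have ht2 : |t + L| ≤ ρn := by
        calc |t + L| ≤ |t| + |L| := abs_add_le _ _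
          _ = |t| + L := by rw [abs_of_nonneg hL]
          _ ≤ ρn := by linarith only [hΛ, hLn, htn, hLpos]
      have hw := hgr (t + L) (y + L • p) ht2 hz2
      have hw2 : (Wn (t + L) (y + L • p)) ^ 2 ≤ Cg * ((1 + |t + L| + ‖y‖) + L * ‖p‖) ^ 3 := by
        refine hw.trans (mul_le_mul_of_nonneg_left ?_ hCg)
        apply pow_le_pow_left₀ (by positivity)
        linarith only [hz]
      have hA : 0 ≤ 1 + |t + L| + ‖y‖ := by (clear * -; positivity)
      have := s1g2_far (m := V (t + L) y) hCg hA hLpos ((hP hLpos).trans hpP.le) hw2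
      linarith only [hε, h0, this]

/-- The flat convexity of the limit, from a growth bound of the approximate members. -/
theorem ApproxSeq.convex_of_growth (hgrowth : ∃ C : ℝ, 1 ≤ C ∧
      ∀ (E : Type) [NormedAddCommGroup E] [InnerProductSpace ℝ E]
      (ρ Λ α : ℝ) (W : ℝ → E → ℝ), C ≤ ρ → 0 ≤ α → α ≤ 1 / 8 → ApproxZ ρ Λ α W →
      ∀ s z, |s| ≤ ρ → ‖z‖ ≤ ρ → (W s z) ^ 2 ≤ C * (1 + |s| + ‖z‖) ^ 3)
    {ρ Λ α : ℕ → ℝ} {W : ℕ → ℝ → E → ℝ}
    (h : ApproxSeq ρ Λ α W) {V : ℝ → E → ℝ}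
    (hV : LocUnif W V) {C : ℝ} (hC : 0 ≤ C)
    (hg : ∀ s z, (V s z) ^ 2 ≤ C * (1 + |s| + ‖z‖) ^ 3) (t : ℝ) (y : E) :
    ConvexOn ℝ (Ici 0) (fun L => fu V L t y) := by
  obtain ⟨Cg, hCg1, hCg⟩ := hgrowth
  have hCg0 : 0 ≤ Cg := by linarith
  refine ⟨convex_Ici 0, ?_⟩
  intro L₁ hL₁ L₂ hL₂ a b ha hb hab
  simp only [mem_Ici] at hL₁ hL₂
  simp only [smul_eq_mul]
  have hL : 0 ≤ a * L₁ + b * L₂ := by (clear * - ha hL₁ hb hL₂; positivity)
  show (⨆ q : E, (V (t + (a * L₁ + b * L₂)) (y + (a * L₁ + b * L₂) • q)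
    - (a * L₁ + b * L₂) / 2 * ‖q‖ ^ 2)) ≤ _
  refine ciSup_le fun p => ?_
  refine le_of_forall_pos_le_add fun ε hε => ?_
  -- the radii
  obtain ⟨P₁, hP₁0, hP₁⟩ : ∃ P : ℝ, 0 ≤ P ∧ (0 < L₁ →
      1 + 16 * Cg * (1 + |t + L₁| + ‖y‖ + L₁) ^ 3 / L₁ ^ 2 + 4 * |V (t + L₁) y| / L₁ ≤ P) :=
    ⟨|1 + 16 * Cg * (1 + |t + L₁| + ‖y‖ + L₁) ^ 3 / L₁ ^ 2 + 4 * |V (t + L₁) y| / L₁|,
      abs_nonneg _, fun _ => le_abs_self _⟩
  obtain ⟨P₂, hP₂0, hP₂⟩ : ∃ P : ℝ, 0 ≤ P ∧ (0 < L₂ →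
      1 + 16 * Cg * (1 + |t + L₂| + ‖y‖ + L₂) ^ 3 / L₂ ^ 2 + 4 * |V (t + L₂) y| / L₂ ≤ P) :=
    ⟨|1 + 16 * Cg * (1 + |t + L₂| + ‖y‖ + L₂) ^ 3 / L₂ ^ 2 + 4 * |V (t + L₂) y| / L₂|,
      abs_nonneg _, fun _ => le_abs_self _⟩
  obtain ⟨B, hB⟩ : ∃ B : ℝ, |t + L₁| ≤ B ∧ |t + L₂| ≤ B ∧ ‖y‖ + L₁ * P₁ ≤ B ∧
      ‖y‖ + L₂ * P₂ ≤ B ∧ |t + (a * L₁ + b * L₂)| ≤ B ∧ ‖y + (a * L₁ + b * L₂) • p‖ ≤ B := by
    refine ⟨|t + L₁| + |t + L₂| + (‖y‖ + L₁ * P₁) + (‖y‖ + L₂ * P₂) +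
      |t + (a * L₁ + b * L₂)| + ‖y + (a * L₁ + b * L₂) • p‖, ?_⟩
    have e1 := abs_nonneg (t + L₁)
    have e2 := abs_nonneg (t + L₂)
    have e3 : 0 ≤ ‖y‖ + L₁ * P₁ := by (clear * - hL₁ hP₁0; positivity)
    have e4 : 0 ≤ ‖y‖ + L₂ * P₂ := by (clear * - hL₂ hP₂0; positivity)
    have e5 := abs_nonneg (t + (a * L₁ + b * L₂))
    have e6 := norm_nonneg (y + (a * L₁ + b * L₂) • p)
    refine ⟨by linarith, by linarith, by linarith, by linarith, by linarith, by linarith⟩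
  obtain ⟨hB1, hB2, hB3, hB4, hB5, hB6⟩ := hB
  -- eventual facts
  have hU : (hyperfilter ℕ : Filter ℕ) ≤ atTop := by
    rw [← Nat.cofinite_eq_atTop]
    exact hyperfilter_le_cofinite
  have ev1 : ∀ᶠ n in (hyperfilter ℕ : Filter ℕ),
      |t| + ‖y‖ + ‖p‖ + L₁ + L₂ ≤ Λ n := hU (h.lam.eventually_ge_atTop _)
  have ev2 : ∀ᶠ n in (hyperfilter ℕ : Filter ℕ), Cg ≤ ρ n := hU (h.rho.eventually_ge_atTop _)
  have ev3 := hV B (ε / 2) (by linarith only [hε])
  obtain ⟨n, hn1, hn2, hn3⟩ := (ev1.and (ev2.and ev3)).exists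
  have hz := h.ap n
  have hgr := hCg E (ρ n) (Λ n) (α n) (W n) hn2 (h.al0 n) (h.al8 n) hz
  have et := abs_nonneg t
  have ey := norm_nonneg y
  have ep := norm_nonneg p
  obtain ⟨p₁, p₂, hp₁, hp₂, hineq⟩ := hz.up t y p L₁ L₂ a b (by linarith) (by linarith)
    (by linarith) hL₁ (by linarith) hL₂ (by linarith) ha hb hab
  have T1 := s1g2_term (Wn := W n) (ρn := ρ n) (Λn := Λ n) y p₁ hC hg hCg0 hL₁
    (by linarith only [hε] : 0 ≤ ε / 2) hP₁ hB1 hB3 hn3 hgr hz.le_rho (by linarith only [hL₂, hn1, et, ey, ep]) (by linarith only [hL₁, hL₂, hn1, ey, ep])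
    (by linarith only [hL₁, hL₂, hn1, et, ep]) hp₁
  have T2 := s1g2_term (Wn := W n) (ρn := ρ n) (Λn := Λ n) y p₂ hC hg hCg0 hL₂
    (by linarith only [hε] : 0 ≤ ε / 2) hP₂ hB2 hB4 hn3 hgr hz.le_rho (by linarith only [hL₁, hn1, et, ey, ep]) (by linarith only [hL₁, hL₂, hn1, ey, ep])
    (by linarith only [hL₁, hL₂, hn1, et, ep]) hp₂
  have T0 := (abs_le.1 (hn3 _ _ hB5 hB6)).1
  have S1 := mul_le_mul_of_nonneg_left T1 ha
  have S2 := mul_le_mul_of_nonneg_left T2 hb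
  have hsum : a * (ε / 2) + b * (ε / 2) = ε / 2 := by
    rw [← add_mul, hab, one_mul]
  have S1' : a * (W n (t + L₁) (y + L₁ • p₁) - L₁ / 2 * ‖p₁‖ ^ 2) ≤
      a * fu V L₁ t y + a * (ε / 2) := by
    rw [← mul_add]; exact S1
  have S2' : b * (W n (t + L₂) (y + L₂ • p₂) - L₂ / 2 * ‖p₂‖ ^ 2) ≤
      b * fu V L₂ t y + b * (ε / 2) := by
    rw [← mul_add]; exact S2
  linarith only [hsum, S2, S1, T0, hineq]

/-- The flat convexity passes to the limit. -/
theorem ApproxSeq.convex [FiniteDimensional ℝ E] {ρ Λ α : ℕ → ℝ} {W : ℕ → ℝ → E → ℝ}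
    (h : ApproxSeq ρ Λ α W) {V : ℝ → E → ℝ} (_hcont : Continuous (fun p : ℝ × E => V p.1 p.2))
    (hV : LocUnif W V) {C : ℝ} (hC : 0 ≤ C)
    (hg : ∀ s z, (V s z) ^ 2 ≤ C * (1 + |s| + ‖z‖) ^ 3) (t : ℝ) (y : E) :
    ConvexOn ℝ (Ici 0) (fun L => fu V L t y) :=
  ApproxSeq.convex_of_growth growthS1 h hV hC hg t y

end Vale.Agent.P080.Zy
end

section

/-! File S1G3 of block S1 (P080, note 7019): the limit belongs to the class `Z`. -/

open Set Filter
open scoped RealInnerProductSpace Topology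

namespace Vale.Agent.P080.Zy

variable {E : Type} [NormedAddCommGroup E] [InnerProductSpace ℝ E]

namespace S1G3

theorem scell_refl {A s₀ r : ℝ} {W : ℝ → E → ℝ} {z₀ : E} (h : SCell A W (-s₀) z₀ r) :
    SCell A (refl W) s₀ z₀ r := by
  obtain ⟨v, k, b, h⟩ := h
  refine ⟨-v, k, -b, ?_⟩
  intro s y hs hy
  have := h (-s) y (by simpa using hs) hy
  have e1 : -s₀ + -s = -(s₀ + s) := by ring
  have e2 : z₀ + (-s) • b + y = z₀ + s • (-b) + y := by simp only [neg_smul, smul_neg]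
  rw [e1, e2] at this
  simp only [refl, inner_neg_left]
  rw [← abs_neg]
  convert this using 2
  ring

theorem approxZ_refl {ρ Λ α : ℝ} {W : ℝ → E → ℝ} (h : ApproxZ ρ Λ α W) :
    ApproxZ ρ Λ α (refl W) where
  le_rho := h.le_rho
  unit := fun s z hs hz => by
    simp only [refl, abs_neg]
    exact h.unit _ _ (by simpa using hs) hz
  big := fun s z i hs hz hi => scell_refl (h.big (-s) z i (by simpa using hs) hz hi)
  small := fun s z i hs hz => scell_refl (h.small (-s) z i (by simpa using hs) hz)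
  up := h.dn
  dn := by
    have : refl (refl W) = W := by
      funext t y; simp [refl]
    rw [this]; exact h.up

theorem approxSeq_refl {ρ Λ α : ℕ → ℝ} {W : ℕ → ℝ → E → ℝ} (h : ApproxSeq ρ Λ α W) :
    ApproxSeq ρ Λ α (fun n => refl (W n)) where
  rho := h.rho
  lam := h.lam
  al := h.al
  al0 := h.al0
  al8 := h.al8
  ap := fun n => approxZ_refl (h.ap n)

theorem locUnif_refl {W : ℕ → ℝ → E → ℝ} {V : ℝ → E → ℝ} (h : LocUnif W V) :
    LocUnif (fun n => refl (W n)) (refl V) := by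
  intro B ε hε
  filter_upwards [h B ε hε] with n hn s z hs hz
  have := hn (-s) z (by simpa using hs) hz
  simp only [refl]
  rw [← abs_neg]
  convert this using 2
  ring

end S1G3

theorem ApproxSeq.exists_zclass [FiniteDimensional ℝ E] {ρ Λ α : ℕ → ℝ} {W : ℕ → ℝ → E → ℝ}
    (h : ApproxSeq ρ Λ α W) : ∃ V : ℝ → E → ℝ, ZClass 8 V ∧ LocUnif W V := by
  obtain ⟨V, hc, hV, C, hC, hg⟩ := h.exists_limit
  refine ⟨V, ⟨hc, ?_, ?_, ?_⟩, hV⟩
  · intro t y
    exact h.convex hc hV hC hg t y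
  · intro t y
    have h' := S1G3.approxSeq_refl h
    have hc' : Continuous (fun p : ℝ × E => refl V p.1 p.2) := by
      have : Continuous (fun p : ℝ × E => V (-p.1) p.2) :=
        hc.comp ((continuous_neg.comp continuous_fst).prodMk continuous_snd)
      exact this.neg
    have hg' : ∀ s z, (refl V s z) ^ 2 ≤ C * (1 + |s| + ‖z‖) ^ 3 := by
      intro s z
      have := hg (-s) z
      simp only [refl]
      rw [abs_neg] at this
      linarith
    have h2 := h'.convex hc' (S1G3.locUnif_refl hV) hC hg' (-t) y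
    have h3 : (fun L => fl V L t y) = fun L => -(fu (refl V) L (-t) y) := by
      funext L; exact fl_eq V L t y
    rw [h3]
    exact h2.neg
  · intro t y r hr
    exact h.cellFlat hV t y hr

end Vale.Agent.P080.Zy
end

section

/-! S1H: decay of the flatness, from the affine limit to flatness. -/

open Set Filter
open scoped RealInnerProductSpace Topology

namespace Vale.Agent.P080.Zy

variable {E : Type*} [NormedAddCommGroup E] [InnerProductSpace ℝ E]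

theorem norm_le_of_flat_slice {μ v : ℝ} {u : E → ℝ} {c : E} (hμ0 : 0 ≤ μ)
    (hu : ∀ x y : E, ‖x‖ < 2 → ‖y‖ < 2 → |u x - u y| ≤ ‖x - y‖)
    (h : ∀ y : E, ‖y‖ ≤ 1 → |u y - (v + ⟪c, y⟫)| ≤ μ) : ‖c‖ ≤ 1 + μ := by
  rcases eq_or_ne c 0 with hc | hc
  · rw [hc, norm_zero]; linarith
  have hc0 : 0 < ‖c‖ := norm_pos_iff.2 hc
  obtain ⟨e, he⟩ : ∃ e : E, e = ‖c‖⁻¹ • c := ⟨_, rfl⟩
  have he1 : ‖e‖ = 1 := by
    rw [he, norm_smul, norm_inv, norm_norm, inv_mul_cancel₀ hc0.ne']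
  have hce : ⟪c, e⟫ = ‖c‖ := by
    rw [he, inner_smul_right, real_inner_self_eq_norm_sq, pow_two, ← mul_assoc,
      inv_mul_cancel₀ hc0.ne', one_mul]
  have h1 := h e he1.le
  have h2 := h (-e) (by rw [norm_neg]; exact he1.le)
  have h3 := hu e (-e) (by linarith) (by rw [norm_neg]; linarith)
  have h4 : ‖e - -e‖ = 2 := by
    rw [sub_neg_eq_add, ← two_smul ℝ e, norm_smul, he1]; norm_num
  rw [inner_neg_right, hce] at h2
  rw [hce] at h1
  rw [h4] at h3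
  rw [abs_le] at h1 h2 h3
  linarith only [h1, h2, h3]

theorem muFlat_of_affine {μ v k ε : ℝ} {u : E → ℝ} {c : E} (hμ : 0 < μ) (hμ1 : μ < 1)
    (hu : Iso 2 u) {a γ : ℝ} {β : E}
    (h : ∀ s z, |s| ≤ 1 → ‖z‖ ≤ 1 + ‖β‖ → |blow u μ v k c s z - (a + ⟪β, z⟫ + γ * s)| ≤ 1) :
    MuFlat μ u 0 1 := by
  have key : ∀ (t : ℝ) (y : E), |t| ≤ 1 / μ → ‖y‖ ≤ 1 →
      |u (0 + t • (c + μ • β) + y) - (v + μ * a + ⟪c + μ • β, y⟫ +
        (k + μ ^ 2 * γ + μ * ⟪c + μ • β, β⟫) * t)| ≤ μ * 1 := by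
    intro t y ht hy
    have hs : |μ * t| ≤ 1 := by
      rw [abs_mul, abs_of_pos hμ]
      rw [le_div_iff₀ hμ] at ht
      linarith
    have hz : ‖y + (μ * t) • β‖ ≤ 1 + ‖β‖ := by
      refine (norm_add_le _ _).trans (add_le_add hy ?_)
      rw [norm_smul, Real.norm_eq_abs]
      calc |μ * t| * ‖β‖ ≤ 1 * ‖β‖ := mul_le_mul_of_nonneg_right hs (norm_nonneg _)
        _ = ‖β‖ := one_mul _
    have h1 := h (μ * t) (y + (μ * t) • β) hs hz
    unfold blow at h1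
    have e1 : μ * t / μ = t := by field_simp
    have e2 : y + (μ * t) • β + (μ * t / μ) • c = 0 + t • (c + μ • β) + y := by
      rw [e1, smul_add, smul_smul, mul_comm t μ]
      abel
    have e3 : ∀ A B : ℝ, A / μ - B = (A - μ * B) / μ := by
      intro A B; (clear * - hμ; field_simp)
    rw [e2, e3, abs_div, abs_of_pos hμ, div_le_iff₀ hμ] at h1
    refine le_trans (le_of_eq ?_) (h1.trans (le_of_eq (mul_comm _ _)))
    congr 1
    have e4 : k * (μ * t) / μ = k * t := by field_simp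
    rw [e4]
    simp only [inner_add_left, inner_add_right, inner_smul_left, inner_smul_right,
      RCLike.conj_to_real]
    rw [real_inner_comm β β]
    ring
  refine ⟨c + μ • β, v + μ * a, k + μ ^ 2 * γ + μ * ⟪c + μ • β, β⟫, ?_, key⟩
  have h2 := norm_le_of_flat_slice (μ := μ) (v := v + μ * a) (u := u) (c := c + μ • β) hμ.le
    hu.lip ?_
  · linarith
  · intro y hy
    have h3 := key 0 y (by rw [abs_zero]; positivity) hy
    simpa only [ge_iff_le, smul_add, zero_smul, add_zero, zero_add, mul_zero, mul_one] using h3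

end Vale.Agent.P080.Zy
end

section

/-! S1H2: decay of the flatness, the contradiction argument. -/

open Set Filter
open scoped RealInnerProductSpace Topology

namespace Vale.Agent.P080.Zy

variable {E : Type} [NormedAddCommGroup E] [InnerProductSpace ℝ E]

/-- From `μ 2 ^ (α j) = K` the size `μ 2 ^ j` is at least `K`. -/
theorem S1H2_size {α μ K : ℝ} {j : ℕ} (hα8 : α ≤ 1 / 8) (hμ : 0 < μ) (hK : 0 ≤ K)
    (h : μ * 2 ^ (α * j) = K) : K ≤ μ * 2 ^ j := by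
  have h1 : (2 : ℝ) ^ (α * j) ≤ 2 ^ j := by
    rw [← Real.rpow_natCast 2 j]
    refine Real.rpow_le_rpow_of_exponent_le one_le_two ?_
    have : (0 : ℝ) ≤ j := Nat.cast_nonneg j
    nlinarith only [hα8]
  rw [← h]
  exact mul_le_mul_of_nonneg_left h1 hμ.le

/-- From `μ 2 ^ (α j) = K` the size `μ ^ 3 2 ^ j` is at least `K ^ 3`. -/
theorem S1H2_size3 {α μ K : ℝ} {j : ℕ} (hα8 : α ≤ 1 / 8) (hμ : 0 < μ) (hK : 0 ≤ K)
    (h : μ * 2 ^ (α * j) = K) : K ^ 3 ≤ μ ^ 3 * 2 ^ j := by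
  have h1 : ((2 : ℝ) ^ (α * j)) ^ 3 ≤ 2 ^ j := by
    rw [← Real.rpow_natCast 2 j, ← Real.rpow_natCast ((2 : ℝ) ^ (α * j)) 3,
      ← Real.rpow_mul (by norm_num)]
    refine Real.rpow_le_rpow_of_exponent_le one_le_two ?_
    have : (0 : ℝ) ≤ j := Nat.cast_nonneg j
    push_cast
    nlinarith only [hα8]
  rw [← h, mul_pow]
  exact mul_le_mul_of_nonneg_left h1 (by positivity)

/-- The parameters of one step. -/
theorem S1H2_step {α μ K : ℝ} {j : ℕ} (hα8 : α ≤ 1 / 8) (hμ : 0 < μ) (hK : 4 ≤ K)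
    (h : μ * 2 ^ (α * j) = K) : ∃ ρ Λ : ℝ, 1 ≤ ρ ∧ ρ ^ 2 ≤ μ * 2 ^ j / 4 ∧ 0 ≤ Λ ∧
      Λ ^ 2 ≤ ρ / 4 ∧ Λ ≤ μ * ρ / 16 ∧ Real.sqrt K / 2 ≤ ρ ∧
      min (Real.sqrt (Real.sqrt K / 2) / 2) (Real.sqrt K / 32) ≤ Λ := by
  have hK0 : (0 : ℝ) ≤ K := by linarith only [hK]
  have h1 := S1H2_size hα8 hμ hK0 h
  have h3 := S1H2_size3 hα8 hμ hK0 h
  have hm0 : 0 ≤ μ * 2 ^ j := hK0.trans h1
  obtain ⟨ρ, hρ⟩ : ∃ ρ : ℝ, ρ = Real.sqrt (μ * 2 ^ j) / 2 := ⟨_, rfl⟩
  have hρK : Real.sqrt K / 2 ≤ ρ := by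
    rw [hρ]
    have := Real.sqrt_le_sqrt h1
    linarith only [this]
  have hsK : 2 ≤ Real.sqrt K := by
    rw [show (2 : ℝ) = Real.sqrt 4 by
      rw [show (4 : ℝ) = 2 ^ 2 by norm_num, Real.sqrt_sq (by norm_num)]]
    exact Real.sqrt_le_sqrt hK
  have hρ1 : 1 ≤ ρ := by linarith only [hρK, hsK]
  have hμρ : Real.sqrt K / 2 ≤ μ * ρ := by
    have e : μ * ρ = Real.sqrt (μ ^ 3 * 2 ^ j) / 2 := by
      rw [hρ, show μ ^ 3 * 2 ^ j = μ ^ 2 * (μ * 2 ^ j) by ring,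
        Real.sqrt_mul (sq_nonneg μ) (μ * 2 ^ j), Real.sqrt_sq hμ.le]
      ring
    rw [e]
    have h4 : K ≤ K ^ 3 := by linarith only [mul_nonneg (sub_nonneg.2 hK) (sub_nonneg.2 (mul_nonneg hK0 hK0)), mul_nonneg (sub_nonneg.2 hK) (sub_nonneg.2 hK), hK]
    have := Real.sqrt_le_sqrt (h4.trans h3)
    linarith only [this]
  refine ⟨ρ, min (Real.sqrt ρ / 2) (μ * ρ / 16), hρ1, ?_, ?_, ?_, min_le_right _ _, hρK, ?_⟩
  · rw [hρ, div_pow, Real.sq_sqrt hm0]
    norm_num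
  · refine le_min (by positivity) ?_
    have : 0 ≤ μ * ρ := by positivity
    positivity
  · have h5 : 0 ≤ min (Real.sqrt ρ / 2) (μ * ρ / 16) := by
      refine le_min (by positivity) ?_
      have : 0 ≤ μ * ρ := by positivity
      positivity
    have h6 : min (Real.sqrt ρ / 2) (μ * ρ / 16) ≤ Real.sqrt ρ / 2 := min_le_left _ _
    calc (min (Real.sqrt ρ / 2) (μ * ρ / 16)) ^ 2 ≤ (Real.sqrt ρ / 2) ^ 2 :=
          pow_le_pow_left₀ h5 h6 2
      _ = ρ / 4 := by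
          rw [div_pow, Real.sq_sqrt (by linarith only [hρK, hsK])]
          norm_num
  · refine min_le_min ?_ ?_
    · have := Real.sqrt_le_sqrt hρK
      linarith only [this]
    · linarith only [hμρ]

theorem S1H2_al (n : ℕ) : 0 < 1 / (8 * ((n : ℝ) + 1)) ∧ 1 / (8 * ((n : ℝ) + 1)) ≤ 1 / 8 := by
  have h : (0 : ℝ) ≤ n := Nat.cast_nonneg n
  refine ⟨by positivity, ?_⟩
  exact one_div_le_one_div_of_le (by norm_num) (by linarith)

theorem S1H2_sqrt_tendsto : Tendsto (fun n : ℕ => Real.sqrt ((n : ℝ) + 4)) atTop atTop :=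
  Real.tendsto_sqrt_atTop.comp (tendsto_atTop_add_const_right _ _ tendsto_natCast_atTop_atTop)

theorem exists_good_decay [FiniteDimensional ℝ E] (hZ : TheoremZ E) :
    ∃ α : ℝ, 0 < α ∧ α ≤ 1 / 8 ∧ ∃ K : ℝ, 1 ≤ K ∧
      ∀ j : ℕ, Good E (2 ^ (j + 1)) (K * 2 ^ (-(α * j))) := by
  by_contra hcon
  push Not at hcon
  have hrec : ∀ n : ℕ, ∃ (j : ℕ) (μ : ℝ) (u : E → ℝ), 0 < μ ∧ μ < 1 ∧
      μ * 2 ^ (1 / (8 * ((n : ℝ) + 1)) * j) = (n : ℝ) + 4 ∧
      Iso (2 ^ (j + 1)) u ∧ ¬ MuFlat μ u 0 1 ∧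
      (∀ (x : E) (i : ℕ), ‖x‖ ≤ 2 ^ j → i < j →
        MuFlat (2 ^ (1 / (8 * ((n : ℝ) + 1)) * (i + 1)) * μ) u x (2 ^ i)) ∧
      (∀ (x : E) (i : ℕ), ‖x‖ ≤ 2 ^ j →
        MuFlat (2 ^ (1 / (8 * ((n : ℝ) + 1))) * μ) u x ((2 : ℝ)⁻¹ ^ i)) := by
    intro n
    have hK : (1 : ℝ) ≤ (n : ℝ) + 4 := by
      have : (0 : ℝ) ≤ n := Nat.cast_nonneg n
      linarith
    exact exists_record (S1H2_al n).1 (S1H2_al n).2 hK
      (hcon _ (S1H2_al n).1 (S1H2_al n).2 _ hK)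
  choose j μ u hμ0 hμ1 hμK hu hnot hbig hsmall using hrec
  have hstep : ∀ n : ℕ, ∃ ρ Λ : ℝ, 1 ≤ ρ ∧ ρ ^ 2 ≤ μ n * 2 ^ j n / 4 ∧ 0 ≤ Λ ∧
      Λ ^ 2 ≤ ρ / 4 ∧ Λ ≤ μ n * ρ / 16 ∧ Real.sqrt ((n : ℝ) + 4) / 2 ≤ ρ ∧
      min (Real.sqrt (Real.sqrt ((n : ℝ) + 4) / 2) / 2) (Real.sqrt ((n : ℝ) + 4) / 32) ≤ Λ := by
    intro n
    refine S1H2_step (S1H2_al n).2 (hμ0 n) ?_ (hμK n)
    have : (0 : ℝ) ≤ n := Nat.cast_nonneg n
    linarith
  choose ρ Λ hρ1 hρ hΛ0 hΛ1 hΛ2 hρK hΛK using hstep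
  have hblow : ∀ n : ℕ, ∃ (v k : ℝ) (c : E), ‖c‖ ≤ 2 ∧
      ApproxZ (ρ n) (Λ n) (1 / (8 * ((n : ℝ) + 1))) (blow (u n) (μ n) v k c) := fun n =>
    approx_blow (S1H2_al n).1 (S1H2_al n).2 (hμ0 n) (hμ1 n) (hρ1 n) (hρ n) (hΛ0 n) (hΛ1 n)
      (hΛ2 n) (hu n) (hbig n) (hsmall n)
  choose v k c hc hap using hblow
  have hseq : ApproxSeq ρ Λ (fun n : ℕ => 1 / (8 * ((n : ℝ) + 1)))
      (fun n => blow (u n) (μ n) (v n) (k n) (c n)) := by
    refine ⟨?_, ?_, ?_, fun n => (S1H2_al n).1.le, fun n => (S1H2_al n).2, hap⟩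
    · exact tendsto_atTop_mono hρK (S1H2_sqrt_tendsto.atTop_div_const (by norm_num))
    · refine tendsto_atTop_mono hΛK ?_
      refine tendsto_atTop_mono' (f₁ := fun n : ℕ => min
        (Real.sqrt (Real.sqrt ((n : ℝ) + 4) / 2) / 2) (Real.sqrt ((n : ℝ) + 4) / 32))
        atTop (Eventually.of_forall fun n => le_rfl) ?_
      refine tendsto_atTop.2 fun b => ?_
      have t1 : Tendsto (fun n : ℕ => Real.sqrt (Real.sqrt ((n : ℝ) + 4) / 2) / 2) atTop atTop :=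
        (Real.tendsto_sqrt_atTop.comp
          (S1H2_sqrt_tendsto.atTop_div_const (by norm_num))).atTop_div_const (by norm_num)
      have t2 : Tendsto (fun n : ℕ => Real.sqrt ((n : ℝ) + 4) / 32) atTop atTop :=
        S1H2_sqrt_tendsto.atTop_div_const (by norm_num)
      filter_upwards [tendsto_atTop.1 t1 b, tendsto_atTop.1 t2 b] with n h1 h2
      exact le_min h1 h2
    · have t := tendsto_one_div_add_atTop_nhds_zero_nat (𝕜 := ℝ)
      have t2 := t.const_mul (1 / 8 : ℝ)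
      rw [mul_zero] at t2
      refine t2.congr fun n => ?_
      have : (0 : ℝ) ≤ n := Nat.cast_nonneg n
      (clear * -; field_simp)
  obtain ⟨V, hV, hloc⟩ := hseq.exists_zclass
  obtain ⟨a, γ, β, hVeq⟩ := hZ 8 V hV
  obtain ⟨n, hn⟩ := (hloc (1 + ‖β‖) 1 one_pos).exists
  refine hnot n (muFlat_of_affine (ε := 1) (v := v n) (k := k n) (c := c n) (hμ0 n) (hμ1 n)
    ((hu n).mono ?_) (a := a) (γ := γ) (β := β) ?_)
  · have h2 : (1 : ℝ) ≤ 2 ^ j n := one_le_pow₀ (by norm_num)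
    rw [pow_succ]
    linarith
  · intro s z hs hz
    have h1 := hn s z (hs.trans (by linarith [norm_nonneg β])) hz
    rw [hVeq] at h1
    exact h1

end Vale.Agent.P080.Zy
end

section

/-! P080, (S1I): Campanato iteration. -/

open Set Filter
open scoped RealInnerProductSpace Topology

namespace Vale.Agent.P080.Zy

variable {E : Type*} [NormedAddCommGroup E] [InnerProductSpace ℝ E]

theorem s1i_pow (α : ℝ) (j : ℕ) : (2 : ℝ) ^ (-(α * j)) = ((2 : ℝ) ^ (-α)) ^ j := by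
  rw [← Real.rpow_natCast, ← Real.rpow_mul (by norm_num)]
  congr 1
  ring

/-- two affine approximations on a ball have close slopes -/
theorem s1i_slope {w : E} {a r e : ℝ} (hr : 0 < r) (h : ∀ y : E, ‖y‖ ≤ r → |a + ⟪w, y⟫| ≤ e) :
    r * ‖w‖ ≤ e := by
  rcases eq_or_ne w 0 with rfl | hw
  · rw [norm_zero, mul_zero]
    exact (abs_nonneg _).trans (h 0 (by rw [norm_zero]; exact hr.le))
  have hw0 : 0 < ‖w‖ := norm_pos_iff.2 hw
  have hn : ‖(r / ‖w‖) • w‖ ≤ r := by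
    rw [norm_smul, Real.norm_of_nonneg (by positivity), div_mul_cancel₀ _ hw0.ne']
  have hi : ⟪w, (r / ‖w‖) • w⟫ = r * ‖w‖ := by
    rw [real_inner_smul_right, real_inner_self_eq_norm_sq]
    field_simp
  have h1 := h _ hn
  have h2 := h (-((r / ‖w‖) • w)) (by rw [norm_neg]; exact hn)
  rw [inner_neg_right, hi] at h2
  rw [hi] at h1
  have h3 := (abs_le.1 h1).2
  have h4 := (abs_le.1 h2).1
  linarith only [h3, h4]

/-- the scale of a vector -/
theorem s1i_scale {α x : ℝ} (hα : 0 < α) (hα1 : α < 1) (hx : 0 < x) (hx1 : x ≤ 1) :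
    ∃ j : ℕ, x ≤ (2 : ℝ)⁻¹ ^ j ∧
      2 ^ (-(α * j)) * (2 : ℝ)⁻¹ ^ j ≤ 4 * x ^ (1 + α) := by
  obtain ⟨j, h1, h2⟩ := exists_nat_pow_near_of_lt_one hx hx1
    (by norm_num : (0 : ℝ) < 2⁻¹) (by norm_num : (2 : ℝ)⁻¹ < 1)
  refine ⟨j, h2, ?_⟩
  have e1 : (2 : ℝ)⁻¹ ^ j = (2 : ℝ) ^ (-(j : ℝ)) := by
    rw [Real.rpow_neg (by norm_num), Real.rpow_natCast, inv_pow]
  have e2 : 2 ^ (-(α * j)) * (2 : ℝ)⁻¹ ^ j = ((2 : ℝ)⁻¹ ^ j) ^ (1 + α) := by
    rw [e1, ← Real.rpow_mul (by norm_num), ← Real.rpow_add (by norm_num)]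
    congr 1
    ring
  have h3 : (2 : ℝ)⁻¹ ^ j ≤ 2 * x := by
    rw [pow_succ] at h1
    linarith only [h1]
  have e3 : (2 * x) ^ (1 + α) = 2 ^ (1 + α) * x ^ (1 + α) :=
    Real.mul_rpow (by norm_num) hx.le
  have h4 : (2 : ℝ) ^ (1 + α) ≤ 4 := by
    have h5 : (2 : ℝ) ^ (1 + α) ≤ 2 ^ (2 : ℝ) :=
      Real.rpow_le_rpow_of_exponent_le (by norm_num) (by linarith only [hα1])
    have h6 : (2 : ℝ) ^ (2 : ℝ) = 4 := by norm_num
    linarith only [h5]
  calc 2 ^ (-(α * j)) * (2 : ℝ)⁻¹ ^ j = ((2 : ℝ)⁻¹ ^ j) ^ (1 + α) := e2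
    _ ≤ (2 * x) ^ (1 + α) := Real.rpow_le_rpow (by positivity) h3 (by linarith only [hα])
    _ = 2 ^ (1 + α) * x ^ (1 + α) := e3
    _ ≤ 4 * x ^ (1 + α) := mul_le_mul_of_nonneg_right h4 (Real.rpow_nonneg hx.le _)

theorem exists_expands [CompleteSpace E] {α K : ℝ} (hα : 0 < α) (hα1 : α < 1) (hK : 0 ≤ K) :
    ∃ C : ℝ, 1 ≤ C ∧
    ∀ (u : E → ℝ) (A : E), (∀ j : ℕ, ∃ (c : E) (v : ℝ), ‖c‖ ≤ 2 ∧ ∀ y : E, ‖y‖ ≤ (2 : ℝ)⁻¹ ^ j →
      |u (A + y) - (v + ⟪c, y⟫)| ≤ K * 2 ^ (-(α * j)) * (2 : ℝ)⁻¹ ^ j) →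
    ∃ p : E, ‖p‖ ≤ 2 ∧ ∀ y : E, ‖y‖ ≤ 1 → |u (A + y) - u A - ⟪p, y⟫| ≤ C * ‖y‖ ^ (1 + α) := by
  obtain ⟨q, hq⟩ : ∃ q : ℝ, q = (2 : ℝ) ^ (-α) := ⟨_, rfl⟩
  have hq0 : 0 < q := by rw [hq]; positivity
  have hq1 : q < 1 := by
    rw [hq]
    exact Real.rpow_lt_one_of_one_lt_of_neg (by norm_num) (by linarith)
  have h1q : 0 < 1 - q := by linarith
  refine ⟨1 + (2 * K + 4 * K / (1 - q)) * 4, by
    have : 0 ≤ (2 * K + 4 * K / (1 - q)) * 4 := by positivity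
    linarith only [this], fun u A h => ?_⟩
  choose c v hc hcv using h
  -- the slopes form a Cauchy sequence
  have hstep : ∀ j, dist (c j) (c (j + 1)) ≤ 4 * K * q ^ j := by
    intro j
    have hqj : (2 : ℝ) ^ (-(α * j)) = q ^ j := by rw [s1i_pow, hq]
    have hqj1 : (2 : ℝ) ^ (-(α * (j + 1 : ℕ))) = q ^ (j + 1) := by rw [s1i_pow, hq]
    have hsl := s1i_slope (w := c (j + 1) - c j) (a := v (j + 1) - v j)
      (r := (2 : ℝ)⁻¹ ^ (j + 1)) (e := 2 * (K * q ^ j * (2 : ℝ)⁻¹ ^ j)) (by positivity) (by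
        intro y hy
        have hle : (2 : ℝ)⁻¹ ^ (j + 1) ≤ (2 : ℝ)⁻¹ ^ j :=
          pow_le_pow_of_le_one (by norm_num) (by norm_num) (Nat.le_succ j)
        have h1 := hcv j y (hy.trans hle)
        have h2 := hcv (j + 1) y hy
        rw [hqj] at h1
        rw [hqj1] at h2
        have h3 : K * q ^ (j + 1) * (2 : ℝ)⁻¹ ^ (j + 1) ≤ K * q ^ j * (2 : ℝ)⁻¹ ^ j := by
          have h4 : q ^ (j + 1) ≤ q ^ j := pow_le_pow_of_le_one hq0.le hq1.le (Nat.le_succ j)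
          exact mul_le_mul (mul_le_mul_of_nonneg_left h4 hK) hle (by positivity) (by positivity)
        rw [inner_sub_left]
        rw [abs_le] at h1 h2 ⊢
        constructor <;> linarith only [h1, h2, h3])
    rw [dist_comm, dist_eq_norm]
    have e1 : (2 : ℝ)⁻¹ ^ (j + 1) = (2 : ℝ)⁻¹ ^ j * 2⁻¹ := pow_succ _ _
    rw [e1] at hsl
    have hp : (0 : ℝ) < (2 : ℝ)⁻¹ ^ j := by positivity
    have h5 : (2 : ℝ)⁻¹ ^ j * ‖c (j + 1) - c j‖ ≤ (2 : ℝ)⁻¹ ^ j * (4 * K * q ^ j) := by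
      linarith only [hsl]
    exact le_of_mul_le_mul_left h5 hp
  obtain ⟨p, hp⟩ := cauchySeq_tendsto_of_complete (cauchySeq_of_le_geometric q (4 * K) hq1 hstep)
  have hcp : ∀ j, dist (c j) p ≤ 4 * K * q ^ j / (1 - q) := fun j =>
    dist_le_of_le_geometric_of_tendsto q (4 * K) hq1 hstep hp j
  refine ⟨p, le_of_tendsto hp.norm (Eventually.of_forall hc), fun y hy => ?_⟩
  rcases eq_or_ne y 0 with rfl | hy0
  · rw [add_zero, sub_self, inner_zero_right, sub_self, abs_zero, norm_zero,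
      Real.zero_rpow (by linarith), mul_zero]
  have hyn : 0 < ‖y‖ := norm_pos_iff.2 hy0
  obtain ⟨j, hj1, hj2⟩ := s1i_scale hα hα1 hyn hy
  have hqj : (2 : ℝ) ^ (-(α * j)) = q ^ j := by rw [s1i_pow, hq]
  have h1 := hcv j y hj1
  have h2 := hcv j 0 (by rw [norm_zero]; positivity)
  rw [add_zero, inner_zero_right, add_zero] at h2
  rw [hqj] at h1 h2 hj2
  have h3 : |⟪c j - p, y⟫| ≤ 4 * K * q ^ j / (1 - q) * (2 : ℝ)⁻¹ ^ j := by
    refine (abs_real_inner_le_norm _ _).trans ?_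
    have h4 := hcp j
    rw [dist_eq_norm] at h4
    exact mul_le_mul h4 hj1 (norm_nonneg _) (by (clear * - hK hq0 hq1; positivity))
  have h5 : |u (A + y) - u A - ⟪p, y⟫| ≤
      (2 * K + 4 * K / (1 - q)) * (q ^ j * (2 : ℝ)⁻¹ ^ j) := by
    have e2 : (2 * K + 4 * K / (1 - q)) * (q ^ j * (2 : ℝ)⁻¹ ^ j) =
        2 * (K * q ^ j * (2 : ℝ)⁻¹ ^ j) + 4 * K * q ^ j / (1 - q) * (2 : ℝ)⁻¹ ^ j := by ring
    rw [e2]
    rw [inner_sub_left] at h3
    rw [abs_le] at h1 h2 h3 ⊢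
    constructor <;> linarith only [h1, h2, h3]
  have h6 : 0 ≤ ‖y‖ ^ (1 + α) := Real.rpow_nonneg (norm_nonneg _) _
  calc |u (A + y) - u A - ⟪p, y⟫| ≤
        (2 * K + 4 * K / (1 - q)) * (q ^ j * (2 : ℝ)⁻¹ ^ j) := h5
    _ ≤ (2 * K + 4 * K / (1 - q)) * (4 * ‖y‖ ^ (1 + α)) :=
        mul_le_mul_of_nonneg_left hj2 (by (clear * - hK hq1; positivity))
    _ ≤ (1 + (2 * K + 4 * K / (1 - q)) * 4) * ‖y‖ ^ (1 + α) := by linarith only [h6]

end Vale.Agent.P080.Zy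
end

section

/-! File S1I2 (P080, reduction): isotropic functions have first order expansions. -/

open Set Filter
open scoped RealInnerProductSpace Topology

namespace Vale.Agent.P080.Zy

variable {E : Type*} [NormedAddCommGroup E] [InnerProductSpace ℝ E]

theorem s1i2_up {R R' r : ℝ} {u : E → ℝ} {x : E} (h : IsoUp R u) (hr : 0 < r)
    (hx : ‖x‖ + r * R' ≤ R) : IsoUp R' (fun y => u (x + r • y) / r) := by
  intro y q l₁ l₂ a b hl₁ hl₂ ha hb hab h₁ h₂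
  have key : ∀ l : ℝ, ‖y‖ + l * ‖q‖ < R' → ‖x + r • y‖ + r * l * ‖q‖ < R := by
    intro l hl
    have e1 : ‖x + r • y‖ ≤ ‖x‖ + r * ‖y‖ := by
      refine (norm_add_le _ _).trans ?_
      rw [norm_smul, Real.norm_of_nonneg hr.le]
    have e2 := mul_lt_mul_of_pos_left hl hr
    linarith
  obtain ⟨q₁, q₂, hq₁, hq₂, hq⟩ := h (x + r • y) q (r * l₁) (r * l₂) a b
    (mul_nonneg hr.le hl₁) (mul_nonneg hr.le hl₂) ha hb hab (key l₁ h₁) (key l₂ h₂)
  refine ⟨q₁, q₂, hq₁, hq₂, ?_⟩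
  have e1 : x + r • (y + (a * l₁ + b * l₂) • q) =
      x + r • y + (a * (r * l₁) + b * (r * l₂)) • q := by
    rw [smul_add, smul_smul, add_assoc]
    congr 3
    ring
  have e2 : ∀ (l : ℝ) (p : E), x + r • (y + l • p) = x + r • y + (r * l) • p := by
    intro l p
    rw [smul_add, smul_smul, add_assoc]
  have e3 := div_le_div_of_nonneg_right hq hr.le
  rw [add_div, mul_div_assoc, mul_div_assoc] at e3
  simp only [e1, e2]
  exact e3

theorem s1i2_rescale {R R' r : ℝ} {u : E → ℝ} {x : E} (h : Iso R u) (hr : 0 < r)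
    (hx : ‖x‖ + r * R' ≤ R) : Iso R' (fun y => u (x + r • y) / r) := by
  refine ⟨?_, s1i2_up h.up hr hx, ?_⟩
  · intro y z hy hz
    have key : ∀ w : E, ‖w‖ < R' → ‖x + r • w‖ < R := by
      intro w hw
      have e1 : ‖x + r • w‖ ≤ ‖x‖ + r * ‖w‖ := by
        refine (norm_add_le _ _).trans ?_
        rw [norm_smul, Real.norm_of_nonneg hr.le]
      have e2 := mul_lt_mul_of_pos_left hw hr
      linarith
    have e3 := h.lip _ _ (key y hy) (key z hz)
    rw [add_sub_add_left_eq_sub, ← smul_sub, norm_smul, Real.norm_of_nonneg hr.le] at e3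
    rw [← sub_div, abs_div, abs_of_pos hr, div_le_iff₀ hr]
    linarith
  · have := s1i2_up h.dn hr hx
    simpa only [neg_div] using this

theorem s1i2_flat {μ r : ℝ} {u : E → ℝ} {x : E} (hμ : 0 < μ) (hr : 0 < r)
    (h : MuFlat μ (fun y => u (x + r • y) / r) 0 1) :
    ∃ (c : E) (v : ℝ), ‖c‖ ≤ 2 ∧ ∀ y : E, ‖y‖ ≤ r → |u (x + y) - (v + ⟪c, y⟫)| ≤ μ * r := by
  obtain ⟨c, v, k, hc, hf⟩ := h
  refine ⟨c, r * v, hc, fun y hy => ?_⟩
  have h1 := hf 0 (r⁻¹ • y) (by rw [abs_zero]; positivity) (by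
    rw [norm_smul, norm_inv, Real.norm_of_nonneg hr.le, inv_mul_le_iff₀ hr, mul_one]
    exact hy)
  rw [zero_smul, zero_add, zero_add] at h1
  beta_reduce at h1
  rw [smul_smul, mul_inv_cancel₀ hr.ne', one_smul, mul_zero,
    add_zero, real_inner_smul_right, mul_one] at h1
  have e : u (x + y) - (r * v + ⟪c, y⟫) = r * (u (x + y) / r - (v + r⁻¹ * ⟪c, y⟫)) := by
    field_simp
  rw [e, abs_mul, abs_of_pos hr, mul_comm μ]
  exact mul_le_mul_of_nonneg_left h1 hr.le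

theorem iso_expands [CompleteSpace E] {α K : ℝ} (hα : 0 < α) (hα1 : α < 1) (hK : 1 ≤ K)
    (hG : ∀ j : ℕ, Good E (2 ^ (j + 1)) (K * 2 ^ (-(α * j)))) : ∃ C : ℝ, 1 ≤ C ∧
    ∀ (u : E → ℝ), Iso 4 u → ∀ A : E, ‖A‖ ≤ 2 →
    ∃ p : E, ‖p‖ ≤ 2 ∧ ∀ y : E, ‖y‖ ≤ 1 → |u (A + y) - u A - ⟪p, y⟫| ≤ C * ‖y‖ ^ (1 + α) := by
  obtain ⟨C, hC, H⟩ := exists_expands (E := E) hα hα1 (by linarith : 0 ≤ K)
  refine ⟨C, hC, fun u hu A hA => H u A fun j => ?_⟩
  have hr : (0 : ℝ) < (2 : ℝ)⁻¹ ^ j := by positivity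
  have h1 : Iso (2 ^ (j + 1)) (fun y => u (A + (2 : ℝ)⁻¹ ^ j • y) / (2 : ℝ)⁻¹ ^ j) := by
    refine s1i2_rescale hu hr ?_
    have e : (2 : ℝ)⁻¹ ^ j * 2 ^ (j + 1) = 2 := by
      rw [pow_succ, ← mul_assoc, ← mul_pow, inv_mul_cancel₀ two_ne_zero, one_pow, one_mul]
    rw [e]
    linarith only [hA]
  have hμ : 0 < K * (2 : ℝ) ^ (-(α * j)) := by positivity
  exact s1i2_flat hμ hr (hG j _ h1)

end Vale.Agent.P080.Zy
end

section

end

section
set_option linter.unusedSectionVars false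

/-! Sup- and inf-convolutions of 1-Lipschitz functions with comparison with cones. -/

namespace Vale.Agent.P080.Liou

open Topology Filter Metric Set Vale.Agent.P080
open scoped RealInnerProductSpace

variable {E : Type*} [NormedAddCommGroup E] [InnerProductSpace ℝ E] [FiniteDimensional ℝ E]

/-- 1-Lipschitz (one-sided form, both orders of the points). -/
def Lip1 (u : E → ℝ) : Prop := ∀ x y, u x - u y ≤ ‖x - y‖

/-- entire, 1-Lipschitz, comparison with cones. -/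
structure LClass (u : E → ℝ) : Prop where
  cc : ConeComp u univ
  lip : Lip1 u

noncomputable def uc (u : E → ℝ) (s : ℝ) (y : E) : ℝ := ⨆ z, (u z - ‖z - y‖ ^ 2 / (2 * s))
noncomputable def lc (u : E → ℝ) (s : ℝ) (y : E) : ℝ := - uc (fun x => - u x) s y

theorem Lip1.neg {u : E → ℝ} (hu : Lip1 u) : Lip1 (fun x => - u x) := by
  intro x y
  have := hu y x
  rw [norm_sub_rev] at this
  linarith only [this]

theorem Lip1.continuous {u : E → ℝ} (hu : Lip1 u) : Continuous u := by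
  have h : LipschitzWith 1 u := by
    apply LipschitzWith.of_dist_le_mul
    intro x y
    rw [Real.dist_eq, dist_eq_norm, NNReal.coe_one, one_mul, abs_le]
    have h1 := hu x y
    have h2 := hu y x
    rw [norm_sub_rev] at h2
    exact ⟨by linarith, h1⟩
  exact h.continuous

theorem Lip1.exists_max {u : E → ℝ} (hu : Lip1 u) {s : ℝ} (hs : 0 < s) (y : E) :
    ∃ z, ‖z - y‖ ≤ s ∧ ∀ w, u w - ‖w - y‖ ^ 2 / (2 * s) ≤ u z - ‖z - y‖ ^ 2 / (2 * s) := by
  have hK : IsCompact (closedBall y s) := isCompact_closedBall y s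
  have hc : Continuous fun z => u z - ‖z - y‖ ^ 2 / (2 * s) := by
    have := hu.continuous
    fun_prop
  obtain ⟨z, hz, hmax⟩ := hK.exists_isMaxOn ⟨y, mem_closedBall_self hs.le⟩ hc.continuousOn
  have hz' : ‖z - y‖ ≤ s := by rwa [mem_closedBall, dist_eq_norm] at hz
  refine ⟨z, hz', fun w => ?_⟩
  by_cases hw : ‖w - y‖ ≤ s
  · exact hmax (by rwa [mem_closedBall, dist_eq_norm])
  · push Not at hw
    obtain ⟨t, ht⟩ : ∃ t, t = ‖w - y‖ := ⟨_, rfl⟩
    rw [← ht] at hw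
    have ht0 : 0 < t := hs.trans hw
    obtain ⟨v, hv⟩ : ∃ v, v = y + (s / t) • (w - y) := ⟨_, rfl⟩
    have hvy : ‖v - y‖ = s := by
      rw [hv, add_sub_cancel_left, norm_smul, ← ht, Real.norm_of_nonneg (by positivity)]
      (clear * - ht0 hs; field_simp)
    have hwv : ‖w - v‖ = t - s := by
      have : w - v = (1 - s / t) • (w - y) := by
        rw [hv, sub_smul, one_smul]
        abel
      have h1 : 0 ≤ 1 - s / t := by
        rw [sub_nonneg, div_le_one ht0]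
        exact hw.le
      rw [this, norm_smul, ← ht, Real.norm_of_nonneg h1]
      (clear * - ht0 hw; (clear * - ht0 hw; field_simp))
    have h1 : u v - ‖v - y‖ ^ 2 / (2 * s) ≤ u z - ‖z - y‖ ^ 2 / (2 * s) :=
      hmax (by rw [mem_closedBall, dist_eq_norm, hvy])
    have h2 := hu w v
    rw [hwv] at h2
    rw [hvy] at h1
    rw [← ht]
    have h3 : t ^ 2 / (2 * s) - s ^ 2 / (2 * s) - (t - s) = (t - s) ^ 2 / (2 * s) := by
      field_simp
      ring
    have h4 : 0 ≤ (t - s) ^ 2 / (2 * s) := by (clear * - hw hs; positivity)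
    linarith only [h4, h3, h2, h1]

theorem Lip1.bddAbove {u : E → ℝ} (hu : Lip1 u) {s : ℝ} (hs : 0 < s) (y : E) :
    BddAbove (range fun z => u z - ‖z - y‖ ^ 2 / (2 * s)) := by
  obtain ⟨z, -, hz⟩ := hu.exists_max hs y
  exact ⟨_, by rintro _ ⟨w, rfl⟩; exact hz w⟩

theorem Lip1.le_uc {u : E → ℝ} (hu : Lip1 u) {s : ℝ} (hs : 0 < s) (y z : E) :
    u z - ‖z - y‖ ^ 2 / (2 * s) ≤ uc u s y := le_ciSup (hu.bddAbove hs y) z

theorem Lip1.uc_attained {u : E → ℝ} (hu : Lip1 u) {s : ℝ} (hs : 0 < s) (y : E) :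
    ∃ z, ‖z - y‖ ≤ s ∧ uc u s y = u z - ‖z - y‖ ^ 2 / (2 * s) := by
  obtain ⟨z, hz, hmax⟩ := hu.exists_max hs y
  exact ⟨z, hz, le_antisymm (ciSup_le hmax) (hu.le_uc hs y z)⟩

theorem Lip1.lc_attained {u : E → ℝ} (hu : Lip1 u) {s : ℝ} (hs : 0 < s) (y : E) :
    ∃ z, ‖z - y‖ ≤ s ∧ lc u s y = u z + ‖z - y‖ ^ 2 / (2 * s) := by
  obtain ⟨z, hz, h⟩ := hu.neg.uc_attained hs y
  refine ⟨z, hz, ?_⟩
  unfold lc
  rw [h]
  ring

theorem Lip1.lc_le {u : E → ℝ} (hu : Lip1 u) {s : ℝ} (hs : 0 < s) (y z : E) :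
    lc u s y ≤ u z + ‖z - y‖ ^ 2 / (2 * s) := by
  have h := hu.neg.le_uc hs y z
  unfold lc
  linarith

theorem Lip1.uc_lip {u : E → ℝ} (hu : Lip1 u) {s : ℝ} (hs : 0 < s) : Lip1 (uc u s) := by
  intro x y
  obtain ⟨z, -, h⟩ := hu.uc_attained hs x
  have h1 := hu.le_uc hs y (z + (y - x))
  have e1 : z + (y - x) - y = z - x := by abel
  rw [e1] at h1
  have h2 := hu z (z + (y - x))
  have e2 : z - (z + (y - x)) = x - y := by abel
  rw [e2] at h2
  rw [h]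
  linarith only [h1, h2]

theorem Lip1.lc_lip {u : E → ℝ} (hu : Lip1 u) {s : ℝ} (hs : 0 < s) : Lip1 (lc u s) :=
  (hu.neg.uc_lip hs).neg

theorem Lip1.self_le_uc {u : E → ℝ} (hu : Lip1 u) {s : ℝ} (hs : 0 < s) (y : E) :
    u y ≤ uc u s y := by
  have h := hu.le_uc hs y y
  simpa only [ge_iff_le, sub_self, norm_zero, ne_eq, OfNat.ofNat_ne_zero, not_false_eq_true, zero_pow, zero_div,     sub_zero] using h

theorem Lip1.uc_le {u : E → ℝ} (hu : Lip1 u) {s : ℝ} (hs : 0 < s) (y : E) :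
    uc u s y ≤ u y + s / 2 := by
  obtain ⟨z, -, h⟩ := hu.uc_attained hs y
  have h1 := hu z y
  rw [h]
  obtain ⟨t, ht⟩ : ∃ t, t = ‖z - y‖ := ⟨_, rfl⟩
  rw [← ht] at h1 ⊢
  have h3 : s / 2 - t + t ^ 2 / (2 * s) = (t - s) ^ 2 / (2 * s) := by
    field_simp
    ring
  have h4 : 0 ≤ (t - s) ^ 2 / (2 * s) := by (clear * - hs; positivity)
  linarith only [h1, h3, h4]

theorem Lip1.lc_le_self {u : E → ℝ} (hu : Lip1 u) {s : ℝ} (hs : 0 < s) (y : E) :
    lc u s y ≤ u y := by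
  have h := hu.neg.self_le_uc hs y
  unfold lc
  linarith only [h]

theorem Lip1.le_lc {u : E → ℝ} (hu : Lip1 u) {s : ℝ} (hs : 0 < s) (y : E) :
    u y - s / 2 ≤ lc u s y := by
  have h := hu.neg.uc_le hs y
  unfold lc
  linarith

/-- slopes of `s ↦ u^s` from `0` increase (cone comparison, `ball_grow` with vertex `y`) -/
theorem LClass.uc_slope {u : E → ℝ} (hu : LClass u) {a b : ℝ} (ha : 0 < a) (hab : a ≤ b) (y : E) :
    b * (uc u a y - u y) ≤ a * (uc u b y - u y) := by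
  have hb : 0 < b := ha.trans_le hab
  obtain ⟨z, hz, h⟩ := hu.lip.uc_attained ha y
  have h0 := hu.lip.self_le_uc hb y
  obtain ⟨t, ht⟩ : ∃ t, t = ‖z - y‖ := ⟨_, rfl⟩
  rw [← ht] at h
  have ht0 : 0 ≤ t := by rw [ht]; exact norm_nonneg _
  rcases ht0.eq_or_lt with ht1 | ht1
  · have hzy : z = y := by
      rw [← ht1] at ht
      exact sub_eq_zero.mp (norm_eq_zero.mp ht.symm)
    have h1 : uc u a y = u y := by
      rw [h, ← ht1, hzy]
      simp
    rw [h1, sub_self, mul_zero]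
    exact mul_nonneg ha.le (by linarith only [h0])
  · have hR : 0 < t * b / a := by positivity
    obtain ⟨z', hz', -, hg⟩ := hu.cc.ball_grow (a := y) hR (subset_univ _)
    have h1 := hg z (by
      rw [← ht, le_div_iff₀ ha]
      exact mul_le_mul_of_nonneg_left hab ht0)
    rw [← ht] at h1
    have e1 : t / (t * b / a) = a / b := by (clear * - ht1 ha hb; field_simp)
    rw [e1] at h1
    have h2 : b * (u z - u y) ≤ a * (u z' - u y) := by
      have := mul_le_mul_of_nonneg_left h1 hb.le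
      have e2 : b * (a / b * (u z' - u y)) = a * (u z' - u y) := by (clear * - hb ha; field_simp)
      linarith only [this, e2]
    have h3 := hu.lip.le_uc hb y z'
    have h4 : ‖z' - y‖ ^ 2 / (2 * b) ≤ (t * b / a) ^ 2 / (2 * b) := by
      (clear * - hz' hb; gcongr)
    have h5 : a * ((t * b / a) ^ 2 / (2 * b)) = b * (t ^ 2 / (2 * a)) := by
      field_simp
    have h6 : a * (u z' - u y - (t * b / a) ^ 2 / (2 * b)) ≤ a * (uc u b y - u y) := by
      apply mul_le_mul_of_nonneg_left _ ha.le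
      (clear * - h3 h4; linarith)
    have h7 : b * (uc u a y - u y) = b * (u z - u y) - b * (t ^ 2 / (2 * a)) := by
      rw [h]
      ring
    rw [h7]
    have h8 : a * (u z' - u y - (t * b / a) ^ 2 / (2 * b))
        = a * (u z' - u y) - b * (t ^ 2 / (2 * a)) := by
      rw [mul_sub, h5]
    linarith only [h2, h5, h6]

theorem LClass.neg_class {u : E → ℝ} (hu : LClass u) : LClass (fun x => - u x) :=
  ⟨hu.cc.neg, hu.lip.neg⟩

theorem LClass.lc_slope {u : E → ℝ} (hu : LClass u) {a b : ℝ} (ha : 0 < a) (hab : a ≤ b) (y : E) :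
    a * (lc u b y - u y) ≤ b * (lc u a y - u y) := by
  have h := hu.neg_class.uc_slope ha hab y
  unfold lc
  linarith

theorem Lip1.uc_two_le {u : E → ℝ} (hu : Lip1 u) {s : ℝ} (hs : 0 < s) (y : E) :
    uc u (2 * s) y ≤ uc (uc u s) s y := by
  obtain ⟨z, -, h⟩ := hu.uc_attained (by positivity : 0 < 2 * s) y
  obtain ⟨m, hm⟩ : ∃ m : E, m = y + (1 / 2 : ℝ) • (z - y) := ⟨_, rfl⟩
  have e1 : m - y = (1 / 2 : ℝ) • (z - y) := by rw [hm, add_sub_cancel_left]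
  have e2 : z - m = (1 / 2 : ℝ) • (z - y) := by
    rw [hm]
    module
  have n1 : ‖m - y‖ ^ 2 = ‖z - y‖ ^ 2 / 4 := by
    rw [e1, norm_smul, Real.norm_of_nonneg (by norm_num)]
    ring
  have n2 : ‖z - m‖ ^ 2 = ‖z - y‖ ^ 2 / 4 := by
    rw [e2, norm_smul, Real.norm_of_nonneg (by norm_num)]
    ring
  have h1 := hu.le_uc hs m z
  have h2 := (hu.uc_lip hs).le_uc hs y m
  rw [n2] at h1
  rw [n1] at h2
  rw [h]
  have e3 : ‖z - y‖ ^ 2 / (2 * (2 * s)) = ‖z - y‖ ^ 2 / 4 / (2 * s) + ‖z - y‖ ^ 2 / 4 / (2 * s) := by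
    field_simp
    ring
  (clear * - h1 h2 e3; linarith)

theorem Lip1.le_lc_uc {u : E → ℝ} (hu : Lip1 u) {s : ℝ} (hs : 0 < s) (y : E) :
    u y ≤ lc (uc u s) s y := by
  obtain ⟨z, -, h⟩ := (hu.uc_lip hs).lc_attained hs y
  have h1 := hu.le_uc hs z y
  rw [norm_sub_rev] at h1
  rw [h]
  linarith only [h1]

/-- `2f ≤ f^s + f_s` for `f = u^s` -/
theorem LClass.two_uc {u : E → ℝ} (hu : LClass u) {s : ℝ} (hs : 0 < s) (y : E) :
    2 * uc u s y ≤ uc (uc u s) s y + lc (uc u s) s y := by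
  have h1 := hu.uc_slope hs (by linarith only [hs] : s ≤ 2 * s) y
  have h2 := hu.lip.uc_two_le hs y
  have h3 := hu.lip.le_lc_uc hs y
  have h4 : 2 * (uc u s y - u y) ≤ uc u (2 * s) y - u y := by
    apply le_of_mul_le_mul_left _ hs
    linarith only [h1]
  linarith

theorem LClass.two_lc {u : E → ℝ} (hu : LClass u) {s : ℝ} (hs : 0 < s) (y : E) :
    uc (lc u s) s y + lc (lc u s) s y ≤ 2 * lc u s y := by
  have h := hu.neg_class.two_uc hs y
  have e1 : lc (lc u s) s y = - uc (uc (fun x => - u x) s) s y := by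
    unfold lc
    simp only [neg_neg]
  have e2 : uc (lc u s) s y = - lc (uc (fun x => - u x) s) s y := by
    unfold lc
    rw [neg_neg]
  rw [e1, e2]
  unfold lc
  unfold lc at h
  linarith only [h]

theorem uc_scale (u : E → ℝ) {r s : ℝ} (hr : 0 < r) (hs : 0 < s) (y : E) :
    uc (fun x => u (r • x) / r) s y = uc u (s * r) (r • y) / r := by
  unfold uc
  have hsurj : Function.Surjective fun z : E => r • z := fun w =>
    ⟨r⁻¹ • w, smul_inv_smul₀ hr.ne' w⟩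
  rw [← hsurj.iSup_comp (fun w => u w - ‖w - r • y‖ ^ 2 / (2 * (s * r))), div_eq_mul_inv,
    Real.iSup_mul_of_nonneg (inv_nonneg.2 hr.le)]
  congr 1
  funext z
  rw [← smul_sub, norm_smul, Real.norm_of_nonneg hr.le]
  (clear * - hs hr; field_simp)

theorem lc_scale (u : E → ℝ) {r s : ℝ} (hr : 0 < r) (hs : 0 < s) (y : E) :
    lc (fun x => u (r • x) / r) s y = lc u (s * r) (r • y) / r := by
  unfold lc
  have h := uc_scale (fun x => - u x) hr hs y
  simp only [neg_div] at h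
  rw [h, neg_div]

theorem uc_trans (u : E → ℝ) (s : ℝ) (a y : E) :
    uc (fun x => u (x + a)) s y = uc u s (y + a) := by
  unfold uc
  have hsurj : Function.Surjective fun z : E => z + a := fun w => ⟨w - a, sub_add_cancel w a⟩
  rw [← hsurj.iSup_comp (fun w => u w - ‖w - (y + a)‖ ^ 2 / (2 * s))]
  congr 1
  funext z
  rw [add_sub_add_right_eq_sub]

theorem lc_trans (u : E → ℝ) (s : ℝ) (a y : E) :
    lc (fun x => u (x + a)) s y = lc u s (y + a) := by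
  unfold lc
  rw [uc_trans (fun x => - u x)]

end Vale.Agent.P080.Liou
end

section

end

section
set_option linter.unusedSectionVars false

/-! From the Liouville theorem to uniform flatness at small scales, for functions on balls. -/

namespace Vale.Agent.P080.Liou

open Topology Filter Metric Set Vale.Agent.P080
open scoped RealInnerProductSpace

variable {E : Type*} [NormedAddCommGroup E] [InnerProductSpace ℝ E] [FiniteDimensional ℝ E]

theorem ConeComp_mono {u : E → ℝ} {Ω Ω' : Set E} (hu : ConeComp u Ω) (h : Ω' ⊆ Ω) :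
    ConeComp u Ω' :=
  ⟨hu.cont.mono h, fun V hV hb hc => hu.above V hV hb (hc.trans h),
    fun V hV hb hc => hu.below V hV hb (hc.trans h)⟩

/-- Data of a sequence of solutions on growing balls. -/
structure Growing (v : ℕ → E → ℝ) (ρ : ℕ → ℝ) (F : Ultrafilter ℕ) : Prop where
  lim : Tendsto ρ F atTop
  cc : ∀ n, ConeComp (v n) (ball 0 (ρ n))
  lip : ∀ n, ∀ x ∈ ball (0 : E) (ρ n), ∀ y ∈ ball (0 : E) (ρ n), v n x - v n y ≤ ‖x - y‖
  zero : ∀ n, v n 0 = 0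

theorem Growing.eventually_mem {v : ℕ → E → ℝ} {ρ : ℕ → ℝ} {F : Ultrafilter ℕ}
    (h : Growing v ρ F) (R : ℝ) : ∀ᶠ n in (F : Filter ℕ), ∀ x : E, ‖x‖ ≤ R → x ∈ ball 0 (ρ n) := by
  filter_upwards [h.lim.eventually (eventually_gt_atTop R)] with n hn x hx
  rw [mem_ball, dist_zero_right]
  exact lt_of_le_of_lt hx hn

theorem Growing.abs_le {v : ℕ → E → ℝ} {ρ : ℕ → ℝ} {F : Ultrafilter ℕ}
    (h : Growing v ρ F) {n : ℕ} {x y : E} (hx : x ∈ ball (0 : E) (ρ n))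
    (hy : y ∈ ball (0 : E) (ρ n)) : |v n x - v n y| ≤ ‖x - y‖ := by
  rw [_root_.abs_le]
  have h1 := h.lip n x hx y hy
  have h2 := h.lip n y hy x hx
  rw [norm_sub_rev] at h2
  exact ⟨by linarith only [h2], h1⟩

theorem Growing.exists_pointwise {v : ℕ → E → ℝ} {ρ : ℕ → ℝ} {F : Ultrafilter ℕ}
    (h : Growing v ρ F) : ∃ u : E → ℝ, (∀ x, Tendsto (fun n => v n x) F (𝓝 (u x))) := by
  have h1 : ∀ x : E, ∃ a, Tendsto (fun n => v n x) F (𝓝 a) := by
    intro x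
    have hK : IsCompact (Icc (-‖x‖) ‖x‖) := isCompact_Icc
    have hmem : Icc (-‖x‖) ‖x‖ ∈ F.map (fun n => v n x) := by
      rw [Ultrafilter.mem_map]
      have h2 := h.eventually_mem ‖x‖
      filter_upwards [h2] with n hn
      have h3 := h.abs_le (hn x le_rfl) (hn 0 (by simp only [norm_zero, norm_nonneg]))
      rw [h.zero n, sub_zero, sub_zero] at h3
      exact _root_.abs_le.1 h3
    obtain ⟨a, -, ha⟩ := hK.ultrafilter_le_nhds' _ hmem
    exact ⟨a, ha⟩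
  choose u hu using h1
  exact ⟨u, hu⟩

theorem Growing.lip_limit {v : ℕ → E → ℝ} {ρ : ℕ → ℝ} {F : Ultrafilter ℕ}
    (h : Growing v ρ F) {u : E → ℝ} (hu : ∀ x, Tendsto (fun n => v n x) F (𝓝 (u x))) :
    Lip1 u := by
  intro x y
  have h1 : Tendsto (fun n => v n x - v n y) F (𝓝 (u x - u y)) := (hu x).sub (hu y)
  refine le_of_tendsto h1 ?_
  filter_upwards [h.eventually_mem (max ‖x‖ ‖y‖)] with n hn
  exact h.lip n x (hn x (le_max_left _ _)) y (hn y (le_max_right _ _))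

theorem Growing.uniform {v : ℕ → E → ℝ} {ρ : ℕ → ℝ} {F : Ultrafilter ℕ}
    (h : Growing v ρ F) {u : E → ℝ} (hu : ∀ x, Tendsto (fun n => v n x) F (𝓝 (u x)))
    (R : ℝ) {ε : ℝ} (hε : 0 < ε) :
    ∀ᶠ n in (F : Filter ℕ), ∀ x : E, ‖x‖ ≤ R → |v n x - u x| ≤ ε := by
  have hlip := h.lip_limit hu
  have hK : IsCompact (closedBall (0 : E) R) := isCompact_closedBall _ _
  obtain ⟨t, ht, htf, hcov⟩ := finite_cover_balls_of_compact hK (show 0 < ε / 3 by positivity)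
  have h1 : ∀ᶠ n in (F : Filter ℕ), ∀ p ∈ t, |v n p - u p| ≤ ε / 3 := by
    rw [eventually_all_finite htf]
    intro p _
    have h2 := Metric.tendsto_nhds.1 (hu p) (ε / 3) (by positivity)
    filter_upwards [h2] with n hn
    rw [Real.dist_eq] at hn
    exact hn.le
  filter_upwards [h1, h.eventually_mem R] with n hn hn2 x hx
  have hx' : x ∈ closedBall (0 : E) R := by rwa [mem_closedBall, dist_zero_right]
  obtain ⟨p, hp, hxp⟩ := mem_iUnion₂.1 (hcov hx')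
  rw [mem_ball, dist_eq_norm] at hxp
  have hpR : ‖p‖ ≤ R := by
    have := ht hp
    rwa [mem_closedBall, dist_zero_right] at this
  have a1 := h.abs_le (hn2 x hx) (hn2 p hpR)
  have a2 := hn p hp
  have a3 : |u p - u x| ≤ ‖x - p‖ := by
    rw [_root_.abs_le]
    have b1 := hlip p x
    have b2 := hlip x p
    rw [norm_sub_rev] at b1
    exact ⟨by linarith only [b2], by linarith only [b1]⟩
  have e : v n x - u x = (v n x - v n p) + (v n p - u p) + (u p - u x) := by ring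
  rw [e]
  refine (abs_add_le _ _).trans ?_
  have := abs_add_le (v n x - v n p) (v n p - u p)
  linarith only [hxp, a1, a2, a3, this]

theorem Growing.coneComp {v : ℕ → E → ℝ} {ρ : ℕ → ℝ} {F : Ultrafilter ℕ}
    (h : Growing v ρ F) {u : E → ℝ} (hu : ∀ x, Tendsto (fun n => v n x) F (𝓝 (u x))) :
    ConeComp u univ := by
  have hlip := h.lip_limit hu
  -- a good index for every bounded set
  have good : ∀ (V : Set E) (z : E), Bornology.IsBounded V → ∀ ε > 0,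
      ∃ n, closure V ⊆ ball 0 (ρ n) ∧ (∀ x ∈ closure V, |v n x - u x| ≤ ε) := by
    intro V z hb ε hε
    obtain ⟨R, hR⟩ := hb.closure.subset_closedBall 0
    obtain ⟨n, h1, h2⟩ := ((h.eventually_mem R).and (h.uniform hu R hε)).exists
    refine ⟨n, ?_, ?_⟩
    · intro x hx
      have h3 := hR hx
      rw [mem_closedBall, dist_zero_right] at h3
      exact h1 x h3
    · intro x hx
      have h3 := hR hx
      rw [mem_closedBall, dist_zero_right] at h3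
      exact h2 x h3
  refine ⟨hlip.continuous.continuousOn, ?_, ?_⟩
  · intro V hV hb _ z a b hb0 hf hz x hx
    apply le_of_forall_pos_le_add
    intro ε hε
    obtain ⟨n, hn1, hn2⟩ := good V z hb (ε / 2) (by (clear * - hε; positivity))
    have h1 := (h.cc n).above V hV hb hn1 z (a + ε / 2) b hb0 (by
      intro y hy
      have h3 := hf y hy
      have h4 := (_root_.abs_le.1 (hn2 y (frontier_subset_closure hy))).2
      linarith only [h3, h4]) (by
      intro hzV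
      have h3 := hz hzV
      have h4 := (_root_.abs_le.1 (hn2 z (subset_closure hzV))).2
      linarith) x hx
    have h4 := (_root_.abs_le.1 (hn2 x (subset_closure hx))).1
    linarith
  · intro V hV hb _ z a b hb0 hf hz x hx
    apply le_of_forall_pos_le_add
    intro ε hε
    obtain ⟨n, hn1, hn2⟩ := good V z hb (ε / 2) (by (clear * - hε; positivity))
    have h1 := (h.cc n).below V hV hb hn1 z (a - ε / 2) b hb0 (by
      intro y hy
      have h3 := hf y hy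
      have h4 := (_root_.abs_le.1 (hn2 y (frontier_subset_closure hy))).1
      linarith only [h3, h4]) (by
      intro hzV
      have h3 := hz hzV
      have h4 := (_root_.abs_le.1 (hn2 z (subset_closure hzV))).1
      linarith only [h3, h4]) x hx
    have h4 := (_root_.abs_le.1 (hn2 x (subset_closure hx))).2
    linarith only [h1, h4]

/-- Lipschitz bound on the three-quarter ball. -/
theorem ConeComp_lip_ball {u : E → ℝ} {x0 : E} {R M : ℝ} (hR : 0 < R)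
    (hu : ConeComp u (ball x0 R)) (hM : ∀ x ∈ ball x0 R, ∀ y ∈ ball x0 R, u x - u y ≤ M)
    {x y : E} (hx : ‖x - x0‖ ≤ 3 / 4 * R) (hy : ‖y - x0‖ ≤ 3 / 4 * R) :
    u x - u y ≤ 8 * M / R * ‖x - y‖ := by
  have hxb : x ∈ ball x0 R := by rw [mem_ball, dist_eq_norm]; linarith only [hR, hx]
  have hyb : y ∈ ball x0 R := by rw [mem_ball, dist_eq_norm]; linarith only [hR, hy]
  have hM0 : 0 ≤ M := by
    have := hM x hxb x hxb
    linarith only [this]
  rcases le_or_gt ‖x - y‖ (R / 8) with h | h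
  · have hsub : closedBall y (R / 8) ⊆ ball x0 R := by
      intro w hw
      rw [mem_closedBall, dist_eq_norm] at hw
      rw [mem_ball, dist_eq_norm]
      have e : w - x0 = (w - y) + (y - x0) := by abel
      rw [e]
      have := norm_add_le (w - y) (y - x0)
      linarith only [hR, hy, hw, this]
    obtain ⟨z, hz, -, hg⟩ := hu.ball_grow (a := y) (show 0 < R / 8 by positivity) hsub
    have h1 := hg x h
    have hzb : z ∈ ball x0 R := hsub (by rwa [mem_closedBall, dist_eq_norm])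
    have h2 := hM z hzb y hyb
    have h3 : ‖x - y‖ / (R / 8) * (u z - u y) ≤ ‖x - y‖ / (R / 8) * M :=
      mul_le_mul_of_nonneg_left h2 (by (clear * - hR; positivity))
    have e : ‖x - y‖ / (R / 8) * M = 8 * M / R * ‖x - y‖ := by
      (clear * - hR; field_simp)
    linarith only [e, h3, h1]
  · have h1 := hM x hxb y hyb
    have h2 : 8 * M / R * (R / 8) ≤ 8 * M / R * ‖x - y‖ :=
      mul_le_mul_of_nonneg_left h.le (by (clear * - hM0 hR; positivity))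
    have e : 8 * M / R * (R / 8) = M := by (clear * - hR; field_simp)
    linarith only [h1, h2, e]

/-- The Liouville property. -/
def LiouvilleProp (E : Type*) [NormedAddCommGroup E] [InnerProductSpace ℝ E]
    [FiniteDimensional ℝ E] : Prop :=
  ∀ u : E → ℝ, LClass u → ∃ q : E, ∀ x, u x = u 0 + ⟪q, x⟫

theorem uniform_flat (hL : LiouvilleProp E) {ε : ℝ} (hε : 0 < ε) :
    ∃ δ > 0, ∀ (u : E → ℝ) (x0 : E) (R M : ℝ), 0 < R → ConeComp u (ball x0 R) →
      (∀ x ∈ ball x0 R, ∀ y ∈ ball x0 R, u x - u y ≤ M) →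
      ∀ x : E, ‖x - x0‖ ≤ R / 2 → ∀ r, 0 < r → r ≤ δ * R →
        ∃ q : E, ∀ y : E, ‖y - x‖ ≤ r → |u y - u x - ⟪q, y - x⟫| ≤ ε * (M / R) * r := by
  by_contra hcon
  push Not at hcon
  have h1 : ∀ n : ℕ, ∃ (u : E → ℝ) (x0 : E) (R M : ℝ), 0 < R ∧ ConeComp u (ball x0 R) ∧
      (∀ x ∈ ball x0 R, ∀ y ∈ ball x0 R, u x - u y ≤ M) ∧
      ∃ x : E, ‖x - x0‖ ≤ R / 2 ∧ ∃ r, 0 < r ∧ r ≤ 1 / (4 * ((n : ℝ) + 1)) * R ∧
        ∀ q : E, ∃ y : E, ‖y - x‖ ≤ r ∧ ε * (M / R) * r < |u y - u x - ⟪q, y - x⟫| :=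
    fun n => hcon (1 / (4 * ((n : ℝ) + 1))) (by (clear * -; positivity))
  choose u x0 R M hR hcc hM x hx r hr hrR hbad using h1
  have hrR' : ∀ n : ℕ, ((n : ℝ) + 1) * (4 * r n) ≤ R n := by
    intro n
    have h2 := hrR n
    have h3 : (0 : ℝ) < 4 * ((n : ℝ) + 1) := by positivity
    rw [one_div, inv_mul_eq_div, le_div_iff₀ h3] at h2
    linarith
  have hr4 : ∀ n, r n ≤ R n / 4 := by
    intro n
    have h2 := hrR' n
    have h3 := hr n
    have h4 : (0 : ℝ) ≤ n := Nat.cast_nonneg n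
    nlinarith only [h2, h3]
  have hxb : ∀ n, x n ∈ ball (x0 n) (R n) := by
    intro n
    rw [mem_ball, dist_eq_norm]
    linarith only [hx n, hR n]
  have hM0 : ∀ n, 0 ≤ M n := by
    intro n
    have := hM n _ (hxb n) _ (hxb n)
    linarith only [this]
  -- the points at distance at most `R/4` of `x n`
  have hnear : ∀ n, ∀ w : E, ‖w - x n‖ ≤ R n / 4 → ‖w - x0 n‖ ≤ 3 / 4 * R n := by
    intro n w hw
    have e : w - x0 n = (w - x n) + (x n - x0 n) := by abel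
    rw [e]
    have := norm_add_le (w - x n) (x n - x0 n)
    linarith only [hw, this, hx n]
  have hMpos : ∀ n, 0 < M n := by
    intro n
    rcases (hM0 n).eq_or_lt with h | h
    · exfalso
      obtain ⟨y, hy, hy2⟩ := hbad n 0
      rw [← h, zero_div, mul_zero, zero_mul, inner_zero_left, sub_zero] at hy2
      have a1 : ‖y - x0 n‖ ≤ 3 / 4 * R n := hnear n y (hy.trans (hr4 n))
      have a2 : ‖x n - x0 n‖ ≤ 3 / 4 * R n := by linarith only [hx n, hR n]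
      have b1 := ConeComp_lip_ball (hR n) (hcc n) (hM n) a1 a2
      have b2 := ConeComp_lip_ball (hR n) (hcc n) (hM n) a2 a1
      rw [← h, mul_zero, zero_div, zero_mul] at b1 b2
      have b3 : u n y - u n (x n) = 0 := by linarith only [b2, b1]
      rw [b3, abs_zero] at hy2
      exact lt_irrefl _ hy2
    · exact h
  obtain ⟨l, hl⟩ : ∃ l : ℕ → ℝ, ∀ n, l n = 8 * M n / R n := ⟨_, fun _ => rfl⟩
  have hl0 : ∀ n, 0 < l n := by
    intro n
    rw [hl]
    have := hMpos n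
    have := hR n
    (clear hL hε hcon l hl; positivity)
  have hin : ∀ n, ∀ y ∈ ball (0 : E) (R n / (4 * r n)), ‖(x n + r n • y) - x n‖ ≤ R n / 4 := by
    intro n y hy
    rw [mem_ball, dist_zero_right, lt_div_iff₀ (by linarith only [hr n])] at hy
    rw [add_sub_cancel_left, norm_smul, Real.norm_of_nonneg (hr n).le]
    linarith only [hy]
  have hG : Growing (fun n => rescale (u n) (x n) (r n) (l n)) (fun n => R n / (4 * r n))
      (hyperfilter ℕ) := by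
    refine ⟨?_, ?_, ?_, ?_⟩
    · have h2 : Tendsto (fun n => R n / (4 * r n)) atTop atTop := by
        refine tendsto_atTop_mono (fun n => ?_) tendsto_natCast_atTop_atTop
        rw [le_div_iff₀ (by linarith [hr n])]
        have := hrR' n
        have := hr n
        (clear hL ε hε hcon u x0 M hR hcc hM x hx hbad hr4 hxb hM0 hnear hMpos l hl hl0 hin; nlinarith)
      exact h2.mono_left Nat.hyperfilter_le_atTop
    · intro n
      refine ConeComp_mono ((hcc n).rescale (x n) (hr n) (hl0 n)) ?_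
      intro y hy
      have h2 := hnear n _ (hin n y hy)
      rw [mem_preimage, mem_ball, dist_eq_norm]
      linarith only [h2, hR n]
    · intro n y hy y' hy'
      have h2 := ConeComp_lip_ball (hR n) (hcc n) (hM n) (hnear n _ (hin n y hy))
        (hnear n _ (hin n y' hy'))
      have e : (x n + r n • y) - (x n + r n • y') = r n • (y - y') := by
        rw [add_sub_add_left_eq_sub, smul_sub]
      rw [e, norm_smul, Real.norm_of_nonneg (hr n).le, ← hl] at h2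
      have h3 : 0 < l n * r n := mul_pos (hl0 n) (hr n)
      simp only [rescale]
      rw [← sub_div, div_le_iff₀ h3]
      linarith only [h2]
    · intro n
      simp [rescale]
  obtain ⟨w, hw⟩ := hG.exists_pointwise
  have hw0 : w 0 = 0 := by
    have h2 := hw 0
    have h3 : Tendsto (fun n => rescale (u n) (x n) (r n) (l n) 0) (hyperfilter ℕ : Filter ℕ)
        (𝓝 0) := by
      refine tendsto_const_nhds.congr ?_
      intro n
      exact (hG.zero n).symm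
    exact tendsto_nhds_unique h2 h3
  obtain ⟨q, hq⟩ := hL w ⟨hG.coneComp hw, hG.lip_limit hw⟩
  obtain ⟨n, hn⟩ := (hG.uniform hw 1 (show 0 < ε / 8 by positivity)).exists
  obtain ⟨y, hy, hy2⟩ := hbad n (l n • q)
  have h3 := hn ((r n)⁻¹ • (y - x n)) (by
    rw [norm_smul, norm_inv, Real.norm_of_nonneg (hr n).le, inv_mul_le_iff₀ (hr n), mul_one]
    exact hy)
  rw [hq, hw0, zero_add, real_inner_smul_right] at h3
  have e1 := rescale_key' (u := u n) (A := x n) (hr n) (hl0 n) y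
  have e2 : u n y - u n (x n) - ⟪l n • q, y - x n⟫ =
      l n * r n * (rescale (u n) (x n) (r n) (l n) ((r n)⁻¹ • (y - x n)) -
        (r n)⁻¹ * ⟪q, y - x n⟫) := by
    rw [real_inner_smul_left, e1]
    have := hr n
    field_simp
    ring
  have h4 : 0 < l n * r n := mul_pos (hl0 n) (hr n)
  rw [e2, abs_mul, abs_of_pos h4] at hy2
  have h5 := mul_le_mul_of_nonneg_left h3 h4.le
  have e3 : l n * r n * (ε / 8) = ε * (M n / R n) * r n := by
    rw [hl]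
    ring
  linarith only [hy2, h5, e3]

end Vale.Agent.P080.Liou
end

section
set_option linter.unusedSectionVars false

/-! Comparison with cones on a ball gives the discrete convexity used in the reduction. -/

namespace Vale.Agent.P080.Zy

open Topology Filter Metric Set Vale.Agent.P080 Vale.Agent.P080.Liou
open scoped RealInnerProductSpace

variable {E : Type*} [NormedAddCommGroup E] [InnerProductSpace ℝ E] [FiniteDimensional ℝ E]

theorem coneComp_conv_aux {u : E → ℝ} {x₀ : E} {R : ℝ} (hcc : ConeComp u (ball x₀ R))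
    (x q : E) {l₁ l₂ a b : ℝ} (hl₁ : 0 ≤ l₁) (hl : l₁ ≤ l₂) (ha : 0 ≤ a) (hb : 0 ≤ b)
    (hab : a + b = 1) (h₂ : ‖x - x₀‖ + l₂ * ‖q‖ < R) :
    ∃ q₂ : E, ‖q₂‖ ≤ ‖q‖ ∧
      u (x + (a * l₁ + b * l₂) • q) ≤ a * u (x + l₁ • q) + b * u (x + l₂ • q₂) := by
  have hl₂ : 0 ≤ l₂ := hl₁.trans hl
  rcases hl.eq_or_lt with hl' | hl'
  · refine ⟨q, le_rfl, ?_⟩
    rw [← hl', ← add_mul, ← add_mul, hab, one_mul, one_mul]
  rcases (norm_nonneg q).eq_or_lt with hq0 | hq0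
  · have hq1 : q = 0 := norm_eq_zero.1 hq0.symm
    refine ⟨q, le_rfl, ?_⟩
    rw [hq1, smul_zero, smul_zero, smul_zero, add_zero, ← add_mul, hab, one_mul]
  have hba : 0 < l₂ - l₁ := sub_pos.2 hl'
  have hr : 0 < (l₂ - l₁) * ‖q‖ := mul_pos hba hq0
  have n3 : ‖l₁ • q‖ = l₁ * ‖q‖ := by rw [norm_smul, Real.norm_of_nonneg hl₁]
  have hsub : closedBall (x + l₁ • q) ((l₂ - l₁) * ‖q‖) ⊆ ball x₀ R := by
    intro w hw
    rw [mem_closedBall, dist_eq_norm] at hw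
    rw [mem_ball, dist_eq_norm]
    have e : w - x₀ = (w - (x + l₁ • q)) + l₁ • q + (x - x₀) := by abel
    rw [e]
    have n1 := norm_add_le ((w - (x + l₁ • q)) + l₁ • q) (x - x₀)
    have n2 := norm_add_le (w - (x + l₁ • q)) (l₁ • q)
    linarith
  obtain ⟨w, hw, -, hg⟩ := hcc.ball_grow hr hsub
  have e : x + (a * l₁ + b * l₂) • q - (x + l₁ • q) = (b * (l₂ - l₁)) • q := by
    have hα1 : a = 1 - b := by linarith only [hab]
    rw [hα1]
    module
  have hb1 : b ≤ 1 := by linarith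
  have hnorm : ‖x + (a * l₁ + b * l₂) • q - (x + l₁ • q)‖ = b * (l₂ - l₁) * ‖q‖ := by
    rw [e, norm_smul, Real.norm_of_nonneg (mul_nonneg hb hba.le)]
  have h2 := hg (x + (a * l₁ + b * l₂) • q) (by
    rw [hnorm]
    have := mul_le_mul_of_nonneg_right hb1 hr.le
    linarith)
  rw [hnorm] at h2
  have e2 : b * (l₂ - l₁) * ‖q‖ / ((l₂ - l₁) * ‖q‖) = b := by
    rw [mul_assoc, mul_div_assoc, div_self hr.ne', mul_one]
  rw [e2] at h2
  have hl₂' : 0 < l₂ := hl₁.trans_lt hl'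
  refine ⟨l₂⁻¹ • (w - x), ?_, ?_⟩
  · rw [norm_smul, norm_inv, Real.norm_of_nonneg hl₂, inv_mul_le_iff₀ hl₂']
    have e4 : w - x = (w - (x + l₁ • q)) + l₁ • q := by abel
    rw [e4]
    have n2 := norm_add_le (w - (x + l₁ • q)) (l₁ • q)
    linarith only [n3, hw, n2]
  · rw [smul_inv_smul₀ hl₂'.ne', add_sub_cancel]
    have hα1 : a = 1 - b := by linarith only [hab]
    rw [hα1] at h2 ⊢
    linarith

/-- Discrete convexity in the radius: `u` grows at most linearly between two spheres. -/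
theorem coneComp_conv {u : E → ℝ} {x₀ : E} {R : ℝ} (hcc : ConeComp u (ball x₀ R))
    (x q : E) {l₁ l₂ a b : ℝ} (hl₁ : 0 ≤ l₁) (hl₂ : 0 ≤ l₂) (ha : 0 ≤ a) (hb : 0 ≤ b)
    (hab : a + b = 1) (h₁ : ‖x - x₀‖ + l₁ * ‖q‖ < R) (h₂ : ‖x - x₀‖ + l₂ * ‖q‖ < R) :
    ∃ q₁ q₂ : E, ‖q₁‖ ≤ ‖q‖ ∧ ‖q₂‖ ≤ ‖q‖ ∧
      u (x + (a * l₁ + b * l₂) • q) ≤ a * u (x + l₁ • q₁) + b * u (x + l₂ • q₂) := by
  rcases le_total l₁ l₂ with h | h
  · obtain ⟨q₂, hq₂, hu⟩ := coneComp_conv_aux hcc x q hl₁ h ha hb hab h₂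
    exact ⟨q, q₂, le_rfl, hq₂, hu⟩
  · obtain ⟨q₁, hq₁, hu⟩ := coneComp_conv_aux hcc x q hl₂ h hb ha (by linarith) h₁
    refine ⟨q₁, q, hq₁, le_rfl, ?_⟩
    rw [add_comm (a * l₁), add_comm (a * u _)]
    exact hu

end Vale.Agent.P080.Zy
end

section

/-! Definitions for the base calculus on the class `Z` (P080). -/

open Set Filter Topology
open scoped RealInnerProductSpace

namespace Vale.Agent.P080.Zy

variable {E : Type*} [NormedAddCommGroup E] [InnerProductSpace ℝ E]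

/-- `(v, k, b)` are parameters of a flat cell at `(t, y)` of size `r`. -/
def IsCell (C₀ : ℝ) (V : ℝ → E → ℝ) (t : ℝ) (y : E) (r v k : ℝ) (b : E) : Prop :=
  ∀ (s : ℝ) (z : E), |s| ≤ r → ‖z‖ ≤ r →
    |V (t + s) (y + s • b + z) - (v + ⟪b, z⟫ + k * s)| ≤ C₀ * r

/-- All cells of `V` are flat (the field `flat` of `ZClass`). -/
def Flats (C₀ : ℝ) (V : ℝ → E → ℝ) : Prop := ∀ t y r, 0 < r → CellFlat C₀ V t y r

/-- Energy of a cell. -/
noncomputable def cellE (k : ℝ) (b : E) : ℝ := k - ‖b‖ ^ 2 / 2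

/-- Subquadratic growth. -/
def Grow (K : ℝ) (V : ℝ → E → ℝ) : Prop :=
  ∀ (t : ℝ) (y : E), |V t y| ≤ K * (1 + |t| + ‖y‖) ^ (3 / 2 : ℝ)

/-- The unit cell at the origin is in standard gauge. -/
def Norm1 (C₀ : ℝ) (V : ℝ → E → ℝ) : Prop :=
  ∀ (s : ℝ) (z : E), |s| ≤ 1 → ‖z‖ ≤ 1 → |V s z| ≤ C₀

/-- General affine rescaling (translation, Galilei, scaling, subtraction of an affine function). -/
noncomputable def gauge (V : ℝ → E → ℝ) (t₀ : ℝ) (y₀ : E) (r a k : ℝ) (c : E) : ℝ → E → ℝ :=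
  fun s z => (V (t₀ + r * s) (y₀ + r • z + (r * s) • c) - a - r * ⟪c, z⟫ - k * (r * s)) / r

/-- Slopes. -/
noncomputable def Eup (V : ℝ → E → ℝ) (h t : ℝ) (y : E) : ℝ := (fu V h t y - V t y) / h
noncomputable def Edn (V : ℝ → E → ℝ) (h t : ℝ) (y : E) : ℝ := (V t y - fl V h t y) / h

end Vale.Agent.P080.Zy
end

section

/-! Definitions for the proof of Theorem Z by double convolutions (P080). -/

open Set Filter Topology
open scoped RealInnerProductSpace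

namespace Vale.Agent.P080.Zy

variable {E : Type*} [NormedAddCommGroup E] [InnerProductSpace ℝ E]

/-- Double convolution `V^a_b`. -/
noncomputable def dc (V : ℝ → E → ℝ) (a b : ℝ) : ℝ → E → ℝ := fl (fu V a) b

/-- `Ψ_L(τ, x) = V^{τ+L}_τ(x) - V_L(x)`. -/
noncomputable def Psi (V : ℝ → E → ℝ) (L τ t : ℝ) (y : E) : ℝ := dc V (τ + L) τ t y - fl V L t y

/-- `E_L(x) = (V_L(x) - V_{2L}(x)) / L`. -/
noncomputable def En (V : ℝ → E → ℝ) (L t : ℝ) (y : E) : ℝ := (fl V L t y - fl V (2 * L) t y) / L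

/-- `U(τ, x) = V^{(1+κ)τ}_τ(x) - V_{κτ}(x)`. -/
noncomputable def UK (V : ℝ → E → ℝ) (κ τ t : ℝ) (y : E) : ℝ :=
  dc V ((1 + κ) * τ) τ t y - fl V (κ * τ) t y

/-- Members of the class with nonpositive energy. -/
structure Z0 (C₀ : ℝ) (V : ℝ → E → ℝ) : Prop where
  cls : ZClass C₀ V
  neg : ∀ L, 0 < L → ∀ t y, V t y ≤ fl V L t y

/-- `q` is the extremal constant of the class. -/
structure IsQ (C₀ q : ℝ) (E : Type*) [NormedAddCommGroup E] [InnerProductSpace ℝ E] : Prop where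
  nonneg : 0 ≤ q
  bound : ∀ V : ℝ → E → ℝ, ZClass C₀ V → ∀ τ, 0 < τ → ∀ t y, dc V τ τ t y ≤ V t y + q * τ

/-- `V` is extremal at the origin, scale one, in unit gauge. -/
structure Ext (C₀ q : ℝ) (V : ℝ → E → ℝ) : Prop where
  cls : ZClass C₀ V
  norm : Norm1 C₀ V
  ext : dc V 1 1 0 0 = V 0 0 + q

end Vale.Agent.P080.Zy
end

section

/-! Basic facts on the regularisations `fu`, `fl` (P080): bounds, attainment, reflection, gauge. -/

open Set Filter Topology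
open scoped RealInnerProductSpace

namespace Vale.Agent.P080.Zy

variable {E : Type*} [NormedAddCommGroup E] [InnerProductSpace ℝ E]

theorem neg_iInf_real {ι : Type*} (f : ι → ℝ) : -(⨅ i, f i) = ⨆ i, -f i := by
  rw [iInf, iSup, Real.sInf_def, neg_neg]
  congr 1
  ext x
  constructor
  · rintro ⟨i, hi⟩
    exact ⟨i, by simp only at hi ⊢; linarith⟩
  · rintro ⟨i, hi⟩
    exact ⟨i, by simp only at hi ⊢; linarith⟩

/-! ### reflection -/

theorem fu_refl (V : ℝ → E → ℝ) (L t : ℝ) (y : E) : fu (refl V) L t y = - fl V L (-t) y := by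
  unfold fu fl refl
  rw [neg_iInf_real]
  congr 1
  funext q
  rw [show -(t + L) = -t - L by ring]
  ring

theorem refl_refl (V : ℝ → E → ℝ) : refl (refl V) = V := by
  funext t y
  simp [refl]

theorem fl_refl (V : ℝ → E → ℝ) (L t : ℝ) (y : E) : fl (refl V) L t y = - fu V L (-t) y := by
  have h := fu_refl (refl V) L (-t) y
  rw [refl_refl, neg_neg] at h
  rw [h, neg_neg]

theorem Grow.refl {K : ℝ} {V : ℝ → E → ℝ} (h : Grow K V) : Grow K (refl V) := by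
  intro t y
  have := h (-t) y
  simpa only [Zy.refl, abs_neg, ge_iff_le] using this

theorem continuous_refl {V : ℝ → E → ℝ} (hV : Continuous (fun p : ℝ × E => V p.1 p.2)) :
    Continuous (fun p : ℝ × E => refl V p.1 p.2) := by
  unfold Zy.refl
  exact (hV.comp (continuous_fst.neg.prodMk continuous_snd)).neg

theorem Flats.refl {C₀ : ℝ} {V : ℝ → E → ℝ} (h : Flats C₀ V) : Flats C₀ (refl V) := by
  intro t y r hr
  obtain ⟨v, k, b, hb⟩ := h (-t) y r hr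
  refine ⟨-v, k, -b, ?_⟩
  intro s z hs hz
  have := hb (-s) z (by simpa using hs) hz
  have e1 : -t + -s = -(t + s) := by ring
  have e2 : y + (-s) • b + z = y + s • (-b) + z := by rw [neg_smul, smul_neg]
  rw [e1, e2] at this
  have e3 : Zy.refl V (t + s) (y + s • (-b) + z) - (-v + ⟪-b, z⟫ + k * s)
      = -(V (-(t + s)) (y + s • (-b) + z) - (v + ⟪b, z⟫ + k * -s)) := by
    unfold Zy.refl
    rw [inner_neg_left]; ring
  rw [e3, abs_neg]
  exact this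

theorem ZClass.refl {C₀ : ℝ} {V : ℝ → E → ℝ} (h : ZClass C₀ V) : ZClass C₀ (refl V) := by
  refine ⟨continuous_refl h.cont, ?_, ?_, Flats.refl h.flat⟩
  · intro t y
    have := (h.dn (-t) y).neg
    refine this.congr ?_
    intro L _
    exact (fu_refl V L t y).symm
  · intro t y
    have := (h.up (-t) y).neg
    refine this.congr ?_
    intro L _
    exact (fl_refl V L t y).symm

/-! ### elementary bounds -/

theorem fu_zero (V : ℝ → E → ℝ) (t : ℝ) (y : E) : fu V 0 t y = V t y := by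
  unfold fu
  simp only [add_zero, zero_smul, zero_div, zero_mul, sub_zero, ciSup_const]

theorem fl_zero (V : ℝ → E → ℝ) (t : ℝ) (y : E) : fl V 0 t y = V t y := by
  unfold fl
  simp only [sub_zero, zero_smul, add_zero, zero_div, zero_mul, ciInf_const]

/-- elementary: `K (1 + A + L x)^{3/2} - L/2 x^2` is bounded in `x ≥ 0`. -/
theorem quad_beats (K A L : ℝ) (hL : 0 < L) (hA : 0 ≤ A) : ∃ M : ℝ, ∀ x : ℝ, 0 ≤ x →
    |K| * (1 + A + L * x) ^ (3 / 2 : ℝ) - L / 4 * x ^ 2 ≤ M := by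
  -- Young: `|K| X^{3/2} ≤ ε X^2 + C`
  -- use `X^{3/2} ≤ X * sqrt X` and `sqrt X ≤ δ X + 1/(4 δ)`
  set δ : ℝ := 1 / (16 * L * (|K| + 1)) with hδ
  have hK1 : 0 < |K| + 1 := by positivity
  have hδ0 : 0 < δ := by (clear * - hL; positivity)
  refine ⟨|K| * (2 * δ * (1 + A) ^ 2) + (|K| * (1 / (4 * δ)) * (1 + A)) +
    2 * (|K| * (1 / (4 * δ))) ^ 2 * L, ?_⟩
  intro x hx
  set X : ℝ := 1 + A + L * x with hX
  have hX0 : 0 < X := by positivity
  have h1 : X ^ (3 / 2 : ℝ) = X * Real.sqrt X := by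
    rw [show (3 / 2 : ℝ) = 1 + 1 / 2 by norm_num, Real.rpow_add hX0, Real.rpow_one,
      Real.sqrt_eq_rpow]
  have h2 : Real.sqrt X ≤ δ * X + 1 / (4 * δ) := by
    have h3 := Real.sq_sqrt hX0.le
    have h4 : 0 ≤ (2 * δ * Real.sqrt X - 1) ^ 2 := sq_nonneg _
    have h5 : 4 * δ * Real.sqrt X ≤ 4 * δ * (δ * X + 1 / (4 * δ)) := by
      have h6 : 4 * δ * (δ * X + 1 / (4 * δ)) = 4 * δ ^ 2 * X + 1 := by field_simp
      have h7 : (2 * δ * Real.sqrt X - 1) ^ 2 = 4 * δ ^ 2 * Real.sqrt X ^ 2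
        - 4 * δ * Real.sqrt X + 1 := by ring
      rw [h3] at h7
      rw [h6]
      linarith only [h4, h7]
    exact le_of_mul_le_mul_left h5 (by (clear * - hL; positivity))
  have h6 : |K| * X ^ (3 / 2 : ℝ) ≤ |K| * (δ * X ^ 2 + 1 / (4 * δ) * X) := by
    rw [h1]
    refine mul_le_mul_of_nonneg_left ?_ (abs_nonneg K)
    nlinarith only [hX0, h2]
  have h7 : X ^ 2 ≤ 2 * (1 + A) ^ 2 + 2 * (L * x) ^ 2 := by
    rw [hX]; linarith only [sq_nonneg ((1 + A) - L * x)]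
  have h8 : |K| * (δ * (2 * (L * x) ^ 2)) ≤ L / 8 * x ^ 2 := by
    have h9 : |K| * δ * (2 * L ^ 2) ≤ L / 8 := by
      rw [hδ]
      have : |K| * (1 / (16 * L * (|K| + 1))) * (2 * L ^ 2) = (|K| / (|K| + 1)) * (L / 8) := by
        field_simp
        ring
      rw [this]
      have h10 : |K| / (|K| + 1) ≤ 1 := by
        rw [div_le_one hK1]; linarith only []
      linarith only [mul_nonneg (le_of_lt (sub_pos.2 hL)) (sub_nonneg.2 h10)]
    linarith only [mul_nonneg (sq_nonneg (1 * x : ℝ)) (sub_nonneg.2 h9)]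
  have h11 : |K| * (1 / (4 * δ)) * (L * x) ≤ 2 * (|K| * (1 / (4 * δ))) ^ 2 * L + L / 8 * x ^ 2 := by
    set c := |K| * (1 / (4 * δ))
    linarith only [mul_nonneg hL.le (sq_nonneg (4 * c - x))]
  have h12 : |K| * (δ * X ^ 2 + 1 / (4 * δ) * X) ≤
      |K| * (δ * (2 * (1 + A) ^ 2 + 2 * (L * x) ^ 2)) + |K| * (1 / (4 * δ)) * X := by
    have : |K| * (δ * X ^ 2) ≤ |K| * (δ * (2 * (1 + A) ^ 2 + 2 * (L * x) ^ 2)) :=
      mul_le_mul_of_nonneg_left (mul_le_mul_of_nonneg_left h7 hδ0.le) (abs_nonneg K)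
    linarith only [this]
  have h13 : |K| * (1 / (4 * δ)) * X = |K| * (1 / (4 * δ)) * (1 + A) +
      |K| * (1 / (4 * δ)) * (L * x) := by rw [hX]; ring
  linarith

theorem Grow.le_quad {K : ℝ} {V : ℝ → E → ℝ} (hK : Grow K V) {L : ℝ} (hL : 0 < L) (t : ℝ)
    (y : E) : ∃ M : ℝ, ∀ q : E, |V t (y + L • q)| ≤ M + L / 4 * ‖q‖ ^ 2 := by
  obtain ⟨M, hM⟩ := quad_beats K (|t| + ‖y‖) L hL (by positivity)
  refine ⟨M, ?_⟩
  intro q
  have h1 := hK t (y + L • q)
  have h2 := hM ‖q‖ (norm_nonneg q)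
  have h3 : ‖y + L • q‖ ≤ ‖y‖ + L * ‖q‖ := by
    calc ‖y + L • q‖ ≤ ‖y‖ + ‖L • q‖ := norm_add_le _ _
      _ = ‖y‖ + L * ‖q‖ := by rw [norm_smul, Real.norm_of_nonneg hL.le]
  have h4 : (1 + |t| + ‖y + L • q‖) ^ (3 / 2 : ℝ) ≤
      (1 + (|t| + ‖y‖) + L * ‖q‖) ^ (3 / 2 : ℝ) := by
    apply Real.rpow_le_rpow (by positivity) (by linarith only [h3]) (by norm_num)
  have h5 : K * (1 + |t| + ‖y + L • q‖) ^ (3 / 2 : ℝ) ≤
      |K| * (1 + |t| + ‖y + L • q‖) ^ (3 / 2 : ℝ) :=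
    mul_le_mul_of_nonneg_right (le_abs_self K) (by (clear * -; positivity))
  have h6 := mul_le_mul_of_nonneg_left h4 (abs_nonneg K)
  linarith only [h6, h5, h2, h1]

theorem fu_bdd {K : ℝ} {V : ℝ → E → ℝ} (hK : Grow K V) {L : ℝ} (hL : 0 ≤ L) (t : ℝ) (y : E) :
    BddAbove (range fun q : E => V (t + L) (y + L • q) - L / 2 * ‖q‖ ^ 2) := by
  rcases hL.eq_or_lt with h0 | hL
  · subst h0
    refine ⟨V t y, ?_⟩
    rintro _ ⟨q, rfl⟩
    simp
  · obtain ⟨M, hM⟩ := hK.le_quad hL (t + L) y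
    refine ⟨M, ?_⟩
    rintro _ ⟨q, rfl⟩
    have := le_of_abs_le (hM q)
    have h2 : 0 ≤ L * ‖q‖ ^ 2 := by positivity
    simp only
    linarith

theorem fl_bdd {K : ℝ} {V : ℝ → E → ℝ} (hK : Grow K V) {L : ℝ} (hL : 0 ≤ L) (t : ℝ) (y : E) :
    BddBelow (range fun q : E => V (t - L) (y + L • q) + L / 2 * ‖q‖ ^ 2) := by
  rcases hL.eq_or_lt with h0 | hL
  · subst h0
    refine ⟨V t y, ?_⟩
    rintro _ ⟨q, rfl⟩
    simp
  · obtain ⟨M, hM⟩ := hK.le_quad hL (t - L) y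
    refine ⟨-M, ?_⟩
    rintro _ ⟨q, rfl⟩
    have := neg_le_of_abs_le (hM q)
    have h2 : 0 ≤ L * ‖q‖ ^ 2 := by positivity
    simp only
    linarith

theorem le_fu {K : ℝ} {V : ℝ → E → ℝ} (hK : Grow K V) {L : ℝ} (hL : 0 ≤ L) (t : ℝ) (y q : E) :
    V (t + L) (y + L • q) - L / 2 * ‖q‖ ^ 2 ≤ fu V L t y :=
  le_ciSup (fu_bdd hK hL t y) q

theorem fl_le {K : ℝ} {V : ℝ → E → ℝ} (hK : Grow K V) {L : ℝ} (hL : 0 ≤ L) (t : ℝ) (y q : E) :
    fl V L t y ≤ V (t - L) (y + L • q) + L / 2 * ‖q‖ ^ 2 :=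
  ciInf_le (fl_bdd hK hL t y) q

theorem le_fu' {K : ℝ} {V : ℝ → E → ℝ} (hK : Grow K V) {L : ℝ} (hL : 0 < L) (t : ℝ) (y z : E) :
    V (t + L) z - ‖z - y‖ ^ 2 / (2 * L) ≤ fu V L t y := by
  have h := le_fu hK hL.le t y (L⁻¹ • (z - y))
  rw [smul_smul, mul_inv_cancel₀ hL.ne', one_smul, norm_smul, Real.norm_of_nonneg
    (inv_nonneg.2 hL.le), add_sub_cancel] at h
  have e : L / 2 * (L⁻¹ * ‖z - y‖) ^ 2 = ‖z - y‖ ^ 2 / (2 * L) := by
    field_simp
  rw [e] at h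
  exact h

theorem fu_attained [FiniteDimensional ℝ E] {K : ℝ} {V : ℝ → E → ℝ}
    (hV : Continuous (fun p : ℝ × E => V p.1 p.2)) (hK : Grow K V) {L : ℝ} (hL : 0 ≤ L) (t : ℝ)
    (y : E) : ∃ q : E, fu V L t y = V (t + L) (y + L • q) - L / 2 * ‖q‖ ^ 2 := by
  rcases hL.eq_or_lt with h0 | hL'
  · subst h0
    exact ⟨0, by rw [fu_zero]; simp⟩
  · obtain ⟨M, hM⟩ := hK.le_quad hL' (t + L) y
    set f : E → ℝ := fun q => V (t + L) (y + L • q) - L / 2 * ‖q‖ ^ 2 with hf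
    have hfc : Continuous f := by
      have h1 : Continuous (fun q : E => V (t + L) (y + L • q)) :=
        hV.comp (continuous_const.prodMk (by fun_prop))
      exact h1.sub (by fun_prop)
    have hneg : Tendsto (fun q => - f q) (cocompact E) atTop := by
      have h2 : ∀ q : E, L / 4 * ‖q‖ ^ 2 - M ≤ - f q := by
        intro q
        have := le_of_abs_le (hM q)
        simp only [hf]
        linarith
      refine tendsto_atTop_mono h2 ?_
      have h3 : Tendsto (fun q : E => ‖q‖ ^ 2) (cocompact E) atTop :=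
        (tendsto_pow_atTop (by norm_num)).comp (tendsto_norm_cocompact_atTop)
      exact tendsto_atTop_add_const_right _ _ (h3.const_mul_atTop (by positivity))
    obtain ⟨q, hq⟩ := hfc.neg.exists_forall_le hneg
    refine ⟨q, le_antisymm ?_ (le_fu hK hL t y q)⟩
    refine ciSup_le ?_
    intro p
    have h5 : - f q ≤ - f p := hq p
    have h6 : f p ≤ f q := by linarith
    exact h6

theorem fl_attained [FiniteDimensional ℝ E] {K : ℝ} {V : ℝ → E → ℝ}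
    (hV : Continuous (fun p : ℝ × E => V p.1 p.2)) (hK : Grow K V) {L : ℝ} (hL : 0 ≤ L) (t : ℝ)
    (y : E) : ∃ q : E, fl V L t y = V (t - L) (y + L • q) + L / 2 * ‖q‖ ^ 2 := by
  obtain ⟨q, hq⟩ := fu_attained (continuous_refl hV) hK.refl hL (-t) y
  refine ⟨q, ?_⟩
  rw [fu_refl, neg_neg] at hq
  unfold Zy.refl at hq
  rw [show -(-t + L) = t - L by ring] at hq
  linarith only [hq]

/-! ### gauge -/

theorem ciSup_affine {f : E → ℝ} (hf : BddAbove (range f)) {r : ℝ} (hr : 0 < r) (m : ℝ) :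
    (⨆ q : E, (f q / r + m)) = (⨆ q : E, f q) / r + m := by
  apply le_antisymm
  · refine ciSup_le fun q => ?_
    have := le_ciSup hf q
    have h2 := div_le_div_of_nonneg_right this hr.le
    linarith
  · have hb : BddAbove (range fun q : E => f q / r + m) := by
      obtain ⟨M, hM⟩ := hf
      refine ⟨M / r + m, ?_⟩
      rintro _ ⟨q, rfl⟩
      have := hM ⟨q, rfl⟩
      have h2 := div_le_div_of_nonneg_right this hr.le
      simp only
      linarith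
    have h1 : (⨆ q : E, f q) ≤ r * ((⨆ q : E, (f q / r + m)) - m) := by
      refine ciSup_le fun q => ?_
      have := le_ciSup hb q
      have h2 : f q / r ≤ (⨆ q : E, (f q / r + m)) - m := by linarith
      rw [div_le_iff₀ hr] at h2
      linarith
    have h3 : (⨆ q : E, f q) / r ≤ (⨆ q : E, (f q / r + m)) - m := by
      rw [div_le_iff₀ hr]; linarith
    linarith

theorem fu_gauge {K : ℝ} {V : ℝ → E → ℝ} (hK : Grow K V) (t₀ : ℝ) (y₀ : E) {r : ℝ} (hr : 0 < r)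
    (a k : ℝ) (c : E) {L : ℝ} (hL : 0 ≤ L) (s : ℝ) (z : E) :
    fu (gauge V t₀ y₀ r a k c) L s z =
      (fu V (r * L) (t₀ + r * s) (y₀ + r • z + (r * s) • c) - a - r * ⟪c, z⟫
        - k * (r * (s + L))) / r + L * ‖c‖ ^ 2 / 2 := by
  have hb := fu_bdd hK (mul_nonneg hr.le hL) (t₀ + r * s) (y₀ + r • z + (r * s) • c)
  set f : E → ℝ := fun q => V (t₀ + r * s + r * L) (y₀ + r • z + (r * s) • c + (r * L) • q)
    - r * L / 2 * ‖q‖ ^ 2 with hf
  have h1 := ciSup_affine hb hr ((- a - r * ⟪c, z⟫ - k * (r * (s + L))) / r + L * ‖c‖ ^ 2 / 2)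
  have h2 : (⨆ q : E, f q) = fu V (r * L) (t₀ + r * s) (y₀ + r • z + (r * s) • c) := rfl
  have h3 : fu (gauge V t₀ y₀ r a k c) L s z = ⨆ q : E,
      (f (q + c) / r + ((- a - r * ⟪c, z⟫ - k * (r * (s + L))) / r + L * ‖c‖ ^ 2 / 2)) := by
    unfold fu gauge
    congr 1
    funext q
    simp only [hf]
    have e1 : t₀ + r * (s + L) = t₀ + r * s + r * L := by ring
    have e2 : y₀ + r • (z + L • q) + (r * (s + L)) • c
        = y₀ + r • z + (r * s) • c + (r * L) • (q + c) := by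
      module
    rw [e1, e2, inner_add_right, inner_smul_right, norm_add_sq_real, real_inner_comm c q]
    field_simp
    ring
  have h4 : (⨆ q : E, (f (q + c) / r + ((- a - r * ⟪c, z⟫ - k * (r * (s + L))) / r
      + L * ‖c‖ ^ 2 / 2))) = ⨆ q : E, (f q / r + ((- a - r * ⟪c, z⟫ - k * (r * (s + L))) / r
      + L * ‖c‖ ^ 2 / 2)) :=
    (Equiv.addRight c).iSup_comp (g := fun q : E =>
      (f q / r + ((- a - r * ⟪c, z⟫ - k * (r * (s + L))) / r + L * ‖c‖ ^ 2 / 2)))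
  rw [h3, h4, h1, h2]
  ring

theorem gauge_refl (V : ℝ → E → ℝ) (t₀ : ℝ) (y₀ : E) (r a k : ℝ) (c : E) :
    refl (gauge V t₀ y₀ r a k c) = gauge (refl V) (-t₀) y₀ r (-a) k (-c) := by
  funext s z
  unfold Zy.refl gauge
  have e1 : -(-t₀ + r * s) = t₀ + r * -s := by ring
  have e2 : y₀ + r • z + (r * s) • (-c) = y₀ + r • z + (r * -s) • c := by module
  simp only []
  rw [e1, e2, inner_neg_left]
  ring

theorem fl_gauge {K : ℝ} {V : ℝ → E → ℝ} (hK : Grow K V) (t₀ : ℝ) (y₀ : E) {r : ℝ} (hr : 0 < r)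
    (a k : ℝ) (c : E) {L : ℝ} (hL : 0 ≤ L) (s : ℝ) (z : E) :
    fl (gauge V t₀ y₀ r a k c) L s z =
      (fl V (r * L) (t₀ + r * s) (y₀ + r • z + (r * s) • c) - a - r * ⟪c, z⟫
        - k * (r * (s - L))) / r - L * ‖c‖ ^ 2 / 2 := by
  have h := fu_gauge hK.refl (-t₀) y₀ hr (-a) k (-c) hL (-s) z
  rw [← gauge_refl, fu_refl, fu_refl, neg_neg] at h
  have e1 : -(-t₀ + r * -s) = t₀ + r * s := by ring
  have e2 : y₀ + r • z + (r * -s) • (-c) = y₀ + r • z + (r * s) • c := by module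
  rw [e1, e2, inner_neg_left, norm_neg] at h
  have h2 : fl (gauge V t₀ y₀ r a k c) L s z = -((-fl V (r * L) (t₀ + r * s)
      (y₀ + r • z + (r * s) • c) - -a - r * -⟪c, z⟫ - k * (r * (-s + L))) / r
        + L * ‖c‖ ^ 2 / 2) := by rw [← h, neg_neg]
  rw [h2]
  ring

theorem IsCell.norm1_gauge {C₀ : ℝ} {V : ℝ → E → ℝ} {t r v k : ℝ} {y b : E} (hr : 0 < r)
    (h : IsCell C₀ V t y r v k b) : Norm1 C₀ (gauge V t y r v k b) := by
  intro s z hs hz
  have h1 := h (r * s) (r • z) (by rw [abs_mul, abs_of_pos hr]; nlinarith)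
    (by rw [norm_smul, Real.norm_of_nonneg hr.le]; nlinarith only [hr, hz])
  unfold gauge
  have e : y + r • z + (r * s) • b = y + (r * s) • b + r • z := by module
  rw [e, abs_div, abs_of_pos hr, div_le_iff₀ hr]
  rw [inner_smul_right] at h1
  calc |V (t + r * s) (y + (r * s) • b + r • z) - v - r * ⟪b, z⟫ - k * (r * s)|
      = |V (t + r * s) (y + (r * s) • b + r • z) - (v + r * ⟪b, z⟫ + k * (r * s))| := by
        congr 1; ring
    _ ≤ C₀ * r := h1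

theorem Flats.gauge {C₀ : ℝ} {V : ℝ → E → ℝ} (h : Flats C₀ V) (t₀ : ℝ) (y₀ : E) {r : ℝ}
    (hr : 0 < r) (a k : ℝ) (c : E) : Flats C₀ (gauge V t₀ y₀ r a k c) := by
  intro s z ρ hρ
  obtain ⟨v', k', b', hb⟩ := h (t₀ + r * s) (y₀ + r • z + (r * s) • c) (r * ρ) (mul_pos hr hρ)
  refine ⟨(v' - a - k * (r * s)) / r - ⟪c, z⟫, k' - k - ⟪c, b' - c⟫, b' - c, ?_⟩
  intro σ ζ hσ hζ
  have h1 := hb (r * σ) (r • ζ) (by rw [abs_mul, abs_of_pos hr]; linarith only [mul_nonneg (le_of_lt (sub_pos.2 hr)) (sub_nonneg.2 hσ)])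
    (by rw [norm_smul, Real.norm_of_nonneg hr.le]; linarith only [mul_nonneg (le_of_lt (sub_pos.2 hr)) (sub_nonneg.2 hζ)])
  unfold Zy.gauge
  have e1 : t₀ + r * (s + σ) = t₀ + r * s + r * σ := by ring
  have e2 : y₀ + r • (z + σ • (b' - c) + ζ) + (r * (s + σ)) • c
      = y₀ + r • z + (r * s) • c + (r * σ) • b' + r • ζ := by module
  rw [e1, e2]
  rw [inner_smul_right] at h1
  set A := V (t₀ + r * s + r * σ) (y₀ + r • z + (r * s) • c + (r * σ) • b' + r • ζ)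
  have e3 : (A - a - r * ⟪c, z + σ • (b' - c) + ζ⟫ - k * (r * (s + σ))) / r -
      ((v' - a - k * (r * s)) / r - ⟪c, z⟫ + ⟪b' - c, ζ⟫ + (k' - k - ⟪c, b' - c⟫) * σ)
      = (A - (v' + r * ⟪b', ζ⟫ + k' * (r * σ))) / r := by
    rw [inner_add_right, inner_add_right, inner_smul_right, inner_sub_left]
    field_simp
    ring
  rw [e3, abs_div, abs_of_pos hr, div_le_iff₀ hr]
  calc |A - (v' + r * ⟪b', ζ⟫ + k' * (r * σ))| ≤ C₀ * (r * ρ) := h1
    _ = C₀ * ρ * r := by ring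

theorem continuous_gauge {V : ℝ → E → ℝ} (hV : Continuous (fun p : ℝ × E => V p.1 p.2))
    (t₀ : ℝ) (y₀ : E) (r a k : ℝ) (c : E) :
    Continuous (fun p : ℝ × E => gauge V t₀ y₀ r a k c p.1 p.2) := by
  unfold gauge
  have h1 : Continuous (fun p : ℝ × E => V (t₀ + r * p.1) (y₀ + r • p.2 + (r * p.1) • c)) :=
    hV.comp ((by fun_prop : Continuous fun p : ℝ × E => t₀ + r * p.1).prodMk (by (clear * -; fun_prop)))
  (clear * - hV; fun_prop)

end Vale.Agent.P080.Zy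
end

section

/-! Comparison of two flat cells (P080, base calculus on the class `Z`). -/

open Set Filter Topology
open scoped RealInnerProductSpace

namespace Vale.Agent.P080.Zy

variable {E : Type*} [NormedAddCommGroup E] [InnerProductSpace ℝ E]

theorem cell_two {C₀ : ℝ} {V : ℝ → E → ℝ} {t t' R r v k v' k' : ℝ} {y y' b b' : E}
    (hRr : R ≤ 4 * r) (hC : 0 ≤ C₀) (h : IsCell C₀ V t y R v k b)
    (h' : IsCell C₀ V t' y' r v' k' b')
    (s : ℝ) (z : E) (hs : |s| ≤ r) (hz : ‖z‖ ≤ r)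
    (h1 : |t' - t + s| ≤ R) (h2 : ‖y' - y - (t' - t) • b + s • (b' - b) + z‖ ≤ R) :
    |(v' + ⟪b', z⟫ + k' * s) - (v + ⟪b, y' - y - (t' - t) • b + s • (b' - b) + z⟫
      + k * (t' - t + s))| ≤ 5 * C₀ * r := by
  have e1 := h' s z hs hz
  have e2 := h (t' - t + s) (y' - y - (t' - t) • b + s • (b' - b) + z) h1 h2
  have ht : t + (t' - t + s) = t' + s := by ring
  have hy : y + (t' - t + s) • b + (y' - y - (t' - t) • b + s • (b' - b) + z)
      = y' + s • b' + z := by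
    module
  rw [ht, hy] at e2
  have hCR : C₀ * R ≤ C₀ * (4 * r) := mul_le_mul_of_nonneg_left hRr hC
  rw [abs_le] at e1 e2 ⊢
  constructor
  · linarith [e1.1, e1.2, e2.1, e2.2]
  · linarith only [e1, e2, hCR]

theorem norm_le_of_inner {u : E} {r c : ℝ} (hr : 0 < r) (hc : 0 ≤ c)
    (h : ∀ z : E, ‖z‖ ≤ r → |⟪u, z⟫| ≤ c * r) : ‖u‖ ≤ c := by
  by_cases hu : u = 0
  · rw [hu, norm_zero]
    exact hc
  · have hpos : 0 < ‖u‖ := norm_pos_iff.mpr hu
    have hz : ‖(r / ‖u‖) • u‖ ≤ r := by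
      rw [norm_smul, Real.norm_eq_abs, abs_of_pos (div_pos hr hpos)]
      rw [div_mul_cancel₀ _ hpos.ne']
    have h1 := h _ hz
    rw [inner_smul_right, real_inner_self_eq_norm_sq] at h1
    have h2 : r / ‖u‖ * ‖u‖ ^ 2 = r * ‖u‖ := by
      field_simp
    rw [h2, abs_of_pos (mul_pos hr hpos)] at h1
    have h3 : r * ‖u‖ ≤ r * c := by linarith only [h1]
    exact le_of_mul_le_mul_left h3 hr

theorem cell_nonneg {C₀ : ℝ} {V : ℝ → E → ℝ} {t r v k : ℝ} {y b : E}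
    (hr : 0 < r) (h : IsCell C₀ V t y r v k b) : 0 ≤ C₀ := by
  have h1 := h 0 0 (by rw [abs_zero]; exact hr.le) (by rw [norm_zero]; exact hr.le)
  have h2 : 0 ≤ C₀ * r := le_trans (abs_nonneg _) h1
  by_contra hneg
  push Not at hneg
  have h3 : C₀ * r < 0 := mul_neg_of_neg_of_pos hneg hr
  linarith

/-- Comparison of two cells, the second one inside the first one. -/
theorem cell_compare {C₀ : ℝ} {V : ℝ → E → ℝ} {t t' R r v k v' k' : ℝ} {y y' b b' : E}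
    (hr : 0 < r) (hRr : R ≤ 4 * r) (h : IsCell C₀ V t y R v k b) (h' : IsCell C₀ V t' y' r v' k' b')
    (ht : |t' - t| + r ≤ R) (hy : ‖y' - y - (t' - t) • b‖ + r ≤ R) :
    ‖b' - b‖ ≤ 5 * C₀ ∧ |cellE k' b' - cellE k b| ≤ 50 * C₀ * (1 + C₀) ∧
      |v' - (v + ⟪b, y' - y - (t' - t) • b⟫ + k * (t' - t))| ≤ 5 * C₀ * r := by
  have hC : 0 ≤ C₀ := cell_nonneg hr h'
  have key := fun (s : ℝ) (z : E) => cell_two (s := s) (z := z) hRr hC h h'
  set σ : E := y' - y - (t' - t) • b with hσ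
  set w : ℝ := t' - t with hw
  -- level `s = 0`
  have hz0 : ∀ z : E, ‖z‖ ≤ r →
      |(v' + ⟪b', z⟫) - (v + ⟪b, σ⟫ + ⟪b, z⟫ + k * w)| ≤ 5 * C₀ * r := by
    intro z hz
    have e := key 0 z (by rw [abs_zero]; exact hr.le) hz (by rw [add_zero]; linarith)
      (by
        rw [zero_smul, add_zero]
        calc ‖σ + z‖ ≤ ‖σ‖ + ‖z‖ := norm_add_le _ _
          _ ≤ R := by linarith)
    rw [zero_smul, add_zero, inner_add_right, mul_zero, add_zero, add_zero] at e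
    have e3 : v + (⟪b, σ⟫ + ⟪b, z⟫) + k * w = v + ⟪b, σ⟫ + ⟪b, z⟫ + k * w := by ring
    rwa [e3] at e
  have hthird : |v' - (v + ⟪b, σ⟫ + k * w)| ≤ 5 * C₀ * r := by
    have e := hz0 0 (by rw [norm_zero]; exact hr.le)
    rw [inner_zero_right, inner_zero_right, add_zero, add_zero] at e
    exact e
  have hdiff : ‖b' - b‖ ≤ 5 * C₀ := by
    apply norm_le_of_inner hr (by linarith)
    intro z hz
    have e1 := hz0 z hz
    have e2 := hz0 (-z) (by rw [norm_neg]; exact hz)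
    rw [inner_neg_right, inner_neg_right] at e2
    rw [inner_sub_left]
    rw [abs_le] at e1 e2 ⊢
    constructor
    · linarith only [e1, e2]
    · linarith [e1.1, e1.2, e2.1, e2.2]
  have hD : 0 < 1 + 5 * C₀ := by linarith
  -- the time direction
  have hτ : 0 < r / (1 + 5 * C₀) := div_pos hr hD
  have hτr : r / (1 + 5 * C₀) * (1 + 5 * C₀) = r := div_mul_cancel₀ _ hD.ne'
  set τ : ℝ := r / (1 + 5 * C₀) with hτdef
  have hτle : τ ≤ r := by
    have : 0 ≤ τ * (5 * C₀) := mul_nonneg hτ.le (by linarith)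
    linarith [hτr]
  have htime : ∀ s : ℝ, |s| ≤ τ →
      |(v' + k' * s) - (v + ⟪b, σ⟫ + s * ⟪b, b' - b⟫ + k * (w + s))| ≤ 5 * C₀ * r := by
    intro s hs
    have hsb : ‖s • (b' - b)‖ ≤ r := by
      rw [norm_smul, Real.norm_eq_abs]
      calc |s| * ‖b' - b‖ ≤ τ * (5 * C₀) :=
            mul_le_mul hs hdiff (norm_nonneg _) hτ.le
        _ ≤ r := by linarith [hτr]
    have e := key s 0 (le_trans hs hτle) (by rw [norm_zero]; exact hr.le)
      (by
        calc |w + s| ≤ |w| + |s| := abs_add_le _ _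
          _ ≤ R := by linarith)
      (by
        rw [add_zero]
        calc ‖σ + s • (b' - b)‖ ≤ ‖σ‖ + ‖s • (b' - b)‖ := norm_add_le _ _
          _ ≤ R := by linarith)
    rw [add_zero, inner_zero_right, add_zero, inner_add_right, inner_smul_right] at e
    have e3 : v + (⟪b, σ⟫ + s * ⟪b, b' - b⟫) + k * (w + s)
        = v + ⟪b, σ⟫ + s * ⟪b, b' - b⟫ + k * (w + s) := by ring
    rwa [e3] at e
  have hkk : |k' - k - ⟪b, b' - b⟫| ≤ 5 * C₀ * (1 + 5 * C₀) := by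
    have e1 := htime τ (by rw [abs_of_pos hτ])
    have e2 := htime (-τ) (by rw [abs_neg, abs_of_pos hτ])
    have e3 : |(k' - k - ⟪b, b' - b⟫) * τ| ≤ 5 * C₀ * r := by
      rw [abs_le] at e1 e2 ⊢
      constructor
      · linarith only [e1, e2]
      · linarith only [e1, e2]
    rw [abs_mul, abs_of_pos hτ] at e3
    have e4 : 5 * C₀ * r = 5 * C₀ * (1 + 5 * C₀) * τ := by
      rw [← hτr]; ring
    rw [e4] at e3
    exact le_of_mul_le_mul_right e3 hτ
  have hE : cellE k' b' - cellE k b = (k' - k - ⟪b, b' - b⟫) - ‖b' - b‖ ^ 2 / 2 := by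
    unfold cellE
    have e1 : ‖b' - b‖ ^ 2 = ‖b'‖ ^ 2 - 2 * ⟪b', b⟫ + ‖b‖ ^ 2 := norm_sub_sq_real b' b
    have e2 : ⟪b, b' - b⟫ = ⟪b', b⟫ - ‖b‖ ^ 2 := by
      rw [inner_sub_right, real_inner_self_eq_norm_sq, real_inner_comm]
    rw [e1, e2]
    ring
  have hsq : ‖b' - b‖ ^ 2 ≤ (5 * C₀) ^ 2 := pow_le_pow_left₀ (norm_nonneg _) hdiff 2
  have hsq0 : 0 ≤ ‖b' - b‖ ^ 2 := sq_nonneg _
  refine ⟨hdiff, ?_, hthird⟩
  rw [hE]
  have hCC : 0 ≤ C₀ ^ 2 := sq_nonneg _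
  rw [abs_le] at hkk ⊢
  constructor
  · linarith
  · linarith

end Vale.Agent.P080.Zy
end

section

/-! Logarithmic bounds for the parameters of cells, growth, modulus of continuity (P080). -/

open Set Filter Topology
open scoped RealInnerProductSpace

namespace Vale.Agent.P080.Zy

variable {E : Type*} [NormedAddCommGroup E] [InnerProductSpace ℝ E]

theorem Flats.cl3_nonneg {C₀ : ℝ} {V : ℝ → E → ℝ} (h : Flats C₀ V) : 0 ≤ C₀ := by
  obtain ⟨v, k, b, hc⟩ := h 0 0 1 one_pos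
  have h1 := hc 0 0 (by simp) (by simp)
  have h2 := (abs_nonneg _).trans h1
  linarith

theorem Norm1.cl3_isCell {C₀ : ℝ} {V : ℝ → E → ℝ} (h : Norm1 C₀ V) : IsCell C₀ V 0 0 1 0 0 0 := by
  intro s z hs hz
  have h1 := h s z hs hz
  simpa only [zero_add, smul_zero, add_zero, inner_zero_left, zero_mul, sub_zero, mul_one, ge_iff_le] using h1

/-- Two cells at the same point. -/
theorem cl3_chain {C₀ : ℝ} {V : ℝ → E → ℝ} (hZ : Flats C₀ V) (t : ℝ) (y : E) (n : ℕ) :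
    ∀ {r₁ r₂ v₁ k₁ v₂ k₂ : ℝ} {b₁ b₂ : E}, 0 < r₁ → r₁ ≤ r₂ → r₂ ≤ 4 ^ (n + 1) * r₁ →
      IsCell C₀ V t y r₁ v₁ k₁ b₁ → IsCell C₀ V t y r₂ v₂ k₂ b₂ →
      ‖b₁ - b₂‖ ≤ 5 * C₀ * (n + 1) ∧
        |cellE k₁ b₁ - cellE k₂ b₂| ≤ 50 * C₀ * (1 + C₀) * (n + 1) := by
  have hC := hZ.cl3_nonneg
  have base : ∀ {r₁ r₂ v₁ k₁ v₂ k₂ : ℝ} {b₁ b₂ : E}, 0 < r₁ → r₁ ≤ r₂ → r₂ ≤ 4 * r₁ →
      IsCell C₀ V t y r₁ v₁ k₁ b₁ → IsCell C₀ V t y r₂ v₂ k₂ b₂ →
      ‖b₁ - b₂‖ ≤ 5 * C₀ ∧ |cellE k₁ b₁ - cellE k₂ b₂| ≤ 50 * C₀ * (1 + C₀) := by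
    intro r₁ r₂ v₁ k₁ v₂ k₂ b₁ b₂ h0 h12 h21 hc1 hc2
    obtain ⟨h1, h2, -⟩ := cell_compare h0 h21 hc2 hc1 (by simpa using h12) (by simpa only [sub_self, zero_smul, norm_zero, zero_add] using h12)
    exact ⟨h1, h2⟩
  have hD : 0 ≤ 50 * C₀ * (1 + C₀) := by positivity
  induction n with
  | zero =>
    intro r₁ r₂ v₁ k₁ v₂ k₂ b₁ b₂ h0 h12 h21 hc1 hc2
    simpa only [CharP.cast_eq_zero, zero_add, mul_one] using base h0 h12 (by simpa using h21) hc1 hc2
  | succ n ih =>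
    intro r₁ r₂ v₁ k₁ v₂ k₂ b₁ b₂ h0 h12 h21 hc1 hc2
    by_cases h4 : r₂ ≤ 4 * r₁
    · obtain ⟨h1, h2⟩ := base h0 h12 h4 hc1 hc2
      have hn : (1 : ℝ) ≤ ((n + 1 : ℕ) : ℝ) + 1 := by
        have : (0 : ℝ) ≤ ((n + 1 : ℕ) : ℝ) := Nat.cast_nonneg _
        linarith
      refine ⟨h1.trans ?_, h2.trans ?_⟩
      · exact le_mul_of_one_le_right (by positivity) hn
      · exact le_mul_of_one_le_right hD hn
    · push Not at h4
      obtain ⟨v', k', b', hc'⟩ := hZ t y (4 * r₁) (by positivity)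
      have hc'' : IsCell C₀ V t y (4 * r₁) v' k' b' := hc'
      obtain ⟨h1, h2⟩ := base h0 (by linarith) le_rfl hc1 hc''
      obtain ⟨h3, h5⟩ := ih (r₁ := 4 * r₁) (by positivity) h4.le (by
        refine h21.trans (le_of_eq ?_)
        ring) hc'' hc2
      constructor
      · calc ‖b₁ - b₂‖ ≤ ‖b₁ - b'‖ + ‖b' - b₂‖ := norm_sub_le_norm_sub_add_norm_sub _ _ _
          _ ≤ 5 * C₀ + 5 * C₀ * (n + 1) := add_le_add h1 h3
          _ = 5 * C₀ * (((n + 1 : ℕ) : ℝ) + 1) := by push_cast; ring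
      · calc |cellE k₁ b₁ - cellE k₂ b₂| ≤ |cellE k₁ b₁ - cellE k' b'| +
            |cellE k' b' - cellE k₂ b₂| := abs_sub_le _ _ _
          _ ≤ 50 * C₀ * (1 + C₀) + 50 * C₀ * (1 + C₀) * (n + 1) := add_le_add h2 h5
          _ = 50 * C₀ * (1 + C₀) * (((n + 1 : ℕ) : ℝ) + 1) := by push_cast; ring

theorem cl3_same {C₀ : ℝ} {V : ℝ → E → ℝ} (hZ : Flats C₀ V) {t : ℝ} {y : E}
    {r₁ r₂ v₁ k₁ v₂ k₂ : ℝ} {b₁ b₂ : E} (h1 : 0 < r₁) (h2 : 0 < r₂)
    (hc1 : IsCell C₀ V t y r₁ v₁ k₁ b₁) (hc2 : IsCell C₀ V t y r₂ v₂ k₂ b₂) :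
    ‖b₁ - b₂‖ ≤ 5 * C₀ * (1 + |Real.log r₁ - Real.log r₂|) ∧
      |cellE k₁ b₁ - cellE k₂ b₂| ≤
        50 * C₀ * (1 + C₀) * (1 + |Real.log r₁ - Real.log r₂|) := by
  have hC := hZ.cl3_nonneg
  have hD : 0 ≤ 50 * C₀ * (1 + C₀) := by positivity
  have main : ∀ {r₁ r₂ v₁ k₁ v₂ k₂ : ℝ} {b₁ b₂ : E}, 0 < r₁ → r₁ ≤ r₂ →
      IsCell C₀ V t y r₁ v₁ k₁ b₁ → IsCell C₀ V t y r₂ v₂ k₂ b₂ →
      ‖b₁ - b₂‖ ≤ 5 * C₀ * (1 + |Real.log r₁ - Real.log r₂|) ∧
        |cellE k₁ b₁ - cellE k₂ b₂| ≤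
          50 * C₀ * (1 + C₀) * (1 + |Real.log r₁ - Real.log r₂|) := by
    intro r₁ r₂ v₁ k₁ v₂ k₂ b₁ b₂ h0 h12 hc1 hc2
    have h0' : 0 < r₂ := h0.trans_le h12
    have hlog : 0 ≤ Real.log r₂ - Real.log r₁ := sub_nonneg.2 (Real.log_le_log h0 h12)
    have habs : |Real.log r₁ - Real.log r₂| = Real.log r₂ - Real.log r₁ := by
      rw [abs_sub_comm, abs_of_nonneg hlog]
    rw [habs]
    set n := ⌊Real.log r₂ - Real.log r₁⌋₊ with hn
    have hn1 : (n : ℝ) ≤ Real.log r₂ - Real.log r₁ := Nat.floor_le hlog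
    have hn2 : Real.log r₂ - Real.log r₁ < n + 1 := Nat.lt_floor_add_one _
    have h21 : r₂ ≤ 4 ^ (n + 1) * r₁ := by
      have e1 : r₂ = Real.exp (Real.log r₂ - Real.log r₁) * r₁ := by
        rw [Real.exp_sub, Real.exp_log h0', Real.exp_log h0, div_mul_cancel₀ _ h0.ne']
      rw [e1]
      refine mul_le_mul_of_nonneg_right ?_ h0.le
      calc Real.exp (Real.log r₂ - Real.log r₁) ≤ Real.exp (((n + 1 : ℕ) : ℝ) * 1) := by
            apply Real.exp_le_exp.2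
            push_cast
            linarith only [hn2]
        _ = Real.exp 1 ^ (n + 1) := Real.exp_nat_mul _ _
        _ ≤ 4 ^ (n + 1) := by
            refine pow_le_pow_left₀ (Real.exp_pos _).le ?_ _
            have := Real.exp_one_lt_d9
            linarith only [this]
    obtain ⟨h3, h4⟩ := cl3_chain hZ t y n h0 h12 h21 hc1 hc2
    refine ⟨h3.trans ?_, h4.trans ?_⟩
    · refine mul_le_mul_of_nonneg_left ?_ (by positivity)
      linarith only [hn1]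
    · refine mul_le_mul_of_nonneg_left ?_ hD
      linarith
  rcases le_total r₁ r₂ with h12 | h12
  · exact main h1 h12 hc1 hc2
  · obtain ⟨h3, h4⟩ := main h2 h12 hc2 hc1
    rw [norm_sub_rev, abs_sub_comm (cellE k₁ b₁), abs_sub_comm (Real.log r₁)]
    exact ⟨h3, h4⟩

/-- Cells at the origin. -/
theorem cl3_origin {C₀ : ℝ} {V : ℝ → E → ℝ} (hZ : Flats C₀ V) (hN : Norm1 C₀ V)
    {R v k : ℝ} {b : E} (hR : 1 ≤ R) (hc : IsCell C₀ V 0 0 R v k b) :
    ‖b‖ ≤ 5 * C₀ * (1 + Real.log R) ∧ |cellE k b| ≤ 50 * C₀ * (1 + C₀) * (1 + Real.log R) := by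
  have h := cl3_same hZ (zero_lt_one.trans_le hR) one_pos hc hN.cl3_isCell
  have hlog : 0 ≤ Real.log R := Real.log_nonneg hR
  simp only [Real.log_one, sub_zero, abs_of_nonneg hlog] at h
  simpa only [cellE, norm_zero, ne_eq, OfNat.ofNat_ne_zero, not_false_eq_true, zero_pow, zero_div, sub_self,     sub_zero] using h

/-- Parameters of any cell against a normalised unit cell at the origin: logarithmic bounds. -/
theorem cells_log (C₀ : ℝ) : ∃ K : ℝ, 0 < K ∧ ∀ (V : ℝ → E → ℝ), Flats C₀ V → Norm1 C₀ V →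
    ∀ (t : ℝ) (y : E) (r v k : ℝ) (b : E), 0 < r → IsCell C₀ V t y r v k b →
      ‖b‖ ≤ K * (1 + |Real.log r| + Real.log (1 + |t| + ‖y‖)) ∧
      |cellE k b| ≤ K * (1 + |Real.log r| + Real.log (1 + |t| + ‖y‖)) := by
  by_cases hC : 0 ≤ C₀
  swap
  · exact ⟨1, one_pos, fun V hZ _ => absurd hZ.cl3_nonneg hC⟩
  set c : ℝ := 2 * (1 + 15 * C₀) with hc
  have hc2 : 2 ≤ c := by rw [hc]; linarith
  have hlc : 0 ≤ Real.log c := Real.log_nonneg (by linarith)
  have hD : 0 ≤ 50 * C₀ * (1 + C₀) := by positivity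
  refine ⟨50 * C₀ * (1 + C₀) * (4 + 4 * Real.log c) + 1, by positivity, ?_⟩
  intro V hZ hN t y r v k b hr hcell
  set M : ℝ := 1 + |t| + ‖y‖ with hM
  have hM1 : 1 ≤ M := by
    have := abs_nonneg t
    have := norm_nonneg y
    rw [hM]; linarith
  have hlM : 0 ≤ Real.log M := Real.log_nonneg hM1
  have htM : |t| ≤ M := by
    have := norm_nonneg y
    rw [hM]; linarith
  have hyM : ‖y‖ ≤ M := by
    have := abs_nonneg t
    rw [hM]; linarith
  have hM0 : 0 < M := by linarith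
  have hc0 : 0 < c := by linarith
  have hcM1 : 1 ≤ c * M := one_le_mul_of_one_le_of_one_le (by linarith) hM1
  set R : ℝ := (c * M) ^ 2 with hR
  have hR1 : 1 ≤ R := one_le_pow₀ hcM1
  have hR0 : 0 < R := by linarith only [hR1]
  have hlR : Real.log R = 2 * (Real.log c + Real.log M) := by
    rw [hR, Real.log_pow, Real.log_mul hc0.ne' hM0.ne']
    push_cast
    ring
  have hlR' : Real.log R ≤ 2 * (c * M) := by
    rw [hR, Real.log_pow]
    push_cast
    have := Real.log_le_sub_one_of_pos (show 0 < c * M by (clear * - hC; positivity))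
    linarith only [this]
  obtain ⟨v₀, k₀, b₀, hc₀⟩ := hZ 0 0 R hR0
  have hc₀' : IsCell C₀ V 0 0 R v₀ k₀ b₀ := hc₀
  obtain ⟨hb₀, hk₀⟩ := cl3_origin hZ hN hR1 hc₀'
  obtain ⟨v', k', b', hc'⟩ := hZ t y (R / 2) (by (clear * - hC; positivity))
  have hc'' : IsCell C₀ V t y (R / 2) v' k' b' := hc'
  have hb₀' : ‖b₀‖ ≤ 5 * C₀ + 10 * C₀ * (c * M) := by
    refine hb₀.trans ?_
    have : 5 * C₀ * (1 + Real.log R) ≤ 5 * C₀ * (1 + 2 * (c * M)) :=
      mul_le_mul_of_nonneg_left (by linarith only [hlR']) (by positivity)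
    linarith only [this]
  have hyb : ‖y - t • b₀‖ ≤ R / 2 := by
    calc ‖y - t • b₀‖ ≤ ‖y‖ + ‖t • b₀‖ := norm_sub_le _ _
      _ = ‖y‖ + |t| * ‖b₀‖ := by rw [norm_smul, Real.norm_eq_abs]
      _ ≤ M + M * (5 * C₀ + 10 * C₀ * (c * M)) :=
          add_le_add hyM (mul_le_mul htM hb₀' (norm_nonneg _) hM0.le)
      _ = M * ((1 + 5 * C₀) + 10 * C₀ * (c * M)) := by ring
      _ ≤ M * ((1 + 5 * C₀) * (c * M) + 10 * C₀ * (c * M)) := by
          refine mul_le_mul_of_nonneg_left ?_ hM0.le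
          have : (1 + 5 * C₀) * 1 ≤ (1 + 5 * C₀) * (c * M) :=
            mul_le_mul_of_nonneg_left hcM1 (by positivity)
          linarith only [this]
      _ = R / 2 := by rw [hR, hc]; ring
  have htR : |t| ≤ R / 2 := by
    refine htM.trans ?_
    rw [hR]
    have h1 : c * M ≤ (c * M) ^ 2 := le_self_pow₀ hcM1 two_ne_zero
    have h2 : 2 * M ≤ c * M := mul_le_mul_of_nonneg_right hc2 hM0.le
    linarith only [h2, h1]
  obtain ⟨h1, h2, -⟩ := cell_compare (half_pos hR0) (by linarith only [hR1]) hc₀' hc''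
    (by rw [sub_zero]; linarith only [htR]) (by rw [sub_zero, sub_zero]; linarith only [hyb])
  obtain ⟨h3, h4⟩ := cl3_same hZ hr (half_pos hR0) hcell hc''
  have hlog : |Real.log r - Real.log (R / 2)| ≤ |Real.log r| + Real.log R + 1 := by
    rw [Real.log_div hR0.ne' two_ne_zero]
    have h5 := abs_sub (Real.log r) (Real.log R - Real.log 2)
    have h6 : |Real.log R - Real.log 2| ≤ Real.log R + 1 := by
      have h7 : 0 ≤ Real.log R := Real.log_nonneg hR1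
      have h8 : 0 ≤ Real.log 2 := Real.log_nonneg (by norm_num)
      have h9 : Real.log 2 ≤ 1 := by
        have := Real.log_le_sub_one_of_pos (show (0 : ℝ) < 2 by norm_num)
        linarith only [this]
      rw [abs_le]
      constructor <;> linarith only [h8, hlc, hlM, hlR, h9]
    linarith only [h5, h6]
  have key : 50 * C₀ * (1 + C₀) * (4 + 2 * Real.log R + |Real.log r|) ≤
      (50 * C₀ * (1 + C₀) * (4 + 4 * Real.log c) + 1) * (1 + |Real.log r| + Real.log M) := by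
    have h5 : 4 + 2 * Real.log R + |Real.log r| ≤
        (4 + 4 * Real.log c) * (1 + |Real.log r| + Real.log M) := by
      rw [hlR]
      have h6 := abs_nonneg (Real.log r)
      have h7 := mul_nonneg hlc h6
      have h8 := mul_nonneg hlc hlM
      have h9 : (4 + 4 * Real.log c) * (1 + |Real.log r| + Real.log M) =
          4 + 4 * Real.log c + 4 * |Real.log r| + 4 * (Real.log c * |Real.log r|) +
            4 * Real.log M + 4 * (Real.log c * Real.log M) := by ring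
      linarith only [h6, h7, h8]
    have h6 := mul_le_mul_of_nonneg_left h5 hD
    have h7 := abs_nonneg (Real.log r)
    linarith only [hlM, h6, h7]
  have h5C : 5 * C₀ ≤ 50 * C₀ * (1 + C₀) := by
    have h5 := mul_nonneg hC hC
    have h6 : 50 * C₀ * (1 + C₀) = 50 * C₀ + 50 * (C₀ * C₀) := by ring
    linarith only [hD, h5]
  constructor
  · refine le_trans ?_ key
    have e1 : ‖b‖ ≤ ‖b₀‖ + ‖b' - b₀‖ + ‖b - b'‖ := by
      calc ‖b‖ = ‖b₀ + (b' - b₀) + (b - b')‖ := by congr 1; abel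
        _ ≤ _ := norm_add₃_le
    have e2 : 5 * C₀ * (1 + |Real.log r - Real.log (R / 2)|) ≤
        5 * C₀ * (2 + |Real.log r| + Real.log R) :=
      mul_le_mul_of_nonneg_left (by linarith only [hlog]) (by (clear * - hC; positivity))
    have e3 : 5 * C₀ * (4 + 2 * Real.log R + |Real.log r|) ≤
        50 * C₀ * (1 + C₀) * (4 + 2 * Real.log R + |Real.log r|) := by
      refine mul_le_mul_of_nonneg_right h5C ?_
      have := Real.log_nonneg hR1
      (clear * - this; positivity)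
    linarith only [hb₀, h1, h3, e1, e2, e3]
  · refine le_trans ?_ key
    have e1 : |cellE k b| ≤ |cellE k₀ b₀| + |cellE k' b' - cellE k₀ b₀| +
        |cellE k b - cellE k' b'| := by
      calc |cellE k b| = |cellE k₀ b₀ + (cellE k' b' - cellE k₀ b₀) +
            (cellE k b - cellE k' b')| := by congr 1; ring
        _ ≤ _ := abs_add_three _ _ _
    have e2 : 50 * C₀ * (1 + C₀) * (1 + |Real.log r - Real.log (R / 2)|) ≤
        50 * C₀ * (1 + C₀) * (2 + |Real.log r| + Real.log R) :=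
      mul_le_mul_of_nonneg_left (by linarith only [hlog]) hD
    linarith only [hk₀, h2, h4, e1, e2]

/-- The value at the centre of a cell. -/
theorem IsCell.cl3_center {C₀ : ℝ} {V : ℝ → E → ℝ} {t r v k : ℝ} {y b : E} (hr : 0 ≤ r)
    (h : IsCell C₀ V t y r v k b) : |V t y - v| ≤ C₀ * r := by
  have h1 := h 0 0 (by simpa only [abs_zero] using hr) (by simpa using hr)
  simpa only [ge_iff_le, add_zero, zero_smul, inner_zero_right, mul_zero] using h1

theorem growth (C₀ : ℝ) : ∃ K : ℝ, 0 < K ∧ ∀ (V : ℝ → E → ℝ), Flats C₀ V → Norm1 C₀ V →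
    Grow K V := by
  by_cases hC : 0 ≤ C₀
  swap
  · exact ⟨1, one_pos, fun V hZ _ => absurd hZ.cl3_nonneg hC⟩
  set c : ℝ := 1 + 45 * C₀ with hc
  have hc1 : 1 ≤ c := by rw [hc]; linarith
  refine ⟨16 * c ^ 4, by positivity, fun V hZ hN t y => ?_⟩
  set M : ℝ := 1 + |t| + ‖y‖ with hM
  have hM1 : 1 ≤ M := by
    have := abs_nonneg t
    have := norm_nonneg y
    rw [hM]; linarith
  have htM : |t| ≤ M := by
    have := norm_nonneg y
    rw [hM]; linarith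
  have hyM : ‖y‖ ≤ M := by
    have := abs_nonneg t
    rw [hM]; linarith
  have hM0 : 0 < M := by linarith
  set a : ℝ := M ^ (1 / 4 : ℝ) with ha
  have ha1 : 1 ≤ a := Real.one_le_rpow hM1 (by norm_num)
  have ha4 : a ^ 4 = M := by
    rw [ha, ← Real.rpow_natCast, ← Real.rpow_mul hM0.le]
    norm_num
  have ha6 : a ^ 6 = M ^ (3 / 2 : ℝ) := by
    rw [ha, ← Real.rpow_natCast, ← Real.rpow_mul hM0.le]
    norm_num
  rw [← ha6]
  set R : ℝ := (c * a ^ 3) ^ 2 with hR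
  have ha0 : 0 < a := by linarith only [ha1]
  have hc0 : 0 < c := by linarith only [hC]
  have ha3 : 1 ≤ a ^ 3 := one_le_pow₀ ha1
  have hR1 : 1 ≤ R := one_le_pow₀ (one_le_mul_of_one_le_of_one_le hc1 ha3)
  have hR0 : 0 < R := by linarith only [hR1]
  have hca1 : 1 ≤ c * a := one_le_mul_of_one_le_of_one_le hc1 ha1
  have hlR : 1 + Real.log R ≤ 9 * (c * a) := by
    have h1 : Real.log R = 2 * (Real.log c + 3 * Real.log a) := by
      rw [hR, Real.log_pow, Real.log_mul hc0.ne' (by (clear * -; positivity)), Real.log_pow]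
      push_cast
      ring
    have h2 := Real.log_le_sub_one_of_pos hc0
    have h3 := Real.log_le_sub_one_of_pos ha0
    have h4 : c * 1 ≤ c * a := mul_le_mul_of_nonneg_left ha1 hc0.le
    have h5 : 1 * a ≤ c * a := mul_le_mul_of_nonneg_right hc1 ha0.le
    linarith only [hca1, h1, h2, h3, h4, h5]
  obtain ⟨v, k, b, hcell⟩ := hZ 0 0 R hR0
  have hcell' : IsCell C₀ V 0 0 R v k b := hcell
  obtain ⟨hb, hk⟩ := cl3_origin hZ hN hR1 hcell'
  have h45 : 45 * C₀ ≤ c := by rw [hc]; linarith only []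
  have hCc : C₀ ≤ c := by rw [hc]; linarith only [hC]
  have h1Cc : 1 + C₀ ≤ c := by rw [hc]; linarith only [hC]
  have hb1 : ‖b‖ ≤ 45 * C₀ * (c * a) := by
    refine hb.trans ?_
    have := mul_le_mul_of_nonneg_left hlR (show 0 ≤ 5 * C₀ by (clear * - hC; positivity))
    linarith only [this]
  have hb2 : ‖b‖ ≤ c ^ 2 * a := by
    refine hb1.trans ?_
    have := mul_le_mul_of_nonneg_right h45 (show 0 ≤ c * a by (clear * - hC; positivity))
    calc 45 * C₀ * (c * a) ≤ c * (c * a) := this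
      _ = c ^ 2 * a := by ring
  have hk1 : |cellE k b| ≤ 10 * (c ^ 4 * a ^ 2) := by
    refine hk.trans ?_
    calc 50 * C₀ * (1 + C₀) * (1 + Real.log R) ≤ 50 * C₀ * (1 + C₀) * (9 * (c * a)) :=
          mul_le_mul_of_nonneg_left hlR (by (clear * - hC; positivity))
      _ = 10 * ((45 * C₀) * (1 + C₀) * (c * a)) := by ring
      _ ≤ 10 * (c * c * (c * a * (c * a))) := by
          refine mul_le_mul_of_nonneg_left ?_ (by norm_num)
          refine mul_le_mul (mul_le_mul h45 h1Cc (by positivity) hc0.le) ?_ (by (clear * - hC; positivity))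
            (by (clear * - hC; positivity))
          exact le_mul_of_one_le_right (by (clear * - hC; positivity)) hca1
      _ = 10 * (c ^ 4 * a ^ 2) := by ring
  have hk2 : |k| ≤ 11 * (c ^ 4 * a ^ 2) := by
    have e1 : k = cellE k b + ‖b‖ ^ 2 / 2 := by rw [cellE]; ring
    have e2 : ‖b‖ ^ 2 ≤ (c ^ 2 * a) ^ 2 := pow_le_pow_left₀ (norm_nonneg _) hb2 2
    have e3 := abs_add_le (cellE k b) (‖b‖ ^ 2 / 2)
    rw [← e1, abs_of_nonneg (show 0 ≤ ‖b‖ ^ 2 / 2 by (clear * -; positivity))] at e3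
    have e4 : (c ^ 2 * a) ^ 2 = c ^ 4 * a ^ 2 := by ring
    have e5 : 0 ≤ c ^ 4 * a ^ 2 := by (clear * - hC; positivity)
    linarith only [e5, e3, e2, hk1]
  have hz0 : ‖y - t • b‖ ≤ M * (1 + ‖b‖) := by
    calc ‖y - t • b‖ ≤ ‖y‖ + ‖t • b‖ := norm_sub_le _ _
      _ = ‖y‖ + |t| * ‖b‖ := by rw [norm_smul, Real.norm_eq_abs]
      _ ≤ M + M * ‖b‖ := add_le_add hyM (mul_le_mul_of_nonneg_right htM (norm_nonneg _))
      _ = M * (1 + ‖b‖) := by ring
  have hz1 : ‖y - t • b‖ ≤ R := by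
    calc ‖y - t • b‖ ≤ M * (1 + ‖b‖) := hz0
      _ ≤ M * (c * a + 45 * C₀ * (c * a)) :=
          mul_le_mul_of_nonneg_left (add_le_add hca1 hb1) hM0.le
      _ = c ^ 2 * a ^ 5 := by rw [← ha4, hc]; ring
      _ ≤ c ^ 2 * a ^ 6 :=
          mul_le_mul_of_nonneg_left (pow_le_pow_right₀ ha1 (by norm_num)) (by (clear * - hC; positivity))
      _ = R := by rw [hR]; ring
  have htR : |t| ≤ R := by
    refine htM.trans ?_
    calc M = 1 * a ^ 4 := by rw [ha4, one_mul]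
      _ ≤ c ^ 2 * a ^ 6 := mul_le_mul (one_le_pow₀ hc1) (pow_le_pow_right₀ ha1 (by norm_num))
          (by (clear * -; positivity)) (by (clear * - hC; positivity))
      _ = R := by rw [hR]; ring
  have hV := hcell' t (y - t • b) htR hz1
  rw [zero_add, zero_add, add_sub_cancel] at hV
  have hv : |v| ≤ 2 * (c ^ 3 * a ^ 6) := by
    have h1 := hcell'.cl3_center hR0.le
    have h2 : |V 0 0| ≤ C₀ := hN 0 0 (by simp) (by simp)
    have h3 : |v| ≤ |V 0 0| + |V 0 0 - v| := by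
      have := abs_sub (V 0 0) (V 0 0 - v)
      rwa [sub_sub_cancel] at this
    have h4 : C₀ ≤ C₀ * R := le_mul_of_one_le_right hC hR1
    have h5 : C₀ * R ≤ c * R := mul_le_mul_of_nonneg_right hCc hR0.le
    have h6 : c * R = c ^ 3 * a ^ 6 := by rw [hR]; ring
    linarith only [hC, hR1, h1, h2, h3, h4]
  have hbz : |⟪b, y - t • b⟫| ≤ 2 * (c ^ 4 * a ^ 6) := by
    calc |⟪b, y - t • b⟫| ≤ ‖b‖ * ‖y - t • b‖ := abs_real_inner_le_norm _ _
      _ ≤ (c ^ 2 * a) * (M * (1 + c ^ 2 * a)) := by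
          refine mul_le_mul hb2 (hz0.trans ?_) (norm_nonneg _) (by (clear * - hC; positivity))
          exact mul_le_mul_of_nonneg_left (by linarith only [hca1, hb1]) hM0.le
      _ ≤ (c ^ 2 * a) * (M * (2 * (c ^ 2 * a))) := by
          refine mul_le_mul_of_nonneg_left (mul_le_mul_of_nonneg_left ?_ hM0.le) (by (clear * - hC; positivity))
          have : 1 ≤ c ^ 2 * a := one_le_mul_of_one_le_of_one_le (one_le_pow₀ hc1) ha1
          linarith only [this]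
      _ = 2 * (c ^ 4 * a ^ 6) := by rw [← ha4]; ring
  have hkt : |k * t| ≤ 11 * (c ^ 4 * a ^ 6) := by
    rw [abs_mul]
    calc |k| * |t| ≤ (11 * (c ^ 4 * a ^ 2)) * M := mul_le_mul hk2 htM (abs_nonneg _)
          (by (clear * - hC; positivity))
      _ = 11 * (c ^ 4 * a ^ 6) := by rw [← ha4]; ring
  have hCR : C₀ * R ≤ c ^ 3 * a ^ 6 := by
    calc C₀ * R ≤ c * R := mul_le_mul_of_nonneg_right hCc hR0.le
      _ = c ^ 3 * a ^ 6 := by rw [hR]; ring
  have h34 : c ^ 3 * a ^ 6 ≤ c ^ 4 * a ^ 6 :=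
    mul_le_mul_of_nonneg_right (pow_le_pow_right₀ hc1 (by norm_num)) (by (clear * -; positivity))
  have h1 : |V t y| ≤ |V t y - (v + ⟪b, y - t • b⟫ + k * t)| +
      |v + ⟪b, y - t • b⟫ + k * t| := by
    have := abs_add_le (V t y - (v + ⟪b, y - t • b⟫ + k * t)) (v + ⟪b, y - t • b⟫ + k * t)
    rwa [sub_add_cancel] at this
  have h2 : |v + ⟪b, y - t • b⟫ + k * t| ≤ |v| + |⟪b, y - t • b⟫| + |k * t| :=
    abs_add_three _ _ _
  linarith only [hV, hv, hbz, hkt, hCR, h34, h1, h2]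

/-- Uniform modulus of continuity on bounded sets. -/
theorem modulus (C₀ : ℝ) : ∀ R ε : ℝ, 0 < ε → ∃ δ : ℝ, 0 < δ ∧ ∀ (V : ℝ → E → ℝ), Flats C₀ V →
    Norm1 C₀ V → ∀ (t t' : ℝ) (y y' : E), |t| ≤ R → ‖y‖ ≤ R → |t' - t| ≤ δ → ‖y' - y‖ ≤ δ →
      |V t' y' - V t y| ≤ ε := by
  intro R ε hε
  by_cases hC : 0 ≤ C₀
  swap
  · exact ⟨1, one_pos, fun V hZ _ => absurd hZ.cl3_nonneg hC⟩
  obtain ⟨K, hK, hlog⟩ := cells_log (E := E) C₀
  set r : ℝ := ε / (4 * (1 + C₀)) with hr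
  have hr0 : 0 < r := by positivity
  have hCr : C₀ * r ≤ ε / 4 := by
    rw [hr, mul_div_assoc', div_le_div_iff₀ (by positivity) (by norm_num)]
    linarith
  set B : ℝ := K * (1 + |Real.log r| + Real.log (1 + |R| + |R|)) with hB
  have hB0 : 0 ≤ B := by
    have h1 : 0 ≤ Real.log (1 + |R| + |R|) := Real.log_nonneg (by
      have := abs_nonneg R
      linarith only [this])
    positivity
  set D : ℝ := 1 + B + B ^ 2 with hD
  have hD1 : 1 ≤ D := by
    rw [hD]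
    have := sq_nonneg B
    linarith only [hB0, this]
  have hD0 : 0 < D := by linarith only [hD1]
  refine ⟨min (r / D) (ε / (4 * D)), lt_min (by (clear * - hε hC hB0; positivity)) (by (clear * - hε hB0; positivity)), ?_⟩
  intro V hZ hN t t' y y' ht hy htt hyy
  have htt1 : |t' - t| ≤ r / D := htt.trans (min_le_left _ _)
  have htt2 : |t' - t| ≤ ε / (4 * D) := htt.trans (min_le_right _ _)
  have hyy1 : ‖y' - y‖ ≤ r / D := hyy.trans (min_le_left _ _)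
  have hyy2 : ‖y' - y‖ ≤ ε / (4 * D) := hyy.trans (min_le_right _ _)
  obtain ⟨v, k, b, hcell⟩ := hZ t y r hr0
  have hcell' : IsCell C₀ V t y r v k b := hcell
  obtain ⟨hb, hk⟩ := hlog V hZ hN t y r v k b hr0 hcell'
  have hle : K * (1 + |Real.log r| + Real.log (1 + |t| + ‖y‖)) ≤ B := by
    rw [hB]
    refine mul_le_mul_of_nonneg_left ?_ hK.le
    have h1 : Real.log (1 + |t| + ‖y‖) ≤ Real.log (1 + |R| + |R|) := by
      refine Real.log_le_log (by (clear * -; positivity)) ?_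
      have := le_abs_self R
      linarith only [ht, hy, this]
    linarith only [h1]
  have hb' := hb.trans hle
  have hk' := hk.trans hle
  have hkB : |k| ≤ B + B ^ 2 / 2 := by
    have e1 : k = cellE k b + ‖b‖ ^ 2 / 2 := by rw [cellE]; ring
    have e2 : ‖b‖ ^ 2 ≤ B ^ 2 := pow_le_pow_left₀ (norm_nonneg _) hb' 2
    have e3 := abs_add_le (cellE k b) (‖b‖ ^ 2 / 2)
    rw [← e1, abs_of_nonneg (show 0 ≤ ‖b‖ ^ 2 / 2 by (clear * -; positivity))] at e3
    linarith only [hk, hle, e2, e3]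
  have hz : ∀ x : ℝ, |t' - t| ≤ x → ‖y' - y‖ ≤ x → ‖y' - y - (t' - t) • b‖ ≤ x * (1 + B) := by
    intro x h1 h2
    calc ‖y' - y - (t' - t) • b‖ ≤ ‖y' - y‖ + ‖(t' - t) • b‖ := norm_sub_le _ _
      _ = ‖y' - y‖ + |t' - t| * ‖b‖ := by rw [norm_smul, Real.norm_eq_abs]
      _ ≤ x + x * B := add_le_add h2 (mul_le_mul h1 hb' (norm_nonneg _) ((abs_nonneg _).trans h1))
      _ = x * (1 + B) := by ring
  have h1B : 1 + B ≤ D := by
    rw [hD]
    have := sq_nonneg B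
    linarith only [this]
  have hs1 : |t' - t| ≤ r := by
    refine htt1.trans ?_
    rw [div_le_iff₀ hD0]
    exact le_mul_of_one_le_right hr0.le hD1
  have hz1 : ‖y' - y - (t' - t) • b‖ ≤ r := by
    refine (hz _ htt1 hyy1).trans ?_
    calc r / D * (1 + B) ≤ r / D * D := mul_le_mul_of_nonneg_left h1B (by (clear * - hε hC hB0; positivity))
      _ = r := div_mul_cancel₀ _ hD0.ne'
  have hV := hcell' (t' - t) (y' - y - (t' - t) • b) hs1 hz1
  rw [show t + (t' - t) = t' by ring, show y + (t' - t) • b + (y' - y - (t' - t) • b) = y' by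
    abel] at hV
  have hc := hcell'.cl3_center hr0.le
  have hbz : |⟪b, y' - y - (t' - t) • b⟫| ≤ B * (ε / (4 * D) * (1 + B)) :=
    (abs_real_inner_le_norm _ _).trans (mul_le_mul hb' (hz _ htt2 hyy2) (norm_nonneg _) hB0)
  have hks : |k * (t' - t)| ≤ (B + B ^ 2 / 2) * (ε / (4 * D)) := by
    rw [abs_mul]
    exact mul_le_mul hkB htt2 (abs_nonneg _) (by (clear * - hB0; positivity))
  have hsum : B * (ε / (4 * D) * (1 + B)) + (B + B ^ 2 / 2) * (ε / (4 * D)) ≤ ε / 2 := by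
    have e1 : B * (ε / (4 * D) * (1 + B)) + (B + B ^ 2 / 2) * (ε / (4 * D)) =
        (2 * B + 3 / 2 * B ^ 2) * (ε / (4 * D)) := by ring
    have e2 : ε / 2 = (2 * D) * (ε / (4 * D)) := by field_simp; ring
    rw [e1, e2]
    refine mul_le_mul_of_nonneg_right ?_ (by (clear * - hε hB0; positivity))
    rw [hD]
    have := sq_nonneg B
    linarith only [h1B]
  have e1 : V t' y' - V t y =
      (V t' y' - (v + ⟪b, y' - y - (t' - t) • b⟫ + k * (t' - t))) - (V t y - v) +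
        (⟪b, y' - y - (t' - t) • b⟫ + k * (t' - t)) := by ring
  rw [e1]
  have e2 := abs_add_le ((V t' y' - (v + ⟪b, y' - y - (t' - t) • b⟫ + k * (t' - t))) -
    (V t y - v)) (⟪b, y' - y - (t' - t) • b⟫ + k * (t' - t))
  have e3 := abs_sub (V t' y' - (v + ⟪b, y' - y - (t' - t) • b⟫ + k * (t' - t))) (V t y - v)
  have e4 := abs_add_le ⟪b, y' - y - (t' - t) • b⟫ (k * (t' - t))
  linarith only [hCr, hV, hc, hbz, hks, hsum, e2, e3, e4]

/-- Every member of the class has subquadratic growth (no normalisation). -/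
theorem Flats.grow {C₀ : ℝ} {V : ℝ → E → ℝ} (h : Flats C₀ V) : ∃ K : ℝ, 0 < K ∧ Grow K V := by
  obtain ⟨v, k, b, hcell⟩ := h 0 0 1 one_pos
  have hcell' : IsCell C₀ V 0 0 1 v k b := hcell
  obtain ⟨K, hK, hg⟩ := growth (E := E) C₀
  have hG := hg _ (Flats.gauge h 0 0 one_pos v k b) (hcell'.norm1_gauge one_pos)
  refine ⟨K * (1 + ‖b‖) ^ (3 / 2 : ℝ) + |v| + ‖b‖ * (1 + ‖b‖) + |k|, by (clear * - hK; positivity), ?_⟩
  intro t y
  set M : ℝ := 1 + |t| + ‖y‖ with hM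
  have hM1 : 1 ≤ M := by
    have := abs_nonneg t
    have := norm_nonneg y
    rw [hM]; linarith
  have htM : |t| ≤ M := by
    have := norm_nonneg y
    rw [hM]; linarith
  have hyM : ‖y‖ ≤ M := by
    have := abs_nonneg t
    rw [hM]; linarith
  have hM0 : 0 < M := by linarith
  have hb0 := norm_nonneg b
  have hMM : M ≤ M ^ (3 / 2 : ℝ) := by
    calc M = M ^ (1 : ℝ) := (Real.rpow_one M).symm
      _ ≤ M ^ (3 / 2 : ℝ) := Real.rpow_le_rpow_of_exponent_le hM1 (by norm_num)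
  have hM0' : 0 < M ^ (3 / 2 : ℝ) := by (clear * -; positivity)
  have h1 := hG t (y - t • b)
  have e0 : Vale.Agent.P080.Zy.gauge V 0 0 1 v k b t (y - t • b) =
      V t y - (v + ⟪b, y - t • b⟫ + k * t) := by
    simp only [Vale.Agent.P080.Zy.gauge, one_mul, one_smul, zero_add, div_one, sub_add_cancel]
    ring
  rw [e0] at h1
  have hz : ‖y - t • b‖ ≤ ‖y‖ + |t| * ‖b‖ := by
    refine (norm_sub_le _ _).trans (le_of_eq ?_)
    rw [norm_smul, Real.norm_eq_abs]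
  have h2 : 1 + |t| + ‖y - t • b‖ ≤ (1 + ‖b‖) * M := by
    have e1 : |t| * ‖b‖ ≤ ‖b‖ * M := by
      rw [mul_comm]
      exact mul_le_mul_of_nonneg_left htM hb0
    have e2 : (1 + ‖b‖) * M = 1 + |t| + ‖y‖ + ‖b‖ * M := by rw [hM]; ring
    linarith only [hz, e1]
  have h3 : (1 + |t| + ‖y - t • b‖) ^ (3 / 2 : ℝ) ≤
      (1 + ‖b‖) ^ (3 / 2 : ℝ) * M ^ (3 / 2 : ℝ) := by
    rw [← Real.mul_rpow (by positivity) hM0.le]
    exact Real.rpow_le_rpow (by (clear * -; positivity)) h2 (by norm_num)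
  have h4 : |⟪b, y - t • b⟫| ≤ ‖b‖ * (1 + ‖b‖) * M := by
    refine (abs_real_inner_le_norm _ _).trans ?_
    rw [mul_assoc]
    refine mul_le_mul_of_nonneg_left (hz.trans ?_) hb0
    have e1 : |t| * ‖b‖ ≤ ‖b‖ * M := by
      rw [mul_comm]
      exact mul_le_mul_of_nonneg_left htM hb0
    linarith only [hyM, e1]
  have h5 : |k * t| ≤ |k| * M := by
    rw [abs_mul]
    exact mul_le_mul_of_nonneg_left htM (abs_nonneg _)
  have h6 : |V t y| ≤ |V t y - (v + ⟪b, y - t • b⟫ + k * t)| +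
      |v + ⟪b, y - t • b⟫ + k * t| := by
    have := abs_add_le (V t y - (v + ⟪b, y - t • b⟫ + k * t)) (v + ⟪b, y - t • b⟫ + k * t)
    rwa [sub_add_cancel] at this
  have h7 : |v + ⟪b, y - t • b⟫ + k * t| ≤ |v| + |⟪b, y - t • b⟫| + |k * t| :=
    abs_add_three _ _ _
  have h8 : K * (1 + |t| + ‖y - t • b‖) ^ (3 / 2 : ℝ) ≤
      K * ((1 + ‖b‖) ^ (3 / 2 : ℝ) * M ^ (3 / 2 : ℝ)) := mul_le_mul_of_nonneg_left h3 hK.le
  have h9 : |v| ≤ |v| * M ^ (3 / 2 : ℝ) :=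
    le_mul_of_one_le_right (abs_nonneg _) (hM1.trans hMM)
  have h10 : ‖b‖ * (1 + ‖b‖) * M ≤ ‖b‖ * (1 + ‖b‖) * M ^ (3 / 2 : ℝ) :=
    mul_le_mul_of_nonneg_left hMM (by (clear * -; positivity))
  have h11 : |k| * M ≤ |k| * M ^ (3 / 2 : ℝ) := mul_le_mul_of_nonneg_left hMM (abs_nonneg _)
  have e3 : (K * (1 + ‖b‖) ^ (3 / 2 : ℝ) + |v| + ‖b‖ * (1 + ‖b‖) + |k|) * M ^ (3 / 2 : ℝ) =
      K * ((1 + ‖b‖) ^ (3 / 2 : ℝ) * M ^ (3 / 2 : ℝ)) + |v| * M ^ (3 / 2 : ℝ) +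
        ‖b‖ * (1 + ‖b‖) * M ^ (3 / 2 : ℝ) + |k| * M ^ (3 / 2 : ℝ) := by ring
  rw [e3]
  linarith only [h1, h4, h5, h6, h7, h8, h9, h10, h11]

theorem ZClass.grow {C₀ : ℝ} {V : ℝ → E → ℝ} (h : ZClass C₀ V) : ∃ K : ℝ, 0 < K ∧ Grow K V :=
  Flats.grow h.flat

end Vale.Agent.P080.Zy
end

section

/-! The class `ZClass` is invariant under the gauge transformations (P080). -/

open Set Filter Topology
open scoped RealInnerProductSpace

namespace Vale.Agent.P080.Zy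

variable {E : Type*} [NormedAddCommGroup E] [InnerProductSpace ℝ E]

theorem convexOn_scale {f : ℝ → ℝ} (hf : ConvexOn ℝ (Ici 0) f) {r : ℝ} (hr : 0 < r) (m n : ℝ) :
    ConvexOn ℝ (Ici 0) (fun L => f (r * L) / r + m * L + n) := by
  refine ⟨convex_Ici 0, ?_⟩
  intro x hx y hy a b ha hb hab
  have hx' : r * x ∈ Ici (0 : ℝ) := mul_nonneg hr.le hx
  have hy' : r * y ∈ Ici (0 : ℝ) := mul_nonneg hr.le hy
  have h := hf.2 hx' hy' ha hb hab
  simp only [smul_eq_mul] at h ⊢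
  have e : r * (a * x + b * y) = a * (r * x) + b * (r * y) := by ring
  rw [e]
  have h2 := div_le_div_of_nonneg_right h hr.le
  have h3 : a * (f (r * x) / r + m * x + n) + b * (f (r * y) / r + m * y + n) =
      (a * f (r * x) + b * f (r * y)) / r + m * (a * x + b * y) + (a + b) * n := by ring
  rw [h3, hab]
  linarith only [h2]

theorem ZClass.gauge {C₀ : ℝ} {V : ℝ → E → ℝ} (h : ZClass C₀ V) (t₀ : ℝ) (y₀ : E) {r : ℝ}
    (hr : 0 < r) (a k : ℝ) (c : E) : ZClass C₀ (gauge V t₀ y₀ r a k c) := by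
  obtain ⟨K, _, hK⟩ := h.grow
  refine ⟨continuous_gauge h.cont t₀ y₀ r a k c, ?_, ?_, Flats.gauge h.flat t₀ y₀ hr a k c⟩
  · intro s z
    have h1 := convexOn_scale (h.up (t₀ + r * s) (y₀ + r • z + (r * s) • c)) hr
      (‖c‖ ^ 2 / 2 - k) ((- a - r * ⟪c, z⟫ - k * (r * s)) / r)
    refine h1.congr ?_
    intro L hL
    show _ = fu (Zy.gauge V t₀ y₀ r a k c) L s z
    rw [fu_gauge hK t₀ y₀ hr a k c hL s z]
    beta_reduce
    generalize fu V (r * L) (t₀ + r * s) (y₀ + r • z + (r * s) • c) = F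
    generalize ⟪c, z⟫ = G
    show F / r + (‖c‖ ^ 2 / 2 - k) * L + (- a - r * G - k * (r * s)) / r = _
    field_simp
    ring
  · intro s z
    have h1 := (convexOn_scale (h.dn (t₀ + r * s) (y₀ + r • z + (r * s) • c)).neg hr
      (‖c‖ ^ 2 / 2 - k) (-((- a - r * ⟪c, z⟫ - k * (r * s)) / r))).neg
    refine h1.congr ?_
    intro L hL
    show _ = fl (Zy.gauge V t₀ y₀ r a k c) L s z
    rw [fl_gauge hK t₀ y₀ hr a k c hL s z]
    simp only [Pi.neg_apply]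
    generalize fl V (r * L) (t₀ + r * s) (y₀ + r • z + (r * s) • c) = F
    generalize ⟪c, z⟫ = G
    show -(-F / r + (‖c‖ ^ 2 / 2 - k) * L + -((- a - r * G - k * (r * s)) / r)) = _
    field_simp
    ring

end Vale.Agent.P080.Zy
end

section

/-! Semigroup laws of the regularisations (P080, class Z). -/

open Set Filter Topology
open scoped RealInnerProductSpace

namespace Vale.Agent.P080.Zy

variable {E : Type*} [NormedAddCommGroup E] [InnerProductSpace ℝ E]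

/-- Convexity of the kinetic energy: two consecutive displacements. -/
theorem semi_comb {a b : ℝ} (ha : 0 ≤ a) (hb : 0 ≤ b) (q q' : E) :
    ∃ p : E, (a + b) • p = b • q + a • q' ∧
      (a + b) / 2 * ‖p‖ ^ 2 ≤ b / 2 * ‖q‖ ^ 2 + a / 2 * ‖q'‖ ^ 2 := by
  rcases (add_nonneg ha hb).eq_or_lt with h | h
  · have ha0 : a = 0 := by linarith
    have hb0 : b = 0 := by linarith
    subst ha0; subst hb0
    exact ⟨0, by simp, by simp⟩
  · refine ⟨(a + b)⁻¹ • (b • q + a • q'), smul_inv_smul₀ h.ne' _, ?_⟩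
    have h1 : ‖b • q + a • q'‖ ^ 2 ≤ (a + b) * (b * ‖q‖ ^ 2 + a * ‖q'‖ ^ 2) := by
      have h2 : ‖b • q + a • q'‖ ≤ b * ‖q‖ + a * ‖q'‖ := by
        refine (norm_add_le _ _).trans ?_
        rw [norm_smul, norm_smul, Real.norm_of_nonneg hb, Real.norm_of_nonneg ha]
      have h3 : ‖b • q + a • q'‖ ^ 2 ≤ (b * ‖q‖ + a * ‖q'‖) ^ 2 :=
        pow_le_pow_left₀ (norm_nonneg _) h2 2
      have h4 : (a + b) * (b * ‖q‖ ^ 2 + a * ‖q'‖ ^ 2) - (b * ‖q‖ + a * ‖q'‖) ^ 2 =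
          a * b * (‖q‖ - ‖q'‖) ^ 2 := by ring
      have h5 : 0 ≤ a * b * (‖q‖ - ‖q'‖) ^ 2 := mul_nonneg (mul_nonneg ha hb) (sq_nonneg _)
      linarith
    rw [norm_smul, mul_pow, norm_inv, Real.norm_of_nonneg h.le]
    have h6 : (a + b) / 2 * ((a + b)⁻¹ ^ 2 * ‖b • q + a • q'‖ ^ 2) =
        (a + b)⁻¹ / 2 * ‖b • q + a • q'‖ ^ 2 := by
      (clear * - h; field_simp)
    rw [h6]
    calc (a + b)⁻¹ / 2 * ‖b • q + a • q'‖ ^ 2
        ≤ (a + b)⁻¹ / 2 * ((a + b) * (b * ‖q‖ ^ 2 + a * ‖q'‖ ^ 2)) :=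
          mul_le_mul_of_nonneg_left h1 (by positivity)
      _ = b / 2 * ‖q‖ ^ 2 + a / 2 * ‖q'‖ ^ 2 := by (clear * - h; field_simp)

theorem fu_add_le [FiniteDimensional ℝ E] {K : ℝ} {V : ℝ → E → ℝ}
    (hV : Continuous (fun p : ℝ × E => V p.1 p.2)) (hK : Grow K V) {a b : ℝ} (ha : 0 ≤ a)
    (hb : 0 ≤ b) (t : ℝ) (y q : E) :
    fu V a (t + b) (y + b • q) - b / 2 * ‖q‖ ^ 2 ≤ fu V (a + b) t y := by
  obtain ⟨q', hq'⟩ := fu_attained hV hK ha (t + b) (y + b • q)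
  obtain ⟨p, hp, hn⟩ := semi_comb ha hb q q'
  have h1 := le_fu hK (add_nonneg ha hb) t y p
  rw [hp] at h1
  have e1 : t + (a + b) = t + b + a := by ring
  have e2 : y + (b • q + a • q') = y + b • q + a • q' := by abel
  rw [e1, e2] at h1
  rw [hq']
  linarith only [hn, h1]

theorem fl_add_ge [FiniteDimensional ℝ E] {K : ℝ} {V : ℝ → E → ℝ}
    (hV : Continuous (fun p : ℝ × E => V p.1 p.2)) (hK : Grow K V) {a b : ℝ} (ha : 0 ≤ a)
    (hb : 0 ≤ b) (t : ℝ) (y q : E) :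
    fl V (a + b) t y ≤ fl V a (t - b) (y + b • q) + b / 2 * ‖q‖ ^ 2 := by
  obtain ⟨q', hq'⟩ := fl_attained hV hK ha (t - b) (y + b • q)
  obtain ⟨p, hp, hn⟩ := semi_comb ha hb q q'
  have h1 := fl_le hK (add_nonneg ha hb) t y p
  rw [hp] at h1
  have e1 : t - (a + b) = t - b - a := by ring
  have e2 : y + (b • q + a • q') = y + b • q + a • q' := by abel
  rw [e1, e2] at h1
  rw [hq']
  linarith only [hn, h1]

/-- attained form of the semigroup law -/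
theorem fu_add_attained [FiniteDimensional ℝ E] {K : ℝ} {V : ℝ → E → ℝ}
    (hV : Continuous (fun p : ℝ × E => V p.1 p.2)) (hK : Grow K V) {a b : ℝ} (ha : 0 ≤ a)
    (hb : 0 ≤ b) (t : ℝ) (y : E) :
    ∃ q : E, fu V (a + b) t y = fu V a (t + b) (y + b • q) - b / 2 * ‖q‖ ^ 2 := by
  obtain ⟨q, hq⟩ := fu_attained hV hK (add_nonneg ha hb) t y
  refine ⟨q, le_antisymm ?_ (fu_add_le hV hK ha hb t y q)⟩
  have h1 := le_fu hK ha (t + b) (y + b • q) q
  have e1 : t + b + a = t + (a + b) := by ring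
  have e2 : y + b • q + a • q = y + (a + b) • q := by rw [add_smul]; abel
  rw [e1, e2] at h1
  rw [hq]
  linarith only [h1]

theorem fl_add_attained [FiniteDimensional ℝ E] {K : ℝ} {V : ℝ → E → ℝ}
    (hV : Continuous (fun p : ℝ × E => V p.1 p.2)) (hK : Grow K V) {a b : ℝ} (ha : 0 ≤ a)
    (hb : 0 ≤ b) (t : ℝ) (y : E) :
    ∃ q : E, fl V (a + b) t y = fl V a (t - b) (y + b • q) + b / 2 * ‖q‖ ^ 2 := by
  obtain ⟨q, hq⟩ := fl_attained hV hK (add_nonneg ha hb) t y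
  refine ⟨q, le_antisymm (fl_add_ge hV hK ha hb t y q) ?_⟩
  have h1 := fl_le hK ha (t - b) (y + b • q) q
  have e1 : t - b - a = t - (a + b) := by ring
  have e2 : y + b • q + a • q = y + (a + b) • q := by rw [add_smul]; abel
  rw [e1, e2] at h1
  rw [hq]
  linarith only [h1]

theorem fu_fu [FiniteDimensional ℝ E] {K : ℝ} {V : ℝ → E → ℝ}
    (hV : Continuous (fun p : ℝ × E => V p.1 p.2)) (hK : Grow K V) {a b : ℝ} (ha : 0 ≤ a)
    (hb : 0 ≤ b) (t : ℝ) (y : E) : fu (fu V a) b t y = fu V (a + b) t y := by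
  have hle : ∀ q : E, fu V a (t + b) (y + b • q) - b / 2 * ‖q‖ ^ 2 ≤ fu V (a + b) t y :=
    fun q => fu_add_le hV hK ha hb t y q
  apply le_antisymm
  · exact ciSup_le hle
  · obtain ⟨q, hq⟩ := fu_add_attained hV hK ha hb t y
    rw [hq]
    have hb : BddAbove (range fun q : E => fu V a (t + b) (y + b • q) - b / 2 * ‖q‖ ^ 2) := by
      refine ⟨fu V (a + b) t y, ?_⟩
      rintro _ ⟨q, rfl⟩
      exact hle q
    exact le_ciSup hb q

theorem fl_fl [FiniteDimensional ℝ E] {K : ℝ} {V : ℝ → E → ℝ}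
    (hV : Continuous (fun p : ℝ × E => V p.1 p.2)) (hK : Grow K V) {a b : ℝ} (ha : 0 ≤ a)
    (hb : 0 ≤ b) (t : ℝ) (y : E) : fl (fl V a) b t y = fl V (a + b) t y := by
  have hle : ∀ q : E, fl V (a + b) t y ≤ fl V a (t - b) (y + b • q) + b / 2 * ‖q‖ ^ 2 :=
    fun q => fl_add_ge hV hK ha hb t y q
  apply le_antisymm
  · obtain ⟨q, hq⟩ := fl_add_attained hV hK ha hb t y
    rw [hq]
    have hb : BddBelow (range fun q : E => fl V a (t - b) (y + b • q) + b / 2 * ‖q‖ ^ 2) := by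
      refine ⟨fl V (a + b) t y, ?_⟩
      rintro _ ⟨q, rfl⟩
      exact hle q
    exact ciInf_le hb q
  · exact le_ciInf hle

theorem le_fl_fu {K : ℝ} {V : ℝ → E → ℝ} (hK : Grow K V) {h : ℝ} (hh : 0 ≤ h) (t : ℝ) (y : E) :
    V t y ≤ fl (fu V h) h t y := by
  refine le_ciInf fun q => ?_
  have h1 := le_fu hK hh (t - h) (y + h • q) (-q)
  have e1 : t - h + h = t := by ring
  have e2 : y + h • q + h • (-q) = y := by rw [smul_neg]; abel
  rw [e1, e2, norm_neg] at h1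
  linarith only [h1]

end Vale.Agent.P080.Zy
end

section

/-! Compactness of almost maximisers and continuity of the regularisations `fu`, `fl` (P080). -/

open Set Filter Topology
open scoped RealInnerProductSpace

namespace Vale.Agent.P080.Zy

variable {E : Type*} [NormedAddCommGroup E] [InnerProductSpace ℝ E]

theorem tend_aux_real {A c x : ℝ} (hA : 1 ≤ A) (hx : 0 ≤ x)
    (h : x ^ 2 ≤ c * (A + x) ^ (3 / 2 : ℝ)) : x ≤ 2 * A + 16 * c ^ 2 := by
  by_contra hlt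
  push Not at hlt
  have hX : 0 < A + x := by linarith only [hA, hx]
  set s : ℝ := Real.sqrt (A + x) with hs
  have hs0 : 0 < s := Real.sqrt_pos.2 hX
  have hs2 : s ^ 2 = A + x := Real.sq_sqrt hX.le
  have h1 : (A + x) ^ (3 / 2 : ℝ) = s ^ 3 := by
    rw [show (3 / 2 : ℝ) = 1 + 1 / 2 by norm_num, Real.rpow_add hX, Real.rpow_one,
      ← Real.sqrt_eq_rpow, ← hs, ← hs2]
    ring
  rw [h1] at h
  have h2 : 2 / 3 * s ^ 2 ≤ x := by
    rw [hs2]
    nlinarith only [hlt]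
  have h3 : (2 / 3 * s ^ 2) ^ 2 ≤ c * s ^ 3 :=
    (pow_le_pow_left₀ (by positivity) h2 2).trans h
  have h4 : s ^ 3 * (4 / 9 * s) ≤ s ^ 3 * c := by linarith only [h3]
  have h5 : 4 / 9 * s ≤ c := le_of_mul_le_mul_left h4 (by positivity)
  have h6 : s ^ 2 ≤ (9 / 4 * c) ^ 2 := pow_le_pow_left₀ hs0.le (by linarith only [h5]) 2
  nlinarith only [hA, hlt, hs2, h6]

/-- Almost maximisers stay in a bounded set, uniformly in the growth class. -/
theorem near_max_bdd (K T : ℝ) : ∃ ρ : ℝ, 0 < ρ ∧ ∀ (V : ℝ → E → ℝ), Grow K V →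
    ∀ (t L : ℝ) (y q : E), |t| ≤ T → ‖y‖ ≤ T → 0 ≤ L → L ≤ T →
      V (t + L) y - 1 ≤ V (t + L) (y + L • q) - L / 2 * ‖q‖ ^ 2 →
      ‖L • q‖ ≤ ρ ∧ L * ‖q‖ ^ 2 ≤ ρ := by
  set A : ℝ := 1 + 3 * |T| with hA
  set c : ℝ := |T| * (2 + 4 * |K|) with hc
  set B : ℝ := 2 * A + 16 * c ^ 2 with hB
  have hA1 : 1 ≤ A := by
    have := abs_nonneg T
    rw [hA]; linarith
  have hc0 : 0 ≤ c := by (clear * -; positivity)
  have hB0 : 0 < B := by
    have := sq_nonneg c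
    rw [hB]; linarith only [hA1, this]
  have hE0 : 0 < 2 + 4 * |K| * (A + B) ^ (3 / 2 : ℝ) := by
    have : 0 ≤ |K| * (A + B) ^ (3 / 2 : ℝ) := by (clear * -; positivity)
    linarith only [this]
  refine ⟨B + (2 + 4 * |K| * (A + B) ^ (3 / 2 : ℝ)), by linarith, ?_⟩
  intro V hV t L y q ht hy hL0 hLT hle
  have hT0 : 0 ≤ T := (abs_nonneg t).trans ht
  have hTa : |T| = T := abs_of_nonneg hT0
  have hx0 : 0 ≤ ‖L • q‖ := norm_nonneg _
  have hg1 := le_of_abs_le (hV (t + L) (y + L • q))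
  have hg2 := neg_le_of_abs_le (hV (t + L) y)
  have htL : |t + L| ≤ 2 * T := by
    calc |t + L| ≤ |t| + |L| := abs_add_le _ _
      _ ≤ T + T := add_le_add ht (by rwa [abs_of_nonneg hL0])
      _ = 2 * T := by ring
  have hn1 : 1 + |t + L| + ‖y + L • q‖ ≤ A + ‖L • q‖ := by
    have := norm_add_le y (L • q)
    rw [hA, hTa]; linarith only [hy, htL, this]
  have hn2 : 1 + |t + L| + ‖y‖ ≤ A + ‖L • q‖ := by
    rw [hA, hTa]; linarith only [hy, hx0, htL]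
  have hr1 : K * (1 + |t + L| + ‖y + L • q‖) ^ (3 / 2 : ℝ) ≤ |K| * (A + ‖L • q‖) ^ (3 / 2 : ℝ) :=
    mul_le_mul (le_abs_self K) (Real.rpow_le_rpow (by (clear * -; positivity)) hn1 (by norm_num))
      (by (clear * -; positivity)) (abs_nonneg K)
  have hr2 : K * (1 + |t + L| + ‖y‖) ^ (3 / 2 : ℝ) ≤ |K| * (A + ‖L • q‖) ^ (3 / 2 : ℝ) :=
    mul_le_mul (le_abs_self K) (Real.rpow_le_rpow (by (clear * -; positivity)) hn2 (by norm_num))
      (by (clear * -; positivity)) (abs_nonneg K)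
  have hkey : L * ‖q‖ ^ 2 ≤ 2 + 4 * |K| * (A + ‖L • q‖) ^ (3 / 2 : ℝ) := by linarith only [hle, hg1, hg2, hr1, hr2]
  have hone : (1 : ℝ) ≤ (A + ‖L • q‖) ^ (3 / 2 : ℝ) :=
    Real.one_le_rpow (by linarith only [hA1, hx0]) (by norm_num)
  have hx2 : ‖L • q‖ ^ 2 ≤ c * (A + ‖L • q‖) ^ (3 / 2 : ℝ) := by
    have e1 : ‖L • q‖ ^ 2 = L * (L * ‖q‖ ^ 2) := by
      rw [norm_smul, Real.norm_of_nonneg hL0]; ring
    have e2 : L * ‖q‖ ^ 2 ≤ (2 + 4 * |K|) * (A + ‖L • q‖) ^ (3 / 2 : ℝ) := by linarith only [hle, hg1, hg2, hr1, hr2, hone]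
    have e3 : 0 ≤ L * ‖q‖ ^ 2 := by (clear * - hL0; positivity)
    rw [e1, hc, hTa, mul_assoc]
    exact mul_le_mul hLT e2 e3 hT0
  have hxB : ‖L • q‖ ≤ B := tend_aux_real hA1 hx0 hx2
  have hmono : (A + ‖L • q‖) ^ (3 / 2 : ℝ) ≤ (A + B) ^ (3 / 2 : ℝ) :=
    Real.rpow_le_rpow (by linarith only [hA1, hx0]) (by linarith only [hxB]) (by norm_num)
  have hmono2 : 4 * |K| * (A + ‖L • q‖) ^ (3 / 2 : ℝ) ≤ 4 * |K| * (A + B) ^ (3 / 2 : ℝ) :=
    mul_le_mul_of_nonneg_left hmono (by positivity)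
  exact ⟨by linarith only [hE0, hxB], by linarith only [hB0, hle, hg1, hg2, hr1, hr2, hmono2]⟩

theorem tend_lu_comp {X : Type*} [TopologicalSpace X] {F : ℕ → X → ℝ} {f : X → ℝ}
    (h : TendstoLocallyUniformly F f atTop) {m : ℕ → ℕ} (hm : Tendsto m atTop atTop) :
    TendstoLocallyUniformly (fun n => F (m n)) f atTop := by
  intro u hu x
  obtain ⟨s, hs, he⟩ := h u hu x
  exact ⟨s, hs, hm.eventually he⟩

/-- A common bound for the converging parameters. -/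
theorem tend_bound {L t : ℕ → ℝ} {y : ℕ → E} {L₀ t₀ : ℝ} {y₀ : E}
    (hL₀ : Tendsto L atTop (𝓝 L₀)) (ht₀ : Tendsto t atTop (𝓝 t₀)) (hy₀ : Tendsto y atTop (𝓝 y₀)) :
    ∃ T : ℝ, ∀ n, L n ≤ T ∧ |t n| ≤ T ∧ ‖y n‖ ≤ T := by
  obtain ⟨a, ha⟩ := hL₀.bddAbove_range
  obtain ⟨b, hb⟩ := ht₀.abs.bddAbove_range
  obtain ⟨c, hc⟩ := hy₀.norm.bddAbove_range
  refine ⟨max a (max b c), fun n => ⟨?_, ?_, ?_⟩⟩
  · exact (ha ⟨n, rfl⟩).trans (le_max_left _ _)
  · exact (hb ⟨n, rfl⟩).trans ((le_max_left _ _).trans (le_max_right _ _))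
  · exact (hc ⟨n, rfl⟩).trans ((le_max_right _ _).trans (le_max_right _ _))

/-- The upper bound along a sequence for which the displacements of the maximisers converge. -/
theorem tend_upper [FiniteDimensional ℝ E] {K : ℝ} {V : ℕ → ℝ → E → ℝ} {W : ℝ → E → ℝ}
    (hWc : Continuous (fun p : ℝ × E => W p.1 p.2)) (hWK : Grow K W)
    (hVW : TendstoLocallyUniformly (fun n (p : ℝ × E) => V n p.1 p.2) (fun p => W p.1 p.2) atTop)
    {L t : ℕ → ℝ} {y q : ℕ → E} {L₀ t₀ ρ : ℝ} {y₀ z : E} (hL : ∀ n, 0 ≤ L n)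
    (hL₀ : Tendsto L atTop (𝓝 L₀)) (ht₀ : Tendsto t atTop (𝓝 t₀)) (hy₀ : Tendsto y atTop (𝓝 y₀))
    (hρ : ∀ n, L n * ‖q n‖ ^ 2 ≤ ρ) (hz : Tendsto (fun n => L n • q n) atTop (𝓝 z)) :
    ∃ (G : ℕ → ℝ) (g : ℝ), g ≤ fu W L₀ t₀ y₀ ∧ Tendsto G atTop (𝓝 g) ∧
      ∀ n, V n (t n + L n) (y n + L n • q n) - L n / 2 * ‖q n‖ ^ 2 ≤ G n := by
  have hL0 : 0 ≤ L₀ := ge_of_tendsto' hL₀ hL
  have hmain : Tendsto (fun n => V n (t n + L n) (y n + L n • q n)) atTop
      (𝓝 (W (t₀ + L₀) (y₀ + z))) := by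
    have h1 : Tendsto (fun n => (t n + L n, y n + L n • q n)) atTop (𝓝 (t₀ + L₀, y₀ + z)) :=
      (ht₀.add hL₀).prodMk_nhds (hy₀.add hz)
    exact hVW.tendsto_comp hWc.continuousAt h1
  rcases hL0.eq_or_lt with h0 | hpos
  · have hz0 : z = 0 := by
      have h1 : Tendsto (fun n => ‖L n • q n‖ ^ 2) atTop (𝓝 (‖z‖ ^ 2)) := (hz.norm).pow 2
      have h2 : Tendsto (fun n => L n * ρ) atTop (𝓝 (L₀ * ρ)) := hL₀.mul_const ρ
      have h3 : ‖z‖ ^ 2 ≤ L₀ * ρ := by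
        refine le_of_tendsto_of_tendsto' h1 h2 fun n => ?_
        have e1 : ‖L n • q n‖ ^ 2 = L n * (L n * ‖q n‖ ^ 2) := by
          rw [norm_smul, Real.norm_of_nonneg (hL n)]; ring
        rw [e1]
        exact mul_le_mul_of_nonneg_left (hρ n) (hL n)
      rw [← h0, zero_mul] at h3
      have h4 : ‖z‖ ^ 2 = 0 := le_antisymm h3 (sq_nonneg _)
      exact norm_eq_zero.1 (pow_eq_zero_iff (two_ne_zero) |>.1 h4)
    refine ⟨_, _, ?_, hmain, fun n => ?_⟩
    · rw [hz0, ← h0, fu_zero, add_zero, add_zero]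
    · have : 0 ≤ L n / 2 * ‖q n‖ ^ 2 := by
        have := hL n
        (clear * - this; positivity)
      linarith only [this]
  · have hq : Tendsto (fun n => L n / 2 * ‖(L n)⁻¹ • (L n • q n)‖ ^ 2) atTop
        (𝓝 (L₀ / 2 * ‖L₀⁻¹ • z‖ ^ 2)) :=
      (hL₀.div_const 2).mul ((((hL₀.inv₀ hpos.ne').smul hz).norm).pow 2)
    refine ⟨_, _, ?_, hmain.sub hq, fun n => ?_⟩
    · have h1 := le_fu hWK hpos.le t₀ y₀ (L₀⁻¹ • z)
      rwa [smul_smul, mul_inv_cancel₀ hpos.ne', one_smul] at h1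
    · rcases (hL n).eq_or_lt with h | h
      · rw [← h]; simp
      · rw [smul_smul, inv_mul_cancel₀ h.ne', one_smul]

/-- Continuous convergence of the regularisations (includes continuity of `fu V` in all
variables, `V n = V`). -/
theorem fu_tendsto [FiniteDimensional ℝ E] {K : ℝ} {V : ℕ → ℝ → E → ℝ} {W : ℝ → E → ℝ}
    (hVc : ∀ n, Continuous (fun p : ℝ × E => V n p.1 p.2))
    (hVK : ∀ n, Grow K (V n)) (hWc : Continuous (fun p : ℝ × E => W p.1 p.2)) (hWK : Grow K W)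
    (hVW : TendstoLocallyUniformly (fun n (p : ℝ × E) => V n p.1 p.2) (fun p => W p.1 p.2) atTop)
    {L t : ℕ → ℝ} {y : ℕ → E} {L₀ t₀ : ℝ} {y₀ : E} (hL : ∀ n, 0 ≤ L n)
    (hL₀ : Tendsto L atTop (𝓝 L₀)) (ht₀ : Tendsto t atTop (𝓝 t₀)) (hy₀ : Tendsto y atTop (𝓝 y₀)) :
    Tendsto (fun n => fu (V n) (L n) (t n) (y n)) atTop (𝓝 (fu W L₀ t₀ y₀)) := by
  have hL0 : 0 ≤ L₀ := ge_of_tendsto' hL₀ hL
  obtain ⟨T, hT⟩ := tend_bound hL₀ ht₀ hy₀
  obtain ⟨ρ, _, hnear⟩ := near_max_bdd (E := E) K T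
  choose q hq using fun n => fu_attained (hVc n) (hVK n) (hL n) (t n) (y n)
  have hz : ∀ n, ‖L n • q n‖ ≤ ρ ∧ L n * ‖q n‖ ^ 2 ≤ ρ := by
    intro n
    refine hnear (V n) (hVK n) (t n) (L n) (y n) (q n) (hT n).2.1 (hT n).2.2 (hL n) (hT n).1 ?_
    have h1 := le_fu (hVK n) (hL n) (t n) (y n) 0
    rw [hq n, smul_zero, add_zero, norm_zero] at h1
    linarith only [h1]
  obtain ⟨q₀, hq₀⟩ := fu_attained hWc hWK hL0 t₀ y₀
  have hlow : Tendsto (fun n => V n (t n + L n) (y n + L n • q₀) - L n / 2 * ‖q₀‖ ^ 2) atTop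
      (𝓝 (fu W L₀ t₀ y₀)) := by
    rw [hq₀]
    have h1 : Tendsto (fun n => (t n + L n, y n + L n • q₀)) atTop
        (𝓝 (t₀ + L₀, y₀ + L₀ • q₀)) :=
      (ht₀.add hL₀).prodMk_nhds (hy₀.add (hL₀.smul_const q₀))
    exact (hVW.tendsto_comp hWc.continuousAt h1).sub ((hL₀.div_const 2).mul_const _)
  refine tendsto_of_subseq_tendsto fun ns hns => ?_
  have hcomp : ∀ n, L (ns n) • q (ns n) ∈ Metric.closedBall (0 : E) ρ := fun n => by
    rw [mem_closedBall_zero_iff]; exact (hz (ns n)).1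
  obtain ⟨z, _, φ, hφ, hzφ⟩ := (isCompact_closedBall (0 : E) ρ).tendsto_subseq hcomp
  have hm : Tendsto (fun n => ns (φ n)) atTop atTop := hns.comp hφ.tendsto_atTop
  refine ⟨φ, ?_⟩
  obtain ⟨G, g, hg, hGt, hGle⟩ := tend_upper (V := fun n => V (ns (φ n)))
    (L := fun n => L (ns (φ n))) (t := fun n => t (ns (φ n))) (y := fun n => y (ns (φ n)))
    (q := fun n => q (ns (φ n))) hWc hWK (tend_lu_comp hVW hm) (fun n => hL _) (hL₀.comp hm)
    (ht₀.comp hm) (hy₀.comp hm) (fun n => (hz _).2) hzφ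
  have hlow' := hlow.comp hm
  have hle1 : ∀ n, ((fun n => V n (t n + L n) (y n + L n • q₀) - L n / 2 * ‖q₀‖ ^ 2) ∘
      fun n => ns (φ n)) n ≤ fu (V (ns (φ n))) (L (ns (φ n))) (t (ns (φ n))) (y (ns (φ n))) :=
    fun n => le_fu (hVK _) (hL _) _ _ q₀
  have hle2 : ∀ n, fu (V (ns (φ n))) (L (ns (φ n))) (t (ns (φ n))) (y (ns (φ n))) ≤ G n :=
    fun n => by rw [hq]; exact hGle n
  have hgF : g = fu W L₀ t₀ y₀ :=
    le_antisymm hg (le_of_tendsto_of_tendsto' hlow' hGt fun n => (hle1 n).trans (hle2 n))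
  rw [hgF] at hGt
  exact tendsto_of_tendsto_of_tendsto_of_le_of_le hlow' hGt hle1 hle2

theorem fl_tendsto [FiniteDimensional ℝ E] {K : ℝ} {V : ℕ → ℝ → E → ℝ} {W : ℝ → E → ℝ}
    (hVc : ∀ n, Continuous (fun p : ℝ × E => V n p.1 p.2))
    (hVK : ∀ n, Grow K (V n)) (hWc : Continuous (fun p : ℝ × E => W p.1 p.2)) (hWK : Grow K W)
    (hVW : TendstoLocallyUniformly (fun n (p : ℝ × E) => V n p.1 p.2) (fun p => W p.1 p.2) atTop)
    {L t : ℕ → ℝ} {y : ℕ → E} {L₀ t₀ : ℝ} {y₀ : E} (hL : ∀ n, 0 ≤ L n)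
    (hL₀ : Tendsto L atTop (𝓝 L₀)) (ht₀ : Tendsto t atTop (𝓝 t₀)) (hy₀ : Tendsto y atTop (𝓝 y₀)) :
    Tendsto (fun n => fl (V n) (L n) (t n) (y n)) atTop (𝓝 (fl W L₀ t₀ y₀)) := by
  have hR : TendstoLocallyUniformly (fun n (p : ℝ × E) => refl (V n) p.1 p.2)
      (fun p => refl W p.1 p.2) atTop := by
    rw [Metric.tendstoLocallyUniformly_iff] at hVW ⊢
    intro ε hε x
    obtain ⟨s, hs, he⟩ := hVW ε hε (-x.1, x.2)
    have hc : Continuous (fun p : ℝ × E => ((-p.1, p.2) : ℝ × E)) := by fun_prop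
    refine ⟨(fun p : ℝ × E => ((-p.1, p.2) : ℝ × E)) ⁻¹' s, hc.continuousAt.preimage_mem_nhds hs, ?_⟩
    filter_upwards [he] with n hn p hp
    have := hn _ hp
    simpa [refl, dist_neg_neg] using this
  have h := fu_tendsto (fun n => continuous_refl (hVc n)) (fun n => (hVK n).refl)
    (continuous_refl hWc) hWK.refl hR hL hL₀ ht₀.neg hy₀
  have h2 := h.neg
  simp only [fu_refl, neg_neg] at h2
  exact h2

theorem fu_continuous [FiniteDimensional ℝ E] {K : ℝ} {V : ℝ → E → ℝ}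
    (hV : Continuous (fun p : ℝ × E => V p.1 p.2)) (hK : Grow K V) {L : ℝ} (hL : 0 ≤ L) :
    Continuous (fun p : ℝ × E => fu V L p.1 p.2) := by
  rw [continuous_iff_continuousAt]
  intro x
  rw [ContinuousAt, tendsto_nhds_iff_seq_tendsto]
  intro u hu
  have h1 : Tendsto (fun n => (u n).1) atTop (𝓝 x.1) := (continuous_fst.tendsto x).comp hu
  have h2 : Tendsto (fun n => (u n).2) atTop (𝓝 x.2) := (continuous_snd.tendsto x).comp hu
  have hVW : TendstoLocallyUniformly (fun (_ : ℕ) (p : ℝ × E) => V p.1 p.2)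
      (fun p => V p.1 p.2) atTop := by
    rw [Metric.tendstoLocallyUniformly_iff]
    intro ε hε x
    exact ⟨univ, univ_mem, Eventually.of_forall fun n p _ => by rw [dist_self]; exact hε⟩
  exact fu_tendsto (fun _ => hV) (fun _ => hK) hV hK hVW (fun _ => hL) tendsto_const_nhds h1 h2

theorem fl_continuous [FiniteDimensional ℝ E] {K : ℝ} {V : ℝ → E → ℝ}
    (hV : Continuous (fun p : ℝ × E => V p.1 p.2)) (hK : Grow K V) {L : ℝ} (hL : 0 ≤ L) :
    Continuous (fun p : ℝ × E => fl V L p.1 p.2) := by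
  have h := fu_continuous (continuous_refl hV) hK.refl hL
  have h2 : Continuous (fun p : ℝ × E => -(fu (refl V) L (-p.1) p.2)) :=
    (h.comp (continuous_fst.neg.prodMk continuous_snd)).neg
  refine h2.congr fun p => ?_
  rw [fu_refl, neg_neg, neg_neg]

end Vale.Agent.P080.Zy
end

section

/-! Basic facts on double convolutions (P080, Theorem Z, A2, A6, A7, A9). -/

open Set Filter Topology
open scoped RealInnerProductSpace

namespace Vale.Agent.P080.Zy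

variable {E : Type*} [NormedAddCommGroup E] [InnerProductSpace ℝ E]

namespace DCbasic

theorem rpow32 {X : ℝ} (hX : 0 ≤ X) : X ^ (3 / 2 : ℝ) = X * Real.sqrt X := by
  rcases hX.eq_or_lt with h | h
  · rw [← h, Real.zero_rpow (by norm_num), zero_mul]
  · rw [show (3 / 2 : ℝ) = 1 + 1 / 2 by norm_num, Real.rpow_add h, Real.rpow_one,
      Real.sqrt_eq_rpow]

/-- `(M + N)^{3/2} ≤ 3 M^{3/2} + 3 N^{3/2}` -/
theorem add_rpow32 {M N : ℝ} (hM : 0 ≤ M) (hN : 0 ≤ N) :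
    (M + N) ^ (3 / 2 : ℝ) ≤ 3 * M ^ (3 / 2 : ℝ) + 3 * N ^ (3 / 2 : ℝ) := by
  have h2 : (2 : ℝ) ^ (3 / 2 : ℝ) ≤ 3 := by
    rw [rpow32 (by norm_num)]
    have h3 : Real.sqrt 2 ≤ 3 / 2 := by
      rw [Real.sqrt_le_left (by norm_num)]
      norm_num
    linarith
  have key : ∀ {a b : ℝ}, 0 ≤ a → a ≤ b → (a + b) ^ (3 / 2 : ℝ) ≤ 3 * b ^ (3 / 2 : ℝ) := by
    intro a b ha hab
    have hb : 0 ≤ b := ha.trans hab
    have h1 : (a + b) ^ (3 / 2 : ℝ) ≤ (2 * b) ^ (3 / 2 : ℝ) :=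
      Real.rpow_le_rpow (by linarith only [ha, hab]) (by linarith) (by norm_num)
    rw [Real.mul_rpow (by norm_num) hb] at h1
    exact h1.trans (mul_le_mul_of_nonneg_right h2 (by positivity))
  rcases le_total M N with h | h
  · have := key hM h
    have h0 : 0 ≤ M ^ (3 / 2 : ℝ) := by positivity
    linarith only [h0, this]
  · have := key hN h
    rw [add_comm N M] at this
    have h0 : 0 ≤ N ^ (3 / 2 : ℝ) := by positivity
    linarith

/-- `k (a x)^{3/2} ≤ a x²/2 + 8 k⁴ a³` -/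
theorem young32 {k a x : ℝ} (hk : 0 ≤ k) (ha : 0 ≤ a) (hx : 0 ≤ x) :
    k * (a * x) ^ (3 / 2 : ℝ) ≤ a / 2 * x ^ 2 + 8 * k ^ 4 * a ^ 3 := by
  obtain ⟨w, hw0, hw⟩ : ∃ w : ℝ, 0 ≤ w ∧ w ^ 2 = x := ⟨Real.sqrt x, Real.sqrt_nonneg _,
    Real.sq_sqrt hx⟩
  obtain ⟨α, hα0, hα⟩ : ∃ α : ℝ, 0 ≤ α ∧ α ^ 2 = a := ⟨Real.sqrt a, Real.sqrt_nonneg _,
    Real.sq_sqrt ha⟩
  have h1 : (a * x) ^ (3 / 2 : ℝ) = α ^ 3 * w ^ 3 := by
    rw [rpow32 (by positivity)]
    have h2 : a * x = (α * w) ^ 2 := by rw [mul_pow, hα, hw]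
    rw [h2, Real.sqrt_sq (by positivity)]
    ring
  rw [h1, ← hw, ← hα]
  obtain ⟨p, hp⟩ : ∃ p, p = k * α := ⟨_, rfl⟩
  have hp0 : 0 ≤ p := by rw [hp]; positivity
  have h3 : p * w ^ 3 ≤ w ^ 4 / 2 + 8 * p ^ 4 := by
    rcases le_total p (w / 2) with h | h
    · have h4 : p * w ^ 3 ≤ w / 2 * w ^ 3 := mul_le_mul_of_nonneg_right h (by positivity)
      have h5 : 0 ≤ p ^ 4 := by positivity
      linarith only [h5, h4]
    · have h4 : w ^ 3 ≤ (2 * p) ^ 3 := pow_le_pow_left₀ hw0 (by linarith only [h]) 3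
      have h5 : p * w ^ 3 ≤ p * (2 * p) ^ 3 := mul_le_mul_of_nonneg_left h4 hp0
      have h6 : 0 ≤ w ^ 4 := by positivity
      nlinarith only [h5, h6]
  have h7 := mul_le_mul_of_nonneg_left h3 (sq_nonneg α)
  rw [hp] at h7
  calc k * (α ^ 3 * w ^ 3) = α ^ 2 * (k * α * w ^ 3) := by ring
    _ ≤ α ^ 2 * (w ^ 4 / 2 + 8 * (k * α) ^ 4) := h7
    _ = α ^ 2 / 2 * (w ^ 2) ^ 2 + 8 * k ^ 4 * (α ^ 2) ^ 3 := by ring

end DCbasic

open DCbasic in
/-- A2 -/
theorem grow_fu {K : ℝ} {V : ℝ → E → ℝ} (_hK : Grow K V) (T : ℝ) :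
    ∃ K' : ℝ, 0 < K' ∧ ∀ (V : ℝ → E → ℝ), Grow K V → ∀ a, 0 ≤ a → a ≤ T → Grow K' (fu V a) := by
  rcases lt_or_ge T 0 with hT | hT
  · exact ⟨1, one_pos, fun V _ a ha haT => absurd (ha.trans haT) (not_le.2 hT)⟩
  refine ⟨3 * |K| * (1 + T) ^ (3 / 2 : ℝ) + 8 * (3 * |K|) ^ 4 * T ^ 3 + 1, by (clear * - hT; positivity), ?_⟩
  intro V hK a ha haT t y
  obtain ⟨X, hX⟩ : ∃ X, X = 1 + |t| + ‖y‖ := ⟨_, rfl⟩
  have hX1 : 1 ≤ X := by
    rw [hX]
    have := abs_nonneg t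
    have := norm_nonneg y
    linarith
  have hX32 : 1 ≤ X ^ (3 / 2 : ℝ) := Real.one_le_rpow hX1 (by norm_num)
  have hM : (X + a) ^ (3 / 2 : ℝ) ≤ (1 + T) ^ (3 / 2 : ℝ) * X ^ (3 / 2 : ℝ) := by
    rw [← Real.mul_rpow (by linarith) (by linarith)]
    apply Real.rpow_le_rpow (by linarith) _ (by norm_num)
    linarith only [mul_nonneg (sub_nonneg.2 hT) (sub_nonneg.2 hX1), haT]
  have hta : 1 + |t + a| ≤ 1 + |t| + a := by
    have := abs_add_le t a
    rw [abs_of_nonneg ha] at this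
    linarith only [this]
  rw [← hX, abs_le]
  have hc1 : 0 ≤ |K| * ((1 + T) ^ (3 / 2 : ℝ) * X ^ (3 / 2 : ℝ)) := by (clear * - hT hX1; positivity)
  have hc2 : 0 ≤ 8 * (3 * |K|) ^ 4 * T ^ 3 := by (clear * - hT; positivity)
  have hc3 : 8 * (3 * |K|) ^ 4 * T ^ 3 ≤ 8 * (3 * |K|) ^ 4 * T ^ 3 * X ^ (3 / 2 : ℝ) :=
    le_mul_of_one_le_right hc2 hX32
  constructor
  · have h1 := le_fu hK ha t y 0
    rw [smul_zero, add_zero, norm_zero] at h1
    have h2 := neg_le_of_abs_le (hK (t + a) y)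
    have h3 : K * (1 + |t + a| + ‖y‖) ^ (3 / 2 : ℝ) ≤ |K| * (X + a) ^ (3 / 2 : ℝ) := by
      refine (mul_le_mul_of_nonneg_right (le_abs_self K) (by positivity)).trans ?_
      refine mul_le_mul_of_nonneg_left ?_ (abs_nonneg K)
      apply Real.rpow_le_rpow (by positivity) _ (by norm_num)
      rw [hX]
      linarith only [hta]
    have h4 := mul_le_mul_of_nonneg_left hM (abs_nonneg K)
    linarith only [h4, h3, h2, h1, hc3, hc2, hc1, hX32]
  · refine ciSup_le fun q => ?_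
    have h2 := le_of_abs_le (hK (t + a) (y + a • q))
    have h3 : ‖y + a • q‖ ≤ ‖y‖ + a * ‖q‖ := by
      refine (norm_add_le _ _).trans ?_
      rw [norm_smul, Real.norm_of_nonneg ha]
    have h4 : K * (1 + |t + a| + ‖y + a • q‖) ^ (3 / 2 : ℝ) ≤
        |K| * ((X + a) + a * ‖q‖) ^ (3 / 2 : ℝ) := by
      refine (mul_le_mul_of_nonneg_right (le_abs_self K) (by positivity)).trans ?_
      refine mul_le_mul_of_nonneg_left ?_ (abs_nonneg K)
      apply Real.rpow_le_rpow (by positivity) _ (by norm_num)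
      rw [hX]
      linarith only [hta, h3]
    have h5 := mul_le_mul_of_nonneg_left
      (add_rpow32 (by linarith only [ha, hX1] : 0 ≤ X + a) (by positivity : 0 ≤ a * ‖q‖)) (abs_nonneg K)
    have h6 := young32 (k := 3 * |K|) (a := a) (x := ‖q‖) (by positivity) ha (norm_nonneg q)
    have h7 : 8 * (3 * |K|) ^ 4 * a ^ 3 ≤ 8 * (3 * |K|) ^ 4 * T ^ 3 := by
      have := pow_le_pow_left₀ ha haT 3
      exact mul_le_mul_of_nonneg_left this (by (clear * -; positivity))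
    have h8 := mul_le_mul_of_nonneg_left hM (abs_nonneg K)
    linarith only [h8, h7, h6, h5, h4, h2, hc3, hX32]

/-- A6: step down. -/
theorem dc_down [FiniteDimensional ℝ E] {K : ℝ} {V : ℝ → E → ℝ}
    (hV : Continuous (fun p : ℝ × E => V p.1 p.2)) (hK : Grow K V) {a b h : ℝ} (ha : 0 ≤ a)
    (hh : 0 ≤ h) (hb : h ≤ b) (t : ℝ) (y q : E) :
    dc V a b t y ≤ dc V a (b - h) (t - h) (y + h • q) + h / 2 * ‖q‖ ^ 2 := by
  obtain ⟨K', -, hK'⟩ := grow_fu hK a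
  have h1 := fl_add_ge (fu_continuous hV hK ha) (hK' V hK a ha le_rfl) (sub_nonneg.2 hb) hh t y q
  rw [sub_add_cancel] at h1
  exact h1

/-- A7 -/
theorem fu_le_dc [FiniteDimensional ℝ E] {K : ℝ} {V : ℝ → E → ℝ}
    (hV : Continuous (fun p : ℝ × E => V p.1 p.2)) (hK : Grow K V) {s τ : ℝ} (hs : 0 ≤ s)
    (hτ : 0 ≤ τ) (t : ℝ) (y : E) : fu V s t y ≤ dc V (τ + s) τ t y := by
  obtain ⟨K', -, hK'⟩ := grow_fu hK s
  have h1 := le_fl_fu (hK' V hK s hs le_rfl) hτ t y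
  have h2 : fu (fu V s) τ = fu V (τ + s) := by
    funext t' y'
    rw [fu_fu hV hK hs hτ, add_comm]
  rw [h2] at h1
  exact h1

/-- A9: gauge -/
theorem dc_gauge {K : ℝ} {V : ℝ → E → ℝ} (hK : Grow K V) (t₀ : ℝ) (y₀ : E) {r : ℝ} (hr : 0 < r)
    (v k : ℝ) (c : E) {a b : ℝ} (ha : 0 ≤ a) (hb : 0 ≤ b) (s : ℝ) (z : E) :
    dc (gauge V t₀ y₀ r v k c) a b s z =
      (dc V (r * a) (r * b) (t₀ + r * s) (y₀ + r • z + (r * s) • c) - v - r * ⟪c, z⟫
        - k * (r * s)) / r - (a - b) * cellE k c := by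
  obtain ⟨K', -, hK'⟩ := grow_fu hK (r * a)
  have h1 : fu (gauge V t₀ y₀ r v k c) a =
      gauge (fu V (r * a)) t₀ y₀ r (v + k * r * a - r * a * ‖c‖ ^ 2 / 2) k c := by
    funext s' z'
    rw [fu_gauge hK t₀ y₀ hr v k c ha s' z']
    unfold gauge
    field_simp
    ring
  unfold dc
  rw [h1, fl_gauge (hK' V hK (r * a) (mul_nonneg hr.le ha) le_rfl) t₀ y₀ hr _ k c hb s z]
  unfold cellE
  field_simp
  ring

end Vale.Agent.P080.Zy
end

section

/-! Continuous convergence of double convolutions (P080). -/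

open Set Filter Topology
open scoped RealInnerProductSpace

namespace Vale.Agent.P080.Zy

variable {E : Type*} [NormedAddCommGroup E] [InnerProductSpace ℝ E]

namespace DClim

/-- Continuous convergence implies locally uniform convergence. -/
theorem tlu_of_seq {α : Type*} [TopologicalSpace α] [FirstCountableTopology α]
    {F : ℕ → α → ℝ} {f : α → ℝ} (hf : Continuous f)
    (h : ∀ (n : ℕ → ℕ) (x : ℕ → α) (x₀ : α), Tendsto n atTop atTop → Tendsto x atTop (𝓝 x₀) →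
      Tendsto (fun k => F (n k) (x k)) atTop (𝓝 (f x₀))) :
    TendstoLocallyUniformly F f atTop := by
  rw [tendstoLocallyUniformly_iff_forall_tendsto]
  intro x₀
  refine tendsto_of_seq_tendsto fun u hu => ?_
  rw [tendsto_prod_iff'] at hu
  have h1 := h (fun k => (u k).1) (fun k => (u k).2) x₀ hu.1 hu.2
  have h2 : Tendsto (fun k => f (u k).2) atTop (𝓝 (f x₀)) := (hf.tendsto x₀).comp hu.2
  exact (h2.prodMk_nhds h1).mono_right (nhds_le_uniformity _)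

theorem fu_tlu [FiniteDimensional ℝ E] {K : ℝ} {V : ℕ → ℝ → E → ℝ} {W : ℝ → E → ℝ}
    (hVc : ∀ n, Continuous (fun p : ℝ × E => V n p.1 p.2))
    (hVK : ∀ n, Grow K (V n)) (hWc : Continuous (fun p : ℝ × E => W p.1 p.2)) (hWK : Grow K W)
    (hVW : TendstoLocallyUniformly (fun n (p : ℝ × E) => V n p.1 p.2) (fun p => W p.1 p.2) atTop)
    {a : ℕ → ℝ} {a₀ : ℝ} (ha : ∀ n, 0 ≤ a n) (ha₀ : Tendsto a atTop (𝓝 a₀)) :
    TendstoLocallyUniformly (fun n (p : ℝ × E) => fu (V n) (a n) p.1 p.2)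
      (fun p => fu W a₀ p.1 p.2) atTop := by
  have h0 : 0 ≤ a₀ := ge_of_tendsto' ha₀ ha
  refine tlu_of_seq (fu_continuous hWc hWK h0) fun n x x₀ hn hx => ?_
  exact fu_tendsto (V := fun k => V (n k)) (fun k => hVc _) (fun k => hVK _) hWc hWK
    (fun u hu z => let ⟨s, hs, h⟩ := hVW u hu z; ⟨s, hs, hn.eventually h⟩)
    (fun k => ha _) (ha₀.comp hn) ((continuous_fst.tendsto _).comp hx)
    ((continuous_snd.tendsto _).comp hx)

end DClim

/-- A10: continuous convergence -/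
theorem dc_tendsto [FiniteDimensional ℝ E] {K : ℝ} {V : ℕ → ℝ → E → ℝ} {W : ℝ → E → ℝ}
    (hVc : ∀ n, Continuous (fun p : ℝ × E => V n p.1 p.2))
    (hVK : ∀ n, Grow K (V n)) (hWc : Continuous (fun p : ℝ × E => W p.1 p.2)) (hWK : Grow K W)
    (hVW : TendstoLocallyUniformly (fun n (p : ℝ × E) => V n p.1 p.2) (fun p => W p.1 p.2) atTop)
    {a b t : ℕ → ℝ} {y : ℕ → E} {a₀ b₀ t₀ : ℝ} {y₀ : E} (ha : ∀ n, 0 ≤ a n) (hb : ∀ n, 0 ≤ b n)
    (ha₀ : Tendsto a atTop (𝓝 a₀)) (hb₀ : Tendsto b atTop (𝓝 b₀)) (ht₀ : Tendsto t atTop (𝓝 t₀))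
    (hy₀ : Tendsto y atTop (𝓝 y₀)) :
    Tendsto (fun n => dc (V n) (a n) (b n) (t n) (y n)) atTop (𝓝 (dc W a₀ b₀ t₀ y₀)) := by
  have h0 : 0 ≤ a₀ := ge_of_tendsto' ha₀ ha
  obtain ⟨T, hT⟩ := ha₀.bddAbove_range
  have haT : ∀ n, a n ≤ T := fun n => hT ⟨n, rfl⟩
  have h0T : a₀ ≤ T := le_of_tendsto' ha₀ haT
  obtain ⟨K', -, hK'⟩ := grow_fu hWK T
  exact fl_tendsto (fun n => fu_continuous (hVc n) (hVK n) (ha n))
    (fun n => hK' _ (hVK n) _ (ha n) (haT n)) (fu_continuous hWc hWK h0) (hK' _ hWK _ h0 h0T)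
    (DClim.fu_tlu hVc hVK hWc hWK hVW ha ha₀) hb hb₀ ht₀ hy₀

end Vale.Agent.P080.Zy
end

section

/-! Compactness of the class `Z` (P080, task ZB-5). -/

open Set Filter Topology
open scoped RealInnerProductSpace

namespace Vale.Agent.P080.Zy

variable {E : Type*} [NormedAddCommGroup E] [InnerProductSpace ℝ E]

/-- A family of real functions with pointwise bounds and a common pointwise modulus is compact in
the compact-open topology. -/
theorem comp_family_isCompact {X : Type*} [PseudoMetricSpace X] (B : X → ℝ)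
    (δ : X → ℝ → ℝ) (hδ : ∀ p ε, 0 < ε → 0 < δ p ε) :
    IsCompact {f : C(X, ℝ) | (∀ p, |f p| ≤ B p) ∧
      ∀ p ε, 0 < ε → ∀ p', dist p' p < δ p ε → |f p' - f p| ≤ ε} := by
  apply ArzelaAscoli.isCompact_of_equicontinuous
  · have hEq : (ContinuousMap.toFun '' {f : C(X, ℝ) | (∀ p, |f p| ≤ B p) ∧
        ∀ p ε, 0 < ε → ∀ p', dist p' p < δ p ε → |f p' - f p| ≤ ε}) =
        {g : X → ℝ | (∀ p, |g p| ≤ B p) ∧
          ∀ p ε, 0 < ε → ∀ p', dist p' p < δ p ε → |g p' - g p| ≤ ε} := by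
      ext g
      constructor
      · rintro ⟨f, hf, rfl⟩
        exact hf
      · intro hg
        have hgc : Continuous g := by
          rw [Metric.continuous_iff]
          intro p ε hε
          refine ⟨δ p (ε / 2), hδ p _ (by positivity), ?_⟩
          intro p' hp'
          have := hg.2 p (ε / 2) (by positivity) p' hp'
          rw [Real.dist_eq]
          linarith
        exact ⟨⟨g, hgc⟩, hg, rfl⟩
    rw [hEq]
    have hcl : IsClosed {g : X → ℝ | (∀ p, |g p| ≤ B p) ∧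
          ∀ p ε, 0 < ε → ∀ p', dist p' p < δ p ε → |g p' - g p| ≤ ε} := by
      have h1 : {g : X → ℝ | (∀ p, |g p| ≤ B p) ∧
          ∀ p ε, 0 < ε → ∀ p', dist p' p < δ p ε → |g p' - g p| ≤ ε} =
          (⋂ p, {g : X → ℝ | |g p| ≤ B p}) ∩
          (⋂ p, ⋂ ε, ⋂ (_ : 0 < ε), ⋂ p', ⋂ (_ : dist p' p < δ p ε),
            {g : X → ℝ | |g p' - g p| ≤ ε}) := by
        ext g
        simp only [mem_ofPred_eq, mem_inter_iff, mem_iInter]
      rw [h1]
      refine IsClosed.inter ?_ ?_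
      · refine isClosed_iInter fun p => ?_
        exact isClosed_le ((continuous_apply p).abs) continuous_const
      · refine isClosed_iInter fun p => isClosed_iInter fun ε => isClosed_iInter fun _ =>
          isClosed_iInter fun p' => isClosed_iInter fun _ => ?_
        exact isClosed_le (((continuous_apply p').sub (continuous_apply p)).abs) continuous_const
    refine IsCompact.of_isClosed_subset
      (isCompact_univ_pi fun p : X => (isCompact_Icc : IsCompact (Icc (-B p) (B p)))) hcl ?_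
    intro g hg p _
    exact abs_le.1 (hg.1 p)
  · intro p
    rw [Metric.equicontinuousAt_iff]
    intro ε hε
    refine ⟨δ p (ε / 2), hδ p _ (by positivity), ?_⟩
    intro p' hp' f
    have := f.2.2 p (ε / 2) (by positivity) p' hp'
    rw [dist_comm, Real.dist_eq]
    have h2 : |(f : C(X, ℝ)) p' - (f : C(X, ℝ)) p| < ε := by linarith only [hε, this]
    exact h2

/-- Extraction of a locally uniformly convergent subsequence. -/
theorem comp_extract {X : Type*} [PseudoMetricSpace X] [LocallyCompactSpace X]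
    [SigmaCompactSpace X] (F : ℕ → X → ℝ) (hF : ∀ n, Continuous (F n)) (B : X → ℝ)
    (hB : ∀ n p, |F n p| ≤ B p) (δ : X → ℝ → ℝ) (hδ : ∀ p ε, 0 < ε → 0 < δ p ε)
    (hmod : ∀ n p ε, 0 < ε → ∀ p', dist p' p < δ p ε → |F n p' - F n p| ≤ ε) :
    ∃ (G : X → ℝ) (φ : ℕ → ℕ), StrictMono φ ∧ Continuous G ∧
      TendstoLocallyUniformly (fun n => F (φ n)) G atTop := by
  have hc := comp_family_isCompact B δ hδ
  obtain ⟨G, -, φ, hφ, hG⟩ := hc.tendsto_subseq (x := fun n => (⟨F n, hF n⟩ : C(X, ℝ)))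
    (fun n => ⟨fun p => hB n p, fun p ε hε p' hp' => hmod n p ε hε p' hp'⟩)
  refine ⟨G, φ, hφ, G.continuous, ?_⟩
  have := ContinuousMap.tendsto_iff_tendstoLocallyUniformly.1 hG
  exact this

/-- Cells pass to locally uniform limits. -/
theorem comp_flat [FiniteDimensional ℝ E] {C₀ : ℝ} {V : ℕ → ℝ → E → ℝ} {W : ℝ → E → ℝ}
    (hZ : ∀ n, ZClass C₀ (V n)) (hN : ∀ n, Norm1 C₀ (V n))
    (hWc : Continuous (fun p : ℝ × E => W p.1 p.2))
    (hVW : TendstoLocallyUniformly (fun n (p : ℝ × E) => V n p.1 p.2) (fun p => W p.1 p.2) atTop)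
    (t : ℝ) (y : E) (r : ℝ) (hr : 0 < r) : CellFlat C₀ W t y r := by
  obtain ⟨K, hK0, hK⟩ := cells_log (E := E) C₀
  obtain ⟨Kg, hKg0, hKg⟩ := growth (E := E) C₀
  set M : ℝ := K * (1 + |Real.log r| + Real.log (1 + |t| + ‖y‖)) with hM
  set G : ℝ := Kg * (1 + |t| + ‖y‖) ^ (3 / 2 : ℝ) + C₀ * r with hG
  choose v k b hcell using fun n => (hZ n).flat t y r hr
  have hb : ∀ n, ‖b n‖ ≤ M := fun n =>
    (hK (V n) (hZ n).flat (hN n) t y r (v n) (k n) (b n) hr (hcell n)).1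
  have hE : ∀ n, |cellE (k n) (b n)| ≤ M := fun n =>
    (hK (V n) (hZ n).flat (hN n) t y r (v n) (k n) (b n) hr (hcell n)).2
  have hk : ∀ n, |k n| ≤ M + M ^ 2 / 2 := by
    intro n
    have h1 := abs_le.1 (hE n)
    have h2 := hb n
    have h3 : ‖b n‖ ^ 2 ≤ M ^ 2 := pow_le_pow_left₀ (norm_nonneg _) h2 2
    have h4 : 0 ≤ ‖b n‖ ^ 2 := by positivity
    simp only [cellE] at h1
    rw [abs_le]
    constructor <;> linarith only [h1, h3, h4]
  have hv : ∀ n, |v n| ≤ G := by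
    intro n
    have h1 := hcell n 0 0 (by simpa only [abs_zero] using hr.le) (by simpa only [norm_zero] using hr.le)
    simp only [add_zero, zero_smul, inner_zero_right, mul_zero] at h1
    have h2 := hKg (V n) (hZ n).flat (hN n) t y
    have h3 : |v n| ≤ |V n t y| + |V n t y - v n| := by
      have := abs_sub_abs_le_abs_sub (v n) (V n t y)
      rw [abs_sub_comm (v n)] at this
      linarith only [this]
    linarith only [h1, h2, h3]
  have hcpt : IsCompact (Icc (-G) G ×ˢ (Icc (-(M + M ^ 2 / 2)) (M + M ^ 2 / 2) ×ˢ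
      Metric.closedBall (0 : E) M)) :=
    isCompact_Icc.prod (isCompact_Icc.prod (isCompact_closedBall _ _))
  obtain ⟨⟨v₀, k₀, b₀⟩, -, ψ, hψ, hlim⟩ := hcpt.tendsto_subseq
    (x := fun n => (v n, k n, b n)) (fun n => ⟨abs_le.1 (hv n), abs_le.1 (hk n), by
      simpa [Metric.mem_closedBall, dist_zero_right] using hb n⟩)
  have hv' : Tendsto (fun n => v (ψ n)) atTop (𝓝 v₀) := (continuous_fst.tendsto _).comp hlim
  have hk' : Tendsto (fun n => k (ψ n)) atTop (𝓝 k₀) :=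
    ((continuous_fst.comp continuous_snd).tendsto _).comp hlim
  have hb' : Tendsto (fun n => b (ψ n)) atTop (𝓝 b₀) :=
    ((continuous_snd.comp continuous_snd).tendsto _).comp hlim
  refine ⟨v₀, k₀, b₀, ?_⟩
  intro s z hs hz
  have hVW' : TendstoLocallyUniformly (fun n (p : ℝ × E) => V (ψ n) p.1 p.2)
      (fun p => W p.1 p.2) atTop := by
    intro u hu x
    obtain ⟨a, ha, ha'⟩ := hVW u hu x
    exact ⟨a, ha, hψ.tendsto_atTop.eventually ha'⟩
  have hpt : Tendsto (fun n => ((t + s, y + s • b (ψ n) + z) : ℝ × E)) atTop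
      (𝓝 (t + s, y + s • b₀ + z)) := by
    refine Tendsto.prodMk_nhds tendsto_const_nhds ?_
    exact (tendsto_const_nhds.add (hb'.const_smul s)).add tendsto_const_nhds
  have hA : Tendsto (fun n => V (ψ n) (t + s) (y + s • b (ψ n) + z)) atTop
      (𝓝 (W (t + s) (y + s • b₀ + z))) :=
    hVW'.tendsto_comp (x := ((t + s, y + s • b₀ + z) : ℝ × E)) hWc.continuousAt hpt
  have hB : Tendsto (fun n => v (ψ n) + ⟪b (ψ n), z⟫ + k (ψ n) * s) atTop
      (𝓝 (v₀ + ⟪b₀, z⟫ + k₀ * s)) :=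
    (hv'.add (hb'.inner tendsto_const_nhds)).add (hk'.mul_const s)
  exact le_of_tendsto (hA.sub hB).abs (Eventually.of_forall fun n => hcell (ψ n) s z hs hz)

theorem ZClass.compact [FiniteDimensional ℝ E] (C₀ : ℝ) (V : ℕ → ℝ → E → ℝ)
    (hZ : ∀ n, ZClass C₀ (V n)) (hN : ∀ n, Norm1 C₀ (V n)) :
    ∃ (W : ℝ → E → ℝ) (φ : ℕ → ℕ), StrictMono φ ∧ ZClass C₀ W ∧ Norm1 C₀ W ∧
      TendstoLocallyUniformly (fun n (p : ℝ × E) => V (φ n) p.1 p.2) (fun p => W p.1 p.2)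
        atTop := by
  obtain ⟨Kg, hKg0, hKg⟩ := growth (E := E) C₀
  have hgr : ∀ n, Grow Kg (V n) := fun n => hKg (V n) (hZ n).flat (hN n)
  have hmod := modulus (E := E) C₀
  choose δ hδ0 hδ using hmod
  obtain ⟨G, φ, hφ, hGc, hG⟩ := comp_extract (X := ℝ × E) (fun n p => V n p.1 p.2)
    (fun n => (hZ n).cont) (fun p => Kg * (1 + |p.1| + ‖p.2‖) ^ (3 / 2 : ℝ))
    (fun n p => hgr n p.1 p.2)
    (fun p ε => if h : 0 < ε then δ (max |p.1| ‖p.2‖) ε h else 1)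
    (fun p ε hε => by simp only [hε, dite_true]; exact hδ0 _ _ _)
    (fun n p ε hε p' hp' => by
      simp only [hε, dite_true] at hp'
      rw [Prod.dist_eq, max_lt_iff, Real.dist_eq, dist_eq_norm] at hp'
      exact hδ (max |p.1| ‖p.2‖) ε hε (V n) (hZ n).flat (hN n) p.1 p'.1 p.2 p'.2 (le_max_left _ _)
        (le_max_right _ _) hp'.1.le hp'.2.le)
  have hpt : ∀ p : ℝ × E, Tendsto (fun n => V (φ n) p.1 p.2) atTop (𝓝 (G p)) := fun p =>
    (tendstoLocallyUniformlyOn_univ.2 hG).tendsto_at (mem_univ p)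
  refine ⟨fun t y => G (t, y), φ, hφ, ?_, ?_, hG⟩
  · have hWc : Continuous (fun p : ℝ × E => (fun t y => G (t, y)) p.1 p.2) := hGc
    have hWK : Grow Kg (fun t y => G (t, y)) := by
      intro t y
      exact le_of_tendsto (hpt (t, y)).abs (Eventually.of_forall fun n => hgr (φ n) t y)
    have hfu : ∀ L t y, 0 ≤ L → Tendsto (fun n => fu (V (φ n)) L t y) atTop
        (𝓝 (fu (fun t y => G (t, y)) L t y)) := fun L t y hL =>
      fu_tendsto (V := fun n => V (φ n)) (fun n => (hZ (φ n)).cont) (fun n => hgr (φ n)) hWc hWK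
        hG (L := fun _ => L) (t := fun _ => t) (y := fun _ => y) (fun _ => hL) tendsto_const_nhds
        tendsto_const_nhds tendsto_const_nhds
    have hfl : ∀ L t y, 0 ≤ L → Tendsto (fun n => fl (V (φ n)) L t y) atTop
        (𝓝 (fl (fun t y => G (t, y)) L t y)) := fun L t y hL =>
      fl_tendsto (V := fun n => V (φ n)) (fun n => (hZ (φ n)).cont) (fun n => hgr (φ n)) hWc hWK
        hG (L := fun _ => L) (t := fun _ => t) (y := fun _ => y) (fun _ => hL) tendsto_const_nhds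
        tendsto_const_nhds tendsto_const_nhds
    refine ⟨hWc, ?_, ?_, ?_⟩
    · intro t y
      refine ⟨convex_Ici 0, ?_⟩
      intro a ha b hb α β hα hβ hαβ
      have ha' : (0 : ℝ) ≤ a := ha
      have hb' : (0 : ℝ) ≤ b := hb
      have hab : 0 ≤ α • a + β • b := by
        simp only [smul_eq_mul]
        (clear * - hα ha' hβ hb'; positivity)
      refine le_of_tendsto_of_tendsto (hfu _ t y hab)
        (((hfu a t y ha').const_smul α).add ((hfu b t y hb').const_smul β))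
        (Eventually.of_forall fun n => ?_)
      exact ((hZ (φ n)).up t y).2 ha hb hα hβ hαβ
    · intro t y
      refine ⟨convex_Ici 0, ?_⟩
      intro a ha b hb α β hα hβ hαβ
      have ha' : (0 : ℝ) ≤ a := ha
      have hb' : (0 : ℝ) ≤ b := hb
      have hab : 0 ≤ α • a + β • b := by
        simp only [smul_eq_mul]
        (clear * - hα ha' hβ hb'; positivity)
      refine le_of_tendsto_of_tendsto
        (((hfl a t y ha').const_smul α).add ((hfl b t y hb').const_smul β)) (hfl _ t y hab)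
        (Eventually.of_forall fun n => ?_)
      exact ((hZ (φ n)).dn t y).2 ha hb hα hβ hαβ
    · intro t y r hr
      exact comp_flat (V := fun n => V (φ n)) (fun n => hZ (φ n)) (fun n => hN (φ n)) hWc hG t y r
        hr
  · intro s z hs hz
    exact le_of_tendsto (hpt (s, z)).abs
      (Eventually.of_forall fun n => hN (φ n) s z hs hz)

end Vale.Agent.P080.Zy
end

section

/-! Existence and attainment of the extremal constant `q` of the class `Z` (P080). -/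

open Set Filter Topology
open scoped RealInnerProductSpace

namespace Vale.Agent.P080.Zy

variable {E : Type*} [NormedAddCommGroup E] [InnerProductSpace ℝ E]

namespace QEx

/-- The values `V^1_1(0) - V(0)` over the members of the class in unit gauge. -/
def Vals (C₀ : ℝ) (E : Type*) [NormedAddCommGroup E] [InnerProductSpace ℝ E] : Set ℝ :=
  {x : ℝ | ∃ V : ℝ → E → ℝ, ZClass C₀ V ∧ Norm1 C₀ V ∧ x = dc V 1 1 0 0 - V 0 0}

theorem exists_norm1 {C₀ : ℝ} {V : ℝ → E → ℝ} (hV : ZClass C₀ V) {τ : ℝ} (hτ : 0 < τ) (t : ℝ)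
    (y : E) : ∃ W : ℝ → E → ℝ, ZClass C₀ W ∧ Norm1 C₀ W ∧
      dc W 1 1 0 0 - W 0 0 = (dc V τ τ t y - V t y) / τ := by
  obtain ⟨K, _, hK⟩ := hV.grow
  obtain ⟨v, k, b, hc⟩ := hV.flat t y τ hτ
  refine ⟨gauge V t y τ v k b, hV.gauge t y hτ v k b, IsCell.norm1_gauge hτ hc, ?_⟩
  have h1 := dc_gauge hK t y hτ v k b zero_le_one zero_le_one (0 : ℝ) (0 : E)
  rw [h1]
  unfold gauge
  simp only [mul_one, mul_zero, add_zero, smul_zero, zero_smul, inner_zero_right, sub_zero,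
    sub_self, zero_mul]
  ring

/-- A sequence of values has a subsequence converging to a value. -/
theorem vals_seq [FiniteDimensional ℝ E] {C₀ : ℝ} {x : ℕ → ℝ} (hx : ∀ n, x n ∈ Vals C₀ E) :
    ∃ (w : ℝ) (φ : ℕ → ℕ), w ∈ Vals C₀ E ∧ StrictMono φ ∧
      Tendsto (fun n => x (φ n)) atTop (𝓝 w) := by
  choose V hZ hN hxV using hx
  obtain ⟨W, φ, hφ, hWZ, hWN, hVW⟩ := ZClass.compact C₀ V hZ hN
  obtain ⟨K, _, hK⟩ := growth (E := E) C₀
  refine ⟨dc W 1 1 0 0 - W 0 0, φ, ⟨W, hWZ, hWN, rfl⟩, hφ, ?_⟩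
  have h1 : Tendsto (fun n => dc (V (φ n)) 1 1 0 0) atTop (𝓝 (dc W 1 1 0 0)) :=
    dc_tendsto (V := fun n => V (φ n)) (a := fun _ => 1) (b := fun _ => 1) (t := fun _ => 0)
      (y := fun _ => 0) (fun n => (hZ _).cont) (fun n => hK _ (hZ _).flat (hN _)) hWZ.cont
      (hK _ hWZ.flat hWN) hVW (fun _ => zero_le_one) (fun _ => zero_le_one) tendsto_const_nhds
      tendsto_const_nhds tendsto_const_nhds tendsto_const_nhds
  have h2 : Tendsto (fun n => V (φ n) 0 0) atTop (𝓝 (W 0 0)) :=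
    hVW.tendsto_comp (g := fun _ => ((0 : ℝ), (0 : E))) hWZ.cont.continuousAt tendsto_const_nhds
  have h3 := h1.sub h2
  refine h3.congr fun n => ?_
  rw [hxV]

theorem vals_bdd [FiniteDimensional ℝ E] (C₀ : ℝ) : BddAbove (Vals C₀ E) := by
  by_contra hb
  rw [bddAbove_def] at hb
  push Not at hb
  choose x hx hxn using fun n : ℕ => hb n
  obtain ⟨w, φ, _, hφ, hw⟩ := vals_seq hx
  have h1 : Tendsto (fun n => x (φ n)) atTop atTop := by
    refine tendsto_atTop_mono (fun n => (hxn (φ n)).le) ?_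
    exact tendsto_natCast_atTop_atTop.comp hφ.tendsto_atTop
  exact not_tendsto_nhds_of_tendsto_atTop h1 w hw

end QEx

open QEx in
/-- B1 -/
theorem exists_q [FiniteDimensional ℝ E] (C₀ : ℝ) : ∃ q : ℝ, IsQ C₀ q E ∧
    (0 < q → ∃ V : ℝ → E → ℝ, Ext C₀ q V) := by
  by_cases hne : ∃ V : ℝ → E → ℝ, ZClass C₀ V
  · obtain ⟨V₀, hV₀⟩ := hne
    obtain ⟨W₀, hW₀, hN₀, _⟩ := exists_norm1 hV₀ one_pos 0 0
    have hS : (Vals C₀ E).Nonempty := ⟨_, W₀, hW₀, hN₀, rfl⟩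
    have hB := vals_bdd (E := E) C₀
    set q : ℝ := sSup (Vals C₀ E) with hq
    -- attainment
    obtain ⟨x, _, hx, hxS⟩ := exists_seq_tendsto_sSup hS hB
    obtain ⟨w, φ, hwV, hφ, hw⟩ := vals_seq hxS
    have hwq : w = q := tendsto_nhds_unique hw (hx.comp hφ.tendsto_atTop)
    obtain ⟨V, hZ, hN, hV⟩ := hwV
    refine ⟨q, ⟨?_, ?_⟩, fun _ => ⟨V, hZ, hN, by rw [← hwq, hV]; ring⟩⟩
    · obtain ⟨K, _, hK⟩ := hZ.grow
      have h1 : V 0 0 ≤ dc V 1 1 0 0 := le_fl_fu hK zero_le_one 0 0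
      rw [← hwq, hV]
      linarith only [h1]
    · intro U hU τ hτ t y
      obtain ⟨W, hWZ, hWN, hW⟩ := exists_norm1 hU hτ t y
      have h1 : (dc U τ τ t y - U t y) / τ ≤ q := by
        rw [← hW]
        exact le_csSup hB ⟨W, hWZ, hWN, rfl⟩
      rw [div_le_iff₀ hτ] at h1
      linarith only [h1]
  · exact ⟨0, ⟨le_rfl, fun V hV => absurd ⟨V, hV⟩ hne⟩, fun h => absurd h (lt_irrefl 0)⟩

end Vale.Agent.P080.Zy
end

section

/-! Energy bounds in unit gauge, logarithmic in the position (P080, item E4). -/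

open Set Filter Topology
open scoped RealInnerProductSpace

namespace Vale.Agent.P080.Zy

variable {E : Type*} [NormedAddCommGroup E] [InnerProductSpace ℝ E]

namespace EnLog

/-- Slopes from `0` of a convex function on `[0, ∞)` increase. -/
theorem slope0 {φ : ℝ → ℝ} (hφ : ConvexOn ℝ (Ici 0) φ) {h h' : ℝ} (hh : 0 < h) (hh' : h ≤ h') :
    (φ h - φ 0) / h ≤ (φ h' - φ 0) / h' := by
  have hp : 0 < h' := hh.trans_le hh'
  have h1 : φ ((1 - h / h') • (0 : ℝ) + (h / h') • h') ≤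
      (1 - h / h') • φ 0 + (h / h') • φ h' :=
    hφ.2 self_mem_Ici (mem_Ici.mpr hp.le) (by rw [sub_nonneg, div_le_one hp]; exact hh')
      (by positivity) (by ring)
  simp only [smul_eq_mul, mul_zero, zero_add] at h1
  rw [div_mul_cancel₀ _ hp.ne'] at h1
  rw [div_le_div_iff₀ hh hp]
  have h2 : h' * φ h ≤ (h' - h) * φ 0 + h * φ h' := by
    have := mul_le_mul_of_nonneg_left h1 hp.le
    refine this.trans (le_of_eq ?_)
    field_simp
  linarith only [h2]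

/-- dyadic slopes of a convex function increase -/
theorem slope2 {φ : ℝ → ℝ} (hφ : ConvexOn ℝ (Ici 0) φ) {L : ℝ} (hL : 0 < L) (hL1 : L ≤ 1) :
    (φ (2 * L) - φ L) / L ≤ φ 2 - φ 1 := by
  -- `L ≤ 2L ≤ 2`, `L ≤ 1 ≤ 2`
  have h2L : (0 : ℝ) ≤ 2 * L := by linarith
  -- first: slope on `[L, 2L]` ≤ slope on `[L, 2]`
  have hd : 0 < 2 - L := by linarith
  have h1 : φ (2 * L) ≤ (1 - L / (2 - L)) * φ L + (L / (2 - L)) * φ 2 := by
    have ha : 0 ≤ 1 - L / (2 - L) := by rw [sub_nonneg, div_le_one hd]; linarith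
    have hb : 0 ≤ L / (2 - L) := by positivity
    have hab : 1 - L / (2 - L) + L / (2 - L) = 1 := by ring
    have h := hφ.2 (mem_Ici.mpr hL.le) (mem_Ici.mpr (by norm_num : (0 : ℝ) ≤ 2)) ha hb hab
    simp only [smul_eq_mul] at h
    have e : (1 - L / (2 - L)) * L + L / (2 - L) * 2 = 2 * L := by
      field_simp
      ring
    rwa [e] at h
  -- second: slope on `[L, 2]` ≤ slope on `[1, 2]`
  have h3 : φ 1 ≤ (1 / (2 - L)) * φ L + (1 - 1 / (2 - L)) * φ 2 := by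
    have ha : 0 ≤ 1 / (2 - L) := by positivity
    have hb : 0 ≤ 1 - 1 / (2 - L) := by rw [sub_nonneg, div_le_one hd]; linarith
    have hab : 1 / (2 - L) + (1 - 1 / (2 - L)) = 1 := by ring
    have h := hφ.2 (mem_Ici.mpr hL.le) (mem_Ici.mpr (by norm_num : (0 : ℝ) ≤ 2)) ha hb hab
    simp only [smul_eq_mul] at h
    have e : 1 / (2 - L) * L + (1 - 1 / (2 - L)) * 2 = 1 := by
      field_simp
      ring
    rwa [e] at h
  rw [div_le_iff₀ hL]
  have h4 : φ (2 * L) - φ L ≤ (L / (2 - L)) * (φ 2 - φ L) := by linarith only [h1]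
  have h5 : (1 / (2 - L)) * (φ 2 - φ L) ≤ φ 2 - φ 1 := by linarith only [h3]
  calc φ (2 * L) - φ L ≤ (L / (2 - L)) * (φ 2 - φ L) := h4
    _ = ((1 / (2 - L)) * (φ 2 - φ L)) * L := by ring
    _ ≤ (φ 2 - φ 1) * L := mul_le_mul_of_nonneg_right h5 hL.le

/-- Uniform bound of the regularisations at the origin. -/
theorem bound0 (K : ℝ) {L : ℝ} (hL : 0 < L) : ∃ M : ℝ, ∀ W : ℝ → E → ℝ, Grow K W →
    fu W L 0 0 ≤ M ∧ -M ≤ fl W L 0 0 := by
  obtain ⟨M, hM⟩ := quad_beats K L L hL hL.le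
  refine ⟨M, fun W hW => ?_⟩
  have key : ∀ (s : ℝ) (q : E), |s| = L → |W s (L • q)| ≤ M + L / 4 * ‖q‖ ^ 2 := by
    intro s q hs
    have h1 := hW s (L • q)
    have h2 := hM ‖q‖ (norm_nonneg q)
    have h3 : ‖L • q‖ = L * ‖q‖ := by rw [norm_smul, Real.norm_of_nonneg hL.le]
    rw [hs, h3] at h1
    have h5 : K * (1 + L + L * ‖q‖) ^ (3 / 2 : ℝ) ≤ |K| * (1 + L + L * ‖q‖) ^ (3 / 2 : ℝ) :=
      mul_le_mul_of_nonneg_right (le_abs_self K) (by positivity)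
    linarith
  constructor
  · unfold fu
    refine ciSup_le (fun q => ?_)
    have h1 := le_of_abs_le (key (0 + L) q (by rw [zero_add, abs_of_pos hL]))
    have h2 : 0 ≤ L * ‖q‖ ^ 2 := by positivity
    rw [zero_add] at h1 ⊢
    rw [zero_add]
    linarith
  · unfold fl
    refine le_ciInf (fun q => ?_)
    have h1 := neg_le_of_abs_le (key (0 - L) q (by rw [zero_sub, abs_neg, abs_of_pos hL]))
    have h2 : 0 ≤ L * ‖q‖ ^ 2 := by positivity
    rw [zero_add]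
    linarith

end EnLog

/-- E4: energy bounds in unit gauge. -/
theorem energy_log [FiniteDimensional ℝ E] (C₀ : ℝ) : ∃ K : ℝ, 0 < K ∧ ∀ V : ℝ → E → ℝ,
    ZClass C₀ V → Norm1 C₀ V → ∀ (t : ℝ) (y : E), |t| ≤ 2 → ∀ L, 0 < L → L ≤ 1 →
      Eup V L t y ≤ K * (1 + Real.log (1 + ‖y‖)) ∧ Edn V L t y ≤ K * (1 + Real.log (1 + ‖y‖)) ∧
      En V L t y ≤ K * (1 + Real.log (1 + ‖y‖)) := by
  obtain ⟨Kg, -, hKg⟩ := growth (E := E) C₀
  obtain ⟨Kc, hKc, hcl⟩ := cells_log (E := E) C₀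
  obtain ⟨M₁, hM₁⟩ := EnLog.bound0 (E := E) Kg one_pos
  obtain ⟨M₂, hM₂⟩ := EnLog.bound0 (E := E) Kg two_pos
  refine ⟨|M₁| + |M₂| + |C₀| + 3 * Kc, by (clear * - hKc; positivity), ?_⟩
  intro V hZ hN t y ht L hL hL1
  obtain ⟨K, -, hK⟩ := hZ.grow
  obtain ⟨v, k, b, hc⟩ : ∃ (v k : ℝ) (b : E), IsCell C₀ V t y 1 v k b := hZ.flat t y 1 one_pos
  have hWZ := ZClass.gauge hZ t y one_pos v k b
  have hWN := IsCell.norm1_gauge one_pos hc
  have hWG := hKg _ hWZ.flat hWN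
  set W := gauge V t y 1 v k b with hW
  -- formulas
  have hu : ∀ l, 0 ≤ l → fu V l t y = fu W l 0 0 + v + l * cellE k b := by
    intro l hl
    rw [hW, fu_gauge hK t y one_pos v k b hl]
    simp only [mul_zero, zero_smul, smul_zero, add_zero, inner_zero_right, one_mul, zero_add,
      div_one, sub_zero]
    unfold cellE
    ring
  have hd : ∀ l, 0 ≤ l → fl V l t y = fl W l 0 0 + v - l * cellE k b := by
    intro l hl
    rw [hW, fl_gauge hK t y one_pos v k b hl]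
    simp only [one_mul, mul_zero, add_zero, smul_zero, zero_smul, inner_zero_right, sub_zero, zero_sub, div_one]
    unfold cellE
    ring
  have h0 : V t y = W 0 0 + v := by
    have := hu 0 le_rfl
    rwa [fu_zero, fu_zero, zero_mul, add_zero] at this
  -- the cell energy
  have hE := (hcl V hZ.flat hN t y 1 v k b one_pos hc).2
  have hy := norm_nonneg y
  have hlog0 : 0 ≤ Real.log (1 + ‖y‖) := Real.log_nonneg (by linarith only [hy])
  have hlog : Real.log (1 + |t| + ‖y‖) ≤ 2 + Real.log (1 + ‖y‖) := by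
    have h1 : 1 + |t| + ‖y‖ ≤ 3 * (1 + ‖y‖) := by linarith
    have h2 : Real.log (1 + |t| + ‖y‖) ≤ Real.log (3 * (1 + ‖y‖)) :=
      Real.log_le_log (by (clear * -; positivity)) h1
    rw [Real.log_mul (by norm_num) (by positivity)] at h2
    have h3 : Real.log 3 ≤ 2 := by
      have := Real.log_le_sub_one_of_pos (by norm_num : (0 : ℝ) < 3)
      linarith
    linarith
  have hE' : cellE k b ≤ 3 * Kc * (1 + Real.log (1 + ‖y‖)) := by
    have h1 : cellE k b ≤ Kc * (1 + |Real.log 1| + Real.log (1 + |t| + ‖y‖)) :=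
      (le_abs_self _).trans hE
    rw [Real.log_one, abs_zero, add_zero] at h1
    have h2 : Kc * (1 + Real.log (1 + |t| + ‖y‖)) ≤ Kc * (3 * (1 + Real.log (1 + ‖y‖))) :=
      mul_le_mul_of_nonneg_left (by linarith) hKc.le
    linarith
  -- bounds of `W`
  have hW0 : |W 0 0| ≤ |C₀| := by
    have := hWN 0 0 (by simp) (by simp)
    exact this.trans (le_abs_self _)
  have hW1 : fl W 1 0 0 ≤ |C₀| := by
    have h1 := fl_le hWG (L := 1) zero_le_one 0 0 0
    have h2 := hWN (-1) 0 (by norm_num) (by simp)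
    have h3 := le_of_abs_le h2
    have e : fl W 1 0 0 ≤ W (-1) 0 := by
      simpa using h1
    have h4 := le_abs_self C₀
    linarith only [h3, e, h4]
  obtain ⟨hu1, hl1⟩ := hM₁ W hWG
  obtain ⟨-, hl2⟩ := hM₂ W hWG
  have hM1' := le_abs_self M₁
  have hM2' := le_abs_self M₂
  have hW00 := abs_le.mp hW0
  have hfin : ∀ X, X ≤ |M₁| + |M₂| + |C₀| + cellE k b →
      X ≤ (|M₁| + |M₂| + |C₀| + 3 * Kc) * (1 + Real.log (1 + ‖y‖)) := by
    intro X hX
    have h1 : 0 ≤ (|M₁| + |M₂| + |C₀|) * Real.log (1 + ‖y‖) := by (clear * - hlog0; positivity)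
    linarith
  have hn1 := abs_nonneg M₁
  have hn2 := abs_nonneg M₂
  refine ⟨?_, ?_, ?_⟩
  · apply hfin
    have h1 : Eup V L t y ≤ Eup V 1 t y := by
      have h1 := EnLog.slope0 (hZ.up t y) hL hL1
      simp only [fu_zero] at h1
      exact h1
    have h2 : Eup V 1 t y = fu W 1 0 0 - W 0 0 + cellE k b := by
      unfold Eup
      rw [hu 1 zero_le_one, h0]
      ring
    rw [h2] at h1
    linarith only [hu1, hM1', hW00, hn2, h1]
  · apply hfin
    have h1 : Edn V L t y ≤ Edn V 1 t y := by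
      have h1 := EnLog.slope0 (hZ.dn t y).neg hL hL1
      simp only [Pi.neg_apply, fl_zero] at h1
      have h2 : ∀ x : ℝ, -x - -V t y = V t y - x := fun x => by ring
      simp only [h2] at h1
      exact h1
    have h2 : Edn V 1 t y = W 0 0 - fl W 1 0 0 + cellE k b := by
      unfold Edn
      rw [hd 1 zero_le_one, h0]
      ring
    rw [h2] at h1
    linarith only [hl1, hM1', hW00, hn2, h1]
  · apply hfin
    have h1 : En V L t y ≤ fl V 1 t y - fl V 2 t y := by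
      have h1 := EnLog.slope2 (hZ.dn t y).neg hL hL1
      simp only [Pi.neg_apply] at h1
      unfold En
      have h2 : -fl V (2 * L) t y - -fl V L t y = fl V L t y - fl V (2 * L) t y := by ring
      rw [h2] at h1
      linarith only [h1]
    rw [hd 1 zero_le_one, hd 2 zero_le_two] at h1
    linarith

end Vale.Agent.P080.Zy
end

section

/-! P080, Theorem Z, block A1: subgradients of finite convex functions. -/

open Set Filter Topology
open scoped RealInnerProductSpace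

namespace Vale.Agent.P080.Zy

variable {E : Type*} [NormedAddCommGroup E] [InnerProductSpace ℝ E]

/-- A1 -/
theorem exists_subgradient [FiniteDimensional ℝ E] {f : E → ℝ} (hf : ConvexOn ℝ univ f) (y : E) :
    ∃ p : E, ∀ z, f y + ⟪p, z - y⟫ ≤ f z := by
  have : CompleteSpace E := FiniteDimensional.complete ℝ E
  have hc : Continuous f := hf.locallyLipschitz.continuous
  have hS : Convex ℝ {q : E × ℝ | f q.1 < q.2} := by
    have := hf.convex_strict_epigraph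
    simpa using this
  have hO : IsOpen {q : E × ℝ | f q.1 < q.2} :=
    isOpen_lt (hc.comp continuous_fst) continuous_snd
  obtain ⟨l, hl⟩ := geometric_hahn_banach_open_point hS hO
    (x := (y, f y)) (fun h => lt_irrefl (f y) h)
  have hdec : ∀ (z : E) (s : ℝ), l (z, s) = l (z, 0) + s * l (0, 1) := by
    intro z s
    have e : ((z, s) : E × ℝ) = (z, 0) + s • ((0, 1) : E × ℝ) := by simp
    rw [e, map_add, map_smul, smul_eq_mul]
  have hα : l (0, 1) < 0 := by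
    have h1 := hl (y, f y + 1) (by simp)
    rw [hdec y (f y + 1), hdec y (f y)] at h1
    linarith
  have hle : ∀ z : E, l (z, 0) + f z * l (0, 1) ≤ l (y, 0) + f y * l (0, 1) := by
    intro z
    refine le_of_forall_pos_lt_add fun ε hε => ?_
    have hn : 0 < -l (0, 1) := by linarith
    have h1 := hl (z, f z + ε / -l (0, 1)) (by
      have : 0 < ε / -l (0, 1) := div_pos hε hn
      show f z < f z + ε / -l (0, 1)
      linarith)
    rw [hdec z, hdec y] at h1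
    have h2 : ε / -l (0, 1) * l (0, 1) = -ε := by
      have h3 : ε / -l (0, 1) * -l (0, 1) = ε := div_mul_cancel₀ _ hn.ne'
      linarith only [h3]
    linarith
  refine ⟨(InnerProductSpace.toDual ℝ E).symm
    ((-(l (0, 1))⁻¹) • (l.comp (ContinuousLinearMap.inl ℝ E ℝ))), fun z => ?_⟩
  rw [InnerProductSpace.toDual_symm_apply]
  simp only [smul_apply, ContinuousLinearMap.comp_apply,
    ContinuousLinearMap.inl_apply, smul_eq_mul]
  have e : l (z - y, 0) = l (z, 0) - l (y, 0) := by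
    have e2 : ((z - y, 0) : E × ℝ) = (z, 0) - (y, 0) := by simp
    rw [e2, map_sub]
  rw [e]
  have h3 := hle z
  have h4 : 0 < -(l (0, 1))⁻¹ := by
    have := inv_lt_zero.2 hα
    linarith
  have h5 := mul_le_mul_of_nonneg_left h3 h4.le
  have h6 : (l (0, 1))⁻¹ * l (0, 1) = 1 := inv_mul_cancel₀ hα.ne
  have h7 : -(l (0, 1))⁻¹ * (l (z, 0) + f z * l (0, 1)) = -(l (0, 1))⁻¹ * l (z, 0) - f z := by
    linear_combination (-f z) * h6
  have h8 : -(l (0, 1))⁻¹ * (l (y, 0) + f y * l (0, 1)) = -(l (0, 1))⁻¹ * l (y, 0) - f y := by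
    linear_combination (-f y) * h6
  rw [h7, h8] at h5
  linarith only [h5]

end Vale.Agent.P080.Zy
end

section

/-! P080, Theorem Z: semiconvexity and semiconcavity of the double convolution (A3, A4). -/

open Set Filter Topology
open scoped RealInnerProductSpace

namespace Vale.Agent.P080.Zy

variable {E : Type*} [NormedAddCommGroup E] [InnerProductSpace ℝ E]

namespace DCconv

theorem self_le_fu {K : ℝ} {V : ℝ → E → ℝ} (hK : Grow K V) {a : ℝ} (ha : 0 ≤ a) (t : ℝ) (y : E) :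
    V (t + a) y ≤ fu V a t y := by
  have h := le_fu hK ha t y 0
  simpa only [ge_iff_le, smul_zero, add_zero, norm_zero, ne_eq, OfNat.ofNat_ne_zero, not_false_eq_true,     zero_pow, mul_zero, sub_zero] using h

theorem dc_bdd {K : ℝ} {V : ℝ → E → ℝ} (hK : Grow K V) {a b : ℝ} (ha : 0 ≤ a) (hb : 0 ≤ b)
    (t : ℝ) (y : E) :
    BddBelow (range fun q : E => fu V a (t - b) (y + b • q) + b / 2 * ‖q‖ ^ 2) := by
  obtain ⟨m, hm⟩ := fl_bdd hK hb (t + a) y
  refine ⟨m, ?_⟩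
  rintro _ ⟨q, rfl⟩
  have h1 := hm ⟨q, rfl⟩
  have h2 := self_le_fu hK ha (t - b) (y + b • q)
  have h3 : t - b + a = t + a - b := by ring
  rw [h3] at h2
  simp only at h1 ⊢
  linarith only [h1, h2]

theorem dc_le' {K : ℝ} {V : ℝ → E → ℝ} (hK : Grow K V) {a b : ℝ} (ha : 0 ≤ a) (hb : 0 < b)
    (t : ℝ) (y z : E) : dc V a b t y ≤ fu V a (t - b) z + ‖z - y‖ ^ 2 / (2 * b) := by
  have h := ciInf_le (dc_bdd hK ha hb.le t y) (b⁻¹ • (z - y))
  have h1 : y + b • (b⁻¹ • (z - y)) = z := by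
    rw [smul_smul, mul_inv_cancel₀ hb.ne', one_smul, add_sub_cancel]
  have h2 : b / 2 * ‖b⁻¹ • (z - y)‖ ^ 2 = ‖z - y‖ ^ 2 / (2 * b) := by
    rw [norm_smul, Real.norm_eq_abs, abs_of_pos (inv_pos.2 hb), mul_pow]
    field_simp
  rw [h1, h2] at h
  exact h

theorem quad_at {b : ℝ} (hb : 0 < b) (y q : E) :
    b / 2 * ‖q‖ ^ 2 = ‖(y + b • q) - y‖ ^ 2 / (2 * b) := by
  rw [add_sub_cancel_left, norm_smul, Real.norm_eq_abs, abs_of_pos hb, mul_pow]
  field_simp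

theorem le_dc {V : ℝ → E → ℝ} {a b : ℝ} (hb : 0 < b) (t : ℝ) (y : E) {c θ : ℝ} (hθ : 0 ≤ θ)
    (h : ∀ z, c ≤ θ * (fu V a (t - b) z + ‖z - y‖ ^ 2 / (2 * b))) : c ≤ θ * dc V a b t y := by
  have e : θ * dc V a b t y =
      ⨅ q : E, θ * (fu V a (t - b) (y + b • q) + b / 2 * ‖q‖ ^ 2) :=
    Real.mul_iInf_of_nonneg hθ _
  rw [e]
  refine le_ciInf fun q => ?_
  rw [quad_at hb y q]
  exact h _

/-- variance identity for two weights -/
theorem var_two (x y : E) {p q : ℝ} (hpq : p + q = 1) :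
    p * ‖x‖ ^ 2 + q * ‖y‖ ^ 2 = ‖p • x + q • y‖ ^ 2 + p * q * ‖x - y‖ ^ 2 := by
  rw [norm_add_sq_real, norm_sub_sq_real, inner_smul_left, inner_smul_right, norm_smul, norm_smul,
    mul_pow, mul_pow, Real.norm_eq_abs, Real.norm_eq_abs, sq_abs, sq_abs]
  simp only [conj_trivial]
  have hq : q = 1 - p := by linarith
  subst hq
  ring

theorem cauchy_two (u w : E) {b c : ℝ} (hb : 0 < b) (hc : 0 < c) :
    ‖u + w‖ ^ 2 / (b + c) ≤ ‖u‖ ^ 2 / b + ‖w‖ ^ 2 / c := by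
  have h := sq_nonneg ‖c • u - b • w‖
  rw [norm_sub_sq_real, inner_smul_left, inner_smul_right, norm_smul, norm_smul,
    mul_pow, mul_pow, Real.norm_eq_abs, Real.norm_eq_abs, sq_abs, sq_abs] at h
  simp only [conj_trivial] at h
  rw [norm_add_sq_real]
  have e : ‖u‖ ^ 2 / b + ‖w‖ ^ 2 / c - (‖u‖ ^ 2 + 2 * ⟪u, w⟫ + ‖w‖ ^ 2) / (b + c) =
      (c ^ 2 * ‖u‖ ^ 2 - 2 * (c * (b * ⟪u, w⟫)) + b ^ 2 * ‖w‖ ^ 2) / (b * c * (b + c)) := by
    field_simp
    ring
  have h2 : 0 ≤ (c ^ 2 * ‖u‖ ^ 2 - 2 * (c * (b * ⟪u, w⟫)) + b ^ 2 * ‖w‖ ^ 2) /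
      (b * c * (b + c)) := div_nonneg h (by positivity)
  linarith only [h2, e]

theorem fu_convex [FiniteDimensional ℝ E] {K : ℝ} {V : ℝ → E → ℝ}
    (hV : Continuous (fun p : ℝ × E => V p.1 p.2)) (hK : Grow K V) {a : ℝ} (ha : 0 < a) (s : ℝ)
    (z₁ z₂ : E) {p q : ℝ} (hp : 0 ≤ p) (hq : 0 ≤ q) (hpq : p + q = 1) :
    fu V a s (p • z₁ + q • z₂) ≤ p * fu V a s z₁ + q * fu V a s z₂
      + p * q * ‖z₁ - z₂‖ ^ 2 / (2 * a) := by
  obtain ⟨e, he⟩ := fu_attained hV hK ha.le s (p • z₁ + q • z₂)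
  set w : E := p • z₁ + q • z₂ + a • e with hw
  have h0 : a / 2 * ‖e‖ ^ 2 = ‖w - (p • z₁ + q • z₂)‖ ^ 2 / (2 * a) := quad_at ha _ e
  rw [he, h0]
  have h1 := mul_le_mul_of_nonneg_left (le_fu' hK ha s z₁ w) hp
  have h2 := mul_le_mul_of_nonneg_left (le_fu' hK ha s z₂ w) hq
  have h3 := var_two (w - z₁) (w - z₂) hpq
  have h4 : p • (w - z₁) + q • (w - z₂) = w - (p • z₁ + q • z₂) := by
    have : w = (p + q) • w := by rw [hpq, one_smul]
    rw [smul_sub, smul_sub]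
    nth_rewrite 3 [this]
    rw [add_smul]
    abel
  have h5 : ‖w - z₁ - (w - z₂)‖ = ‖z₁ - z₂‖ := by
    rw [← norm_neg]
    congr 1
    abel
  rw [h4, h5] at h3
  have h6 : p * (‖w - z₁‖ ^ 2 / (2 * a)) + q * (‖w - z₂‖ ^ 2 / (2 * a)) =
      ‖w - (p • z₁ + q • z₂)‖ ^ 2 / (2 * a) + p * q * ‖z₁ - z₂‖ ^ 2 / (2 * a) := by
    rw [← mul_div_assoc, ← mul_div_assoc, ← add_div, h3, add_div]
  have h7 : V (s + a) w = p * V (s + a) w + q * V (s + a) w := by
    rw [← add_mul, hpq, one_mul]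
  rw [mul_sub] at h1 h2
  linarith only [h1, h2, h6, h7]

end DCconv

open DCconv in
/-- A3 -/
theorem dc_semiconvex [FiniteDimensional ℝ E] {K : ℝ} {V : ℝ → E → ℝ}
    (hV : Continuous (fun p : ℝ × E => V p.1 p.2)) (hK : Grow K V) {a b : ℝ} (hb : 0 < b)
    (hab : b < a) (t : ℝ) :
    ConvexOn ℝ univ (fun z => dc V a b t z + ‖z‖ ^ 2 / (2 * (a - b))) := by
  have ha : 0 < a := hb.trans hab
  have hc : 0 < a - b := sub_pos.2 hab
  refine ⟨convex_univ, ?_⟩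
  intro y₁ _ y₂ _ p q hp hq hpq
  simp only [smul_eq_mul]
  set C : ℝ := dc V a b t (p • y₁ + q • y₂) - p * q * ‖y₁ - y₂‖ ^ 2 / (2 * (a - b)) with hC
  have key : C ≤ p * dc V a b t y₁ + q * dc V a b t y₂ := by
    have main : ∀ z₁ z₂ : E, C ≤ p * (fu V a (t - b) z₁ + ‖z₁ - y₁‖ ^ 2 / (2 * b))
        + q * (fu V a (t - b) z₂ + ‖z₂ - y₂‖ ^ 2 / (2 * b)) := by
      intro z₁ z₂
      have h1 := dc_le' hK ha.le hb t (p • y₁ + q • y₂) (p • z₁ + q • z₂)
      have h2 := fu_convex hV hK ha (t - b) z₁ z₂ hp hq hpq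
      have h3 := var_two (z₁ - y₁) (z₂ - y₂) hpq
      have h4 : p • (z₁ - y₁) + q • (z₂ - y₂) = p • z₁ + q • z₂ - (p • y₁ + q • y₂) := by
        rw [smul_sub, smul_sub]
        abel
      rw [h4] at h3
      have h5 := cauchy_two (z₁ - y₁ - (z₂ - y₂)) (y₁ - y₂) hb hc
      have h6 : z₁ - y₁ - (z₂ - y₂) + (y₁ - y₂) = z₁ - z₂ := by abel
      rw [h6, add_sub_cancel] at h5
      have h7 := mul_le_mul_of_nonneg_left h5 (show 0 ≤ p * q / 2 by (clear * - hp hq; positivity))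
      have h8 : p * (‖z₁ - y₁‖ ^ 2 / (2 * b)) + q * (‖z₂ - y₂‖ ^ 2 / (2 * b)) =
          ‖p • z₁ + q • z₂ - (p • y₁ + q • y₂)‖ ^ 2 / (2 * b)
            + p * q * ‖z₁ - y₁ - (z₂ - y₂)‖ ^ 2 / (2 * b) := by
        rw [← mul_div_assoc, ← mul_div_assoc, ← add_div, h3, add_div]
      have e1 : p * q / 2 * (‖z₁ - z₂‖ ^ 2 / a) = p * q * ‖z₁ - z₂‖ ^ 2 / (2 * a) := by
        (clear * - ha; field_simp)
      have e2 : p * q / 2 * (‖z₁ - y₁ - (z₂ - y₂)‖ ^ 2 / b + ‖y₁ - y₂‖ ^ 2 / (a - b)) =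
          p * q * ‖z₁ - y₁ - (z₂ - y₂)‖ ^ 2 / (2 * b)
            + p * q * ‖y₁ - y₂‖ ^ 2 / (2 * (a - b)) := by
        (clear * - hc hb; field_simp)
      rw [e1, e2] at h7
      rw [mul_add, mul_add]
      linarith only [h1, h2, h7, h8]
    have step : ∀ z₂ : E, C - q * (fu V a (t - b) z₂ + ‖z₂ - y₂‖ ^ 2 / (2 * b)) ≤
        p * dc V a b t y₁ := fun z₂ =>
      le_dc hb t y₁ hp fun z₁ => by linarith only [main z₁ z₂]
    have step2 : C - p * dc V a b t y₁ ≤ q * dc V a b t y₂ :=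
      le_dc hb t y₂ hq fun z₂ => by linarith [step z₂]
    linarith
  have h3 := var_two y₁ y₂ hpq
  have h8 : p * (‖y₁‖ ^ 2 / (2 * (a - b))) + q * (‖y₂‖ ^ 2 / (2 * (a - b))) =
      ‖p • y₁ + q • y₂‖ ^ 2 / (2 * (a - b)) + p * q * ‖y₁ - y₂‖ ^ 2 / (2 * (a - b)) := by
    rw [← mul_div_assoc, ← mul_div_assoc, ← add_div, h3, add_div]
  rw [mul_add, mul_add]
  linarith only [h8, key]

open DCconv in
/-- A4 -/
theorem dc_semiconcave [FiniteDimensional ℝ E] {K : ℝ} {V : ℝ → E → ℝ}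
    (hV : Continuous (fun p : ℝ × E => V p.1 p.2)) (hK : Grow K V) {a b : ℝ} (hb : 0 < b)
    (ha : 0 ≤ a) (t : ℝ) :
    ConcaveOn ℝ univ (fun z => dc V a b t z - ‖z‖ ^ 2 / (2 * b)) := by
  refine ⟨convex_univ, ?_⟩
  intro y₁ _ y₂ _ p q hp hq hpq
  simp only [smul_eq_mul]
  have key : p * dc V a b t y₁ + q * dc V a b t y₂ - p * q * ‖y₁ - y₂‖ ^ 2 / (2 * b) ≤
      1 * dc V a b t (p • y₁ + q • y₂) := by
    refine le_dc hb t _ zero_le_one fun z => ?_
    have h1 := mul_le_mul_of_nonneg_left (dc_le' hK ha hb t y₁ z) hp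
    have h2 := mul_le_mul_of_nonneg_left (dc_le' hK ha hb t y₂ z) hq
    have h3 := var_two (z - y₁) (z - y₂) hpq
    have h4 : p • (z - y₁) + q • (z - y₂) = z - (p • y₁ + q • y₂) := by
      have : z = (p + q) • z := by rw [hpq, one_smul]
      rw [smul_sub, smul_sub]
      nth_rewrite 3 [this]
      rw [add_smul]
      abel
    have h5 : ‖z - y₁ - (z - y₂)‖ = ‖y₁ - y₂‖ := by
      rw [← norm_neg]
      congr 1
      abel
    rw [h4, h5] at h3
    have h6 : p * (‖z - y₁‖ ^ 2 / (2 * b)) + q * (‖z - y₂‖ ^ 2 / (2 * b)) =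
        ‖z - (p • y₁ + q • y₂)‖ ^ 2 / (2 * b) + p * q * ‖y₁ - y₂‖ ^ 2 / (2 * b) := by
      rw [← mul_div_assoc, ← mul_div_assoc, ← add_div, h3, add_div]
    have h7 : fu V a (t - b) z = p * fu V a (t - b) z + q * fu V a (t - b) z := by
      rw [← add_mul, hpq, one_mul]
    rw [mul_add] at h1 h2
    linarith only [h7, h6, h2, h1]
  rw [one_mul] at key
  have h3 := var_two y₁ y₂ hpq
  have h8 : p * (‖y₁‖ ^ 2 / (2 * b)) + q * (‖y₂‖ ^ 2 / (2 * b)) =
      ‖p • y₁ + q • y₂‖ ^ 2 / (2 * b) + p * q * ‖y₁ - y₂‖ ^ 2 / (2 * b) := by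
    rw [← mul_div_assoc, ← mul_div_assoc, ← add_div, h3, add_div]
  rw [mul_sub, mul_sub]
  linarith

end Vale.Agent.P080.Zy
end

section

/-! A5: the step up for double convolutions (P080). -/

open Set Filter Topology
open scoped RealInnerProductSpace

namespace Vale.Agent.P080.Zy

variable {E : Type*} [NormedAddCommGroup E] [InnerProductSpace ℝ E]

namespace DCup

theorem sq_exp (y z : E) : ‖z - y‖ ^ 2 = ‖z‖ ^ 2 - ‖y‖ ^ 2 - 2 * ⟪y, z - y⟫ := by
  have h1 : ‖z‖ ^ 2 = ‖y + (z - y)‖ ^ 2 := by congr 2; abel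
  rw [h1, norm_add_sq_real]
  ring

theorem pin {C : ℝ} {p p' : E} (h : ∀ w : E, ⟪p, w⟫ - ⟪p', w⟫ ≤ C * ‖w‖ ^ 2) : p = p' := by
  by_contra hne
  have hd : 0 < ‖p - p'‖ ^ 2 := by
    have : 0 < ‖p - p'‖ := norm_pos_iff.mpr (sub_ne_zero.mpr hne)
    positivity
  set s : ℝ := 1 / (2 * (|C| + 1)) with hs
  have hC : 0 < |C| + 1 := by positivity
  have hs0 : 0 < s := by positivity
  have h1 := h (s • (p - p'))
  rw [← inner_sub_left, inner_smul_right, real_inner_self_eq_norm_sq, norm_smul, mul_pow,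
    Real.norm_eq_abs, sq_abs] at h1
  have h2 : C * s ≤ 1 / 2 := by
    calc C * s ≤ (|C| + 1) * s := by
          apply mul_le_mul_of_nonneg_right _ hs0.le
          have := le_abs_self C
          linarith
      _ = 1 / 2 := by rw [hs]; field_simp
  have h3 : s * ‖p - p'‖ ^ 2 ≤ (C * s) * (s * ‖p - p'‖ ^ 2) := by
    calc _ ≤ _ := h1
      _ = _ := by ring
  have h4 : 0 < s * ‖p - p'‖ ^ 2 := by (clear * - hd; positivity)
  nlinarith only [h1, h4, h2]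

theorem exists_sub [FiniteDimensional ℝ E] {K : ℝ} {V : ℝ → E → ℝ}
    (hV : Continuous (fun p : ℝ × E => V p.1 p.2)) (hK : Grow K V) {a b h : ℝ} (hb : 0 < b)
    (hh : 0 < h) (hab : b + h ≤ a) (t : ℝ) (y : E) :
    ∃ p : E, ∀ z, dc V a b t y + ⟪p, z - y⟫ - ‖z - y‖ ^ 2 / (2 * h) ≤ dc V a b t z := by
  have h1 := dc_semiconvex hV hK hb (by linarith : b < a) t
  have hc : 0 ≤ 1 / (2 * h) - 1 / (2 * (a - b)) := by
    rw [sub_nonneg]
    apply one_div_le_one_div_of_le (by positivity)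
    linarith
  have hsq : ConvexOn ℝ univ (fun z : E => ‖z‖ ^ 2) := by
    have := (convexOn_univ_norm (E := E)).pow (fun z _ => norm_nonneg z) 2
    exact this
  have h2 : ConvexOn ℝ univ (fun z => dc V a b t z + ‖z‖ ^ 2 / (2 * h)) := by
    have h3 := h1.add (hsq.smul hc)
    refine h3.congr ?_
    intro z _
    simp only [Pi.add_apply, smul_eq_mul]
    ring
  obtain ⟨p, hp⟩ := exists_subgradient h2 y
  refine ⟨p - (1 / h) • y, fun z => ?_⟩
  have h4 := hp z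
  have h5 : ‖z - y‖ ^ 2 / (2 * h) = ‖z‖ ^ 2 / (2 * h) - ‖y‖ ^ 2 / (2 * h) - 1 / h * ⟪y, z - y⟫ := by
    rw [sq_exp]
    (clear * - hh; field_simp)
  rw [inner_sub_left, real_inner_smul_left, h5]
  linarith only [h4]

theorem exists_sup [FiniteDimensional ℝ E] {K : ℝ} {V : ℝ → E → ℝ}
    (hV : Continuous (fun p : ℝ × E => V p.1 p.2)) (hK : Grow K V) {a b : ℝ} (hb : 0 < b)
    (ha : 0 ≤ a) (t : ℝ) (y : E) :
    ∃ p : E, ∀ z, dc V a b t z ≤ dc V a b t y + ⟪p, z - y⟫ + ‖z - y‖ ^ 2 / (2 * b) := by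
  have h1 := (dc_semiconcave hV hK hb ha t).neg
  obtain ⟨p, hp⟩ := exists_subgradient h1 y
  refine ⟨(1 / b) • y - p, fun z => ?_⟩
  have h4 := hp z
  simp only [Pi.neg_apply] at h4
  have h5 : ‖z - y‖ ^ 2 / (2 * b) = ‖z‖ ^ 2 / (2 * b) - ‖y‖ ^ 2 / (2 * b) - 1 / b * ⟪y, z - y⟫ := by
    rw [sq_exp]
    field_simp
  rw [inner_sub_left, real_inner_smul_left, h5]
  linarith only [h4]

end DCup

/-- A5: step up. -/
theorem dc_up [FiniteDimensional ℝ E] {K : ℝ} {V : ℝ → E → ℝ}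
    (hV : Continuous (fun p : ℝ × E => V p.1 p.2)) (hK : Grow K V) {a b h : ℝ} (hb : 0 < b)
    (hh : 0 < h) (hab : b + h ≤ a) (t : ℝ) (y : E) :
    ∃ p : E, dc V a b t y ≤ dc V a (b + h) (t + h) (y + h • p) - h / 2 * ‖p‖ ^ 2 ∧
      (∀ z, dc V a b t y + ⟪p, z - y⟫ - ‖z - y‖ ^ 2 / (2 * h) ≤ dc V a b t z) ∧
      (∀ z, dc V a b t z ≤ dc V a b t y + ⟪p, z - y⟫ + ‖z - y‖ ^ 2 / (2 * b)) := by
  have ha : 0 ≤ a := by linarith
  obtain ⟨p, hp⟩ := DCup.exists_sub hV hK hb hh hab t y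
  obtain ⟨p', hp'⟩ := DCup.exists_sup hV hK hb ha t y
  have hpp : p = p' := by
    refine DCup.pin (C := 1 / (2 * h) + 1 / (2 * b)) (fun w => ?_)
    have h1 := hp (y + w)
    have h2 := hp' (y + w)
    rw [add_sub_cancel_left] at h1 h2
    have h3 : (1 / (2 * h) + 1 / (2 * b)) * ‖w‖ ^ 2
        = ‖w‖ ^ 2 / (2 * h) + ‖w‖ ^ 2 / (2 * b) := by ring
    rw [h3]
    linarith only [h1, h2]
  refine ⟨p, ?_, hp, ?_⟩
  · obtain ⟨K', hK'0, hK'⟩ := grow_fu hK a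
    have hG : Grow K' (fu V a) := hK' V hK a ha le_rfl
    have hC := fu_continuous hV hK ha
    have h1 : dc V a (b + h) (t + h) (y + h • p) = fl (fl (fu V a) b) h (t + h) (y + h • p) :=
      (fl_fl hC hG hb.le hh.le _ _).symm
    rw [h1, le_sub_iff_add_le]
    refine le_ciInf (fun q => ?_)
    have h2 := hp (y + h • p + h • q)
    have h3 : y + h • p + h • q - y = h • (p + q) := by
      rw [smul_add]; abel
    rw [h3, inner_smul_right, norm_smul, mul_pow, Real.norm_eq_abs, sq_abs,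
      norm_add_sq_real, inner_add_right, real_inner_self_eq_norm_sq] at h2
    have h4 : t + h - h = t := by ring
    rw [h4]
    have h5 : h ^ 2 * (‖p‖ ^ 2 + 2 * ⟪p, q⟫ + ‖q‖ ^ 2) / (2 * h)
        = h / 2 * (‖p‖ ^ 2 + 2 * ⟪p, q⟫ + ‖q‖ ^ 2) := by
      (clear * - hh; field_simp)
    rw [h5] at h2
    change dc V a b t y + h / 2 * ‖p‖ ^ 2 ≤ dc V a b t (y + h • p + h • q) + h / 2 * ‖q‖ ^ 2
    linarith only [h2]
  · rw [hpp]
    exact hp'

end Vale.Agent.P080.Zy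
end

section

/-! Statement B2 of the Theorem Z skeleton (P080). -/

open Set Filter Topology
open scoped RealInnerProductSpace

namespace Vale.Agent.P080.Zy

variable {E : Type*} [NormedAddCommGroup E] [InnerProductSpace ℝ E]

/-- B2 -/
theorem IsQ.dc_le [FiniteDimensional ℝ E] {C₀ q : ℝ} (hq : IsQ C₀ q E) {V : ℝ → E → ℝ}
    (hZ : ZClass C₀ V) {τ L : ℝ} (hτ : 0 < τ) (hL : 0 ≤ L) (t : ℝ) (y : E) :
    dc V (τ + L) τ t y ≤ fu V L t y + q * (τ + L) := by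
  obtain ⟨K, -, hK⟩ := hZ.grow
  rcases hL.eq_or_lt with h | h
  · rw [← h, add_zero, fu_zero]
    exact hq.bound V hZ τ hτ t y
  · obtain ⟨p, h1, -, -⟩ := dc_up hZ.cont hK (a := τ + L) (b := τ) (h := L) hτ h le_rfl t y
    have h2 := hq.bound V hZ (τ + L) (by linarith only [hτ, h]) (t + L) (y + L • p)
    have h3 := le_fu hK hL t y p
    linarith only [h1, h2, h3]

end Vale.Agent.P080.Zy
end

section

/-! P080, Theorem Z, block A8: convexity of the double convolution in the upper level. -/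

open Set Filter Topology
open scoped RealInnerProductSpace

namespace Vale.Agent.P080.Zy

variable {E : Type*} [NormedAddCommGroup E] [InnerProductSpace ℝ E]

namespace DCcvx

/-- `|y + q|² = |y|² + 2 ⟨y, q⟩ + |q|²` in the form needed. -/
theorem sq_expand (y z : E) : ‖z‖ ^ 2 = ‖y‖ ^ 2 + 2 * ⟪y, z - y⟫ + ‖z - y‖ ^ 2 := by
  have h := norm_add_sq_real y (z - y)
  rw [add_sub_cancel] at h
  exact h

/-- A semiconcave function has a supporting paraboloid from above. -/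
theorem exists_super [FiniteDimensional ℝ E] {W : E → ℝ} {τ : ℝ}
    (hW : ConcaveOn ℝ univ (fun z => W z - ‖z‖ ^ 2 / (2 * τ))) (y : E) :
    ∃ p : E, ∀ z, W z ≤ W y + ⟪p, z - y⟫ + ‖z - y‖ ^ 2 / (2 * τ) := by
  obtain ⟨p, hp⟩ := exists_subgradient hW.neg y
  refine ⟨(1 / τ) • y - p, fun z => ?_⟩
  have h1 := hp z
  simp only [Pi.neg_apply] at h1
  rw [sq_expand y z] at h1
  rw [inner_sub_left, real_inner_smul_left]
  have h2 : (‖y‖ ^ 2 + 2 * ⟪y, z - y⟫ + ‖z - y‖ ^ 2) / (2 * τ) =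
      ‖y‖ ^ 2 / (2 * τ) + 1 / τ * ⟪y, z - y⟫ + ‖z - y‖ ^ 2 / (2 * τ) := by
    rw [add_div, add_div, mul_div_mul_left _ _ (two_ne_zero)]
    ring
  rw [h2] at h1
  (clear * - h1; linarith only [h1])

/-- If `f` is below a paraboloid of curvature `1/τ` at height `c` then its double convolution at
the touching point is at most `c`. -/
theorem fu_le_of_parab {f : ℝ → E → ℝ} {τ t c : ℝ} {y p : E} (hτ : 0 < τ)
    (h : ∀ z, f t z ≤ c + ⟪p, z - y⟫ + ‖z - y‖ ^ 2 / (2 * τ)) :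
    fu f τ (t - τ) (y - τ • p) ≤ c - τ / 2 * ‖p‖ ^ 2 := by
  unfold fu
  refine ciSup_le fun q => ?_
  rw [sub_add_cancel]
  have h1 := h (y - τ • p + τ • q)
  have h2 : y - τ • p + τ • q - y = τ • (q - p) := by rw [smul_sub]; abel
  rw [h2, real_inner_smul_right, inner_sub_right, real_inner_self_eq_norm_sq, norm_smul, mul_pow,
    Real.norm_eq_abs, sq_abs, norm_sub_sq_real, real_inner_comm p q] at h1
  have h3 : τ ^ 2 * (‖q‖ ^ 2 - 2 * ⟪p, q⟫ + ‖p‖ ^ 2) / (2 * τ) =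
      τ / 2 * (‖q‖ ^ 2 - 2 * ⟪p, q⟫ + ‖p‖ ^ 2) := by
    field_simp
  rw [h3] at h1
  linarith only [h1]

end DCcvx

open DCcvx in
/-- A8: convexity in the upper level. -/
theorem dc_convex [FiniteDimensional ℝ E] {K : ℝ} {V : ℝ → E → ℝ}
    (hV : Continuous (fun p : ℝ × E => V p.1 p.2)) (hK : Grow K V)
    (hup : ∀ t y, ConvexOn ℝ (Ici 0) (fun L => fu V L t y)) {τ : ℝ} (hτ : 0 < τ) (t : ℝ) (y : E) :
    ConvexOn ℝ (Ici 0) (fun s => dc V (τ + s) τ t y) := by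
  refine ⟨convex_Ici 0, fun s₁ hs₁ s₂ hs₂ a b ha hb hab => ?_⟩
  rw [mem_Ici] at hs₁ hs₂
  simp only [smul_eq_mul]
  obtain ⟨s, hs⟩ : ∃ s, s = a * s₁ + b * s₂ := ⟨_, rfl⟩
  have hs0 : 0 ≤ s := by rw [hs]; (clear * - ha hs₁ hb hs₂; positivity)
  rw [← hs]
  obtain ⟨p, hp⟩ := exists_super (W := fun z => a * dc V (τ + s₁) τ t z + b * dc V (τ + s₂) τ t z)
    (τ := τ) (by
      have h1 := (dc_semiconcave hV hK (a := τ + s₁) hτ (by linarith) t).smul ha
      have h2 := (dc_semiconcave hV hK (a := τ + s₂) hτ (by linarith) t).smul hb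
      refine (h1.add h2).congr fun z _ => ?_
      simp only [Pi.add_apply, smul_eq_mul]
      have : ‖z‖ ^ 2 / (2 * τ) = a * (‖z‖ ^ 2 / (2 * τ)) + b * (‖z‖ ^ 2 / (2 * τ)) := by
        rw [← add_mul, hab, one_mul]
      linarith) y
  have h3 : ∀ z, fu V s t z ≤ (a * dc V (τ + s₁) τ t y + b * dc V (τ + s₂) τ t y) +
      ⟪p, z - y⟫ + ‖z - y‖ ^ 2 / (2 * τ) := by
    intro z
    refine le_trans ?_ (hp z)
    have h4 := (hup t z).2 (mem_Ici.2 hs₁) (mem_Ici.2 hs₂) ha hb hab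
    simp only [smul_eq_mul] at h4
    rw [← hs] at h4
    have h5 := mul_le_mul_of_nonneg_left (fu_le_dc hV hK hs₁ hτ.le t z) ha
    have h6 := mul_le_mul_of_nonneg_left (fu_le_dc hV hK hs₂ hτ.le t z) hb
    linarith
  have h7 := fu_le_of_parab hτ h3
  rw [fu_fu hV hK hs0 hτ.le, add_comm s τ] at h7
  obtain ⟨K', -, hK'⟩ := grow_fu hK (τ + s)
  have h8 := fl_le (hK' V hK (τ + s) (by linarith only [hτ, hs0]) le_rfl) hτ.le t y (-p)
  rw [norm_neg, smul_neg, ← sub_eq_add_neg] at h8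
  show fl (fu V (τ + s)) τ t y ≤ _
  linarith only [h8, h7]

end Vale.Agent.P080.Zy
end

section

/-! One step of the double convolution game (P080, Theorem Z, block D1). -/

open Set Filter Topology
open scoped RealInnerProductSpace

namespace Vale.Agent.P080.Zy

variable {E : Type*} [NormedAddCommGroup E] [InnerProductSpace ℝ E]

namespace StepT

/-- Midpoint concavity of the backward regularisation in the level. -/
theorem fl_mid {C₀ : ℝ} {V : ℝ → E → ℝ} (hZ : ZClass C₀ V) {L : ℝ} (hL : 0 < L) (t : ℝ) (y : E) :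
    V t y + fl V (2 * L) t y ≤ 2 * fl V L t y := by
  have h := (hZ.dn t y).2 (show (0 : ℝ) ∈ Ici 0 from self_mem_Ici)
    (show 2 * L ∈ Ici (0 : ℝ) from mem_Ici.2 (by linarith))
    (by norm_num : (0 : ℝ) ≤ 1 / 2) (by norm_num : (0 : ℝ) ≤ 1 / 2) (by norm_num)
  simp only [smul_eq_mul] at h
  have e : (1 / 2 : ℝ) * 0 + 1 / 2 * (2 * L) = L := by ring
  rw [e, fl_zero] at h
  linarith only [h]

end StepT

/-- D1 -/
theorem one_step_dc [FiniteDimensional ℝ E] {C₀ : ℝ} {V : ℝ → E → ℝ} (hZ : ZClass C₀ V)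
    {L τ : ℝ} (hL : 0 < L) (hτ : L < τ) (t : ℝ) (y : E) :
    ∃ (p u : E) (S : ℝ), 0 ≤ S ∧
      2 * Psi V L τ t y ≤ Psi V L (τ + L) (t + L) (y + L • p)
        + Psi V L (τ - L) (t - L) (y + L • u) - S ∧
      ‖p + u‖ ^ 2 / 4 - S / L ≤ En V L (t + L) (y + L • p) + En V L (t - L) (y + L • u)
        - 2 * En V L t y ∧
      (∀ z, dc V (τ + 2 * L) τ t z ≤ dc V (τ + 2 * L) τ t y + ⟪p, z - y⟫
        + ‖z - y‖ ^ 2 / (2 * τ)) ∧
      fl V (2 * L) t y = fl V L (t - L) (y + L • u) + L / 2 * ‖u‖ ^ 2 := by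
  obtain ⟨K, hK0, hK⟩ := hZ.grow
  have hτ0 : 0 < τ := hL.trans hτ
  obtain ⟨p, hp1, hp2, hp3⟩ := dc_up hZ.cont hK (a := τ + 2 * L) (b := τ) (h := L) hτ0 hL
    (by linarith) t y
  obtain ⟨u, hu⟩ := fl_add_attained hZ.cont hK hL.le hL.le t y
  have e2L : L + L = 2 * L := by ring
  rw [e2L] at hu
  -- the base point value
  have hP : fl V L (t + L) (y + L • p) - L / 2 * ‖p‖ ^ 2 ≤ V t y := by
    have h := fl_le hK hL.le (t + L) (y + L • p) (-p)
    have e1 : t + L - L = t := by ring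
    have e2 : y + L • p + L • (-p) = y := by rw [smul_neg]; abel
    rw [e1, e2, norm_neg] at h
    linarith only [h]
  have hmid := StepT.fl_mid hZ hL t y
  refine ⟨p, u, 2 * fl V L t y - (fl V L (t + L) (y + L • p) - L / 2 * ‖p‖ ^ 2)
    - fl V (2 * L) t y, by linarith only [hP, hmid], ?_, ?_, hp3, hu⟩
  · -- the inequality for `Ψ`
    have hc := (dc_convex hZ.cont hK hZ.up hτ0 t y).2 (show (0 : ℝ) ∈ Ici 0 from self_mem_Ici)
      (show 2 * L ∈ Ici (0 : ℝ) from mem_Ici.2 (by linarith only [hL]))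
      (by norm_num : (0 : ℝ) ≤ 1 / 2) (by norm_num : (0 : ℝ) ≤ 1 / 2) (by norm_num)
    simp only [smul_eq_mul] at hc
    have e : (1 / 2 : ℝ) * 0 + 1 / 2 * (2 * L) = L := by ring
    rw [e, add_zero] at hc
    have hd := dc_down hZ.cont hK hτ0.le hL.le hτ.le t y u
    have e3 : τ + L + L = τ + 2 * L := by ring
    have e4 : τ - L + L = τ := by ring
    unfold Psi
    rw [e3, e4]
    linarith only [hp1, hu, hc, hd]
  · -- the inequality for the energy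
    set m : E := (1 / 2 : ℝ) • (p + u) with hm
    have hq : m - p = (1 / 2 : ℝ) • (u - p) := by
      rw [hm]; module
    have hq' : u - m = (1 / 2 : ℝ) • (u - p) := by
      rw [hm]; module
    have hn : ‖(1 / 2 : ℝ) • (u - p)‖ ^ 2 = ‖u - p‖ ^ 2 / 4 := by
      rw [norm_smul, mul_pow]; norm_num; ring
    have h1 := fl_add_ge hZ.cont hK hL.le hL.le (t + L) (y + L • p) (m - p)
    have e1 : t + L - L = t := by ring
    have e2 : y + L • p + L • (m - p) = y + L • m := by rw [smul_sub]; abel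
    rw [e1, e2, e2L, hq, hn] at h1
    have h2 := fl_le hK hL.le t (y + L • m) (u - m)
    have e5 : y + L • m + L • (u - m) = y + L • u := by rw [smul_sub]; abel
    rw [e5, hq', hn] at h2
    have h3 := StepT.fl_mid hZ hL (t - L) (y + L • u)
    have hpar : ‖p + u‖ ^ 2 + ‖u - p‖ ^ 2 = 2 * (‖p‖ ^ 2 + ‖u‖ ^ 2) := by
      have := parallelogram_law_with_norm ℝ u p
      rw [add_comm p u]
      nlinarith only [this]
    have hkey : L * (‖p + u‖ ^ 2 / 4 - (2 * fl V L t y - (fl V L (t + L) (y + L • p)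
        - L / 2 * ‖p‖ ^ 2) - fl V (2 * L) t y) / L) ≤ L * (En V L (t + L) (y + L • p)
        + En V L (t - L) (y + L • u) - 2 * En V L t y) := by
      unfold En
      have hL' : L ≠ 0 := hL.ne'
      have e6 : L * (‖p + u‖ ^ 2 / 4 - (2 * fl V L t y - (fl V L (t + L) (y + L • p)
        - L / 2 * ‖p‖ ^ 2) - fl V (2 * L) t y) / L) = L * ‖p + u‖ ^ 2 / 4
          - (2 * fl V L t y - (fl V L (t + L) (y + L • p) - L / 2 * ‖p‖ ^ 2)
          - fl V (2 * L) t y) := by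
        (clear * - hL'; field_simp)
      have e7 : L * ((fl V L (t + L) (y + L • p) - fl V (2 * L) (t + L) (y + L • p)) / L
          + (fl V L (t - L) (y + L • u) - fl V (2 * L) (t - L) (y + L • u)) / L
          - 2 * ((fl V L t y - fl V (2 * L) t y) / L)) =
          (fl V L (t + L) (y + L • p) - fl V (2 * L) (t + L) (y + L • p))
          + (fl V L (t - L) (y + L • u) - fl V (2 * L) (t - L) (y + L • u))
          - 2 * (fl V L t y - fl V (2 * L) t y) := by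
        (clear * - hL'; field_simp)
      rw [e6, e7]
      have e8 : L * ‖p + u‖ ^ 2 / 4 = L / 2 * (‖p‖ ^ 2 + ‖u‖ ^ 2) - L * ‖u - p‖ ^ 2 / 4 := by
        linear_combination (L / 4) * hpar
      rw [e8]
      linarith only [hu, h1, h2, h3]
    exact le_of_mul_le_mul_left hkey hL

end Vale.Agent.P080.Zy
end

section

/-! Velocity bound for supergradients of double convolutions (P080, E1). -/

open Set Filter Topology
open scoped RealInnerProductSpace

namespace Vale.Agent.P080.Zy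

variable {E : Type*} [NormedAddCommGroup E] [InnerProductSpace ℝ E]

namespace GradB

omit [InnerProductSpace ℝ E] in
theorem grow_refl {K : ℝ} {V : ℝ → E → ℝ} (h : Grow K V) : Grow K (refl V) := by
  intro t y
  have := h (-t) y
  rw [abs_neg] at this
  show |-V (-t) y| ≤ _
  rwa [abs_neg]

/-- bound for double convolutions near the origin -/
theorem dc_bound (C₀ : ℝ) : ∃ C : ℝ, 0 < C ∧ ∀ V : ℝ → E → ℝ, ZClass C₀ V → Norm1 C₀ V →
    ∀ a, 0 ≤ a → a ≤ 5 → ∀ z : E, ‖z‖ ≤ 1 → |dc V a 1 0 z| ≤ C := by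
  obtain ⟨K, hK, hg⟩ := growth (E := E) C₀
  have h0 : ∀ K : ℝ, 0 < K → Grow K (fun _ _ => 0 : ℝ → E → ℝ) := by
    intro K hK t y
    rw [abs_zero]
    positivity
  obtain ⟨K1, hK1, hg1⟩ := grow_fu (h0 K hK) 5
  obtain ⟨K2, hK2, hg2⟩ := grow_fu (h0 K1 hK1) 5
  refine ⟨K2 * 2 ^ (3 / 2 : ℝ), by positivity, ?_⟩
  intro V hV hN a ha ha5 z hz
  have e1 : Grow K1 (fu V a) := hg1 V (hg V hV.flat hN) a ha ha5
  have e2 := hg2 (refl (fu V a)) (grow_refl e1) 1 zero_le_one (by norm_num) 0 z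
  rw [fu_refl, abs_neg, neg_zero] at e2
  refine e2.trans (mul_le_mul_of_nonneg_left ?_ hK2.le)
  apply Real.rpow_le_rpow (by (clear * -; positivity)) _ (by norm_num)
  rw [abs_zero]
  linarith only [hz]

end GradB

/-- E1 -/
theorem grad_bound [FiniteDimensional ℝ E] (C₀ : ℝ) : ∃ K : ℝ, 0 < K ∧ ∀ V : ℝ → E → ℝ,
    ZClass C₀ V → ∀ (t : ℝ) (y : E) (τ v k : ℝ) (b : E), 0 < τ → IsCell C₀ V t y τ v k b →
      ∀ s, 0 ≤ s → s ≤ 4 * τ → ∀ p : E,
        (∀ z, dc V (τ + s) τ t z ≤ dc V (τ + s) τ t y + ⟪p, z - y⟫ + ‖z - y‖ ^ 2 / (2 * τ)) →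
        ‖p - b‖ ≤ K := by
  obtain ⟨C, hC, hb⟩ := GradB.dc_bound (E := E) C₀
  refine ⟨2 * C + 1, by positivity, ?_⟩
  intro V hV t y τ v k b hτ hcell s hs hs4 p hp
  by_cases hpb : p - b = 0
  · rw [hpb, norm_zero]
    positivity
  have hn : 0 < ‖p - b‖ := norm_pos_iff.2 hpb
  obtain ⟨z, hz⟩ : ∃ z : E, z = -((‖p - b‖)⁻¹ • (p - b)) := ⟨_, rfl⟩
  have hz1 : ‖z‖ = 1 := by
    rw [hz, norm_neg, norm_smul, norm_inv, norm_norm, inv_mul_cancel₀ hn.ne']
  have hz2 : ⟪p - b, z⟫ = -‖p - b‖ := by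
    rw [hz, inner_neg_right, real_inner_smul_right, real_inner_self_eq_norm_sq]
    field_simp
  have hW := hV.gauge t y hτ v k b
  have hN := IsCell.norm1_gauge hτ hcell
  have ha0 : 0 ≤ 1 + s / τ := by (clear * - hs hτ; positivity)
  have ha5 : 1 + s / τ ≤ 5 := by
    have : s / τ ≤ 4 := by
      rw [div_le_iff₀ hτ]
      exact hs4
    linarith only [this]
  have b1 := abs_le.1 (hb _ hW hN (1 + s / τ) ha0 ha5 z hz1.le)
  have b2 := abs_le.1 (hb _ hW hN (1 + s / τ) ha0 ha5 0 (by rw [norm_zero]; exact zero_le_one))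
  have eτ : τ * (1 + s / τ) = τ + s := by (clear * - hτ hs; field_simp)
  obtain ⟨Kv, _, hKv⟩ := hV.grow
  have g1 := dc_gauge hKv t y hτ v k b ha0 zero_le_one 0 z
  have g2 := dc_gauge hKv t y hτ v k b ha0 zero_le_one 0 0
  rw [eτ] at g1 g2
  simp only [mul_one, mul_zero, add_zero, zero_smul, sub_zero, smul_zero, inner_zero_right] at g1 g2
  have h1 := hp (y + τ • z)
  have e2 : y + τ • z - y = τ • z := by abel
  rw [e2, norm_smul, Real.norm_eq_abs, abs_of_pos hτ, hz1, real_inner_smul_right] at h1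
  have e3 : (τ * 1) ^ 2 / (2 * τ) = τ / 2 := by (clear * - hτ; field_simp)
  rw [e3] at h1
  have h2 : ⟪p, z⟫ = ⟪b, z⟫ - ‖p - b‖ := by
    have : ⟪p, z⟫ = ⟪p - b, z⟫ + ⟪b, z⟫ := by rw [← inner_add_left, sub_add_cancel]
    rw [this, hz2]
    ring
  rw [h2] at h1
  have h3 : dc (gauge V t y τ v k b) (1 + s / τ) 1 0 z ≤
      dc (gauge V t y τ v k b) (1 + s / τ) 1 0 0 - ‖p - b‖ + 1 / 2 := by
    rw [g1, g2]
    have h4 : (dc V (τ + s) τ t (y + τ • z) - v - τ * ⟪b, z⟫) / τ ≤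
        (dc V (τ + s) τ t y - v) / τ - ‖p - b‖ + 1 / 2 := by
      rw [div_le_iff₀ hτ]
      have : ((dc V (τ + s) τ t y - v) / τ - ‖p - b‖ + 1 / 2) * τ =
          (dc V (τ + s) τ t y - v) - ‖p - b‖ * τ + τ / 2 := by
        (clear * - hτ; field_simp)
      rw [this]
      linarith only [h1]
    linarith only [h4]
  linarith only [b1, b2, h3]

end Vale.Agent.P080.Zy
end

section

/-! Energies (slopes of the regularisations) on the class `Z` (P080). -/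

open Set Filter Topology
open scoped RealInnerProductSpace

namespace Vale.Agent.P080.Zy

variable {E : Type*} [NormedAddCommGroup E] [InnerProductSpace ℝ E]

/-- Slopes from `0` of a convex function on `[0, ∞)` increase. -/
theorem ener_slope {φ : ℝ → ℝ} (hφ : ConvexOn ℝ (Ici 0) φ) {h h' : ℝ} (hh : 0 < h) (hh' : h ≤ h') :
    (φ h - φ 0) / h ≤ (φ h' - φ 0) / h' := by
  have hp : 0 < h' := hh.trans_le hh'
  have h1 : φ ((1 - h / h') • (0 : ℝ) + (h / h') • h') ≤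
      (1 - h / h') • φ 0 + (h / h') • φ h' :=
    hφ.2 self_mem_Ici (mem_Ici.mpr hp.le) (by rw [sub_nonneg, div_le_one hp]; exact hh')
      (by positivity) (by ring)
  simp only [smul_eq_mul, mul_zero, zero_add] at h1
  rw [div_mul_cancel₀ _ hp.ne'] at h1
  rw [div_le_div_iff₀ hh hp]
  have h2 : h' * φ h ≤ (h' - h) * φ 0 + h * φ h' := by
    have := mul_le_mul_of_nonneg_left h1 hp.le
    refine this.trans (le_of_eq ?_)
    field_simp
  linarith only [h2]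

theorem Eup_mono {C₀ : ℝ} {V : ℝ → E → ℝ} (hZ : ZClass C₀ V) {h h' : ℝ} (hh : 0 < h)
    (hh' : h ≤ h') (t : ℝ) (y : E) : Eup V h t y ≤ Eup V h' t y := by
  have h1 := ener_slope (hZ.up t y) hh hh'
  simp only [fu_zero] at h1
  exact h1

theorem Edn_mono {C₀ : ℝ} {V : ℝ → E → ℝ} (hZ : ZClass C₀ V) {h h' : ℝ} (hh : 0 < h)
    (hh' : h ≤ h') (t : ℝ) (y : E) : Edn V h t y ≤ Edn V h' t y := by
  have h1 := ener_slope (hZ.dn t y).neg hh hh'
  simp only [Pi.neg_apply, fl_zero] at h1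
  have h2 : ∀ x : ℝ, -x - -V t y = V t y - x := fun x => by ring
  simp only [h2] at h1
  exact h1

/-- slope increases along a forward maximising segment -/
theorem Eup_le_Edn_at_max [FiniteDimensional ℝ E] {K : ℝ} {V : ℝ → E → ℝ}
    (hK : Grow K V) {h : ℝ} (hh : 0 < h) (t : ℝ) (y q : E)
    (hq : fu V h t y = V (t + h) (y + h • q) - h / 2 * ‖q‖ ^ 2) :
    Eup V h t y ≤ Edn V h (t + h) (y + h • q) := by
  have h1 := fl_le hK hh.le (t + h) (y + h • q) (-q)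
  rw [add_sub_cancel_right, smul_neg, add_neg_cancel_right, norm_neg] at h1
  unfold Eup Edn
  rw [hq]
  refine div_le_div_of_nonneg_right ?_ hh.le
  linarith only [h1]

theorem Eup_refl (V : ℝ → E → ℝ) (h t : ℝ) (y : E) :
    Eup (refl V) h t y = Edn V h (-t) y := by
  unfold Eup Edn
  rw [fu_refl]
  unfold refl
  ring

theorem Edn_refl (V : ℝ → E → ℝ) (h t : ℝ) (y : E) :
    Edn (refl V) h t y = Eup V h (-t) y := by
  unfold Eup Edn
  rw [fl_refl]
  unfold refl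
  ring

/-- Forward half of `Eup_bound_iff`. -/
theorem Edn_bound_of_Eup [FiniteDimensional ℝ E] {C₀ : ℝ} {V : ℝ → E → ℝ} (hZ : ZClass C₀ V)
    (m t : ℝ) (y : E) (hm : ∀ h, 0 < h → m ≤ Eup V h t y) {h₀ : ℝ} (hh₀ : 0 < h₀) :
    m ≤ Edn V h₀ t y := by
  obtain ⟨K, -, hK⟩ := hZ.grow
  set T : ℝ := max (max |t| ‖y‖) 1 with hT
  obtain ⟨ρ, hρ, hbd⟩ := near_max_bdd (E := E) K T
  set s : ℕ → ℝ := fun n => 1 / ((n : ℝ) + 1) with hs
  have hs0 : ∀ n, 0 < s n := fun n => by (clear * -; positivity)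
  have hs1 : ∀ n, s n ≤ 1 := fun n => by
    rw [hs]
    simp only
    rw [div_le_one (by positivity)]
    linarith [Nat.cast_nonneg (α := ℝ) n]
  have hslim : Tendsto s atTop (𝓝 0) := tendsto_one_div_add_atTop_nhds_zero_nat
  choose q hq using fun n => fu_attained hZ.cont hK (hs0 n).le t y
  have hqb : ∀ n, s n * ‖q n‖ ^ 2 ≤ ρ := by
    intro n
    refine (hbd V hK t (s n) y (q n) ?_ ?_ (hs0 n).le ?_ ?_).2
    · exact (le_max_left _ _).trans (le_max_left _ _)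
    · exact (le_max_right _ _).trans (le_max_left _ _)
    · exact (hs1 n).trans (le_max_right _ _)
    · rw [← hq n]
      have := le_fu hK (hs0 n).le t y 0
      rw [smul_zero, add_zero, norm_zero] at this
      norm_num at this
      linarith only [this]
  have hlim0 : Tendsto (fun n => s n • q n) atTop (𝓝 (0 : E)) := by
    rw [tendsto_zero_iff_norm_tendsto_zero]
    have h1 : ∀ n, ‖s n • q n‖ ≤ Real.sqrt (s n * ρ) := by
      intro n
      refine Real.le_sqrt_of_sq_le ?_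
      rw [norm_smul, Real.norm_of_nonneg (hs0 n).le, mul_pow]
      have := mul_le_mul_of_nonneg_left (hqb n) (hs0 n).le
      linarith
    have h2 : Tendsto (fun n => Real.sqrt (s n * ρ)) atTop (𝓝 0) := by
      have h3 : Tendsto (fun n => s n * ρ) atTop (𝓝 (0 * ρ)) := hslim.mul_const ρ
      rw [zero_mul] at h3
      have h4 := (Real.continuous_sqrt.tendsto 0).comp h3
      rwa [Real.sqrt_zero] at h4
    exact squeeze_zero (fun n => norm_nonneg _) h1 h2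
  have hY : Tendsto (fun n => (t + s n, y + s n • q n)) atTop (𝓝 (t, y)) := by
    have h1 : Tendsto (fun n => t + s n) atTop (𝓝 (t + 0)) := hslim.const_add t
    have h2 : Tendsto (fun n => y + s n • q n) atTop (𝓝 (y + 0)) := hlim0.const_add y
    rw [add_zero] at h1 h2
    exact h1.prodMk_nhds h2
  have hcont : Continuous (fun p : ℝ × E => Edn V h₀ p.1 p.2) := by
    unfold Edn
    exact (hZ.cont.sub (fl_continuous hZ.cont hK hh₀.le)).div_const _
  have hlim := (hcont.tendsto (t, y)).comp hY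
  refine ge_of_tendsto hlim ?_
  have hev : ∀ᶠ n in atTop, s n ≤ h₀ := (hslim.eventually (gt_mem_nhds hh₀)).mono fun n hn => hn.le
  filter_upwards [hev] with n hn
  exact (hm (s n) (hs0 n)).trans ((Eup_le_Edn_at_max hK (hs0 n) t y (q n) (hq n)).trans
    (Edn_mono hZ (hs0 n) hn _ _))

/-- `S^+ = S^-` in the form needed. -/
theorem Eup_bound_iff [FiniteDimensional ℝ E] {C₀ : ℝ} {V : ℝ → E → ℝ} (hZ : ZClass C₀ V)
    (m t : ℝ) (y : E) : (∀ h, 0 < h → m ≤ Eup V h t y) ↔ (∀ h, 0 < h → m ≤ Edn V h t y) := by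
  refine ⟨fun hm h hh => Edn_bound_of_Eup hZ m t y hm hh, fun hm h hh => ?_⟩
  have h1 := Edn_bound_of_Eup hZ.refl m (-t) y (fun h hh => by
    rw [Eup_refl, neg_neg]; exact hm h hh) hh
  rwa [Edn_refl, neg_neg] at h1

end Vale.Agent.P080.Zy
end

section

/-! Lower bound for `V^{1+h}_1` at the origin (C1 of the proof of Theorem Z, P080). -/

open Set Filter Topology
open scoped RealInnerProductSpace

namespace Vale.Agent.P080.Zy

variable {E : Type*} [NormedAddCommGroup E] [InnerProductSpace ℝ E]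

namespace DClow

/-- extrapolation by convexity of the levels -/
theorem fu_extrap {C₀ : ℝ} {V : ℝ → E → ℝ} (hZ : ZClass C₀ V) {h : ℝ} (hh : 0 ≤ h) (t : ℝ)
    (y : E) : fu V 1 t y - h * (V t y - fu V 1 t y) ≤ fu V (1 + h) t y := by
  have h1 : (0 : ℝ) < 1 + h := by linarith
  have h2 := (hZ.up t y).2 (show (1 + h : ℝ) ∈ Ici (0 : ℝ) from h1.le)
    (show (0 : ℝ) ∈ Ici (0 : ℝ) from Set.mem_Ici.2 (le_refl _))
    (show 0 ≤ 1 / (1 + h) from by positivity) (show 0 ≤ h / (1 + h) from by positivity)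
    (by field_simp)
  simp only [smul_eq_mul, fu_zero, mul_zero, add_zero] at h2
  rw [one_div_mul_cancel h1.ne'] at h2
  have h3 : (1 + h) * fu V 1 t y ≤ fu V (1 + h) t y + h * V t y := by
    calc (1 + h) * fu V 1 t y ≤ (1 + h) * (1 / (1 + h) * fu V (1 + h) t y
          + h / (1 + h) * V t y) := mul_le_mul_of_nonneg_left h2 h1.le
      _ = fu V (1 + h) t y + h * V t y := by (clear * - hh; field_simp)
  linarith only [h3]

end DClow

/-- C1 -/
theorem dc_lower [FiniteDimensional ℝ E] (C₀ : ℝ) : ∃ K : ℝ, 0 < K ∧ ∀ V : ℝ → E → ℝ,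
    ZClass C₀ V → Norm1 C₀ V → ∀ h, 0 ≤ h → h ≤ 1 → dc V 1 1 0 0 - K * h ≤ dc V (1 + h) 1 0 0 := by
  obtain ⟨G, hG0, hG⟩ := growth (E := E) C₀
  obtain ⟨M, hM⟩ := quad_beats (3 * G) 1 1 one_pos zero_le_one
  have hM0 : 0 ≤ M := by
    have h1 := hM 0 le_rfl
    have h2 : 0 ≤ |3 * G| * (1 + 1 + 1 * 0) ^ (3 / 2 : ℝ) := by positivity
    linarith only [h1, h2]
  refine ⟨3 * M + 1, by positivity, fun V hZ hN h hh hh1 => ?_⟩
  have hK : Grow G V := hG V hZ.flat hN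
  have hM' : ∀ q : E, 3 * (G * (1 + 1 + ‖q‖) ^ (3 / 2 : ℝ)) ≤ M + ‖q‖ ^ 2 / 4 := by
    intro q
    have h1 := hM ‖q‖ (norm_nonneg q)
    rw [abs_of_pos (by positivity), one_mul] at h1
    linarith only [h1]
  have hV0 : ∀ q : E, |V 0 q| ≤ G * (1 + 1 + ‖q‖) ^ (3 / 2 : ℝ) := by
    intro q
    refine (hK 0 q).trans (mul_le_mul_of_nonneg_left ?_ hG0.le)
    refine Real.rpow_le_rpow (by positivity) ?_ (by norm_num)
    rw [abs_zero]
    linarith
  have hV1 : ∀ q : E, |V (-1) q| ≤ G * (1 + 1 + ‖q‖) ^ (3 / 2 : ℝ) := by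
    intro q
    refine (hK (-1) q).trans (mul_le_mul_of_nonneg_left ?_ hG0.le)
    refine Real.rpow_le_rpow (by positivity) ?_ (by norm_num)
    rw [abs_neg, abs_one]
  -- lower bound of the first level
  have hlow : ∀ q : E, V 0 q ≤ fu V 1 (-1) q := by
    intro q
    have h1 := le_fu hK zero_le_one (-1) q 0
    simpa using h1
  -- upper bound of the double convolution
  have hup0 : fu V 1 (-1) 0 ≤ M := by
    refine ciSup_le fun q => ?_
    have h1 := le_of_abs_le (hV0 q)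
    have h2 := hM' q
    have h3 : 0 ≤ G * (1 + 1 + ‖q‖) ^ (3 / 2 : ℝ) := by (clear * - hG0; positivity)
    have h4 : (-1 : ℝ) + 1 = 0 := by norm_num
    rw [h4, one_smul, zero_add]
    (clear * - hM0 h1 h2; linarith only [sq_nonneg ‖q‖, h2, h1, hM0])
  have hbdd : BddBelow (range fun q : E => fu V 1 (0 - 1) (0 + (1 : ℝ) • q) + 1 / 2 * ‖q‖ ^ 2) := by
    refine ⟨-M, ?_⟩
    rintro _ ⟨q, rfl⟩
    simp only [zero_sub, zero_add, one_smul]
    have h1 := neg_le_of_abs_le (hV0 q)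
    have h2 := hM' q
    have h3 : 0 ≤ G * (1 + 1 + ‖q‖) ^ (3 / 2 : ℝ) := by (clear * - hG0; positivity)
    have h4 := hlow q
    nlinarith only [hM0, h1, h2, h4]
  have hdc : ∀ q : E, dc V 1 1 0 0 ≤ fu V 1 (-1) q + 1 / 2 * ‖q‖ ^ 2 := by
    intro q
    have h1 := ciInf_le hbdd q
    simp only [zero_sub, one_smul, zero_add] at h1
    refine le_trans (le_of_eq ?_) h1
    unfold dc fl
    simp only [zero_sub, zero_add, one_smul]
  have hdcM : dc V 1 1 0 0 ≤ M := by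
    have h1 := hdc 0
    rw [norm_zero] at h1
    linarith
  unfold dc at hdc hdcM ⊢
  conv_rhs => unfold fl
  refine le_ciInf fun q => ?_
  have h1 := DClow.fu_extrap hZ hh (-1) q
  have h2 := hlow q
  have h3 := le_of_abs_le (hV1 q)
  have h4 := neg_le_of_abs_le (hV0 q)
  have h5 := hM' q
  have h6 := hdc q
  set g : ℝ := G * (1 + 1 + ‖q‖) ^ (3 / 2 : ℝ) with hg
  have hg0 : 0 ≤ g := by positivity
  have h7 : (0 : ℝ) - 1 = -1 := by norm_num
  rw [h7, one_smul, zero_add]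
  have h8 : h * (V (-1) q - fu V 1 (-1) q) ≤ h * (2 * g) :=
    mul_le_mul_of_nonneg_left (by linarith only [h2, h3, h4]) hh
  by_cases hq : ‖q‖ ^ 2 ≤ 8 * M
  · have h9 : h * (2 * g) ≤ h * (3 * M) := mul_le_mul_of_nonneg_left (by linarith only [hM0, h5, hq]) hh
    linarith only [h9, h8, h6, h1, hh]
  · rw [not_le] at hq
    have h9 : h * (2 * g) ≤ 1 * (2 * g) := mul_le_mul_of_nonneg_right hh1 (by positivity)
    have h10 : 0 ≤ (3 * M + 1) * h := by (clear * - hM0 hh; positivity)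
    linarith only [hdcM, h1, h2, h4, h5, h8, hq, h9, h10]

end Vale.Agent.P080.Zy
end

section

/-! Statement C2 of the Theorem Z skeleton (P080): finite energy of extremal members.
`ExtEn.of` takes C1 (`dc_lower`) and B2 (`IsQ.dc_le`) as hypotheses. -/

open Set Filter Topology
open scoped RealInnerProductSpace

namespace Vale.Agent.P080.Zy

variable {E : Type*} [NormedAddCommGroup E] [InnerProductSpace ℝ E]

/-- C2 from C1 (`dc_lower`) and B2 (`IsQ.dc_le`). -/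
theorem ExtEn.of [FiniteDimensional ℝ E] (C₀ q : ℝ) (hq : IsQ C₀ q E)
    (hC1 : ∃ K : ℝ, 0 < K ∧ ∀ V : ℝ → E → ℝ,
      ZClass C₀ V → Norm1 C₀ V → ∀ h, 0 ≤ h → h ≤ 1 →
        dc V 1 1 0 0 - K * h ≤ dc V (1 + h) 1 0 0)
    (hB2 : ∀ V : ℝ → E → ℝ, ZClass C₀ V → ∀ τ L : ℝ, 0 < τ → 0 ≤ L → ∀ (t : ℝ) (y : E),
      dc V (τ + L) τ t y ≤ fu V L t y + q * (τ + L)) :
    ∃ K : ℝ, 0 < K ∧
    ∀ V : ℝ → E → ℝ, Ext C₀ q V →
      (∀ h, 0 < h → -K ≤ Edn V h 0 0) ∧ (∀ L, 0 < L → L ≤ 1 → q - K * L ≤ Psi V L 1 0 0) ∧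
      (∀ L, 0 < L → -K ≤ En V L 0 0) := by
  obtain ⟨K₁, hK₁, hlow⟩ := hC1
  have hq0 : 0 ≤ q := hq.nonneg
  refine ⟨2 * K₁ + q, by linarith, fun V hV => ?_⟩
  -- the forward slopes are bounded below
  have hup1 : ∀ h, 0 < h → h ≤ 1 → -(K₁ + q) ≤ Eup V h 0 0 := by
    intro h hh hh1
    have h1 := hlow V hV.cls hV.norm h hh.le hh1
    have h2 := hB2 V hV.cls 1 h one_pos hh.le 0 0
    have h3 := hV.ext
    unfold Eup
    rw [le_div_iff₀ hh]
    linarith only [h1, h2, h3]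
  have hup : ∀ h, 0 < h → -(K₁ + q) ≤ Eup V h 0 0 := by
    intro h hh
    rcases le_total h 1 with hh1 | hh1
    · exact hup1 h hh hh1
    · exact (hup1 1 one_pos le_rfl).trans (Eup_mono hV.cls one_pos hh1 0 0)
  have hdn : ∀ h, 0 < h → -(K₁ + q) ≤ Edn V h 0 0 :=
    (Eup_bound_iff hV.cls (-(K₁ + q)) 0 0).1 hup
  have hdn' : ∀ h, 0 < h → fl V h 0 0 ≤ V 0 0 + (K₁ + q) * h := by
    intro h hh
    have h1 := hdn h hh
    unfold Edn at h1
    rw [le_div_iff₀ hh] at h1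
    linarith
  refine ⟨fun h hh => ?_, fun L hL hL1 => ?_, fun L hL => ?_⟩
  · have h1 := hdn h hh
    linarith
  · have h1 := hlow V hV.cls hV.norm L hL.le hL1
    have h3 := hV.ext
    have h4 := hdn' L hL
    unfold Psi
    linarith only [h1, h3, h4]
  · -- concavity at the levels `0, L, 2 L`
    have h0 : (0 : ℝ) ∈ Ici (0 : ℝ) := mem_Ici.2 le_rfl
    have h2L : 2 * L ∈ Ici (0 : ℝ) := mem_Ici.2 (by linarith)
    have ha : (0 : ℝ) ≤ 1 / 2 := by norm_num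
    have hab : (1 / 2 : ℝ) + 1 / 2 = 1 := by norm_num
    have hconc := (hV.cls.dn 0 0).2 h0 h2L ha ha hab
    simp only [smul_eq_mul, mul_zero, zero_add] at hconc
    rw [show (1 / 2 : ℝ) * (2 * L) = L by ring, fl_zero] at hconc
    have h1 := hdn' L hL
    unfold En
    rw [le_div_iff₀ hL]
    nlinarith only [hconc, h1, hK₁, hL]

/-- C2 -/
theorem ext_energy [FiniteDimensional ℝ E] (C₀ q : ℝ) (hq : IsQ C₀ q E) : ∃ K : ℝ, 0 < K ∧
    ∀ V : ℝ → E → ℝ, Ext C₀ q V →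
      (∀ h, 0 < h → -K ≤ Edn V h 0 0) ∧ (∀ L, 0 < L → L ≤ 1 → q - K * L ≤ Psi V L 1 0 0) ∧
      (∀ L, 0 < L → -K ≤ En V L 0 0) :=
  ExtEn.of C₀ q hq (dc_lower C₀) fun _ hZ _ _ hτ hL t y => hq.dc_le hZ hτ hL t y

end Vale.Agent.P080.Zy
end

section

/-! The energy at the origin bounds the energy everywhere (P080). -/

open Set Filter Topology
open scoped RealInnerProductSpace

namespace Vale.Agent.P080.Zy

variable {E : Type*} [NormedAddCommGroup E] [InnerProductSpace ℝ E]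

namespace Origin

theorem le_of_add_div {x e C h₀ : ℝ} (h : ∀ L, 0 < L → h₀ ≤ L → x ≤ e + C / L) : x ≤ e := by
  have h1 : Tendsto (fun L : ℝ => e + C / L) atTop (𝓝 (e + 0)) :=
    tendsto_const_nhds.add (tendsto_const_nhds.div_atTop tendsto_id)
  rw [add_zero] at h1
  refine ge_of_tendsto h1 ?_
  filter_upwards [eventually_ge_atTop (max 1 h₀)] with L hL
  exact h L (one_pos.trans_le ((le_max_left _ _).trans hL)) ((le_max_right _ _).trans hL)

/-- An affine lower bound of `fl V L t y` for large `L` bounds all slopes. -/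
theorem edn_le {C₀ : ℝ} {V : ℝ → E → ℝ} (hZ : ZClass C₀ V) {t e C h₀ : ℝ} {y : E}
    (h : ∀ L, 0 < L → h₀ ≤ L → V t y - e * L - C ≤ fl V L t y) :
    ∀ k, 0 < k → Edn V k t y ≤ e := by
  intro k hk
  refine le_of_add_div (C := C) (h₀ := max k h₀) fun L hL hL' => ?_
  refine (Edn_mono hZ hk ((le_max_left _ _).trans hL') t y).trans ?_
  have h1 := h L hL ((le_max_right _ _).trans hL')
  unfold Edn
  rw [div_le_iff₀ hL, add_mul, div_mul_cancel₀ _ hL.ne']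
  linarith

end Origin

/-- G1: a bound for the backward energies at the origin is a bound everywhere. -/
theorem Edn_le_of_origin [FiniteDimensional ℝ E] {C₀ : ℝ} {V : ℝ → E → ℝ} (hZ : ZClass C₀ V)
    {e : ℝ} (he : ∀ h, 0 < h → Edn V h 0 0 ≤ e) : ∀ h, 0 < h → ∀ t y, Edn V h t y ≤ e := by
  obtain ⟨K, -, hK⟩ := hZ.grow
  -- negative times
  have hneg : ∀ t < 0, ∀ (y : E), ∀ k, 0 < k → Edn V k t y ≤ e := by
    intro t ht y
    refine Origin.edn_le hZ (C := V t y - V 0 0 - e * t + -t / 2 * ‖(-t)⁻¹ • y‖ ^ 2) (h₀ := 0)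
      fun L hL _ => ?_
    have ht' : 0 < -t := by linarith
    have h1 := fl_add_ge hZ.cont hK hL.le ht'.le 0 0 ((-t)⁻¹ • y)
    rw [smul_inv_smul₀ ht'.ne', zero_add, zero_sub, neg_neg] at h1
    have h2 := he (L + -t) (by linarith only [ht, hL])
    unfold Edn at h2
    rw [div_le_iff₀ (by linarith)] at h2
    linarith
  intro h hh t y
  rcases lt_or_ge t 0 with ht | ht
  · exact hneg t ht y h hh
  · refine Origin.edn_le hZ (C := V t y - fl V (t + 1) t y - e * (t + 1)) (h₀ := t + 2)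
      (fun L hL hL' => ?_) h hh
    have hLt : 0 < L - (t + 1) := by linarith
    have ht1 : 0 ≤ t + 1 := by linarith
    obtain ⟨q, hq⟩ := fl_add_attained hZ.cont hK hLt.le ht1 t y
    rw [sub_add_cancel] at hq
    have e1 : t - (t + 1) = -1 := by ring
    rw [e1] at hq
    have h2 := hneg (-1) (by norm_num) (y + (t + 1) • q) _ hLt
    unfold Edn at h2
    rw [div_le_iff₀ hLt] at h2
    have h3 := fl_le hK ht1 t y q
    rw [e1] at h3
    rw [hq]
    linarith only [h2, h3]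

end Vale.Agent.P080.Zy
end

section

/-! G2, G3 of Theorem Z (P080): Galilei and scaling invariance of the class `Z0`, and the passage
from bounded energy to `Z0`. -/

open Set Filter Topology
open scoped RealInnerProductSpace

namespace Vale.Agent.P080.Zy

variable {E : Type*} [NormedAddCommGroup E] [InnerProductSpace ℝ E]

/-- G3: Galilei and scaling invariance -/
theorem Z0.gauge {C₀ : ℝ} {V : ℝ → E → ℝ} (h : Z0 C₀ V) (t₀ : ℝ) (y₀ : E) {r : ℝ}
    (hr : 0 < r) (a k : ℝ) (c : E) (hk : 0 ≤ cellE k c) : Z0 C₀ (Zy.gauge V t₀ y₀ r a k c) := by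
  obtain ⟨K, -, hK⟩ := h.cls.grow
  refine ⟨ZClass.gauge h.cls t₀ y₀ hr a k c, fun L hL s z => ?_⟩
  rw [fl_gauge hK t₀ y₀ hr a k c hL.le]
  have h1 := h.neg (r * L) (mul_pos hr hL) (t₀ + r * s) (y₀ + r • z + (r * s) • c)
  unfold Zy.gauge
  unfold cellE at hk
  set A := fl V (r * L) (t₀ + r * s) (y₀ + r • z + (r * s) • c)
  set B := V (t₀ + r * s) (y₀ + r • z + (r * s) • c)
  have h2 : B / r ≤ A / r := div_le_div_of_nonneg_right h1 hr.le
  have h3 : 0 ≤ L * (k - ‖c‖ ^ 2 / 2) := mul_nonneg hL.le hk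
  have e1 : (A - a - r * ⟪c, z⟫ - k * (r * (s - L))) / r - L * ‖c‖ ^ 2 / 2
      = A / r + (- a - r * ⟪c, z⟫ - k * (r * s)) / r + L * (k - ‖c‖ ^ 2 / 2) := by
    field_simp
    ring
  have e2 : (B - a - r * ⟪c, z⟫ - k * (r * s)) / r
      = B / r + (- a - r * ⟪c, z⟫ - k * (r * s)) / r := by ring
  rw [e1, e2]
  linarith only [h2, h3]

/-- G2 -/
theorem exists_Z0 [FiniteDimensional ℝ E] {C₀ q : ℝ} {W : ℝ → E → ℝ} (hW : Ext C₀ q W) {K : ℝ}
    (hK : ∀ h, 0 < h → Edn W h 0 0 ≤ K) :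
    ∃ V : ℝ → E → ℝ, Z0 C₀ V ∧ dc V 1 1 0 0 = V 0 0 + q := by
  obtain ⟨G, -, hG⟩ := hW.cls.grow
  have hE := Edn_le_of_origin hW.cls hK
  have hval : ∀ s z, gauge W 0 0 1 0 K (0 : E) s z = W s z - K * s := by
    intro s z
    unfold gauge
    simp
  refine ⟨gauge W 0 0 1 0 K (0 : E), ⟨ZClass.gauge hW.cls 0 0 one_pos 0 K 0, ?_⟩, ?_⟩
  · intro L hL s z
    have h1 := hE L hL s z
    unfold Edn at h1
    rw [div_le_iff₀ hL] at h1
    rw [fl_gauge hG 0 0 one_pos 0 K (0 : E) hL.le, hval]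
    simp only [one_mul, zero_add, one_smul, smul_zero, add_zero, inner_zero_left, mul_zero,
      sub_zero, div_one, norm_zero, ne_eq, OfNat.ofNat_ne_zero, not_false_eq_true, zero_pow,
      zero_div]
    linarith
  · have hfu : ∀ s z, fu (gauge W 0 0 1 0 K (0 : E)) 1 s z = fu W 1 s z - K * (s + 1) := by
      intro s z
      rw [fu_gauge hG 0 0 one_pos 0 K (0 : E) zero_le_one]
      simp only [one_mul, zero_add, one_smul, smul_zero, add_zero, sub_zero, inner_zero_left, mul_zero, div_one, norm_zero, ne_eq, OfNat.ofNat_ne_zero, not_false_eq_true, zero_pow, zero_div]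
    have hdc : dc (gauge W 0 0 1 0 K (0 : E)) 1 1 0 0 = dc W 1 1 0 0 := by
      unfold dc fl
      congr 1
      funext q
      rw [hfu]
      norm_num
    rw [hdc, hW.ext, hval]
    ring

end Vale.Agent.P080.Zy
end

section

/-! G4 of the proof of Theorem Z (P080): the extremal constant for members of nonpositive
energy. -/

open Set Filter Topology
open scoped RealInnerProductSpace

namespace Vale.Agent.P080.Zy

variable {E : Type*} [NormedAddCommGroup E] [InnerProductSpace ℝ E]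

namespace QK4

theorem uk_gauge {K : ℝ} {V : ℝ → E → ℝ} (hK : Grow K V) (t₀ : ℝ) (y₀ : E) {r : ℝ} (hr : 0 < r)
    (a k : ℝ) (c : E) {κ : ℝ} (hκ : 0 ≤ κ) :
    UK (gauge V t₀ y₀ r a k c) κ 1 0 0 = UK V κ r t₀ y₀ / r - 2 * κ * cellE k c := by
  simp only [UK]
  rw [dc_gauge hK t₀ y₀ hr a k c (by positivity) zero_le_one 0 0,
    fl_gauge hK t₀ y₀ hr a k c (by positivity) 0 0]
  have e1 : r * ((1 + κ) * 1) = (1 + κ) * r := by ring
  have e2 : r * (κ * 1) = κ * r := by ring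
  rw [e1, e2, mul_one r, mul_one κ]
  simp only [mul_zero, add_zero, smul_zero, zero_smul, inner_zero_right, cellE, zero_sub, mul_one,
    sub_zero]
  field_simp
  ring

theorem gauge_id (W : ℝ → E → ℝ) (e : ℝ) (s : ℝ) (z : E) :
    gauge W 0 0 1 0 (-e) 0 s z = W s z + e * s := by
  simp [gauge]

/-- energy of the gauged function -/
theorem neg_gauge {C₀ : ℝ} {V : ℝ → E → ℝ} (hV : Z0 C₀ V) {K : ℝ} (hK : Grow K V) (v k : ℝ)
    (b : E) {L : ℝ} (hL : 0 < L) (s : ℝ) (z : E) :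
    gauge V 0 0 1 v k b s z + cellE k b * L ≤ fl (gauge V 0 0 1 v k b) L s z := by
  rw [fl_gauge hK 0 0 one_pos v k b hL.le s z]
  have h := hV.neg L hL (0 + 1 * s) (0 + (1 : ℝ) • z + (1 * s) • b)
  simp only [gauge, cellE, div_one, one_mul] at h ⊢
  linarith

/-- from sequences to the limit -/
theorem limit_mem [FiniteDimensional ℝ E] {C₀ : ℝ} {κ : ℝ} (hκ : 0 < κ) {W : ℕ → ℝ → E → ℝ}
    {e x : ℕ → ℝ} {q m : ℝ} (hZ : ∀ n, ZClass C₀ (W n)) (hN : ∀ n, Norm1 C₀ (W n))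
    (hneg : ∀ n L, 0 < L → ∀ s z, W n s z + e n * L ≤ fl (W n) L s z)
    (hx : ∀ n, UK (W n) κ 1 0 0 = x n - 2 * κ * e n) (hxq : Tendsto x atTop (𝓝 q))
    (he : ∀ n, e n ∈ Icc m (2 * C₀)) :
    ∃ V : ℝ → E → ℝ, Z0 C₀ V ∧ UK V κ 1 0 0 = q := by
  obtain ⟨K, hK0, hK⟩ := growth (E := E) C₀
  obtain ⟨W₀, φ, hφ, hZ₀, hN₀, hlim⟩ := ZClass.compact C₀ W hZ hN
  obtain ⟨e₀, -, ψ, hψ, heψ⟩ := isCompact_Icc.tendsto_subseq (fun n => he (φ n))
  have hWK : Grow K W₀ := hK _ hZ₀.flat hN₀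
  have hlim' : TendstoLocallyUniformly (fun n (p : ℝ × E) => W (φ (ψ n)) p.1 p.2)
      (fun p => W₀ p.1 p.2) atTop :=
    tend_lu_comp hlim hψ.tendsto_atTop
  have hVK : ∀ n, Grow K (W (φ (ψ n))) := fun n => hK _ (hZ _).flat (hN _)
  have hfl : ∀ (L : ℝ), 0 ≤ L → ∀ (s : ℝ) (z : E),
      Tendsto (fun n => fl (W (φ (ψ n))) L s z) atTop (𝓝 (fl W₀ L s z)) := fun L hL s z =>
    fl_tendsto (V := fun n => W (φ (ψ n))) (W := W₀) (K := K) (fun n => (hZ _).cont) hVK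
      hZ₀.cont hWK hlim' (L := fun _ => L) (t := fun _ => s) (y := fun _ => z)
      (fun _ => hL) tendsto_const_nhds tendsto_const_nhds tendsto_const_nhds
  have hval : ∀ (s : ℝ) (z : E), Tendsto (fun n => W (φ (ψ n)) s z) atTop (𝓝 (W₀ s z)) := by
    intro s z
    have := hfl 0 le_rfl s z
    simpa only [fl_zero] using this
  have he' : Tendsto (fun n => e (φ (ψ n))) atTop (𝓝 e₀) := heψ
  have hneg₀ : ∀ L, 0 < L → ∀ s z, W₀ s z + e₀ * L ≤ fl W₀ L s z := fun L hL s z =>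
    le_of_tendsto_of_tendsto' ((hval s z).add (he'.mul_const L)) (hfl L hL.le s z)
      (fun n => hneg _ L hL s z)
  refine ⟨gauge W₀ 0 0 1 0 (-e₀) 0, ⟨hZ₀.gauge 0 0 one_pos 0 (-e₀) 0, ?_⟩, ?_⟩
  · intro L hL s z
    rw [fl_gauge hWK 0 0 one_pos 0 (-e₀) 0 hL.le s z, gauge_id]
    have := hneg₀ L hL s z
    simp only [one_mul, zero_add, one_smul, smul_zero, add_zero, inner_zero_left, norm_zero,
      div_one, mul_zero, sub_zero]
    linarith
  · have h1 : Tendsto (fun n => UK (W (φ (ψ n))) κ 1 0 0) atTop (𝓝 (UK W₀ κ 1 0 0)) := by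
      simp only [UK]
      refine Tendsto.sub ?_ (hfl _ (by positivity) 0 0)
      exact dc_tendsto (V := fun n => W (φ (ψ n))) (W := W₀) (K := K) (fun n => (hZ _).cont) hVK
        hZ₀.cont hWK hlim' (a := fun _ => (1 + κ) * 1) (b := fun _ => 1) (t := fun _ => 0)
        (y := fun _ => 0) (fun _ => by positivity) (fun _ => zero_le_one)
        tendsto_const_nhds tendsto_const_nhds tendsto_const_nhds tendsto_const_nhds
    have h2 : Tendsto (fun n => UK (W (φ (ψ n))) κ 1 0 0) atTop (𝓝 (q - 2 * κ * e₀)) := by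
      have : (fun n => UK (W (φ (ψ n))) κ 1 0 0) =
          fun n => x (φ (ψ n)) - 2 * κ * e (φ (ψ n)) := by
        funext n
        exact hx _
      rw [this]
      exact (hxq.comp (hφ.tendsto_atTop.comp hψ.tendsto_atTop)).sub (he'.const_mul (2 * κ))
    have h3 := tendsto_nhds_unique h1 h2
    rw [uk_gauge hWK 0 0 one_pos 0 (-e₀) 0 hκ.le, h3]
    simp only [cellE, norm_zero, div_one]
    ring

/-- the value set -/
def S (C₀ κ : ℝ) (E : Type*) [NormedAddCommGroup E] [InnerProductSpace ℝ E] : Set ℝ :=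
  {x | ∃ V : ℝ → E → ℝ, Z0 C₀ V ∧ UK V κ 1 0 0 = x}

/-- data of a member -/
theorem data [FiniteDimensional ℝ E] {C₀ κ : ℝ} (hκ : 0 ≤ κ) {V : ℝ → E → ℝ} (hV : Z0 C₀ V) :
    ∃ (W : ℝ → E → ℝ) (e : ℝ), ZClass C₀ W ∧ Norm1 C₀ W ∧
      (∀ L, 0 < L → ∀ s z, W s z + e * L ≤ fl W L s z) ∧
      UK W κ 1 0 0 = UK V κ 1 0 0 - 2 * κ * e ∧ e ≤ 2 * C₀ := by
  obtain ⟨K, -, hK⟩ := hV.cls.grow
  obtain ⟨v, k, b, hc⟩ := hV.cls.flat 0 0 1 one_pos
  have hcell : IsCell C₀ V 0 0 1 v k b := hc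
  have hN := hcell.norm1_gauge one_pos
  have hZ := hV.cls.gauge 0 0 one_pos v k b
  obtain ⟨K', -, hK'⟩ := hZ.grow
  refine ⟨gauge V 0 0 1 v k b, cellE k b, hZ, hN, fun L hL s z => neg_gauge hV hK v k b hL s z,
    ?_, ?_⟩
  · rw [uk_gauge hK 0 0 one_pos v k b hκ, div_one]
  · have h1 := neg_gauge hV hK v k b one_pos 0 0
    have h2 := fl_le hK' (L := 1) zero_le_one 0 (0 : E) 0
    have h3 := (abs_le.1 (hN 0 0 (by simp only [abs_zero, zero_le_one]) (by simp))).1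
    have h4 := (abs_le.1 (hN (0 - 1) ((0 : E) + (1 : ℝ) • (0 : E)) (by norm_num) (by simp))).2
    have h5 : (1 : ℝ) / 2 * ‖(0 : E)‖ ^ 2 = 0 := by simp
    rw [h5] at h2
    have h6 : cellE k b * 1 = cellE k b := mul_one _
    linarith only [h1, h2, h3, h4]

/-- upper bound for normalised members -/
theorem upper [FiniteDimensional ℝ E] (C₀ : ℝ) {κ : ℝ} (hκ : 0 ≤ κ) : ∃ M : ℝ,
    ∀ W : ℝ → E → ℝ, ZClass C₀ W → Norm1 C₀ W → UK W κ 1 0 0 ≤ M := by
  by_cases hex : ∃ W : ℝ → E → ℝ, ZClass C₀ W ∧ Norm1 C₀ W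
  · obtain ⟨W₁, hZ₁, hN₁⟩ := hex
    obtain ⟨K, hK0, hK⟩ := growth (E := E) C₀
    obtain ⟨K', hK'0, hK'⟩ := grow_fu (hK _ hZ₁.flat hN₁) ((1 + κ) * 1)
    have hg1 := hK _ hZ₁.flat hN₁
    obtain ⟨K'', hK''0, hK''⟩ := grow_fu hg1.refl (κ * 1)
    refine ⟨K' * (1 + |(0 : ℝ) - 1| + ‖(0 : E) + (1 : ℝ) • (0 : E)‖) ^ (3 / 2 : ℝ) +
      K'' * (1 + |-(0 : ℝ)| + ‖(0 : E)‖) ^ (3 / 2 : ℝ), fun W hZ hN => ?_⟩
    have hg := hK _ hZ.flat hN
    have h1 := fl_le (hK' W hg _ (by positivity) le_rfl) zero_le_one 0 (0 : E) 0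
    have h2 := (abs_le.1 (hK' W hg _ (by positivity) le_rfl (0 - 1)
      ((0 : E) + (1 : ℝ) • (0 : E)))).2
    have h3 := (abs_le.1 (hK'' (refl W) hg.refl _ (by positivity) le_rfl (-0) (0 : E))).2
    rw [fu_refl, neg_neg] at h3
    simp only [UK, dc]
    simp only [norm_zero] at h1
    linarith
  · exact ⟨0, fun W hZ hN => absurd ⟨W, hZ, hN⟩ hex⟩

end QK4

/-- G4 -/
theorem exists_qk [FiniteDimensional ℝ E] {C₀ : ℝ}
    (h : ∃ V : ℝ → E → ℝ, Z0 C₀ V ∧ V 0 0 < dc V 1 1 0 0) :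
    ∃ κ q : ℝ, 0 < κ ∧ κ < 1 ∧ 0 < q ∧
      (∀ V : ℝ → E → ℝ, Z0 C₀ V → ∀ τ, 0 < τ → ∀ t y, UK V κ τ t y ≤ q * τ) ∧
      ∃ V : ℝ → E → ℝ, Z0 C₀ V ∧ UK V κ 1 0 0 = q := by
  obtain ⟨V₀, hV₀, hpos⟩ := h
  -- the choice of `κ`
  obtain ⟨κ, hκ, hκ1, hκpos⟩ : ∃ κ : ℝ, 0 < κ ∧ κ < 1 ∧ 0 < UK V₀ κ 1 0 0 := by
    obtain ⟨K, -, hK⟩ := hV₀.cls.grow
    have hconst : TendstoLocallyUniformly (fun (_ : ℕ) (p : ℝ × E) => V₀ p.1 p.2)
        (fun p => V₀ p.1 p.2) atTop := fun u hu x =>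
      ⟨univ, univ_mem, Eventually.of_forall fun n z _ => refl_mem_uniformity hu⟩
    have hκn : Tendsto (fun n : ℕ => 1 / ((n : ℝ) + 1)) atTop (𝓝 0) :=
      tendsto_one_div_add_atTop_nhds_zero_nat
    have h1 := dc_tendsto (V := fun _ => V₀) (W := V₀) (K := K) (fun _ => hV₀.cls.cont)
      (fun _ => hK) hV₀.cls.cont hK hconst (a := fun n : ℕ => (1 + 1 / ((n : ℝ) + 1)) * 1)
      (b := fun _ => 1) (t := fun _ => 0) (y := fun _ => 0) (a₀ := (1 + 0) * 1) (b₀ := 1)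
      (t₀ := 0) (y₀ := 0) (fun n => by (clear * -; positivity)) (fun _ => zero_le_one)
      ((tendsto_const_nhds.add hκn).mul_const 1) tendsto_const_nhds tendsto_const_nhds
      tendsto_const_nhds
    have h2 := fl_tendsto (V := fun _ => V₀) (W := V₀) (K := K) (fun _ => hV₀.cls.cont)
      (fun _ => hK) hV₀.cls.cont hK hconst (L := fun n : ℕ => 1 / ((n : ℝ) + 1) * 1)
      (t := fun _ => 0) (y := fun _ => 0) (L₀ := 0 * 1)
      (t₀ := 0) (y₀ := 0) (fun n => by positivity)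
      (hκn.mul_const 1) tendsto_const_nhds tendsto_const_nhds
    have h3 := h1.sub h2
    simp only [add_zero, mul_one, mul_zero, zero_mul, fl_zero] at h3
    have h4 := (h3.eventually (lt_mem_nhds (sub_pos.2 hpos))).and (eventually_ge_atTop 1)
    obtain ⟨n, hn, hn1⟩ := h4.exists
    refine ⟨1 / ((n : ℝ) + 1), by positivity, ?_, ?_⟩
    · rw [div_lt_one (by positivity)]
      have : (1 : ℝ) ≤ n := by exact_mod_cast hn1
      linarith only [this]
    · simp only [UK, mul_one]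
      exact hn
  obtain ⟨M, hM⟩ := QK4.upper (E := E) C₀ hκ.le
  have hS : BddAbove (QK4.S C₀ κ E) := by
    refine ⟨M + 4 * κ * C₀, ?_⟩
    rintro x ⟨V, hV, rfl⟩
    obtain ⟨W, e, hZ, hN, -, hU, he⟩ := QK4.data hκ.le hV
    have := hM W hZ hN
    linarith only [mul_nonneg (le_of_lt (sub_pos.2 hκ)) (sub_nonneg.2 he), this, hU]
  have hSne : (QK4.S C₀ κ E).Nonempty := ⟨_, V₀, hV₀, rfl⟩
  set q : ℝ := sSup (QK4.S C₀ κ E) with hq
  have hqpos : 0 < q := hκpos.trans_le (le_csSup hS ⟨V₀, hV₀, rfl⟩)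
  refine ⟨κ, q, hκ, hκ1, hqpos, ?_, ?_⟩
  · intro V hV τ hτ t y
    obtain ⟨K, -, hK⟩ := hV.cls.grow
    have h1 := hV.gauge t y hτ 0 0 0 (by simp [cellE])
    have h2 : UK (gauge V t y τ 0 0 0) κ 1 0 0 ≤ q := le_csSup hS ⟨_, h1, rfl⟩
    rw [QK4.uk_gauge hK t y hτ 0 0 0 hκ.le] at h2
    simp only [cellE, norm_zero] at h2
    have h3 : UK V κ τ t y / τ ≤ q := by linarith
    rwa [div_le_iff₀ hτ] at h3
  · have hex : ∀ n : ℕ, ∃ (V : ℝ → E → ℝ), Z0 C₀ V ∧ q - 1 / ((n : ℝ) + 1) < UK V κ 1 0 0 := by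
      intro n
      obtain ⟨x, ⟨V, hV, rfl⟩, hx⟩ := exists_lt_of_lt_csSup hSne
        (show q - 1 / ((n : ℝ) + 1) < sSup (QK4.S C₀ κ E) by
          have : (0 : ℝ) < 1 / ((n : ℝ) + 1) := by (clear * -; positivity)
          linarith)
      exact ⟨V, hV, hx⟩
    choose V hV hVq using hex
    have hd := fun n => QK4.data hκ.le (hV n)
    choose W e hZ hN hneg hU he using hd
    refine QK4.limit_mem hκ (m := (q - 1 - M) / (2 * κ)) hZ hN hneg hU ?_ (fun n => ⟨?_, he n⟩)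
    · have h1 : Tendsto (fun n : ℕ => q - 1 / ((n : ℝ) + 1)) atTop (𝓝 (q - 0)) :=
        tendsto_const_nhds.sub tendsto_one_div_add_atTop_nhds_zero_nat
      rw [sub_zero] at h1
      exact tendsto_of_tendsto_of_tendsto_of_le_of_le h1 tendsto_const_nhds
        (fun n => (hVq n).le) (fun n => le_csSup hS ⟨_, hV n, rfl⟩)
    · have h1 := hM _ (hZ n) (hN n)
      have h2 := hU n
      have h3 := hVq n
      have h4 : 1 / ((n : ℝ) + 1) ≤ 1 := by
        rw [div_le_one (by positivity)]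
        have : (0 : ℝ) ≤ n := Nat.cast_nonneg n
        linarith
      rw [div_le_iff₀ (by positivity)]
      linarith

end Vale.Agent.P080.Zy
end

section

/-! One exact step for `UK` (G5 of Theorem Z, P080). -/

open Set Filter Topology
open scoped RealInnerProductSpace

namespace Vale.Agent.P080.Zy

variable {E : Type*} [NormedAddCommGroup E] [InnerProductSpace ℝ E]

theorem UStep.mid_convex {f : ℝ → ℝ} (hf : ConvexOn ℝ (Ici 0) f) {a b c : ℝ} (ha : 0 ≤ a)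
    (hb : 0 ≤ b) (hc : 2 * c = a + b) : 2 * f c ≤ f a + f b := by
  have h := hf.2 (mem_Ici.2 ha) (mem_Ici.2 hb) (by norm_num : (0 : ℝ) ≤ 1 / 2)
    (by norm_num : (0 : ℝ) ≤ 1 / 2) (by norm_num)
  have e : (1 / 2 : ℝ) • a + (1 / 2 : ℝ) • b = c := by simp only [smul_eq_mul]; linarith only [hc]
  rw [e] at h
  simp only [smul_eq_mul] at h
  linarith

theorem UStep.mid_concave {f : ℝ → ℝ} (hf : ConcaveOn ℝ (Ici 0) f) {a b c : ℝ} (ha : 0 ≤ a)
    (hb : 0 ≤ b) (hc : 2 * c = a + b) : f a + f b ≤ 2 * f c := by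
  have h := hf.2 (mem_Ici.2 ha) (mem_Ici.2 hb) (by norm_num : (0 : ℝ) ≤ 1 / 2)
    (by norm_num : (0 : ℝ) ≤ 1 / 2) (by norm_num)
  have e : (1 / 2 : ℝ) • a + (1 / 2 : ℝ) • b = c := by simp only [smul_eq_mul]; linarith only [hc]
  rw [e] at h
  simp only [smul_eq_mul] at h
  linarith

/-- G5: exact step -/
theorem UK_step [FiniteDimensional ℝ E] {C₀ : ℝ} {V : ℝ → E → ℝ} (hZ : ZClass C₀ V)
    {κ τ h : ℝ} (hκ : 0 < κ) (hκ1 : κ < 1) (hτ : 0 < τ) (hh : h = κ * τ / (1 + κ)) (t : ℝ) (y : E) :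
    ∃ p u : E, 2 * UK V κ τ t y ≤ UK V κ (τ + h) (t + h) (y + h • p)
        + UK V κ (τ - h) (t - h) (y + h • u) ∧
      (∀ z, dc V (τ + 2 * κ * τ) τ t z ≤ dc V (τ + 2 * κ * τ) τ t y + ⟪p, z - y⟫
        + ‖z - y‖ ^ 2 / (2 * τ)) := by
  obtain ⟨K, hK0, hK⟩ := hZ.grow
  have h1κ : (0 : ℝ) < 1 + κ := by linarith
  have hκτ : 0 < κ * τ := mul_pos hκ hτ
  have hh0 : 0 < h := by rw [hh]; positivity
  have hhe : h * (1 + κ) = κ * τ := by rw [hh]; field_simp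
  have hhκ : 0 < κ * h := mul_pos hκ hh0
  -- the two top levels
  have ep : (1 + κ) * (τ + h) = τ + 2 * κ * τ := by linear_combination hhe
  have em : (1 + κ) * (τ - h) = τ := by linear_combination -hhe
  have hhτ : h < τ := by
    have : h * (1 + κ) < τ * (1 + κ) := by rw [hhe]; linarith only [hτ]
    exact lt_of_mul_lt_mul_right this h1κ.le
  obtain ⟨p, hp1, hp2, hp3⟩ := dc_up hZ.cont hK (a := τ + 2 * κ * τ) (b := τ) (h := h) hτ hh0
    (by linarith) t y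
  obtain ⟨u, hu⟩ := fl_add_attained hZ.cont hK (a := κ * (τ - h)) (b := h)
    (mul_nonneg hκ.le (by linarith only [hhτ])) hh0.le t y
  refine ⟨p, u, ?_, hp3⟩
  have hdown := dc_down hZ.cont hK (a := τ) (b := τ) (h := h) hτ.le hh0.le hhτ.le t y u
  have hc := UStep.mid_convex (dc_convex hZ.cont hK hZ.up hτ t y) (a := 0) (b := 2 * κ * τ)
    (c := κ * τ) le_rfl (by positivity) (by ring)
  simp only [add_zero] at hc
  have e2 : (1 + κ) * τ = τ + κ * τ := by ring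
  -- lower parts
  have hlow0 : 0 ≤ κ * (τ + h) - h := by nlinarith only [hhe, hhκ]
  have hlow1 : 0 ≤ κ * (τ - h) + h := by nlinarith only [hh0, hhe]
  have hd := UStep.mid_concave (hZ.dn t y) (c := κ * τ) hlow1 hlow0 (by ring)
  have hg := fl_add_ge hZ.cont hK (a := κ * (τ + h) - h) (b := h) hlow0 hh0.le (t + h)
    (y + h • p) (-p)
  have e4 : κ * (τ + h) - h + h = κ * (τ + h) := by ring
  have e5 : t + h - h = t := by ring
  have e6 : y + h • p + h • (-p) = y := by simp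
  rw [e4, e5, e6, norm_neg] at hg
  simp only [UK]
  rw [ep, em, e2]
  linarith only [hp1, hu, hdown, hc, hd, hg]

end Vale.Agent.P080.Zy
end

section

/-! The chain of extremal states with bounded location (G6 of Theorem Z, P080). -/

open Set Filter Topology
open scoped RealInnerProductSpace

namespace Vale.Agent.P080.Zy

variable {E : Type*} [NormedAddCommGroup E] [InnerProductSpace ℝ E]

namespace Chain

/-- A cell of `V` is a cell of every gauge of `V`. -/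
theorem isCell_gauge {C₀ : ℝ} {V : ℝ → E → ℝ} {t r v k : ℝ} {y b : E}
    (h : IsCell C₀ V t y r v k b) (t₀ : ℝ) (y₀ : E) {R : ℝ} (hR : 0 < R) (a kk : ℝ) (c : E) :
    IsCell C₀ (gauge V t₀ y₀ R a kk c) ((t - t₀) / R) (R⁻¹ • (y - y₀ - (t - t₀) • c)) (r / R)
      ((v - a) / R - ⟪c, R⁻¹ • (y - y₀ - (t - t₀) • c)⟫ - kk * ((t - t₀) / R))
      (k - kk - ⟪c, b - c⟫) (b - c) := by
  intro σ ζ hσ hζ
  have hR' : R ≠ 0 := hR.ne'
  have h1 : |R * σ| ≤ r := by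
    rw [abs_mul, abs_of_pos hR]
    calc R * |σ| ≤ R * (r / R) := mul_le_mul_of_nonneg_left hσ hR.le
      _ = r := by field_simp
  have h2 : ‖R • ζ‖ ≤ r := by
    rw [norm_smul, Real.norm_eq_abs, abs_of_pos hR]
    calc R * ‖ζ‖ ≤ R * (r / R) := mul_le_mul_of_nonneg_left hζ hR.le
      _ = r := by field_simp
  have h3 := h (R * σ) (R • ζ) h1 h2
  have et : t₀ + R * ((t - t₀) / R + σ) = t + R * σ := by field_simp; ring
  have ey : y₀ + R • (R⁻¹ • (y - y₀ - (t - t₀) • c) + σ • (b - c) + ζ)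
      + (R * ((t - t₀) / R + σ)) • c = y + (R * σ) • b + R • ζ := by
    have : R * ((t - t₀) / R + σ) = (t - t₀) + R * σ := by (clear * - hR'; field_simp)
    rw [this, smul_add, smul_add, smul_smul, mul_inv_cancel₀ hR', one_smul, smul_smul, add_smul,
      smul_sub]
    abel
  simp only [gauge]
  rw [et, ey]
  have e : (V (t + R * σ) (y + (R * σ) • b + R • ζ) - a
        - R * ⟪c, R⁻¹ • (y - y₀ - (t - t₀) • c) + σ • (b - c) + ζ⟫
        - kk * (R * ((t - t₀) / R + σ))) / R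
      - ((v - a) / R - ⟪c, R⁻¹ • (y - y₀ - (t - t₀) • c)⟫ - kk * ((t - t₀) / R) + ⟪b - c, ζ⟫
        + (k - kk - ⟪c, b - c⟫) * σ)
      = (V (t + R * σ) (y + (R * σ) • b + R • ζ) - (v + ⟪b, R • ζ⟫ + k * (R * σ))) / R := by
    rw [inner_add_right, inner_add_right, inner_smul_right c (b - c), inner_sub_left b c ζ,
      inner_smul_right b ζ]
    field_simp
    ring
  rw [e, abs_div, abs_of_pos hR, mul_div_assoc']
  exact div_le_div_of_nonneg_right h3 hR.le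

/-- A fixed point bound for the logarithm. -/
theorem exists_log_bound (A K : ℝ) (hK : 0 < K) : ∃ M : ℝ, 0 ≤ M ∧
    A + K * Real.log (2 + M) ≤ M := by
  refine ⟨2 * (|A| + 1 + K * |Real.log (2 * K)|), by (clear * - hK; positivity), ?_⟩
  set M := 2 * (|A| + 1 + K * |Real.log (2 * K)|) with hM
  have hM0 : 0 ≤ M := by (clear * - hK; positivity)
  have h1 : Real.log ((2 + M) / (2 * K)) ≤ (2 + M) / (2 * K) - 1 :=
    Real.log_le_sub_one_of_pos (by positivity)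
  rw [Real.log_div (by positivity) (by positivity)] at h1
  have h2 : K * Real.log (2 + M) ≤ K * Real.log (2 * K) + (2 + M) / 2 - K := by
    have h3 : K * Real.log (2 + M) ≤ K * ((2 + M) / (2 * K) - 1 + Real.log (2 * K)) :=
      mul_le_mul_of_nonneg_left (by linarith) hK.le
    have h4 : K * ((2 + M) / (2 * K)) = (2 + M) / 2 := by field_simp
    linarith only [h4, h3]
  have h5 : K * Real.log (2 * K) ≤ K * |Real.log (2 * K)| :=
    mul_le_mul_of_nonneg_left (le_abs_self _) hK.le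
  have h6 := le_abs_self A
  linarith only [hK, h2, h5, h6]

end Chain

/-- G6: the chain of extremal states, with bounded location -/
theorem chain [FiniteDimensional ℝ E] {C₀ κ q : ℝ} (hκ : 0 < κ) (hκ1 : κ < 1)
    (hU : ∀ V : ℝ → E → ℝ, Z0 C₀ V → ∀ τ, 0 < τ → ∀ t y, UK V κ τ t y ≤ q * τ)
    {V : ℝ → E → ℝ} (hV : Z0 C₀ V) (h1 : UK V κ 1 0 0 = q) :
    ∃ K : ℝ, ∀ j : ℕ, ∃ (τ : ℝ) (y : E), (j : ℝ) ≤ τ ∧ 1 ≤ τ ∧ UK V κ τ (τ - 1) y = q * τ ∧
      ∀ (v k : ℝ) (b : E), IsCell C₀ V 0 0 τ v k b → ‖y - (τ - 1) • b‖ ≤ K * τ := by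
  obtain ⟨KE, hKE0, hKE⟩ := grad_bound (E := E) C₀
  obtain ⟨KL, hKL0, hKL⟩ := cells_log (E := E) C₀
  set lam : ℝ := 1 + κ / (1 + κ) with hlam
  have h1κ : (0 : ℝ) < 1 + κ := by linarith only [hκ]
  set μ : ℝ := κ / (1 + κ) with hμ
  have hμ0 : 0 < μ := by positivity
  have hμ1 : μ ≤ 1 := by rw [hμ, div_le_one h1κ]; linarith
  have hC₀ : 0 ≤ C₀ := by
    obtain ⟨v, k, b, h⟩ := hV.cls.flat 0 0 1 one_pos
    have := (abs_nonneg _).trans (h 0 0 (by simp) (by simp))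
    linarith
  obtain ⟨M, hM0, hM⟩ := Chain.exists_log_bound (KE + KL + 5 * C₀ * (1 + μ) / μ) KL hKL0
  refine ⟨M, ?_⟩
  -- the step
  have step : ∀ (τ : ℝ) (y : E), 1 ≤ τ → UK V κ τ (τ - 1) y = q * τ →
      (∀ (v k : ℝ) (b : E), IsCell C₀ V 0 0 τ v k b → ‖y - (τ - 1) • b‖ ≤ M * τ) →
      ∃ y' : E, 1 ≤ lam * τ ∧ UK V κ (lam * τ) (lam * τ - 1) y' = q * (lam * τ) ∧
      (∀ (v k : ℝ) (b : E), IsCell C₀ V 0 0 (lam * τ) v k b →
        ‖y' - (lam * τ - 1) • b‖ ≤ M * (lam * τ)) := by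
    intro τ y hτ1 hUτ hloc
    have hτ0 : 0 < τ := by linarith
    obtain ⟨p, u, hp, hpz⟩ := UK_step hV.cls hκ hκ1 hτ0 rfl (τ - 1) y
    set h : ℝ := κ * τ / (1 + κ) with hh
    have hhμ : h = μ * τ := by rw [hh, hμ]; ring
    have eτ : τ + h = lam * τ := by rw [hhμ, hlam]; ring
    have hhτ : h < τ := by
      rw [hh, div_lt_iff₀ h1κ]; linarith only [hτ1]
    have hh0 : 0 < h := by rw [hhμ]; positivity
    have et : τ - 1 + h = lam * τ - 1 := by rw [← eτ]; ring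
    have h2 := hU V hV (τ - h) (by linarith only [hhτ]) (τ - 1 - h) (y + h • u)
    have h3 := hU V hV (τ + h) (by linarith only [hτ1, hh0]) (τ - 1 + h) (y + h • p)
    have h4 : UK V κ (τ + h) (τ - 1 + h) (y + h • p) = q * (τ + h) := by
      refine le_antisymm h3 ?_
      rw [hUτ] at hp
      linarith only [hp, h2]
    rw [eτ, et] at h4
    have hlτ : τ ≤ lam * τ := by rw [← eτ]; linarith only [hh0]
    refine ⟨y + h • p, hτ1.trans hlτ, h4, ?_⟩
    intro v' k' b' hc'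
    obtain ⟨v, k, b, hc⟩ := hV.cls.flat 0 0 τ hτ0
    obtain ⟨v2, k2, b2, hc2⟩ := hV.cls.flat (τ - 1) y τ hτ0
    have hcc : IsCell C₀ V 0 0 τ v k b := hc
    have hcc2 : IsCell C₀ V (τ - 1) y τ v2 k2 b2 := hc2
    have d1 : ‖b - b'‖ ≤ 5 * C₀ := by
      refine (cell_compare hτ0 (R := lam * τ) ?_ hc' hcc ?_ ?_).1
      · rw [← eτ]; linarith only [hτ1, hhτ]
      · simpa only [sub_self, abs_zero, zero_add] using hlτ
      · simpa only [sub_self, zero_smul, norm_zero, zero_add] using hlτ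
    have d2 : ‖p - b2‖ ≤ KE := by
      refine hKE V hV.cls (τ - 1) y τ v2 k2 b2 hτ0 hcc2 (2 * κ * τ) (by positivity) ?_ p hpz
      nlinarith only [hτ1, hκ1]
    have hg := Chain.isCell_gauge hcc2 0 (0 : E) hτ0 v k b
    have d3 := (hKL (gauge V 0 0 τ v k b) (hV.cls.gauge 0 0 hτ0 v k b).flat
      (IsCell.norm1_gauge hτ0 hcc) _ _ _ _ _ _ (by rw [div_self hτ0.ne']; exact one_pos) hg).1
    have hl := hloc v k b hcc
    have d4 : ‖b2 - b‖ ≤ KL * (1 + Real.log (2 + M)) := by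
      refine d3.trans (mul_le_mul_of_nonneg_left ?_ hKL0.le)
      have g1 : |(τ - 1 - 0) / τ| ≤ 1 := by
        rw [sub_zero, abs_div, abs_of_pos hτ0, abs_of_nonneg (by linarith only [hτ1] : (0 : ℝ) ≤ τ - 1),
          div_le_one hτ0]
        linarith only []
      have g2 : ‖τ⁻¹ • (y - 0 - (τ - 1 - 0) • b)‖ ≤ M := by
        rw [sub_zero, sub_zero, norm_smul, norm_inv, Real.norm_eq_abs, abs_of_pos hτ0]
        calc τ⁻¹ * ‖y - (τ - 1) • b‖ ≤ τ⁻¹ * (M * τ) :=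
              mul_le_mul_of_nonneg_left hl (inv_nonneg.2 hτ0.le)
          _ = M := by (clear * - hτ1; field_simp)
      have g3 : Real.log (1 + |(τ - 1 - 0) / τ| + ‖τ⁻¹ • (y - 0 - (τ - 1 - 0) • b)‖)
          ≤ Real.log (2 + M) := by
        refine Real.log_le_log (by (clear * -; positivity)) (by linarith only [g1, g2])
      rw [div_self hτ0.ne', Real.log_one, abs_zero, add_zero]
      linarith only [g3]
    have d5 : ‖p - b‖ ≤ KE + KL * (1 + Real.log (2 + M)) := by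
      have : p - b = (p - b2) + (b2 - b) := by abel
      rw [this]
      exact (norm_add_le _ _).trans (add_le_add d2 d4)
    have e1 : y + h • p - (lam * τ - 1) • b' = (y - (τ - 1) • b) + h • (p - b)
        + (lam * τ - 1) • (b - b') := by
      rw [← et, smul_sub, smul_sub, add_smul, add_smul]
      abel
    have n1 : ‖h • (p - b)‖ ≤ h * (KE + KL * (1 + Real.log (2 + M))) := by
      rw [norm_smul, Real.norm_eq_abs, abs_of_pos hh0]
      exact mul_le_mul_of_nonneg_left d5 hh0.le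
    have n2 : ‖(lam * τ - 1) • (b - b')‖ ≤ lam * τ * (5 * C₀) := by
      rw [norm_smul, Real.norm_eq_abs, abs_of_nonneg (by linarith only [hτ1, hhμ, hh0])]
      exact mul_le_mul (by linarith only []) d1 (norm_nonneg _) (by linarith only [hτ1, hhμ, hh0])
    have n3 : lam * τ * (5 * C₀) = h * (5 * C₀ * (1 + μ) / μ) := by
      rw [hhμ, hlam]; (clear * - hμ0 hτ1; field_simp)
    have n4 : h * (KE + KL * (1 + Real.log (2 + M))) + h * (5 * C₀ * (1 + μ) / μ) ≤ h * M := by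
      rw [← mul_add]
      refine mul_le_mul_of_nonneg_left ?_ hh0.le
      linarith only [hM]
    rw [e1]
    calc ‖(y - (τ - 1) • b) + h • (p - b) + (lam * τ - 1) • (b - b')‖
        ≤ ‖y - (τ - 1) • b‖ + ‖h • (p - b)‖ + ‖(lam * τ - 1) • (b - b')‖ := norm_add₃_le
      _ ≤ M * τ + h * M := by linarith only [hl, n1, n2, n3, n4]
      _ = M * (lam * τ) := by rw [← eτ]; ring
  -- induction
  have ind : ∀ n : ℕ, ∃ y : E, 1 ≤ lam ^ n ∧ UK V κ (lam ^ n) (lam ^ n - 1) y = q * lam ^ n ∧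
      ∀ (v k : ℝ) (b : E), IsCell C₀ V 0 0 (lam ^ n) v k b → ‖y - (lam ^ n - 1) • b‖ ≤
        M * lam ^ n := by
    intro n
    induction n with
    | zero =>
      refine ⟨0, by simp, by simpa using h1, ?_⟩
      intro v k b _
      simp only [pow_zero, sub_self, zero_smul, norm_zero, mul_one, hM0]
    | succ n ih =>
      obtain ⟨y, a1, a2, a3⟩ := ih
      obtain ⟨y', b1, b2, b3⟩ := step (lam ^ n) y a1 a2 a3
      have e : lam * lam ^ n = lam ^ (n + 1) := by ring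
      rw [e] at b1 b2 b3
      exact ⟨y', b1, b2, b3⟩
  intro j
  have hlam1 : 1 < lam := by rw [hlam]; linarith only [hμ0]
  obtain ⟨n, hn⟩ := pow_unbounded_of_one_lt (j : ℝ) hlam1
  obtain ⟨y, a1, a2, a3⟩ := ind n
  exact ⟨lam ^ n, y, hn.le, a1, a2, a3⟩

end Vale.Agent.P080.Zy
end

section

/-! Blow-down at the origin (P080, Theorem Z, G7). -/

open Set Filter Topology
open scoped RealInnerProductSpace

namespace Vale.Agent.P080.Zy

variable {E : Type*} [NormedAddCommGroup E] [InnerProductSpace ℝ E]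

set_option linter.unusedSectionVars false

namespace BlowDown

/-- change of the time slope in the gauge -/
theorem gauge_shift (V : ℝ → E → ℝ) {r : ℝ} (hr : 0 < r) (a k : ℝ) (c : E) (s : ℝ) (z : E) :
    gauge V 0 0 r a (‖c‖ ^ 2 / 2) c s z = gauge V 0 0 r a k c s z + cellE k c * s := by
  unfold gauge cellE
  field_simp
  ring

theorem Edn_gauge {K : ℝ} {V : ℝ → E → ℝ} (hK : Grow K V) {r : ℝ} (hr : 0 < r) (a k : ℝ) (c : E)
    {L : ℝ} (hL : 0 < L) :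
    Edn (gauge V 0 0 r a k c) L 0 0 = Edn V (r * L) 0 0 - cellE k c := by
  unfold Edn
  rw [fl_gauge hK 0 0 hr a k c hL.le 0 0]
  unfold gauge cellE
  simp only [mul_zero, add_zero, smul_zero, zero_smul, inner_zero_right, sub_zero, zero_sub]
  field_simp
  ring

theorem Eup_gauge {K : ℝ} {V : ℝ → E → ℝ} (hK : Grow K V) {r : ℝ} (hr : 0 < r) (a k : ℝ) (c : E)
    {L : ℝ} (hL : 0 < L) :
    Eup (gauge V 0 0 r a k c) L 0 0 = Eup V (r * L) 0 0 - cellE k c := by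
  unfold Eup
  rw [fu_gauge hK 0 0 hr a k c hL.le 0 0]
  unfold gauge cellE
  simp only [mul_zero, add_zero, smul_zero, zero_smul, inner_zero_right, sub_zero, zero_add]
  field_simp
  ring

theorem fu_le_self {C₀ : ℝ} {V : ℝ → E → ℝ} (hV : Z0 C₀ V) {L : ℝ} (hL : 0 < L) (t : ℝ) (y : E) :
    fu V L t y ≤ V t y := by
  obtain ⟨K, -, hK⟩ := hV.cls.grow
  refine ciSup_le fun q => ?_
  have h1 := hV.neg L hL (t + L) (y + L • q)
  have h2 := fl_le hK hL.le (t + L) (y + L • q) (-q)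
  rw [add_sub_cancel_right, smul_neg, add_neg_cancel_right, norm_neg] at h2
  linarith

theorem Edn_nonpos {C₀ : ℝ} {V : ℝ → E → ℝ} (hV : Z0 C₀ V) {L : ℝ} (hL : 0 < L) (t : ℝ) (y : E) :
    Edn V L t y ≤ 0 := by
  have h1 := hV.neg L hL t y
  unfold Edn
  exact div_nonpos_of_nonpos_of_nonneg (by linarith) hL.le

theorem Eup_nonpos {C₀ : ℝ} {V : ℝ → E → ℝ} (hV : Z0 C₀ V) {L : ℝ} (hL : 0 < L) (t : ℝ) (y : E) :
    Eup V L t y ≤ 0 := by
  have h1 := fu_le_self hV hL t y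
  unfold Eup
  exact div_nonpos_of_nonpos_of_nonneg (by linarith) hL.le

/-- a function on `(0,∞)`, nondecreasing and nonpositive, converges along `τ j * L`. -/
theorem exists_lim {f : ℝ → ℝ} (hmono : ∀ h h', 0 < h → h ≤ h' → f h ≤ f h')
    (hf : ∀ h, 0 < h → f h ≤ 0) : ∃ H : ℝ, ∀ (τ : ℕ → ℝ), Tendsto τ atTop atTop →
      Tendsto (fun j => f (τ j)) atTop (𝓝 H) := by
  have hg : Monotone (fun x : ℝ => f (max x 1)) := by
    intro x y hxy
    exact hmono _ _ (lt_max_of_lt_right one_pos) (max_le_max_right 1 hxy)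
  have hb : BddAbove (range fun x : ℝ => f (max x 1)) := by
    refine ⟨0, ?_⟩
    rintro _ ⟨x, rfl⟩
    exact hf _ (lt_max_of_lt_right one_pos)
  refine ⟨⨆ x : ℝ, f (max x 1), fun τ hτ => ?_⟩
  have h1 := (tendsto_atTop_ciSup hg hb).comp hτ
  refine h1.congr' ?_
  filter_upwards [hτ.eventually_ge_atTop 1] with j hj
  simp only [Function.comp_apply, max_eq_left hj]

theorem grow_fl {K : ℝ} (T : ℝ) : ∃ K' : ℝ, 0 < K' ∧ ∀ (V : ℝ → E → ℝ), Grow K V → ∀ a, 0 ≤ a →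
    a ≤ T → Grow K' (fl V a) := by
  by_cases hex : ∃ V : ℝ → E → ℝ, Grow K V
  · obtain ⟨V₀, hV₀⟩ := hex
    obtain ⟨K', hK'0, hK'⟩ := grow_fu hV₀ T
    refine ⟨K', hK'0, fun V hK a ha haT => ?_⟩
    have h1 := (hK' (Zy.refl V) hK.refl a ha haT).refl
    intro t y
    have h2 := h1 t y
    have h3 : Zy.refl (fu (Zy.refl V) a) t y = fl V a t y := by
      unfold Zy.refl
      have := fu_refl V a (-t) y
      unfold Zy.refl at this
      rw [this, neg_neg, neg_neg]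
    rwa [h3] at h2
  · exact ⟨1, one_pos, fun V hK => absurd ⟨V, hK⟩ hex⟩

theorem locUnif_at {F : ℕ → ℝ × E → ℝ} {f : ℝ × E → ℝ} (h : TendstoLocallyUniformly F f atTop)
    (x : ℝ × E) : Tendsto (fun n => F n x) atTop (𝓝 (f x)) := by
  rw [Metric.tendsto_nhds]
  intro ε hε
  obtain ⟨t, ht, h1⟩ := (Metric.tendstoLocallyUniformly_iff.1 h) ε hε x
  filter_upwards [h1] with n hn
  rw [dist_comm]
  exact hn x (mem_of_mem_nhds ht)

theorem locUnif_mul_fst {e : ℕ → ℝ} {e₀ : ℝ} (he : Tendsto e atTop (𝓝 e₀)) :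
    TendstoLocallyUniformly (fun n (p : ℝ × E) => e n * p.1) (fun p => e₀ * p.1) atTop := by
  rw [Metric.tendstoLocallyUniformly_iff]
  intro ε hε x
  refine ⟨Metric.ball x 1, Metric.ball_mem_nhds x one_pos, ?_⟩
  have h1 : 0 < ε / (|x.1| + 2) := by (clear * - hε; positivity)
  filter_upwards [Metric.tendsto_nhds.1 he _ h1] with n hn p hp
  have h2 : |p.1| ≤ |x.1| + 1 := by
    have h3 : dist p.1 x.1 < 1 := lt_of_le_of_lt (le_max_left _ _) hp
    rw [Real.dist_eq] at h3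
    have h4 := abs_sub_abs_le_abs_sub p.1 x.1
    linarith only [h3, h4]
  rw [Real.dist_eq, ← sub_mul, abs_mul, abs_sub_comm, ← Real.dist_eq]
  have h5 : dist (e n) e₀ * |p.1| ≤ dist (e n) e₀ * (|x.1| + 2) :=
    mul_le_mul_of_nonneg_left (by linarith) dist_nonneg
  have h6 := (lt_div_iff₀ (by positivity : 0 < |x.1| + 2)).1 hn
  linarith

end BlowDown

open BlowDown in
/-- G7: blow-down at the origin -/
theorem blow_down [FiniteDimensional ℝ E] {C₀ : ℝ} {V : ℝ → E → ℝ} (hV : Z0 C₀ V) (τ : ℕ → ℝ)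
    (hτ : ∀ j, 1 ≤ τ j) (hτ' : Tendsto τ atTop atTop) (v k : ℕ → ℝ) (b : ℕ → E)
    (hc : ∀ j, IsCell C₀ V 0 0 (τ j) (v j) (k j) (b j)) :
    ∃ (W : ℝ → E → ℝ) (φ : ℕ → ℕ) (H1 H2 K : ℝ), StrictMono φ ∧ Z0 C₀ W ∧ Grow K W ∧
      (∀ j, Grow K (gauge V 0 0 (τ j) (v j) (‖b j‖ ^ 2 / 2) (b j))) ∧
      TendstoLocallyUniformly (fun n (p : ℝ × E) =>
        gauge V 0 0 (τ (φ n)) (v (φ n)) (‖b (φ n)‖ ^ 2 / 2) (b (φ n)) p.1 p.2)
        (fun p => W p.1 p.2) atTop ∧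
      (∀ L, 0 ≤ L → fu W L 0 0 = W 0 0 + H1 * L) ∧ (∀ L, 0 ≤ L → fl W L 0 0 = W 0 0 - H2 * L) := by
  obtain ⟨KV, -, hKV⟩ := hV.cls.grow
  have hτ0 : ∀ j, 0 < τ j := fun j => one_pos.trans_le (hτ j)
  -- the normalised functions
  obtain ⟨G, hG⟩ : ∃ G : ℕ → ℝ → E → ℝ, G = fun j => gauge V 0 0 (τ j) (v j) (k j) (b j) :=
    ⟨_, rfl⟩
  have hGZ : ∀ j, ZClass C₀ (G j) := fun j => by
    rw [hG]; exact hV.cls.gauge 0 0 (hτ0 j) _ _ _
  have hGN : ∀ j, Norm1 C₀ (G j) := fun j => by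
    rw [hG]; exact (hc j).norm1_gauge (hτ0 j)
  obtain ⟨KG, hKG0, hKG'⟩ := growth (E := E) C₀
  have hKG : ∀ j, Grow KG (G j) := fun j => hKG' _ (hGZ j).flat (hGN j)
  obtain ⟨Kf, hKf0, hKf⟩ := grow_fl (E := E) (K := KG) 1
  -- the energies
  obtain ⟨e, he⟩ : ∃ e : ℕ → ℝ, e = fun j => cellE (k j) (b j) := ⟨_, rfl⟩
  have heq : ∀ j, e j = Edn V (τ j) 0 0 - Edn (G j) 1 0 0 := by
    intro j
    have := Edn_gauge hKV (hτ0 j) (v j) (k j) (b j) one_pos
    rw [mul_one] at this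
    rw [hG, he]
    simp only
    rw [this]
    ring
  obtain ⟨Me, hMe⟩ : ∃ Me, Me = |Edn V 1 0 0| + KG + Kf := ⟨_, rfl⟩
  have hMe0 : 0 ≤ Me := by rw [hMe]; (clear * - hKG0 hKf0; positivity)
  have heM : ∀ j, |e j| ≤ Me := by
    intro j
    have h1 := Edn_mono hV.cls one_pos (hτ j) 0 (0 : E)
    have h2 := Edn_nonpos hV (hτ0 j) 0 (0 : E)
    have h3 := hKG j 0 0
    have h4 := hKf _ (hKG j) 1 zero_le_one le_rfl 0 0
    simp only [abs_zero, norm_zero, add_zero, Real.one_rpow, mul_one] at h3 h4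
    have h5 : Edn (G j) 1 0 0 = G j 0 0 - fl (G j) 1 0 0 := by unfold Edn; rw [div_one]
    have h6 := neg_abs_le (Edn V 1 0 (0 : E))
    rw [heq, h5, abs_le]
    rw [abs_le] at h3 h4
    constructor <;> linarith
  -- the blow-downs
  obtain ⟨U, hU⟩ : ∃ U : ℕ → ℝ → E → ℝ,
      U = fun j => gauge V 0 0 (τ j) (v j) (‖b j‖ ^ 2 / 2) (b j) := ⟨_, rfl⟩
  have hUG : ∀ j s z, U j s z = G j s z + e j * s := by
    intro j s z
    rw [hU, hG, he]
    exact gauge_shift V (hτ0 j) (v j) (k j) (b j) s z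
  have hUc : ∀ j, Continuous (fun p : ℝ × E => U j p.1 p.2) := by
    intro j
    rw [hU]
    exact continuous_gauge hV.cls.cont 0 0 (τ j) (v j) _ (b j)
  have hUK : ∀ j, Grow (KG + Me) (U j) := by
    intro j s z
    rw [hUG]
    have h1 := hKG j s z
    have h2 := heM j
    have h3 : |s| ≤ (1 + |s| + ‖z‖) ^ (3 / 2 : ℝ) := by
      have h4 : 1 + |s| + ‖z‖ ≤ (1 + |s| + ‖z‖) ^ (3 / 2 : ℝ) := by
        apply Real.self_le_rpow_of_one_le _ (by norm_num)
        have := abs_nonneg s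
        have := norm_nonneg z
        (clear C₀ V hV τ hτ hτ' v k b hc KV hKV hτ0 G hG hGZ hGN KG hKG0 hKG' hKG Kf hKf0 hKf e he heq Me hMe hMe0 heM U hU hUG hUc j h1 h2; linarith)
      have := norm_nonneg z
      linarith only [h4, this]
    have h5 : |e j * s| ≤ Me * (1 + |s| + ‖z‖) ^ (3 / 2 : ℝ) := by
      rw [abs_mul]
      exact mul_le_mul h2 h3 (abs_nonneg _) hMe0
    have h6 := abs_add_le (G j s z) (e j * s)
    linarith only [h1, h5, h6]
  -- compactness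
  obtain ⟨Gi, φ, hφ, hGiZ, hGiN, hlim⟩ := ZClass.compact C₀ G hGZ hGN
  have hφt : Tendsto φ atTop atTop := hφ.tendsto_atTop
  have hGiK : Grow KG Gi := hKG' _ hGiZ.flat hGiN
  obtain ⟨H2, hH2⟩ := exists_lim (f := fun h => Edn V h 0 (0 : E))
    (fun h h' hh hh' => Edn_mono hV.cls hh hh' 0 0) (fun h hh => Edn_nonpos hV hh 0 0)
  obtain ⟨H1, hH1⟩ := exists_lim (f := fun h => Eup V h 0 (0 : E))
    (fun h h' hh hh' => Eup_mono hV.cls hh hh' 0 0) (fun h hh => Eup_nonpos hV hh 0 0)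
  have hτφ : Tendsto (fun n => τ (φ n)) atTop atTop := hτ'.comp hφt
  have hG0 : Tendsto (fun n => G (φ n) 0 0) atTop (𝓝 (Gi 0 0)) :=
    locUnif_at hlim ((0 : ℝ), (0 : E))
  have hGfl : Tendsto (fun n => fl (G (φ n)) 1 0 0) atTop (𝓝 (fl Gi 1 0 0)) :=
    fl_tendsto (V := fun n => G (φ n)) (fun n => (hGZ (φ n)).cont) (fun n => hKG (φ n)) hGiZ.cont
      hGiK hlim (fun _ => zero_le_one) tendsto_const_nhds tendsto_const_nhds tendsto_const_nhds
  obtain ⟨ei, hei⟩ : ∃ ei, ei = H2 - Edn Gi 1 0 0 := ⟨_, rfl⟩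
  have hee : Tendsto (fun n => e (φ n)) atTop (𝓝 ei) := by
    have h1 : Tendsto (fun n => Edn V (τ (φ n)) 0 0 - (G (φ n) 0 0 - fl (G (φ n)) 1 0 0) / 1) atTop
        (𝓝 (H2 - (Gi 0 0 - fl Gi 1 0 0) / 1)) :=
      (hH2 _ hτφ).sub ((hG0.sub hGfl).div_const 1)
    rw [hei]
    refine h1.congr fun n => ?_
    rw [heq]
    rfl
  obtain ⟨W, hW⟩ : ∃ W : ℝ → E → ℝ, W = fun s z => Gi s z + ei * s := ⟨_, rfl⟩
  have hWg : W = gauge Gi 0 0 1 0 (-ei) 0 := by
    rw [hW]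
    funext s z
    unfold gauge
    simp
  have hWZ : ZClass C₀ W := by
    rw [hWg]
    exact hGiZ.gauge 0 0 one_pos 0 (-ei) 0
  have hUW : TendstoLocallyUniformly (fun n (p : ℝ × E) => U (φ n) p.1 p.2)
      (fun p => W p.1 p.2) atTop := by
    have h1 := hlim.add (locUnif_mul_fst (E := E) hee)
    have h2 : (fun p : ℝ × E => W p.1 p.2) = (fun p : ℝ × E => Gi p.1 p.2) +
        (fun p : ℝ × E => ei * p.1) := by
      rw [hW]; rfl
    have h3 : (fun (n : ℕ) (p : ℝ × E) => U (φ n) p.1 p.2) =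
        (fun (n : ℕ) (p : ℝ × E) => G (φ n) p.1 p.2) +
        (fun (n : ℕ) (p : ℝ × E) => e (φ n) * p.1) := by
      funext n p
      exact hUG (φ n) p.1 p.2
    rw [h2, h3]
    exact h1
  have hWK : Grow (KG + Me) W := by
    intro s z
    have h1 : Tendsto (fun n => |U (φ n) s z|) atTop (𝓝 |W s z|) :=
      (locUnif_at hUW ((s, z) : ℝ × E)).abs
    exact le_of_tendsto' h1 fun n => hUK (φ n) s z
  have hfl : ∀ L, 0 ≤ L → ∀ t y, Tendsto (fun n => fl (U (φ n)) L t y) atTop (𝓝 (fl W L t y)) :=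
    fun L hL t y => fl_tendsto (V := fun n => U (φ n)) (fun n => hUc (φ n)) (fun n => hUK (φ n))
      hWZ.cont hWK hUW (fun _ => hL) tendsto_const_nhds tendsto_const_nhds tendsto_const_nhds
  have hfu : ∀ L, 0 ≤ L → ∀ t y, Tendsto (fun n => fu (U (φ n)) L t y) atTop (𝓝 (fu W L t y)) :=
    fun L hL t y => fu_tendsto (V := fun n => U (φ n)) (fun n => hUc (φ n)) (fun n => hUK (φ n))
      hWZ.cont hWK hUW (fun _ => hL) tendsto_const_nhds tendsto_const_nhds tendsto_const_nhds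
  have hU0 : ∀ t y, Tendsto (fun n => U (φ n) t y) atTop (𝓝 (W t y)) :=
    fun t y => locUnif_at hUW ((t, y) : ℝ × E)
  have hUneg : ∀ j L, 0 < L → ∀ t y, U j t y ≤ fl (U j) L t y := by
    intro j L hL t y
    rw [hU]
    simp only
    rw [fl_gauge hKV 0 0 (hτ0 j) (v j) (‖b j‖ ^ 2 / 2) (b j) hL.le t y]
    have h1 := hV.neg (τ j * L) (mul_pos (hτ0 j) hL) (0 + τ j * t)
      ((0 : E) + τ j • y + (τ j * t) • b j)
    unfold gauge
    rw [← sub_nonneg]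
    have h2 : (fl V (τ j * L) (0 + τ j * t) (0 + τ j • y + (τ j * t) • b j) - v j
        - τ j * ⟪b j, y⟫ - ‖b j‖ ^ 2 / 2 * (τ j * (t - L))) / τ j - L * ‖b j‖ ^ 2 / 2
        - (V (0 + τ j * t) (0 + τ j • y + (τ j * t) • b j) - v j - τ j * ⟪b j, y⟫
          - ‖b j‖ ^ 2 / 2 * (τ j * t)) / τ j
        = (fl V (τ j * L) (0 + τ j * t) (0 + τ j • y + (τ j * t) • b j)
          - V (0 + τ j * t) (0 + τ j • y + (τ j * t) • b j)) / τ j := by
      have := (hτ0 j).ne'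
      field_simp
      ring
    rw [h2]
    exact div_nonneg (by linarith only [h1]) (hτ0 j).le
  have hcell0 : ∀ c : E, cellE (‖c‖ ^ 2 / 2) c = 0 := fun c => by unfold cellE; ring
  refine ⟨W, φ, H1, H2, KG + Me, hφ, ⟨hWZ, ?_⟩, hWK, ?_, ?_, ?_, ?_⟩
  · intro L hL t y
    exact le_of_tendsto_of_tendsto' (hU0 t y) (hfl L hL.le t y) fun n => hUneg (φ n) L hL t y
  · intro j
    have := hUK j
    rwa [hU] at this
  · have := hUW
    rwa [hU] at this
  · intro L hL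
    rcases hL.eq_or_lt with h0 | hL
    · rw [← h0, fu_zero, mul_zero, add_zero]
    · have h1 : Tendsto (fun n => U (φ n) 0 0 + Eup V (τ (φ n) * L) 0 0 * L) atTop
          (𝓝 (W 0 0 + H1 * L)) :=
        (hU0 0 0).add ((hH1 _ (hτφ.atTop_mul_const hL)).mul_const L)
      refine tendsto_nhds_unique (hfu L hL.le 0 0) (h1.congr fun n => ?_)
      have h2 := Eup_gauge hKV (hτ0 (φ n)) (v (φ n)) (‖b (φ n)‖ ^ 2 / 2) (b (φ n)) hL
      rw [hcell0, sub_zero] at h2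
      rw [← h2, hU]
      unfold Eup
      rw [div_mul_cancel₀ _ hL.ne']
      ring
  · intro L hL
    rcases hL.eq_or_lt with h0 | hL
    · rw [← h0, fl_zero, mul_zero, sub_zero]
    · have h1 : Tendsto (fun n => U (φ n) 0 0 - Edn V (τ (φ n) * L) 0 0 * L) atTop
          (𝓝 (W 0 0 - H2 * L)) :=
        (hU0 0 0).sub ((hH2 _ (hτφ.atTop_mul_const hL)).mul_const L)
      refine tendsto_nhds_unique (hfl L hL.le 0 0) (h1.congr fun n => ?_)
      have h2 := Edn_gauge hKV (hτ0 (φ n)) (v (φ n)) (‖b (φ n)‖ ^ 2 / 2) (b (φ n)) hL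
      rw [hcell0, sub_zero] at h2
      rw [← h2, hU]
      unfold Edn
      rw [div_mul_cancel₀ _ hL.ne']
      ring

end Vale.Agent.P080.Zy
end

section

/-! END lemma of Theorem Z (helper33): constant forward and backward energies at the origin force
the function to be affine. -/

open Set Filter Topology
open scoped RealInnerProductSpace

namespace Vale.Agent.P080.Zy

variable {E : Type*} [NormedAddCommGroup E] [InnerProductSpace ℝ E]

namespace EndL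

lemma fu_zero (V : ℝ → E → ℝ) (t : ℝ) (y : E) : fu V 0 t y = V t y := by
  unfold fu
  simp only [add_zero, zero_smul, zero_div, zero_mul, sub_zero, ciSup_const]

lemma fl_zero (V : ℝ → E → ℝ) (t : ℝ) (y : E) : fl V 0 t y = V t y := by
  unfold fl
  simp only [sub_zero, zero_smul, add_zero, zero_div, zero_mul, ciInf_const]

omit [InnerProductSpace ℝ E] in
/-- Splitting of the cost: `|z|²/(2(a+b)) ≤ |y|²/(2a) + |z-y|²/(2b)`. -/
lemma cost_split {a b : ℝ} (ha : 0 < a) (hb : 0 < b) (y z : E) :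
    ‖z‖ ^ 2 / (2 * (a + b)) ≤ ‖y‖ ^ 2 / (2 * a) + ‖z - y‖ ^ 2 / (2 * b) := by
  have h1 : ‖z‖ ≤ ‖y‖ + ‖z - y‖ := by
    have := norm_add_le y (z - y)
    simpa using this
  have h2 : ‖z‖ ^ 2 ≤ (‖y‖ + ‖z - y‖) ^ 2 := by
    have := norm_nonneg z
    gcongr
  rw [div_add_div _ _ (by positivity) (by positivity), div_le_div_iff₀ (by positivity)
    (by positivity)]
  have h3 := norm_nonneg y
  have h4 := norm_nonneg (z - y)
  have h5 : (‖y‖ + ‖z - y‖) ^ 2 * (a * b) ≤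
      (a + b) * (b * ‖y‖ ^ 2 + a * ‖z - y‖ ^ 2) := by
    linarith only [sq_nonneg (b * ‖y‖ - a * ‖z - y‖)]
  have h6 : ‖z‖ ^ 2 * (a * b) ≤ (‖y‖ + ‖z - y‖) ^ 2 * (a * b) := by gcongr
  linarith

/-- Forward inequality at positive times. -/
lemma fwd_pos {V : ℝ → E → ℝ} (up : ∀ t y, ConvexOn ℝ (Ici 0) (fun L => fu V L t y)) {a H : ℝ}
    (u1 : ∀ L, 0 < L → ∀ z, V L z ≤ a + H * L + ‖z‖ ^ 2 / (2 * L)) {t : ℝ} (ht : 0 < t) (y : E)
    {L : ℝ} (hL : 0 < L) (z : E) : V (t + L) z ≤ V t y + H * L + ‖z - y‖ ^ 2 / (2 * L) := by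
  obtain ⟨K, hK⟩ : ∃ K, K = a + H * t + ‖y‖ ^ 2 / (2 * t) := ⟨_, rfl⟩
  have hel : ∀ M, 0 < M → ∀ q : E, V (t + M) (y + M • q) - M / 2 * ‖q‖ ^ 2 ≤ K + H * M := by
    intro M hM q
    have h1 := u1 (t + M) (by linarith only [ht, hM]) (y + M • q)
    have h2 := cost_split ht hM y (y + M • q)
    have h3 : ‖y + M • q - y‖ ^ 2 / (2 * M) = M / 2 * ‖q‖ ^ 2 := by
      rw [add_sub_cancel_left, norm_smul, Real.norm_of_nonneg hM.le]
      field_simp
    rw [h3] at h2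
    rw [hK]
    linarith only [h1, h2]
  have hfu : ∀ M, 0 < M → fu V M t y ≤ K + H * M := fun M hM => ciSup_le (hel M hM)
  have hconv : ∀ M, L ≤ M → fu V L t y ≤ V t y + H * L + (L / M) * (K - V t y) := by
    intro M hM
    have hM0 : 0 < M := hL.trans_le hM
    have h1 := (up t y).2 (mem_Ici.2 le_rfl) (mem_Ici.2 hM0.le)
      (sub_nonneg.2 ((div_le_one hM0).2 hM)) (div_nonneg hL.le hM0.le) (by ring)
    simp only [smul_eq_mul, mul_zero, zero_add] at h1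
    rw [fu_zero, div_mul_cancel₀ _ hM0.ne'] at h1
    refine h1.trans ?_
    have h2 : L / M * fu V M t y ≤ L / M * (K + H * M) :=
      mul_le_mul_of_nonneg_left (hfu M hM0) (div_nonneg hL.le hM0.le)
    have h3 : L / M * (H * M) = H * L := by (clear * - hM0 hL; field_simp)
    linarith only [h3, h2]
  have hlim : Tendsto (fun M : ℝ => V t y + H * L + (L / M) * (K - V t y)) atTop
      (𝓝 (V t y + H * L + 0 * (K - V t y))) := by
    apply Tendsto.const_add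
    apply Tendsto.mul_const
    exact tendsto_const_nhds.div_atTop tendsto_id
  have h4 : fu V L t y ≤ V t y + H * L := by
    have := ge_of_tendsto hlim (by
      filter_upwards [eventually_ge_atTop L] with M hM
      exact hconv M hM)
    simpa using this
  have hbdd : BddAbove (range fun q : E => V (t + L) (y + L • q) - L / 2 * ‖q‖ ^ 2) :=
    ⟨K + H * L, by rintro _ ⟨q, rfl⟩; exact hel L hL q⟩
  have h5 := le_ciSup hbdd (L⁻¹ • (z - y))
  have h6 : y + L • L⁻¹ • (z - y) = z := by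
    rw [smul_smul, mul_inv_cancel₀ hL.ne', one_smul]
    abel
  have h7 : L / 2 * ‖L⁻¹ • (z - y)‖ ^ 2 = ‖z - y‖ ^ 2 / (2 * L) := by
    rw [norm_smul, Real.norm_of_nonneg (inv_nonneg.2 hL.le)]
    (clear * - hL; field_simp)
  have h8 : V (t + L) z - ‖z - y‖ ^ 2 / (2 * L) ≤ fu V L t y := by
    unfold fu
    refine le_trans (le_of_eq ?_) h5
    rw [h6, h7]
  linarith only [h4, h8]

/-- Forward inequality at nonnegative times. -/
lemma fwd {V : ℝ → E → ℝ} (hc : Continuous (fun p : ℝ × E => V p.1 p.2))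
    (up : ∀ t y, ConvexOn ℝ (Ici 0) (fun L => fu V L t y)) {a H : ℝ}
    (u1 : ∀ L, 0 < L → ∀ z, V L z ≤ a + H * L + ‖z‖ ^ 2 / (2 * L)) {t : ℝ} (ht : 0 ≤ t) (y : E)
    {L : ℝ} (hL : 0 < L) (z : E) : V (t + L) z ≤ V t y + H * L + ‖z - y‖ ^ 2 / (2 * L) := by
  rcases ht.lt_or_eq with h | h
  · exact fwd_pos up u1 h y hL z
  · subst h
    have c1 : Tendsto (fun s : ℝ => V (s + L) z) (𝓝[>] 0) (𝓝 (V (0 + L) z)) := by
      have : Continuous fun s : ℝ => V (s + L) z :=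
        hc.comp ((continuous_id.add continuous_const).prodMk continuous_const)
      exact (this.tendsto 0).mono_left nhdsWithin_le_nhds
    have c2 : Tendsto (fun s : ℝ => V s y + H * L + ‖z - y‖ ^ 2 / (2 * L)) (𝓝[>] 0)
        (𝓝 (V 0 y + H * L + ‖z - y‖ ^ 2 / (2 * L))) := by
      have : Continuous fun s : ℝ => V s y + H * L + ‖z - y‖ ^ 2 / (2 * L) := by
        have h1 : Continuous fun s : ℝ => V s y :=
          hc.comp (continuous_id.prodMk continuous_const)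
        fun_prop
      exact (this.tendsto 0).mono_left nhdsWithin_le_nhds
    refine le_of_tendsto_of_tendsto c1 c2 ?_
    filter_upwards [self_mem_nhdsWithin] with s hs
    exact fwd_pos up u1 hs y hL z

/-- The forward energy is at most the backward energy. -/
lemma H_le {V : ℝ → E → ℝ} (dn : ∀ t y, ConcaveOn ℝ (Ici 0) (fun L => fl V L t y)) {H1 H2 : ℝ}
    (P1 : ∀ t, 0 ≤ t → ∀ y, ∀ L, 0 < L → ∀ z, V (t + L) z ≤ V t y + H1 * L + ‖z - y‖ ^ 2 / (2 * L))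
    (P2 : ∀ t, 0 ≤ t → ∀ y, ∀ L, 0 < L → ∀ z,
      V (-t) y ≤ V (-(t + L)) z + H2 * L + ‖z - y‖ ^ 2 / (2 * L))
    {q : E} (hq : V 1 q = V 0 0 + H1 + 1 / 2 * ‖q‖ ^ 2) : H1 ≤ H2 := by
  have hel1 : ∀ e : E, V 1 q - H1 ≤ V (1 - 1) (q + (1 : ℝ) • e) + 1 / 2 * ‖e‖ ^ 2 := by
    intro e
    have h1 := P1 0 le_rfl (q + (1 : ℝ) • e) 1 one_pos q
    rw [zero_add, sub_add_cancel_left, one_smul, norm_neg] at h1
    rw [sub_self, one_smul]
    linarith only [h1]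
  have hb1 : BddBelow (range fun e : E => V (1 - 1) (q + (1 : ℝ) • e) + 1 / 2 * ‖e‖ ^ 2) :=
    ⟨V 1 q - H1, by rintro _ ⟨e, rfl⟩; exact hel1 e⟩
  have h1 : fl V 1 1 q ≤ V 1 q - H1 := by
    have := ciInf_le hb1 (-q)
    unfold fl
    refine this.trans (le_of_eq ?_)
    rw [sub_self, one_smul, add_neg_cancel, norm_neg, hq]
    ring
  have h2 : V 1 q - H1 - H2 ≤ fl V 2 1 q := by
    unfold fl
    apply le_ciInf
    intro e
    obtain ⟨y0, hy0⟩ : ∃ y0, y0 = q + e := ⟨_, rfl⟩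
    have a1 := P1 0 le_rfl y0 1 one_pos q
    have a2 := P2 0 le_rfl y0 1 one_pos (q + (2 : ℝ) • e)
    have e1 : q - y0 = -e := by rw [hy0]; abel
    have e2 : q + (2 : ℝ) • e - y0 = e := by rw [hy0, two_smul]; abel
    rw [e1, norm_neg] at a1
    rw [e2] at a2
    have e3 : (1 : ℝ) - 2 = -(0 + 1) := by norm_num
    rw [e3]
    rw [zero_add] at a1
    rw [neg_zero] at a2
    linarith only [a1, a2]
  have h3 := (dn 1 q).2 (mem_Ici.2 (le_refl (0 : ℝ))) (mem_Ici.2 (zero_le_two (α := ℝ)))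
    (by norm_num : (0 : ℝ) ≤ 1 / 2) (by norm_num : (0 : ℝ) ≤ 1 / 2) (by norm_num)
  simp only [smul_eq_mul, mul_zero, zero_add] at h3
  rw [fl_zero] at h3
  have e4 : (1 : ℝ) / 2 * 2 = 1 := by norm_num
  rw [e4] at h3
  linarith only [h1, h2, h3]

end EndL

open EndL

theorem affine_core {V : ℝ → E → ℝ} (hc : Continuous (fun p : ℝ × E => V p.1 p.2))
    (up : ∀ t y, ConvexOn ℝ (Ici 0) (fun L => fu V L t y))
    (dn : ∀ t y, ConcaveOn ℝ (Ici 0) (fun L => fl V L t y)) {H1 H2 : ℝ}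
    (u1 : ∀ L, 0 < L → ∀ z, V L z ≤ V 0 0 + H1 * L + ‖z‖ ^ 2 / (2 * L))
    (u2 : ∀ L, 0 < L → ∃ q : E, V L (L • q) = V 0 0 + H1 * L + L / 2 * ‖q‖ ^ 2)
    (l1 : ∀ L, 0 < L → ∀ z, V 0 0 - H2 * L - ‖z‖ ^ 2 / (2 * L) ≤ V (-L) z)
    (l2 : ∀ L, 0 < L → ∃ q : E, V (-L) (L • q) = V 0 0 - H2 * L - L / 2 * ‖q‖ ^ 2) :
    ∃ (a k : ℝ) (b : E), ∀ t y, V t y = a + ⟪b, y⟫ + k * t := by
  have hcr : Continuous (fun p : ℝ × E => refl V p.1 p.2) := by
    unfold refl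
    exact (hc.comp ((continuous_fst.neg).prodMk continuous_snd)).neg
  have upr : ∀ t y, ConvexOn ℝ (Ici 0) (fun L => fu (refl V) L t y) := by
    intro t y
    have : (fun L => fu (refl V) L t y) = -(fun L => fl V L (-t) y) := by
      ext L
      rw [fu_refl]
      rfl
    rw [this]
    exact (dn (-t) y).neg
  have dnr : ∀ t y, ConcaveOn ℝ (Ici 0) (fun L => fl (refl V) L t y) := by
    intro t y
    have h0 : refl (refl V) = V := by
      ext t y
      simp [refl]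
    have : (fun L => fl (refl V) L t y) = -(fun L => fu V L (-t) y) := by
      ext L
      have := fu_refl (refl V) L (-t) y
      rw [h0, neg_neg] at this
      simp only [Pi.neg_apply]
      linarith
    rw [this]
    exact (up (-t) y).neg
  have P1 : ∀ t, 0 ≤ t → ∀ y, ∀ L, 0 < L → ∀ z,
      V (t + L) z ≤ V t y + H1 * L + ‖z - y‖ ^ 2 / (2 * L) :=
    fun t ht y L hL z => fwd hc up u1 ht y hL z
  have P2 : ∀ t, 0 ≤ t → ∀ y, ∀ L, 0 < L → ∀ z,
      V (-t) y ≤ V (-(t + L)) z + H2 * L + ‖z - y‖ ^ 2 / (2 * L) := by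
    intro t ht y L hL z
    have := fwd (V := refl V) (a := - V 0 0) (H := H2) hcr upr (by
      intro L hL z
      have := l1 L hL z
      unfold refl
      linarith) ht y hL z
    unfold refl at this
    linarith
  have hH : H1 = H2 := by
    apply le_antisymm
    · obtain ⟨q, hq⟩ := u2 1 one_pos
      rw [one_smul, mul_one] at hq
      exact H_le dn P1 P2 hq
    · obtain ⟨q, hq⟩ := l2 1 one_pos
      rw [one_smul, mul_one] at hq
      refine H_le (V := refl V) (H1 := H2) (H2 := H1) (q := q) dnr ?_ ?_ ?_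
      · intro t ht y L hL z
        have := P2 t ht y L hL z
        unfold refl
        linarith only [this]
      · intro t ht y L hL z
        have := P1 t ht y L hL z
        unfold refl
        rw [neg_neg, neg_neg]
        linarith only [this]
      · unfold refl
        rw [neg_zero, hq]
        ring
  subst hH
  -- the inequality across all times
  have P : ∀ s t, s < t → ∀ y z, V t z ≤ V s y + H1 * (t - s) + ‖z - y‖ ^ 2 / (2 * (t - s)) := by
    intro s t hst y z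
    rcases le_or_gt 0 s with hs | hs
    · have := P1 s hs y (t - s) (sub_pos.2 hst) z
      rwa [add_sub_cancel] at this
    · rcases le_or_gt t 0 with ht | ht
      · have := P2 (-t) (neg_nonneg.2 ht) z (t - s) (sub_pos.2 hst) y
        rw [neg_neg, norm_sub_rev] at this
        have e : -(-t + (t - s)) = s := by ring
        rwa [e] at this
      · obtain ⟨x, hx⟩ : ∃ x, x = y + (-s / (t - s)) • (z - y) := ⟨_, rfl⟩
        have hts : 0 < t - s := sub_pos.2 hst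
        have a1 := P1 0 le_rfl x t ht z
        have a2 := P2 0 le_rfl x (-s) (neg_pos.2 hs) y
        rw [zero_add] at a1 a2
        rw [neg_zero, neg_neg] at a2
        have e1 : z - x = (t / (t - s)) • (z - y) := by
          have : t / (t - s) = 1 - (-s / (t - s)) := by field_simp; ring
          rw [hx, this, sub_smul, one_smul]
          abel
        have e2 : y - x = -((-s / (t - s)) • (z - y)) := by
          rw [hx]
          abel
        rw [e1, norm_smul, Real.norm_of_nonneg (div_nonneg ht.le hts.le)] at a1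
        rw [e2, norm_neg, norm_smul, Real.norm_of_nonneg (div_nonneg (neg_pos.2 hs).le hts.le)] at a2
        have e3 : (t / (t - s) * ‖z - y‖) ^ 2 / (2 * t) +
            (-s / (t - s) * ‖z - y‖) ^ 2 / (2 * -s) = ‖z - y‖ ^ 2 / (2 * (t - s)) := by
          have hs' : s ≠ 0 := hs.ne
          field_simp
          ring
        linarith only [a1, a2, e3]
  obtain ⟨w, hw⟩ := l2 1 one_pos
  rw [one_smul, mul_one] at hw
  -- uniqueness of the direction
  have hdir : ∀ L M : ℝ, 0 < L → 0 < M → ∀ q e : E,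
      V L (L • q) = V 0 0 + H1 * L + L / 2 * ‖q‖ ^ 2 →
      V (-M) (M • e) = V 0 0 - H1 * M - M / 2 * ‖e‖ ^ 2 → q = -e := by
    intro L M hL hM q e h1 h2
    have h3 := P (-M) L (by linarith only [hL, hM]) (M • e) (L • q)
    have e0 : L - -M = L + M := by ring
    rw [e0, h1, h2] at h3
    have h4 : ‖L • q - M • e‖ ^ 2 = L ^ 2 * ‖q‖ ^ 2 - 2 * (L * M) * ⟪q, e⟫ + M ^ 2 * ‖e‖ ^ 2 := by
      rw [norm_sub_sq_real, norm_smul, norm_smul, real_inner_smul_left, real_inner_smul_right,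
        Real.norm_of_nonneg hL.le, Real.norm_of_nonneg hM.le]
      ring
    have h5 : ‖q + e‖ ^ 2 = ‖q‖ ^ 2 + 2 * ⟪q, e⟫ + ‖e‖ ^ 2 := norm_add_sq_real q e
    rw [h4] at h3
    have hLM : 0 < L + M := by linarith only [hL, hM]
    have h6 : L / 2 * ‖q‖ ^ 2 + M / 2 * ‖e‖ ^ 2 ≤
        (L ^ 2 * ‖q‖ ^ 2 - 2 * (L * M) * ⟪q, e⟫ + M ^ 2 * ‖e‖ ^ 2) / (2 * (L + M)) := by
      linarith only [h3]
    rw [le_div_iff₀ (by positivity)] at h6
    have h7 : L * M * ‖q + e‖ ^ 2 ≤ 0 := by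
      rw [h5]
      linarith only [h6]
    have h8 : ‖q + e‖ ^ 2 ≤ 0 := by
      by_contra hcon
      push Not at hcon
      have : 0 < L * M * ‖q + e‖ ^ 2 := by (clear * - hL hM hcon; positivity)
      linarith only [h7, this]
    have h9 : ‖q + e‖ = 0 := by
      have := sq_nonneg ‖q + e‖
      exact pow_eq_zero_iff (two_ne_zero) |>.1 (le_antisymm h8 this)
    exact eq_neg_of_add_eq_zero_left (norm_eq_zero.1 h9)
  obtain ⟨q, hqd⟩ : ∃ q, q = -w := ⟨_, rfl⟩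
  have hw' : V (-1) ((1 : ℝ) • w) = V 0 0 - H1 * 1 - 1 / 2 * ‖w‖ ^ 2 := by
    rw [one_smul, mul_one]
    exact hw
  have hpos : ∀ L, 0 < L → V L (L • q) = V 0 0 + H1 * L + L / 2 * ‖q‖ ^ 2 := by
    intro L hL
    obtain ⟨q', hq'⟩ := u2 L hL
    have := hdir L 1 hL one_pos q' w hq' hw'
    rw [hqd, ← this]
    exact hq'
  have hneg : ∀ M, 0 < M → V (-M) (M • -q) = V 0 0 - H1 * M - M / 2 * ‖q‖ ^ 2 := by
    intro M hM
    obtain ⟨e, he⟩ := l2 M hM
    have h1 := hpos 1 one_pos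
    have := hdir 1 M one_pos hM q e h1 he
    have h2 : e = -q := by rw [this, neg_neg]
    rw [← h2, he, h2, norm_neg]
  refine ⟨V 0 0, H1 - ‖q‖ ^ 2 / 2, q, fun t y => ?_⟩
  have hlim : ∀ c : ℝ, Tendsto (fun M : ℝ => c / (2 * (t + M))) atTop (𝓝 0) := by
    intro c
    apply tendsto_const_nhds.div_atTop
    apply Tendsto.const_mul_atTop two_pos
    exact tendsto_atTop_add_const_left _ _ tendsto_id
  have hlim' : ∀ c : ℝ, Tendsto (fun M : ℝ => c / (2 * (M - t))) atTop (𝓝 0) := by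
    intro c
    apply tendsto_const_nhds.div_atTop
    apply Tendsto.const_mul_atTop two_pos
    exact tendsto_atTop_add_const_right _ _ tendsto_id
  apply le_antisymm
  · have hT : Tendsto (fun M : ℝ => V 0 0 + ⟪q, y⟫ + (H1 - ‖q‖ ^ 2 / 2) * t +
        ‖y - t • q‖ ^ 2 / (2 * (t + M))) atTop
        (𝓝 (V 0 0 + ⟪q, y⟫ + (H1 - ‖q‖ ^ 2 / 2) * t + 0)) := (hlim _).const_add _
    rw [add_zero] at hT
    refine ge_of_tendsto hT ?_
    filter_upwards [eventually_gt_atTop 0, eventually_gt_atTop (-t)] with M hM hMt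
    have hMt' : 0 < t + M := by linarith only [hMt]
    have h1 := P (-M) t (by linarith only [hMt]) (M • -q) y
    rw [hneg M hM] at h1
    refine h1.trans (le_of_eq ?_)
    have e0 : t - -M = t + M := by ring
    have e1 : y - M • -q = (y - t • q) + (t + M) • q := by
      rw [smul_neg, add_smul]
      abel
    rw [e0, e1, norm_add_sq_real (y - t • q) ((t + M) • q), norm_smul, real_inner_smul_right,
      inner_sub_left, real_inner_smul_left, real_inner_self_eq_norm_sq, real_inner_comm,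
      Real.norm_of_nonneg hMt'.le]
    field_simp
    ring
  · have hT : Tendsto (fun M : ℝ => V 0 0 + ⟪q, y⟫ + (H1 - ‖q‖ ^ 2 / 2) * t -
        ‖t • q - y‖ ^ 2 / (2 * (M - t))) atTop
        (𝓝 (V 0 0 + ⟪q, y⟫ + (H1 - ‖q‖ ^ 2 / 2) * t - 0)) := (hlim' _).const_sub _
    rw [sub_zero] at hT
    refine le_of_tendsto hT ?_
    filter_upwards [eventually_gt_atTop 0, eventually_gt_atTop t] with M hM hMt
    have hMt' : 0 < M - t := by linarith only [hMt]
    have h1 := P t M hMt y (M • q)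
    rw [hpos M hM] at h1
    have e1 : M • q - y = (t • q - y) + (M - t) • q := by
      rw [sub_smul]
      abel
    have e2 : ‖M • q - y‖ ^ 2 / (2 * (M - t)) = ‖t • q - y‖ ^ 2 / (2 * (M - t)) +
        (t * ‖q‖ ^ 2 - ⟪q, y⟫) + (M - t) / 2 * ‖q‖ ^ 2 := by
      rw [e1, norm_add_sq_real (t • q - y) ((M - t) • q), norm_smul, real_inner_smul_right,
        inner_sub_left, real_inner_smul_left, real_inner_self_eq_norm_sq, real_inner_comm,
        Real.norm_of_nonneg hMt'.le]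
      (clear * - hMt; field_simp)
    rw [e2] at h1
    linarith only [h1]

/-- END lemma, with boundedness and attainment at the origin as hypotheses. -/
theorem affine_of_const_of_attained {V : ℝ → E → ℝ}
    (hc : Continuous (fun p : ℝ × E => V p.1 p.2))
    (up : ∀ t y, ConvexOn ℝ (Ici 0) (fun L => fu V L t y))
    (dn : ∀ t y, ConcaveOn ℝ (Ici 0) (fun L => fl V L t y)) {H1 H2 : ℝ}
    (h1 : ∀ L, 0 ≤ L → fu V L 0 0 = V 0 0 + H1 * L)
    (h2 : ∀ L, 0 ≤ L → fl V L 0 0 = V 0 0 - H2 * L)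
    (b1 : ∀ L, 0 < L → BddAbove (range fun q : E => V (0 + L) (0 + L • q) - L / 2 * ‖q‖ ^ 2))
    (a1 : ∀ L, 0 < L → ∃ q : E, fu V L 0 0 = V (0 + L) (0 + L • q) - L / 2 * ‖q‖ ^ 2)
    (b2 : ∀ L, 0 < L → BddBelow (range fun q : E => V (0 - L) (0 + L • q) + L / 2 * ‖q‖ ^ 2))
    (a2 : ∀ L, 0 < L → ∃ q : E, fl V L 0 0 = V (0 - L) (0 + L • q) + L / 2 * ‖q‖ ^ 2) :
    ∃ (a k : ℝ) (b : E), ∀ t y, V t y = a + ⟪b, y⟫ + k * t := by
  have hn : ∀ (L : ℝ), 0 < L → ∀ z : E, L / 2 * ‖L⁻¹ • z‖ ^ 2 = ‖z‖ ^ 2 / (2 * L) := by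
    intro L hL z
    rw [norm_smul, Real.norm_of_nonneg (inv_nonneg.2 hL.le)]
    (clear * - hL; field_simp)
  have hz : ∀ (L : ℝ), 0 < L → ∀ z : E, (0 : E) + L • L⁻¹ • z = z := by
    intro L hL z
    rw [zero_add, smul_smul, mul_inv_cancel₀ hL.ne', one_smul]
  refine affine_core (H1 := H1) (H2 := H2) hc up dn ?_ ?_ ?_ ?_
  · intro L hL z
    have h := le_ciSup (b1 L hL) (L⁻¹ • z)
    have h' := h1 L hL.le
    unfold fu at h'
    rw [h', hz L hL, hn L hL, zero_add] at h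
    linarith
  · intro L hL
    obtain ⟨q, hq⟩ := a1 L hL
    refine ⟨q, ?_⟩
    rw [h1 L hL.le, zero_add, zero_add] at hq
    linarith only [hq]
  · intro L hL z
    have h := ciInf_le (b2 L hL) (L⁻¹ • z)
    have h' := h2 L hL.le
    unfold fl at h'
    rw [h', hz L hL, hn L hL, zero_sub] at h
    linarith only [h]
  · intro L hL
    obtain ⟨q, hq⟩ := a2 L hL
    refine ⟨q, ?_⟩
    rw [h2 L hL.le, zero_add, zero_sub] at hq
    linarith only [hq]

end Vale.Agent.P080.Zy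
end

section

/-! G8: END lemma of Theorem Z (helper33). -/

open Set Filter Topology
open scoped RealInnerProductSpace

namespace Vale.Agent.P080.Zy

variable {E : Type*} [NormedAddCommGroup E] [InnerProductSpace ℝ E]

/-- G8: END lemma -/
theorem ZClass.affine_of_const [FiniteDimensional ℝ E] {C₀ : ℝ} {V : ℝ → E → ℝ}
    (hV : ZClass C₀ V) {H1 H2 : ℝ} (h1 : ∀ L, 0 ≤ L → fu V L 0 0 = V 0 0 + H1 * L)
    (h2 : ∀ L, 0 ≤ L → fl V L 0 0 = V 0 0 - H2 * L) :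
    ∃ (a k : ℝ) (b : E), ∀ t y, V t y = a + ⟪b, y⟫ + k * t := by
  obtain ⟨K, -, hK⟩ := hV.grow
  exact affine_of_const_of_attained hV.cont hV.up hV.dn h1 h2
    (fun L hL => fu_bdd hK hL.le 0 0) (fun L hL => fu_attained hV.cont hK hL.le 0 0)
    (fun L hL => fl_bdd hK hL.le 0 0) (fun L hL => fl_attained hV.cont hK hL.le 0 0)

end Vale.Agent.P080.Zy
end

section

/-! G9 of the proof of Theorem Z (P080): the functional `UK` on affine functions. -/

open Set Filter Topology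
open scoped RealInnerProductSpace

namespace Vale.Agent.P080.Zy

variable {E : Type*} [NormedAddCommGroup E] [InnerProductSpace ℝ E]

namespace UAff

/-- completing the square -/
theorem inner_sub_sq_le (b q : E) : ⟪b, q⟫ - ‖q‖ ^ 2 / 2 ≤ ‖b‖ ^ 2 / 2 := by
  have h := norm_sub_sq_real b q
  have h0 : 0 ≤ ‖b - q‖ ^ 2 := sq_nonneg _
  linarith

theorem neg_sq_le_inner_add (b q : E) : -(‖b‖ ^ 2 / 2) ≤ ⟪b, q⟫ + ‖q‖ ^ 2 / 2 := by
  have h := norm_add_sq_real b q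
  have h0 : 0 ≤ ‖b + q‖ ^ 2 := sq_nonneg _
  linarith

theorem fu_affine {V : ℝ → E → ℝ} {a k : ℝ} {b : E} (h : ∀ t y, V t y = a + ⟪b, y⟫ + k * t)
    {L : ℝ} (hL : 0 ≤ L) (t : ℝ) (y : E) :
    fu V L t y = (a + L * (k + ‖b‖ ^ 2 / 2)) + ⟪b, y⟫ + k * t := by
  have hub : ∀ q : E, V (t + L) (y + L • q) - L / 2 * ‖q‖ ^ 2 ≤
      (a + L * (k + ‖b‖ ^ 2 / 2)) + ⟪b, y⟫ + k * t := by
    intro q
    rw [h, inner_add_right, real_inner_smul_right]
    have h1 := mul_le_mul_of_nonneg_left (inner_sub_sq_le b q) hL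
    linarith only [h1]
  unfold fu
  apply le_antisymm
  · exact ciSup_le hub
  · have hb : BddAbove (range fun q : E => V (t + L) (y + L • q) - L / 2 * ‖q‖ ^ 2) := by
      refine ⟨(a + L * (k + ‖b‖ ^ 2 / 2)) + ⟪b, y⟫ + k * t, ?_⟩
      rintro _ ⟨q, rfl⟩
      exact hub q
    refine le_trans (le_of_eq ?_) (le_ciSup hb b)
    rw [h, inner_add_right, real_inner_smul_right, real_inner_self_eq_norm_sq]
    ring

theorem fl_affine {V : ℝ → E → ℝ} {a k : ℝ} {b : E} (h : ∀ t y, V t y = a + ⟪b, y⟫ + k * t)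
    {L : ℝ} (hL : 0 ≤ L) (t : ℝ) (y : E) :
    fl V L t y = (a - L * (k + ‖b‖ ^ 2 / 2)) + ⟪b, y⟫ + k * t := by
  have hlb : ∀ q : E, (a - L * (k + ‖b‖ ^ 2 / 2)) + ⟪b, y⟫ + k * t ≤
      V (t - L) (y + L • q) + L / 2 * ‖q‖ ^ 2 := by
    intro q
    rw [h, inner_add_right, real_inner_smul_right]
    have h1 := mul_le_mul_of_nonneg_left (neg_sq_le_inner_add b q) hL
    linarith
  unfold fl
  apply le_antisymm
  · have hb : BddBelow (range fun q : E => V (t - L) (y + L • q) + L / 2 * ‖q‖ ^ 2) := by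
      refine ⟨(a - L * (k + ‖b‖ ^ 2 / 2)) + ⟪b, y⟫ + k * t, ?_⟩
      rintro _ ⟨q, rfl⟩
      exact hlb q
    refine le_trans (ciInf_le hb (-b)) (le_of_eq ?_)
    rw [h, inner_add_right, real_inner_smul_right, inner_neg_right, real_inner_self_eq_norm_sq,
      norm_neg]
    ring
  · exact le_ciInf hlb

theorem dc_affine {V : ℝ → E → ℝ} {a k : ℝ} {b : E} (h : ∀ t y, V t y = a + ⟪b, y⟫ + k * t)
    {α β : ℝ} (hα : 0 ≤ α) (hβ : 0 ≤ β) (t : ℝ) (y : E) :
    dc V α β t y = (a + (α - β) * (k + ‖b‖ ^ 2 / 2)) + ⟪b, y⟫ + k * t := by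
  unfold dc
  rw [fl_affine (fun t y => fu_affine h hα t y) hβ t y]
  ring

end UAff

/-- G9 -/
theorem UK_affine [FiniteDimensional ℝ E] {V : ℝ → E → ℝ} {a k : ℝ} {b : E}
    (h : ∀ t y, V t y = a + ⟪b, y⟫ + k * t) {κ τ : ℝ} (hκ : 0 < κ) (hτ : 0 < τ) (t : ℝ) (y : E) :
    UK V κ τ t y = 2 * κ * τ * (k + ‖b‖ ^ 2 / 2) := by
  unfold UK
  rw [UAff.dc_affine h (by positivity) hτ.le, UAff.fl_affine h (by positivity)]
  ring

end Vale.Agent.P080.Zy
end

section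
set_option linter.unusedSectionVars false

/-! The class of entire 1-Lipschitz functions with comparison with cones, and the value
function. -/

namespace Vale.Agent.P080.Liou

open Topology Filter Metric Set Vale.Agent.P080
open scoped RealInnerProductSpace

variable {E : Type*} [NormedAddCommGroup E] [InnerProductSpace ℝ E] [FiniteDimensional ℝ E]

noncomputable def Val (u : E → ℝ) (L : ℝ) (x z : E) : ℝ :=
  uc u L (x + z) + uc u L (x - z) - 2 * lc u L x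
/-- second difference -/
noncomputable def Dd (u : E → ℝ) (x z : E) : ℝ := u (x + z) + u (x - z) - 2 * u x

/-- the homeomorphism `x ↦ A + r • x` -/
noncomputable def lcHomeo (A : E) {r : ℝ} (hr : 0 < r) : E ≃ₜ E :=
  (Homeomorph.smulOfNeZero r hr.ne').trans (Homeomorph.addLeft A)

theorem lcHomeo_apply (A : E) {r : ℝ} (hr : 0 < r) (x : E) : lcHomeo A hr x = A + r • x := by
  simp only [lcHomeo, Homeomorph.trans_apply, Homeomorph.smulOfNeZero_apply, Homeomorph.coe_addLeft]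

theorem norm_lcHomeo_sub (A : E) {r : ℝ} (hr : 0 < r) (x z : E) :
    ‖A + r • x - (A + r • z)‖ = r * ‖x - z‖ := by
  rw [add_sub_add_left_eq_sub, ← smul_sub, norm_smul, Real.norm_of_nonneg hr.le]

/-- Comparison with cones for `x ↦ (u (A + r • x) - c) / r`. -/
theorem coneComp_affine {u : E → ℝ} (hu : ConeComp u univ) (A : E) {r : ℝ} (hr : 0 < r) (c : ℝ) :
    ConeComp (fun x => (u (A + r • x) - c) / r) univ := by
  have hcont : Continuous u := continuousOn_univ.1 hu.cont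
  have key : ∀ V : Set E, IsOpen V → Bornology.IsBounded V →
      IsOpen (lcHomeo A hr '' V) ∧ Bornology.IsBounded (lcHomeo A hr '' V) ∧
      frontier (lcHomeo A hr '' V) = lcHomeo A hr '' (frontier V) := by
    intro V hV hb
    refine ⟨(lcHomeo A hr).isOpenMap V hV, ?_, ((lcHomeo A hr).image_frontier V).symm⟩
    exact (hb.isCompact_closure.image (lcHomeo A hr).continuous).isBounded.subset
      (image_mono subset_closure)
  refine ⟨?_, ?_, ?_⟩
  · apply Continuous.continuousOn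
    (clear * - hcont; fun_prop)
  · intro V hV hb _ z a b hb0 hf hz x hx
    obtain ⟨h1, h2, h3⟩ := key V hV hb
    have h4 := hu.above (lcHomeo A hr '' V) h1 h2 (subset_univ _) (A + r • z) (c + r * a) b hb0
      (by
        rw [h3]
        rintro _ ⟨y, hy, rfl⟩
        have h5 := hf y hy
        rw [lcHomeo_apply, norm_lcHomeo_sub A hr]
        rw [div_le_iff₀ hr] at h5
        linarith)
      (by
        rintro ⟨y, hy, hyz⟩
        rw [← lcHomeo_apply A hr z] at hyz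
        have h6 : y = z := (lcHomeo A hr).injective hyz
        have h7 := hz (h6 ▸ hy)
        rw [div_le_iff₀ hr] at h7
        linarith)
      (A + r • x) ⟨x, hx, lcHomeo_apply A hr x⟩
    rw [norm_lcHomeo_sub A hr] at h4
    rw [div_le_iff₀ hr]
    linarith
  · intro V hV hb _ z a b hb0 hf hz x hx
    obtain ⟨h1, h2, h3⟩ := key V hV hb
    have h4 := hu.below (lcHomeo A hr '' V) h1 h2 (subset_univ _) (A + r • z) (c + r * a) b hb0
      (by
        rw [h3]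
        rintro _ ⟨y, hy, rfl⟩
        have h5 := hf y hy
        rw [lcHomeo_apply, norm_lcHomeo_sub A hr]
        rw [le_div_iff₀ hr] at h5
        linarith)
      (by
        rintro ⟨y, hy, hyz⟩
        rw [← lcHomeo_apply A hr z] at hyz
        have h6 : y = z := (lcHomeo A hr).injective hyz
        have h7 := hz (h6 ▸ hy)
        rw [le_div_iff₀ hr] at h7
        linarith)
      (A + r • x) ⟨x, hx, lcHomeo_apply A hr x⟩
    rw [norm_lcHomeo_sub A hr] at h4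
    rw [le_div_iff₀ hr]
    linarith

theorem LClass.neg {u : E → ℝ} (hu : LClass u) : LClass (fun x => - u x) :=
  ⟨hu.cc.neg, hu.lip.neg⟩

theorem LClass.scale {u : E → ℝ} (hu : LClass u) {r : ℝ} (hr : 0 < r) :
    LClass (fun x => u (r • x) / r) := by
  refine ⟨?_, fun x y => ?_⟩
  · have h := coneComp_affine hu.cc 0 hr 0
    simpa only [zero_add, sub_zero] using h
  · have h := hu.lip (r • x) (r • y)
    rw [← smul_sub, norm_smul, Real.norm_of_nonneg hr.le] at h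
    rw [← sub_div, div_le_iff₀ hr]
    linarith

theorem LClass.trans {u : E → ℝ} (hu : LClass u) (a : E) : LClass (fun x => u (x + a)) := by
  refine ⟨?_, fun x y => ?_⟩
  · have h := coneComp_affine hu.cc a one_pos 0
    simpa only [one_smul, add_comm a, sub_zero, div_one] using h
  · have h := hu.lip (x + a) (y + a)
    rwa [add_sub_add_right_eq_sub] at h

theorem LClass.sub_const {u : E → ℝ} (hu : LClass u) (c : ℝ) : LClass (fun x => u x - c) := by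
  refine ⟨?_, fun x y => ?_⟩
  · have h := coneComp_affine hu.cc 0 one_pos c
    simpa only [one_smul, zero_add, div_one] using h
  · have h := hu.lip x y
    show u x - c - (u y - c) ≤ _
    linarith

theorem Lip1.Dd_le_Val {u : E → ℝ} (hu : Lip1 u) {L : ℝ} (hL : 0 < L) (x z : E) :
    Dd u x z ≤ Val u L x z := by
  unfold Dd Val
  have h1 := hu.self_le_uc hL (x + z)
  have h2 := hu.self_le_uc hL (x - z)
  have h3 := hu.lc_le_self hL x
  linarith

theorem Lip1.Val_le {u : E → ℝ} (hu : Lip1 u) {L : ℝ} (hL : 0 < L) (x z : E) :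
    Val u L x z ≤ Dd u x z + 2 * L := by
  unfold Dd Val
  have h1 := hu.uc_le hL (x + z)
  have h2 := hu.uc_le hL (x - z)
  have h3 := hu.le_lc hL x
  linarith

theorem LClass.Val_slope {u : E → ℝ} (hu : LClass u) {a b : ℝ} (ha : 0 < a) (hab : a ≤ b)
    (x z : E) : b * (Val u a x z - Dd u x z) ≤ a * (Val u b x z - Dd u x z) := by
  unfold Dd Val
  have h1 := hu.uc_slope ha hab (x + z)
  have h2 := hu.uc_slope ha hab (x - z)
  have h3 := hu.lc_slope ha hab x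
  linarith

theorem Val_scale (u : E → ℝ) {r L : ℝ} (hr : 0 < r) (hL : 0 < L) (x z : E) :
    Val (fun x => u (r • x) / r) L x z = Val u (L * r) (r • x) (r • z) / r := by
  unfold Val
  rw [uc_scale u hr hL, uc_scale u hr hL, lc_scale u hr hL, smul_add, smul_sub]
  ring

/-- `M` bounds the normalised second differences of the class and `κ` the slope in `L`. -/
structure Bounds (E : Type*) [NormedAddCommGroup E] [InnerProductSpace ℝ E]
    [FiniteDimensional ℝ E] (M κ : ℝ) : Prop where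
  b0 : ∀ u : E → ℝ, LClass u → ∀ x z : E, Dd u x z ≤ M * ‖z‖
  b1 : ∀ ε > 0, ∃ l > 0, ∀ L, 0 < L → L ≤ l → ∀ u : E → ℝ, LClass u → ∀ x z : E,
    1 / 4 ≤ ‖z‖ → ‖z‖ ≤ 3 → Val u L x z ≤ M * ‖z‖ + (κ + ε) * L

def Perfect (M κ : ℝ) (u : E → ℝ) (x z : E) : Prop :=
  ∀ L, 0 < L → M * ‖z‖ + κ * L ≤ Val u L x z

end Vale.Agent.P080.Liou
end

section
set_option linter.unusedSectionVars false

/-! Compactness of the class and existence of a perfect triple. -/

namespace Vale.Agent.P080.Liou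

open Topology Filter Metric Set Vale.Agent.P080
open scoped RealInnerProductSpace

variable {E : Type*} [NormedAddCommGroup E] [InnerProductSpace ℝ E] [FiniteDimensional ℝ E]

theorem Lip1.abs_sub_le' {u : E → ℝ} (hu : Lip1 u) (x y : E) : |u x - u y| ≤ ‖x - y‖ := by
  rw [abs_le]
  have h1 := hu x y
  have h2 := hu y x
  rw [norm_sub_rev] at h2
  constructor <;> linarith only [h1, h2]

theorem Lip1.continuous' {u : E → ℝ} (hu : Lip1 u) : Continuous u := by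
  have : LipschitzWith 1 u := LipschitzWith.of_dist_le_mul fun x y => by
    rw [Real.dist_eq, dist_eq_norm, NNReal.coe_one, one_mul]
    exact hu.abs_sub_le' x y
  exact this.continuous

/-- Pointwise limits of 1-Lipschitz functions are locally uniform. -/
theorem unif_of_pointwise {w : ℕ → E → ℝ} {u : E → ℝ} (hw : ∀ n, Lip1 (w n)) (hu : Lip1 u)
    {F : Filter ℕ} (h : ∀ x, Tendsto (fun n => w n x) F (𝓝 (u x))) {K : Set E}
    (hK : IsCompact K) {ε : ℝ} (hε : 0 < ε) : ∀ᶠ n in F, ∀ x ∈ K, |w n x - u x| ≤ ε := by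
  obtain ⟨s, hs, hsK⟩ := hK.elim_finite_subcover_image (b := K) (c := fun x => ball x (ε / 3))
    (fun x _ => isOpen_ball) (fun x hx => mem_biUnion hx (mem_ball_self (by positivity)))
  obtain ⟨hsf, hcov⟩ := hsK
  have h1 : ∀ᶠ n in F, ∀ y ∈ s, |w n y - u y| ≤ ε / 3 := by
    refine (hsf.eventually_all).2 fun y _ => ?_
    have := (Metric.tendsto_nhds.1 (h y)) (ε / 3) (by (clear * - hε; positivity))
    filter_upwards [this] with n hn
    rw [Real.dist_eq] at hn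
    exact hn.le
  filter_upwards [h1] with n hn x hx
  obtain ⟨y, hy, hxy⟩ := mem_iUnion₂.1 (hcov hx)
  rw [mem_ball, dist_eq_norm] at hxy
  have e1 := (hw n).abs_sub_le' x y
  have e2 := hu.abs_sub_le' x y
  have e3 := hn y hy
  rw [abs_le] at *
  constructor <;> linarith only [hxy, e1, e2, e3]

/-- Convergence of the sup-convolutions. -/
theorem uc_tendsto {w : ℕ → E → ℝ} {u : E → ℝ} (hw : ∀ n, Lip1 (w n)) (hu : Lip1 u)
    {F : Filter ℕ} (h : ∀ x, Tendsto (fun n => w n x) F (𝓝 (u x))) {L : ℝ} (hL : 0 < L)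
    {y : ℕ → E} {y0 : E} (hy : Tendsto y F (𝓝 y0)) :
    Tendsto (fun n => uc (w n) L (y n)) F (𝓝 (uc u L y0)) := by
  rw [Metric.tendsto_nhds]
  intro ε hε
  have h1 := unif_of_pointwise hw hu h (isCompact_closedBall y0 L) (ε := ε / 3) (by (clear * - hε; positivity))
  have h2 := (Metric.tendsto_nhds.1 hy) (ε / 3) (by (clear * - hε; positivity))
  filter_upwards [h1, h2] with n hn1 hn2
  rw [dist_eq_norm] at hn2
  rw [Real.dist_eq]
  have e1 := ((hw n).uc_lip hL).abs_sub_le' (y n) y0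
  obtain ⟨z, hz, hzv⟩ := (hw n).uc_attained hL y0
  obtain ⟨z', hz', hzv'⟩ := hu.uc_attained hL y0
  have hzb : z ∈ closedBall y0 L := by rwa [mem_closedBall, dist_eq_norm]
  have hzb' : z' ∈ closedBall y0 L := by rwa [mem_closedBall, dist_eq_norm]
  have e2 := hu.le_uc hL y0 z
  have e3 := (hw n).le_uc hL y0 z'
  have e4 := hn1 z hzb
  have e5 := hn1 z' hzb'
  rw [abs_le] at e1 e4 e5
  rw [abs_lt]
  constructor <;> linarith only [hn2, e1, hzv', e3, e5, hzv, e2, e4]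

/-- ultrafilter limit -/
theorem LClass.limit {v : ℕ → E → ℝ} (hv : ∀ n, LClass (v n)) (h0 : ∀ n, v n 0 = 0)
    (F : Ultrafilter ℕ) : ∃ u : E → ℝ, LClass u ∧ (∀ x, Tendsto (fun n => v n x) F (𝓝 (u x))) ∧
      ∀ L, 0 < L → ∀ y : ℕ → E, ∀ y0, Tendsto y F (𝓝 y0) →
        Tendsto (fun n => uc (v n) L (y n)) F (𝓝 (uc u L y0)) ∧
        Tendsto (fun n => lc (v n) L (y n)) F (𝓝 (lc u L y0)) := by
  have hex : ∀ x : E, ∃ c : ℝ, Tendsto (fun n => v n x) F (𝓝 c) := by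
    intro x
    have hmem : ∀ n, v n x ∈ Icc (-‖x‖) ‖x‖ := by
      intro n
      have := (hv n).lip.abs_sub_le' x 0
      rw [h0, sub_zero, sub_zero, abs_le] at this
      exact this
    have h1 : ((F.map fun n => v n x : Ultrafilter ℝ) : Filter ℝ) ≤ 𝓟 (Icc (-‖x‖) ‖x‖) := by
      rw [le_principal_iff]
      exact Ultrafilter.mem_map.2 (Filter.univ_mem' hmem)
    obtain ⟨c, -, hc⟩ := (isCompact_Icc (a := -‖x‖) (b := ‖x‖)).ultrafilter_le_nhds _ h1
    exact ⟨c, hc⟩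
  choose u hu using hex
  have hlip : Lip1 u := by
    intro x y
    exact le_of_tendsto ((hu x).sub (hu y)) (Eventually.of_forall fun n => (hv n).lip x y)
  have hneg : Lip1 (fun x => - u x) := hlip.neg
  have hcc : ConeComp u univ := by
    refine ⟨hlip.continuous'.continuousOn, ?_, ?_⟩
    · intro V hV hb hc z a b hb0 hf hz x hx
      have hK : IsCompact (frontier V) :=
        hb.isCompact_closure.of_isClosed_subset isClosed_frontier frontier_subset_closure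
      refine le_of_forall_pos_le_add fun ε hε => ?_
      have h1 := unif_of_pointwise (fun n => (hv n).lip) hlip hu hK hε
      have h2 : ∀ᶠ n in (F : Filter ℕ), |v n z - u z| ≤ ε := by
        have := (Metric.tendsto_nhds.1 (hu z)) ε hε
        filter_upwards [this] with n hn
        rw [Real.dist_eq] at hn
        exact hn.le
      have h3 : ∀ᶠ n in (F : Filter ℕ), v n x ≤ a + b * ‖x - z‖ + ε := by
        filter_upwards [h1, h2] with n hn1 hn2
        have := (hv n).cc.above V hV hb hc z (a + ε) b hb0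
          (fun y hy => by
            have e1 := (abs_le.1 (hn1 y hy)).2
            have e2 := hf y hy
            linarith only [e1, e2])
          (fun h => by
            have e1 := (abs_le.1 hn2).2
            have e2 := hz h
            linarith only [e1, e2]) x hx
        linarith only [this]
      exact le_of_tendsto (hu x) h3
    · intro V hV hb hc z a b hb0 hf hz x hx
      have hK : IsCompact (frontier V) :=
        hb.isCompact_closure.of_isClosed_subset isClosed_frontier frontier_subset_closure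
      refine le_of_forall_pos_le_add fun ε hε => ?_
      have h1 := unif_of_pointwise (fun n => (hv n).lip) hlip hu hK hε
      have h2 : ∀ᶠ n in (F : Filter ℕ), |v n z - u z| ≤ ε := by
        have := (Metric.tendsto_nhds.1 (hu z)) ε hε
        filter_upwards [this] with n hn
        rw [Real.dist_eq] at hn
        exact hn.le
      have h3 : ∀ᶠ n in (F : Filter ℕ), a - b * ‖x - z‖ ≤ v n x + ε := by
        filter_upwards [h1, h2] with n hn1 hn2
        have := (hv n).cc.below V hV hb hc z (a - ε) b hb0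
          (fun y hy => by
            have e1 := (abs_le.1 (hn1 y hy)).1
            have e2 := hf y hy
            linarith only [e1, e2])
          (fun h => by
            have e1 := (abs_le.1 hn2).1
            have e2 := hz h
            linarith only [e1, e2]) x hx
        linarith
      exact ge_of_tendsto ((hu x).add_const ε) h3
  refine ⟨u, ⟨hcc, hlip⟩, hu, ?_⟩
  intro L hL y y0 hy
  refine ⟨uc_tendsto (fun n => (hv n).lip) hlip hu hL hy, ?_⟩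
  unfold lc
  exact (uc_tendsto (fun n => (hv n).lip.neg) hneg (fun x => (hu x).neg) hL hy).neg

/-! ### Perfect triples -/

theorem Lip1.Dd_le {u : E → ℝ} (hu : Lip1 u) (x z : E) : Dd u x z ≤ 2 * ‖z‖ := by
  unfold Dd
  have h1 := hu (x + z) x
  have h2 := hu (x - z) x
  rw [add_sub_cancel_left] at h1
  rw [sub_sub_cancel_left, norm_neg] at h2
  linarith only [h1, h2]

theorem Lip1.uc_sub_const {u : E → ℝ} (hu : Lip1 u) (c : ℝ) {s : ℝ} (hs : 0 < s) (y : E) :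
    uc (fun x => u x - c) s y = uc u s y - c := by
  have hu' : Lip1 (fun x => u x - c) := fun x y => by
    have := hu x y
    linarith only [this]
  obtain ⟨z, -, hz⟩ := hu.uc_attained hs y
  obtain ⟨z', -, hz'⟩ := hu'.uc_attained hs y
  have h1 := hu.le_uc hs y z'
  have h2 := hu'.le_uc hs y z
  apply le_antisymm <;> linarith only [hz', h1, hz, h2]

theorem Lip1.lc_sub_const {u : E → ℝ} (hu : Lip1 u) (c : ℝ) {s : ℝ} (hs : 0 < s) (y : E) :
    lc (fun x => u x - c) s y = lc u s y - c := by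
  have hu' : Lip1 (fun x => u x - c) := fun x y => by
    have := hu x y
    linarith only [this]
  obtain ⟨z, -, hz⟩ := hu.lc_attained hs y
  obtain ⟨z', -, hz'⟩ := hu'.lc_attained hs y
  have h1 := hu.lc_le hs y z'
  have h2 := hu'.lc_le hs y z
  apply le_antisymm <;> linarith only [hz', h1, hz, h2]

theorem Val_shift {u : E → ℝ} (hu : Lip1 u) (a : E) (c : ℝ) {L : ℝ} (hL : 0 < L) (z : E) :
    Val (fun x => u (x + a) - c) L 0 z = Val u L a z := by
  have hu' : Lip1 (fun x => u (x + a)) := fun x y => by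
    have := hu (x + a) (y + a)
    rwa [add_sub_add_right_eq_sub] at this
  unfold Val
  rw [hu'.uc_sub_const c hL, hu'.uc_sub_const c hL, hu'.lc_sub_const c hL, uc_trans, uc_trans,
    lc_trans, zero_add, zero_add, zero_sub]
  rw [add_comm z a, neg_add_eq_sub]
  ring

/-- Supremum of the second differences. -/
noncomputable def SM (E : Type*) [NormedAddCommGroup E] [InnerProductSpace ℝ E]
    [FiniteDimensional ℝ E] : ℝ :=
  sSup {c | ∃ u : E → ℝ, LClass u ∧ ∃ x z : E, ‖z‖ = 1 ∧ c = Dd u x z}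

/-- Supremum of the values at scale `L`. -/
noncomputable def SV (E : Type*) [NormedAddCommGroup E] [InnerProductSpace ℝ E]
    [FiniteDimensional ℝ E] (L : ℝ) : ℝ :=
  sSup {c | ∃ u : E → ℝ, LClass u ∧ ∃ x z : E, ‖z‖ = 1 ∧ c = Val u L x z}

theorem Dd_le_SM {u : E → ℝ} (hu : LClass u) {x z : E} (hz : ‖z‖ = 1) : Dd u x z ≤ SM E := by
  refine le_csSup ⟨2, ?_⟩ ⟨u, hu, x, z, hz, rfl⟩
  rintro c ⟨v, hv, a, b, hb, rfl⟩
  have := hv.lip.Dd_le a b
  rw [hb] at this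
  linarith only [this]

theorem bddAbove_SV (L : ℝ) (hL : 0 < L) :
    BddAbove {c | ∃ u : E → ℝ, LClass u ∧ ∃ x z : E, ‖z‖ = 1 ∧ c = Val u L x z} := by
  refine ⟨2 + 2 * L, ?_⟩
  rintro c ⟨v, hv, a, b, hb, rfl⟩
  have h1 := hv.lip.Dd_le a b
  have h2 := hv.lip.Val_le hL a b
  rw [hb] at h1
  linarith

theorem Val_le_SV {u : E → ℝ} (hu : LClass u) {L : ℝ} (hL : 0 < L) {x z : E} (hz : ‖z‖ = 1) :
    Val u L x z ≤ SV E L :=
  le_csSup (bddAbove_SV L hL) ⟨u, hu, x, z, hz, rfl⟩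

theorem Dd_scale (u : E → ℝ) {r : ℝ} (hr : 0 < r) (x z : E) :
    Dd (fun x => u (r • x) / r) x z = Dd u (r • x) (r • z) / r := by
  unfold Dd
  simp only [smul_add, smul_sub]
  ring

theorem exists_bounds_perfect (h : ∃ u : E → ℝ, LClass u ∧ ∃ x z, 0 < Dd u x z) :
    ∃ M κ : ℝ, 0 < M ∧ Bounds E M κ ∧
      ∃ u : E → ℝ, LClass u ∧ ∃ x z : E, ‖z‖ = 1 ∧ Perfect M κ u x z := by
  -- a normalised element
  obtain ⟨u0, hu0, x0, z0, hz0, hpos⟩ : ∃ u : E → ℝ, LClass u ∧ ∃ x z, ‖z‖ = 1 ∧ 0 < Dd u x z := by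
    obtain ⟨u, hu, x, z, hxz⟩ := h
    have hz : z ≠ 0 := by
      rintro rfl
      unfold Dd at hxz
      rw [add_zero, sub_zero] at hxz
      linarith only [hxz]
    have hr : 0 < ‖z‖ := norm_pos_iff.2 hz
    refine ⟨_, hu.scale hr, ‖z‖⁻¹ • x, ‖z‖⁻¹ • z, ?_, ?_⟩
    · rw [norm_smul, norm_inv, norm_norm, inv_mul_cancel₀ hr.ne']
    · rw [Dd_scale u hr, smul_inv_smul₀ hr.ne', smul_inv_smul₀ hr.ne']
      positivity
  set M := SM E with hM
  have hM0 : 0 < M := hpos.trans_le (Dd_le_SM hu0 hz0)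
  have hMV : ∀ L, 0 < L → M ≤ SV E L := by
    intro L hL
    refine csSup_le ⟨_, u0, hu0, x0, z0, hz0, rfl⟩ ?_
    rintro c ⟨v, hv, a, b, hb, rfl⟩
    exact (hv.lip.Dd_le_Val hL a b).trans (Val_le_SV hv hL hb)
  have hne : ∀ L, ({c | ∃ u : E → ℝ, LClass u ∧ ∃ x z : E, ‖z‖ = 1 ∧ c = Val u L x z}).Nonempty :=
    fun L => ⟨_, u0, hu0, x0, z0, hz0, rfl⟩
  -- monotone slopes
  have hslope : ∀ a b, 0 < a → a ≤ b → b * (SV E a - M) ≤ a * (SV E b - M) := by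
    intro a b ha hab
    have hb : 0 < b := ha.trans_le hab
    have h1 : SV E a ≤ M + a / b * (SV E b - M) := by
      refine csSup_le (hne a) ?_
      rintro c ⟨v, hv, x, z, hz, rfl⟩
      have h2 := hv.Val_slope ha hab x z
      have h3 := Dd_le_SM hv (x := x) hz
      have h4 := Val_le_SV hv hb (x := x) hz
      have h5 : a / b * b = a := by (clear * - hb ha; field_simp)
      have h6 : a / b ≤ 1 := (div_le_one hb).2 hab
      have h7 : 0 ≤ a / b := by positivity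
      have h8 : Val v a x z - Dd v x z ≤ a / b * (Val v b x z - Dd v x z) := by
        have : b * (Val v a x z - Dd v x z) ≤ b * (a / b * (Val v b x z - Dd v x z)) := by
          have e : b * (a / b * (Val v b x z - Dd v x z)) = a * (Val v b x z - Dd v x z) := by
            (clear * - hb ha; field_simp)
          rw [e]
          exact h2
        exact le_of_mul_le_mul_left this hb
      have h9 : a / b * (Val v b x z - SV E b) ≤ 0 :=
        mul_nonpos_of_nonneg_of_nonpos h7 (by (clear h u0 hu0 x0 z0 hz0 hpos M hM hM0 hMV hne h2 h3 h5 h6 h7 h8; linarith))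
      have h10 : (1 - a / b) * (Dd v x z - M) ≤ 0 :=
        mul_nonpos_of_nonneg_of_nonpos (by linarith only [h6]) (by (clear h u0 hu0 x0 z0 hz0 hpos hM hM0 hMV hne a b ha hab hb h2 h4 h5 h6 h7 h8 h9; linarith))
      (clear h u0 hu0 x0 z0 hz0 hpos hM hM0 hMV hne h5; linarith only [h10, h9, h8])
    have h2 : b * (SV E a - M) ≤ b * (a / b * (SV E b - M)) :=
      mul_le_mul_of_nonneg_left (by linarith) hb.le
    have e : b * (a / b * (SV E b - M)) = a * (SV E b - M) := by (clear h u0 hu0 x0 z0 hz0 hpos hM hM0 hMV hne h1 h2; field_simp)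
    rwa [e] at h2
  -- the slope at `0`
  set Q : Set ℝ := {c | ∃ L, 0 < L ∧ c = (SV E L - M) / L} with hQ
  have hQne : Q.Nonempty := ⟨_, 1, one_pos, rfl⟩
  have hQb : BddBelow Q := ⟨0, by
    rintro c ⟨L, hL, rfl⟩
    exact div_nonneg (by (clear h hpos hM hM0 hne hslope Q hQ hQne; linarith [hMV L hL])) hL.le⟩
  set κ := sInf Q with hκ
  have hκle : ∀ L, 0 < L → M + κ * L ≤ SV E L := by
    intro L hL
    have : κ ≤ (SV E L - M) / L := csInf_le hQb ⟨L, hL, rfl⟩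
    rw [le_div_iff₀ hL] at this
    linarith
  have hκge : ∀ ε > 0, ∃ b > 0, ∀ a, 0 < a → a ≤ b → SV E a ≤ M + (κ + ε) * a := by
    intro ε hε
    obtain ⟨c, ⟨b, hb, rfl⟩, hc⟩ := exists_lt_of_csInf_lt hQne (lt_add_of_pos_right κ hε)
    refine ⟨b, hb, fun a ha hab => ?_⟩
    rw [div_lt_iff₀ hb] at hc
    have h1 := hslope a b ha hab
    have h2 : a * (SV E b - M) ≤ a * ((κ + ε) * b) := mul_le_mul_of_nonneg_left hc.le ha.le
    have h3 : b * (SV E a - M) ≤ b * ((κ + ε) * a) := by linarith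
    have h4 := le_of_mul_le_mul_left h3 hb
    linarith
  refine ⟨M, κ, hM0, ⟨?_, ?_⟩, ?_⟩
  · -- second differences
    intro u hu x z
    rcases eq_or_ne z 0 with rfl | hz
    · unfold Dd
      rw [add_zero, sub_zero, norm_zero]
      linarith only []
    · have hr : 0 < ‖z‖ := norm_pos_iff.2 hz
      have h1 := Dd_le_SM (hu.scale hr) (x := ‖z‖⁻¹ • x) (z := ‖z‖⁻¹ • z)
        (by rw [norm_smul, norm_inv, norm_norm, inv_mul_cancel₀ hr.ne'])
      rw [Dd_scale u hr, smul_inv_smul₀ hr.ne', smul_inv_smul₀ hr.ne', div_le_iff₀ hr] at h1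
      exact h1
  · intro ε hε
    obtain ⟨b, hb, hab⟩ := hκge ε hε
    refine ⟨b / 4, by (clear * - hb; positivity), fun L hL hLb u hu x z hz1 hz2 => ?_⟩
    have hr : 0 < ‖z‖ := lt_of_lt_of_le (by norm_num) hz1
    have hL' : 0 < L / ‖z‖ := by (clear * - hL hz1; positivity)
    have h1 := Val_le_SV (hu.scale hr) hL' (x := ‖z‖⁻¹ • x) (z := ‖z‖⁻¹ • z)
      (by rw [norm_smul, norm_inv, norm_norm, inv_mul_cancel₀ hr.ne'])
    rw [Val_scale u hr hL', smul_inv_smul₀ hr.ne', smul_inv_smul₀ hr.ne',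
      div_mul_cancel₀ _ hr.ne'] at h1
    have h2 : L / ‖z‖ ≤ b := by
      rw [div_le_iff₀ hr]
      nlinarith only [hLb, hb, hz1]
    have h3 := hab (L / ‖z‖) hL' h2
    have h4 := h1.trans h3
    rw [div_le_iff₀ hr] at h4
    have h5 : (M + (κ + ε) * (L / ‖z‖)) * ‖z‖ = M * ‖z‖ + (κ + ε) * L := by
      (clear * - hz1; field_simp)
    rwa [h5] at h4
  · -- near extremals
    have hex : ∀ j : ℕ, ∃ v : E → ℝ, LClass v ∧ v 0 = 0 ∧ ∃ z : E, ‖z‖ = 1 ∧
        SV E (1 / ((j : ℝ) + 1)) - (1 / ((j : ℝ) + 1)) ^ 2 ≤ Val v (1 / ((j : ℝ) + 1)) 0 z := by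
      intro j
      have ht : 0 < 1 / ((j : ℝ) + 1) := by (clear * -; positivity)
      obtain ⟨c, ⟨u, hu, x, z, hz, rfl⟩, hc⟩ := exists_lt_of_lt_csSup (hne (1 / ((j : ℝ) + 1)))
        (show SV E (1 / ((j : ℝ) + 1)) - (1 / ((j : ℝ) + 1)) ^ 2 < SV E (1 / ((j : ℝ) + 1)) by
          have : 0 < (1 / ((j : ℝ) + 1)) ^ 2 := by (clear * -; positivity)
          (clear h u0 hu0 x0 z0 hz0 hpos M hM hM0 hMV hne hslope Q hQ hQne hQb κ hκ hκle hκge ht; linarith))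
      refine ⟨fun y => u (y + x) - u x, (hu.trans x).sub_const (u x), by simp, z, hz, ?_⟩
      rw [Val_shift hu.lip x (u x) ht z]
      exact hc.le
    choose v hv hv0 z hz hvz using hex
    -- ultrafilter limit
    set F : Ultrafilter ℕ := hyperfilter ℕ with hF
    have hFtop : (F : Filter ℕ) ≤ atTop := by
      rw [← Nat.cofinite_eq_atTop]
      exact hyperfilter_le_cofinite
    obtain ⟨zl, hzl, hzlim⟩ := (isCompact_sphere (0 : E) 1).ultrafilter_le_nhds (F.map z) (by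
      rw [le_principal_iff]
      exact Ultrafilter.mem_map.2 (Filter.univ_mem' fun n => by
        show z n ∈ sphere (0 : E) 1
        rw [mem_sphere_zero_iff_norm]; exact hz n))
    have hzt : Tendsto z F (𝓝 zl) := hzlim
    obtain ⟨u, hu, -, hlim⟩ := LClass.limit hv hv0 F
    have hzl1 : ‖zl‖ = 1 := by rwa [mem_sphere_zero_iff_norm] at hzl
    refine ⟨u, hu, 0, zl, hzl1, ?_⟩
    intro m hm
    have ht0 : Tendsto (fun j : ℕ => 1 / ((j : ℝ) + 1)) F (𝓝 0) :=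
      tendsto_one_div_add_atTop_nhds_zero_nat.mono_left hFtop
    have h1 : Tendsto (fun j => Val (v j) m 0 (z j)) F (𝓝 (Val u m 0 zl)) := by
      have e1 := (hlim m hm (fun j => 0 + z j) (0 + zl) (hzt.const_add 0)).1
      have e2 := (hlim m hm (fun j => 0 - z j) (0 - zl) (hzt.const_sub 0)).1
      have e3 := (hlim m hm (fun _ => 0) 0 tendsto_const_nhds).2
      exact (e1.add e2).sub (e3.const_mul 2)
    have h2 : ∀ᶠ j : ℕ in (F : Filter ℕ), M + κ * m - m * (1 / ((j : ℝ) + 1)) ≤ Val (v j) m 0 (z j) := by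
      have h3 : ∀ᶠ j : ℕ in (F : Filter ℕ), 1 / ((j : ℝ) + 1) < m := (tendsto_order.1 ht0).2 m hm
      filter_upwards [h3] with j hj
      set t : ℝ := 1 / ((j : ℝ) + 1) with ht
      have ht0 : 0 < t := by (clear * -; positivity)
      have e1 := (hv j).Val_slope ht0 hj.le 0 (z j)
      have e2 := hvz j
      have e3 := hκle t ht0
      have e4 := Dd_le_SM (hv j) (x := 0) (hz j)
      -- `t Val_m ≥ m Val_t - (m - t) Dd ≥ m (M + κ t - t²) - (m - t) M`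
      have e5 : m * (M + κ * t - t ^ 2) ≤ m * Val (v j) t 0 (z j) :=
        mul_le_mul_of_nonneg_left (by (clear h hpos hM hM0 hne hslope hQ hQne hκ hκge hv hv0 hz hF zl hzl hzlim hzt u hu hlim hzl1 m hm h1 h3 hj ht e1 e4; linarith)) hm.le
      have e6 : (m - t) * Dd (v j) 0 (z j) ≤ (m - t) * M :=
        mul_le_mul_of_nonneg_left e4 (by linarith only [hj])
      have e7 : t * (M + κ * m - m * t) ≤ t * Val (v j) m 0 (z j) := by linarith only [e6, e5, e1]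
      exact le_of_mul_le_mul_left e7 ht0
    have h4 : Tendsto (fun j : ℕ => M + κ * m - m * (1 / ((j : ℝ) + 1))) F
        (𝓝 (M + κ * m - m * 0)) := tendsto_const_nhds.sub (ht0.const_mul m)
    have h5 := le_of_tendsto_of_tendsto h4 h1 h2
    rw [hzl1]
    linarith only [h5]

end Vale.Agent.P080.Liou
end

section
attribute [-instance] ProperSMul.toContinuousSMul IsTopologicalTorsor.toContinuousSMul IdemSemiring.toCanonicallyOrderedAdd IdemSemiring.toMulLeftMono IdemSemiring.toMulRightMono AddQuantale.instAddLeftMono AddQuantale.instAddRightMono Quantale.instMulLeftMono Quantale.instMulRightMono FiniteDimensional.rclike_to_real IsScalarTower.complexToReal FiniteDimensional.complexToReal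
set_option linter.unusedSectionVars false

/-! Liouville theorem, FILE D: the basic one-step inequality and the energy. -/

namespace Vale.Agent.P080.Liou

open Topology Filter Metric Set Vale.Agent.P080
open scoped RealInnerProductSpace

variable {E : Type*} [NormedAddCommGroup E] [InnerProductSpace ℝ E] [FiniteDimensional ℝ E]

noncomputable def En (u : E → ℝ) (L : ℝ) (x : E) : ℝ := (lc u L x - lc (lc u L) L x) / L

theorem Lip1.En_nonneg {u : E → ℝ} (hu : Lip1 u) {L : ℝ} (hL : 0 < L) (x : E) :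
    0 ≤ En u L x := by
  have h := (hu.lc_lip hL).lc_le_self hL x
  exact div_nonneg (by linarith only [h]) hL.le

theorem Lip1.En_le {u : E → ℝ} (hu : Lip1 u) {L : ℝ} (hL : 0 < L) (x : E) :
    En u L x ≤ 1 / 2 := by
  have h := (hu.lc_lip hL).le_lc hL x
  unfold En
  rw [div_le_iff₀ hL]
  linarith only [h]

/-- The basic inequality. `w = (L M/2) z/‖z‖`, or any vector in fact. -/
theorem LClass.one_step {u : E → ℝ} (hu : LClass u) {L : ℝ} (hL : 0 < L) (x z : E) :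
    ∃ d δ e : E, ∃ s : ℝ, 0 ≤ s ∧ ‖d‖ ≤ L ∧ ‖δ‖ ≤ L ∧ ‖e‖ ≤ L ∧
      (∀ w : E, Val u L x z ≤ (Val u L (x + d) (z + δ) + Val u L (x + e) (z - w)) / 2
        - ‖δ‖ ^ 2 / (2 * L) + ‖w‖ ^ 2 / (2 * L) - s) ∧
      ‖d + e‖ ^ 2 / (4 * L ^ 2) - s / L ≤ En u L (x + d) + En u L (x + e) - 2 * En u L x := by
  have hf : Lip1 (uc u L) := hu.lip.uc_lip hL
  have hg : Lip1 (lc u L) := hu.lip.lc_lip hL
  obtain ⟨p1, hp1, e1⟩ := hf.uc_attained hL (x + z)
  obtain ⟨p2, hp2, e2⟩ := hf.uc_attained hL (x - z)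
  obtain ⟨q, hq, e3⟩ := hg.lc_attained hL x
  obtain ⟨d1, rfl⟩ : ∃ d1, p1 = x + z + d1 := ⟨p1 - (x + z), by abel⟩
  obtain ⟨d2, rfl⟩ : ∃ d2, p2 = x - z + d2 := ⟨p2 - (x - z), by abel⟩
  obtain ⟨e, rfl⟩ : ∃ e, q = x + e := ⟨q - x, by abel⟩
  rw [add_sub_cancel_left] at hp1 hp2 hq e1 e2 e3
  have par : ∀ a b : E, ‖a + b‖ ^ 2 + ‖a - b‖ ^ 2 = 2 * ‖a‖ ^ 2 + 2 * ‖b‖ ^ 2 := by
    intro a b
    have h := parallelogram_law_with_norm ℝ a b
    linarith only [h]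
  have hh : ∀ a : E, ‖(1 / 2 : ℝ) • a‖ = ‖a‖ / 2 := by
    intro a
    rw [norm_smul, Real.norm_of_nonneg (by norm_num)]
    ring
  set d : E := (1 / 2 : ℝ) • (d1 + d2) with hd
  set δ : E := (1 / 2 : ℝ) • (d1 - d2) with hδ
  have hdn : ‖d‖ ≤ L := by
    rw [hd, hh]
    have := norm_add_le d1 d2
    linarith only [hp1, hp2, this]
  have hδn : ‖δ‖ ≤ L := by
    rw [hδ, hh]
    have := norm_sub_le d1 d2
    linarith only [hp1, hp2, this]
  have hd1 : d + δ = d1 := by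
    rw [hd, hδ]
    module
  have hd2 : d - δ = d2 := by
    rw [hd, hδ]
    module
  have s1 := hg.le_uc hL x (x + d)
  rw [add_sub_cancel_left] at s1
  have s3 := hu.two_lc hL x
  refine ⟨d, δ, e, 2 * lc u L x - lc u L (x + d) + ‖d‖ ^ 2 / (2 * L) - lc (lc u L) L x,
    by linarith only [s1, s3], hdn, hδn, hq, ?_, ?_⟩
  · intro w
    have t1 := hu.two_uc hL (x + z)
    have t2 := hu.two_uc hL (x - z)
    have t3 := hf.lc_le hL (x + z) (x + e + (z - w))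
    have t4 := hf.lc_le hL (x - z) (x + e - (z - w))
    have r3 : x + e + (z - w) - (x + z) = e - w := by abel
    have r4 : x + e - (z - w) - (x - z) = e + w := by abel
    rw [r3] at t3
    rw [r4] at t4
    have v1 : Val u L (x + d) (z + δ)
        = uc u L (x + z + d1) + uc u L (x - z + d2) - 2 * lc u L (x + d) := by
      have a1 : x + d + (z + δ) = x + z + d1 := by rw [← hd1]; abel
      have a2 : x + d - (z + δ) = x - z + d2 := by rw [← hd2]; abel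
      unfold Val
      rw [a1, a2]
    have v2 : Val u L (x + e) (z - w)
        = uc u L (x + e + (z - w)) + uc u L (x + e - (z - w)) - 2 * lc u L (x + e) := rfl
    have v0 : Val u L x z = uc u L (x + z) + uc u L (x - z) - 2 * lc u L x := rfl
    have q1 := par d δ
    rw [hd1, hd2] at q1
    have q2 := par e w
    rw [v0, v1, v2]
    have q1' : ‖d1‖ ^ 2 / (2 * L) + ‖d2‖ ^ 2 / (2 * L)
        = 2 * (‖d‖ ^ 2 / (2 * L)) + 2 * (‖δ‖ ^ 2 / (2 * L)) := by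
      rw [← add_div, q1]; ring
    have q2' : ‖e + w‖ ^ 2 / (2 * L) + ‖e - w‖ ^ 2 / (2 * L)
        = 2 * (‖e‖ ^ 2 / (2 * L)) + 2 * (‖w‖ ^ 2 / (2 * L)) := by
      rw [← add_div, q2]; ring
    linarith only [e1, e2, e3, t1, t2, t3, t4, q1', q2']
  · have t1 := hu.two_lc hL (x + e)
    have t2 := hg.le_uc hL (x + e) (x + (1 / 2 : ℝ) • (d + e))
    have t3 := hg.lc_le hL (x + d) (x + (1 / 2 : ℝ) • (d + e))
    have r2 : x + (1 / 2 : ℝ) • (d + e) - (x + e) = (1 / 2 : ℝ) • (d - e) := by module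
    have r3 : x + (1 / 2 : ℝ) • (d + e) - (x + d) = -((1 / 2 : ℝ) • (d - e)) := by module
    rw [r2, hh] at t2
    rw [r3, norm_neg, hh] at t3
    have q1 := par d e
    have key : ‖d + e‖ ^ 2 / (4 * L)
        - (2 * lc u L x - lc u L (x + d) + ‖d‖ ^ 2 / (2 * L) - lc (lc u L) L x)
        ≤ (lc u L (x + d) - lc (lc u L) L (x + d)) + (lc u L (x + e) - lc (lc u L) L (x + e))
          - 2 * (lc u L x - lc (lc u L) L x) := by
      have q1' : ‖d + e‖ ^ 2 / (4 * L) + 2 * ((‖d - e‖ / 2) ^ 2 / (2 * L))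
          = ‖d‖ ^ 2 / (2 * L) + ‖e‖ ^ 2 / (2 * L) := by
        have : ‖d + e‖ ^ 2 / (4 * L) + 2 * ((‖d - e‖ / 2) ^ 2 / (2 * L))
          = (‖d + e‖ ^ 2 + ‖d - e‖ ^ 2) / (4 * L) := by
          field_simp
          ring
        rw [this, q1]
        field_simp
        ring
      linarith only [e3, t1, t2, t3, q1']
    unfold En
    have hne : L ≠ 0 := hL.ne'
    have k2 := div_le_div_of_nonneg_right key hL.le
    have l1 : (‖d + e‖ ^ 2 / (4 * L)
        - (2 * lc u L x - lc u L (x + d) + ‖d‖ ^ 2 / (2 * L) - lc (lc u L) L x)) / L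
        = ‖d + e‖ ^ 2 / (4 * L ^ 2)
        - (2 * lc u L x - lc u L (x + d) + ‖d‖ ^ 2 / (2 * L) - lc (lc u L) L x) / L := by
      rw [sub_div, div_div]
      ring_nf
    have l2 : ((lc u L (x + d) - lc (lc u L) L (x + d)) + (lc u L (x + e) - lc (lc u L) L (x + e))
          - 2 * (lc u L x - lc (lc u L) L x)) / L
        = (lc u L (x + d) - lc (lc u L) L (x + d)) / L
          + (lc u L (x + e) - lc (lc u L) L (x + e)) / L
          - 2 * ((lc u L x - lc (lc u L) L x) / L) := by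
      ring
    rw [l1, l2] at k2
    exact k2

end Vale.Agent.P080.Liou
end

section
attribute [-instance] ProperSMul.toContinuousSMul IsTopologicalTorsor.toContinuousSMul IdemSemiring.toCanonicallyOrderedAdd IdemSemiring.toMulLeftMono IdemSemiring.toMulRightMono AddQuantale.instAddLeftMono AddQuantale.instAddRightMono Quantale.instMulLeftMono Quantale.instMulRightMono FiniteDimensional.rclike_to_real IsScalarTower.complexToReal FiniteDimensional.complexToReal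
set_option linter.unusedSectionVars false

/-! Liouville theorem, FILE E: halving the scale of a perfect triple. -/

namespace Vale.Agent.P080.Liou

open Topology Filter Metric Set Vale.Agent.P080
open scoped RealInnerProductSpace

variable {E : Type*} [NormedAddCommGroup E] [InnerProductSpace ℝ E] [FiniteDimensional ℝ E]

/-! ### The smooth norm -/

/-- `√(1 + ‖y‖²)` -/
noncomputable def jb (y : E) : ℝ := √(1 + ‖y‖ ^ 2)

theorem jb_sq (y : E) : jb y ^ 2 = 1 + ‖y‖ ^ 2 := Real.sq_sqrt (by positivity)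

theorem one_le_jb (y : E) : 1 ≤ jb y := by
  unfold jb
  rw [Real.one_le_sqrt]
  nlinarith only []

theorem norm_le_jb (y : E) : ‖y‖ ≤ jb y :=
  Real.le_sqrt_of_sq_le (by linarith only [])

theorem jb_zero : jb (0 : E) = 1 := by simp only [jb, norm_zero, ne_eq, OfNat.ofNat_ne_zero, not_false_eq_true, zero_pow, add_zero, Real.sqrt_one]

theorem jb_add (y h : E) : jb (y + h) ≤ jb y + ⟪y, h⟫ / jb y + ‖h‖ ^ 2 / 2 := by
  have h1 := one_le_jb y
  have h0 : 0 < jb y := by linarith only [h1]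
  have e1 := jb_sq y
  have e2 := jb_sq (y + h)
  have e3 : ‖y + h‖ ^ 2 = ‖y‖ ^ 2 + 2 * ⟪y, h⟫ + ‖h‖ ^ 2 := norm_add_sq_real y h
  have h2 : jb (y + h) * jb y ≤ jb y ^ 2 + ⟪y, h⟫ + ‖h‖ ^ 2 / 2 := by
    (clear * - e1 e2 e3; linarith only [sq_nonneg (jb (y + h) - jb y), e3, e2, e1])
  have h3 : ‖h‖ ^ 2 / 2 ≤ ‖h‖ ^ 2 / 2 * jb y := by nlinarith only [h1]
  have h4 : jb (y + h) * jb y ≤ (jb y + ⟪y, h⟫ / jb y + ‖h‖ ^ 2 / 2) * jb y := by
    have e4 : (jb y + ⟪y, h⟫ / jb y + ‖h‖ ^ 2 / 2) * jb y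
        = jb y ^ 2 + ⟪y, h⟫ + ‖h‖ ^ 2 / 2 * jb y := by
      field_simp
    rw [e4]
    linarith only [h2, h3]
  exact le_of_mul_le_mul_right h4 h0

theorem jb_pair (y d e : E) {L : ℝ} (hd : ‖d‖ ≤ L) (he : ‖e‖ ≤ L) :
    (jb (y + d) + jb (y + e)) / 2 ≤ jb y + ‖d + e‖ / 2 + L ^ 2 / 2 := by
  have h1 := jb_add y d
  have h2 := jb_add y e
  have h0 : 0 < jb y := by (clear d e L hd he h1 h2; linarith [one_le_jb y])
  have h3 : ⟪y, d⟫ / jb y + ⟪y, e⟫ / jb y ≤ ‖d + e‖ := by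
    rw [← add_div, ← inner_add_right, div_le_iff₀ h0]
    calc ⟪y, d + e⟫ ≤ ‖y‖ * ‖d + e‖ := real_inner_le_norm _ _
      _ ≤ jb y * ‖d + e‖ := mul_le_mul_of_nonneg_right (norm_le_jb y) (norm_nonneg _)
      _ = _ := mul_comm _ _
  have h4 : ‖d‖ ^ 2 ≤ L ^ 2 := pow_le_pow_left₀ (norm_nonneg _) hd 2
  have h5 : ‖e‖ ^ 2 ≤ L ^ 2 := pow_le_pow_left₀ (norm_nonneg _) he 2
  linarith only [h1, h2, h3, h4, h5]

/-! ### The potential -/

/-- The defect. -/
noncomputable def dfc (M κ : ℝ) (u : E → ℝ) (L : ℝ) (x z : E) : ℝ :=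
  M * ‖z‖ + κ * L - Val u L x z

/-- The potential. -/
noncomputable def pot (M κ α β : ℝ) (u : E → ℝ) (L : ℝ) (x0 x z : E) : ℝ :=
  α * dfc M κ u L x z / L + 1 / 2 * (1 / 2 - En u L x) + jb (x - x0)
    + (3 * β + 2) * ‖z‖ - β * ‖z‖ ^ 2

/-- The real inequality behind the drop of the potential. -/
theorem pb_quad {M L α β t t1 n : ℝ} (hM : 0 < M) (hL : 0 < L) (hβ : β * M ^ 2 = 14)
    (hβ0 : 0 < β) (hα : (β + 1) ^ 2 ≤ α) (hαL : 2 * (β + 1) * L ≤ α * M) (hLM : L * M ≤ 1)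
    (ht : 1 / 2 ≤ t) (ht2 : t ≤ 2) (htri : t1 ≤ t + n) :
    (3 * β + 2) * ((t1 + (t - L * M / 2)) / 2) - β * ((t1 ^ 2 + (t - L * M / 2) ^ 2) / 2)
      - α * (M * (t - t1) / 2 + L * M ^ 2 / 8 + n ^ 2 / (2 * L)) / L
      ≤ (3 * β + 2) * t - β * t ^ 2 - 3 * L ^ 2 := by
  obtain ⟨a, ha⟩ : ∃ a, a = n - L * M / 2 := ⟨_, rfl⟩
  obtain ⟨b, hb⟩ : ∃ b, b = n + t - t1 := ⟨_, rfl⟩
  have hb0 : 0 ≤ b := by rw [hb]; linarith only [htri]
  have et1 : t1 = t + L * M / 2 + (a - b) := by rw [ha, hb]; ring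
  have hα0 : 0 < α := lt_of_lt_of_le (by positivity) hα
  have er : α * (M * (t - t1) / 2 + L * M ^ 2 / 8 + n ^ 2 / (2 * L)) / L
      = α * a ^ 2 / (2 * L ^ 2) + α * M * b / (2 * L) := by
    have en : n = a + L * M / 2 := by rw [ha]; ring
    rw [et1, en]
    field_simp
    ring
  have hLM0 : 0 < L * M := mul_pos hL hM
  -- the absolute value of `a`
  have h1 : (β + 1) * |a| ≤ α * a ^ 2 / (2 * L ^ 2) + L ^ 2 / 2 := by
    have h2 : 2 * L ^ 2 * ((β + 1) * |a|) ≤ α * a ^ 2 + L ^ 4 := by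
      have h3 := sq_nonneg ((β + 1) * |a| - L ^ 2)
      have h4 : (β + 1) ^ 2 * a ^ 2 ≤ α * a ^ 2 := mul_le_mul_of_nonneg_right hα (sq_nonneg a)
      have h5 : |a| ^ 2 = a ^ 2 := sq_abs a
      (by_contra nlg; linarith only [nlg, mul_eq_zero_of_left (sub_eq_zero.2 h5) (α - (0)), mul_nonneg (sub_nonneg.2 ht2) (sub_nonneg.2 h4), mul_nonneg (sub_nonneg.2 ht2) (sub_nonneg.2 h3), mul_nonneg (sub_nonneg.2 ht) (sub_nonneg.2 h4), mul_nonneg (sub_nonneg.2 ht) (sub_nonneg.2 h3), mul_eq_zero_of_left (sub_eq_zero.2 h5) (α - ((β + 1) ^ 2)), mul_pos (sub_pos.2 (not_le.1 nlg)) (sub_pos.2 hLM0), mul_nonneg (le_of_lt (sub_pos.2 (not_le.1 nlg))) (sub_nonneg.2 hLM)])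
    have e2 : α * a ^ 2 / (2 * L ^ 2) + L ^ 2 / 2 = (α * a ^ 2 + L ^ 4) / (2 * L ^ 2) := by
      (clear * - hα0 hL; field_simp)
    rw [e2, le_div_iff₀ (by positivity)]
    linarith only [h2]
  have h2 : (β + 1) * b ≤ α * M * b / (2 * L) := by
    rw [le_div_iff₀ (by positivity)]
    have := mul_le_mul_of_nonneg_right hαL hb0
    linarith only [this]
  have hk : |(3 * β + 2) / 2 - β * (t + L * M / 2)| ≤ β + 1 := by
    rw [abs_le]
    constructor
    · (by_contra nlg; linarith only [nlg, mul_pos (sub_pos.2 hM) (sub_pos.2 hM), mul_eq_zero_of_left (sub_eq_zero.2 hβ) (2 - (t)), mul_eq_zero_of_left (sub_eq_zero.2 hβ) (1 - (L * M)), mul_nonneg (sq_nonneg (M : ℝ)) (le_of_lt (sub_pos.2 (not_le.1 nlg))), ht2, hLM])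
    · nlinarith only [hβ, ht, hLM0]
  have h3 : (a - b) * ((3 * β + 2) / 2 - β * (t + L * M / 2)) ≤ (β + 1) * |a| + (β + 1) * b := by
    have h4 : |a - b| ≤ |a| + b := by
      have := abs_sub a b
      rwa [abs_of_nonneg hb0] at this
    calc (a - b) * ((3 * β + 2) / 2 - β * (t + L * M / 2))
        ≤ |a - b| * |(3 * β + 2) / 2 - β * (t + L * M / 2)| := by
          rw [← abs_mul]; exact le_abs_self _
      _ ≤ (|a| + b) * (β + 1) := mul_le_mul h4 hk (abs_nonneg _) (by (clear * - hb0; positivity))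
      _ = _ := by ring
  have e3 : (3 * β + 2) * ((t1 + (t - L * M / 2)) / 2) - β * ((t1 ^ 2 + (t - L * M / 2) ^ 2) / 2)
      = (3 * β + 2) * t - β * t ^ 2 - β * M ^ 2 * L ^ 2 / 4
        + (a - b) * ((3 * β + 2) / 2 - β * (t + L * M / 2)) - β * (a - b) ^ 2 / 2 := by
    rw [et1]; ring
  rw [er, e3, hβ]
  have h5 : 0 ≤ β * (a - b) ^ 2 / 2 := by (clear * - hβ0; (clear * - hβ0; positivity))
  linarith only [h5, h3, h2, h1]

theorem pb_quad_nonneg {β t : ℝ} (hβ0 : 0 < β) (h0 : 0 ≤ t) (h3 : t ≤ 3) :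
    0 ≤ (3 * β + 2) * t - β * t ^ 2 := by
  have h1 : 0 ≤ β * t * (3 - t) := mul_nonneg (mul_nonneg hβ0.le h0) (by linarith only [h3])
  linarith only [h0, h1]

theorem pot_drop {M κ α β : ℝ} (hM : 0 < M) (hβ : β * M ^ 2 = 14) (hβ0 : 0 < β)
    (hα : (β + 1) ^ 2 ≤ α) {u : E → ℝ} (hu : LClass u) {L : ℝ} (hL : 0 < L)
    (hαL : 2 * (β + 1) * L ≤ α * M) (hLM : L * M ≤ 1) (x0 x z : E) (hz : 1 / 2 ≤ ‖z‖)
    (hz2 : ‖z‖ ≤ 2) :
    ∃ x' z' : E, ‖z‖ - L * (1 + M) ≤ ‖z'‖ ∧ ‖z'‖ ≤ ‖z‖ + L * (1 + M) ∧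
      pot M κ α β u L x0 x' z' ≤ pot M κ α β u L x0 x z - L ^ 2 := by
  obtain ⟨d, δ, e, s, hs, hd, hδ, he, hV, hE⟩ := hu.one_step hL x z
  have hz0 : 0 < ‖z‖ := by linarith only [hz]
  have hα0 : 0 < α := lt_of_lt_of_le (by positivity) hα
  have hα1 : 1 ≤ α := by nlinarith only [hβ0, hα]
  have hLM0 : 0 < L * M := mul_pos hL hM
  set w : E := (L * M / 2 / ‖z‖) • z with hw
  have hwn : ‖w‖ = L * M / 2 := by
    rw [hw, norm_smul, Real.norm_of_nonneg (by (clear * - hL hM hz; positivity))]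
    (clear * - hz hM hL; field_simp)
  have hzw : ‖z - w‖ = ‖z‖ - L * M / 2 := by
    have h1 : z - w = (1 - L * M / 2 / ‖z‖) • z := by rw [hw, sub_smul, one_smul]
    have h2 : 0 ≤ 1 - L * M / 2 / ‖z‖ := by
      rw [sub_nonneg, div_le_one hz0]
      linarith only [hLM, hz]
    rw [h1, norm_smul, Real.norm_of_nonneg h2, sub_mul, one_mul]
    (clear * - hz; (clear * - hz; field_simp))
  have hV' := hV w
  rw [hwn] at hV'
  have htri : ‖z + δ‖ ≤ ‖z‖ + ‖δ‖ := norm_add_le z δ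
  have hq := pb_quad (t1 := ‖z + δ‖) (n := ‖δ‖) hM hL hβ hβ0 hα hαL hLM hz hz2 htri
  have hj := jb_pair (x - x0) d e hd he
  have ej1 : x - x0 + d = x + d - x0 := by abel
  have ej2 : x - x0 + e = x + e - x0 := by abel
  rw [ej1, ej2] at hj
  -- the averaged inequality
  have havg : (pot M κ α β u L x0 (x + d) (z + δ) + pot M κ α β u L x0 (x + e) (z - w)) / 2
      ≤ pot M κ α β u L x0 x z - L ^ 2 := by
    have hG : (dfc M κ u L (x + d) (z + δ) + dfc M κ u L (x + e) (z - w)) / 2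
        + (M * (‖z‖ - ‖z + δ‖) / 2 + L * M ^ 2 / 8 + ‖δ‖ ^ 2 / (2 * L)) + s
        ≤ dfc M κ u L x z := by
      unfold dfc
      rw [hzw]
      have e1 : (L * M / 2) ^ 2 / (2 * L) = L * M ^ 2 / 8 := by
        field_simp
        ring
      rw [e1] at hV'
      linarith only [hV']
    have hGL : α * ((dfc M κ u L (x + d) (z + δ) + dfc M κ u L (x + e) (z - w)) / 2) / L
        + α * (M * (‖z‖ - ‖z + δ‖) / 2 + L * M ^ 2 / 8 + ‖δ‖ ^ 2 / (2 * L)) / L
        + α * s / L ≤ α * dfc M κ u L x z / L := by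
      rw [← add_div, ← add_div, ← mul_add, ← mul_add]
      exact div_le_div_of_nonneg_right (mul_le_mul_of_nonneg_left hG hα0.le) hL.le
    have hde : ‖d + e‖ / 2 - ‖d + e‖ ^ 2 / (16 * L ^ 2) ≤ L ^ 2 := by
      have h1 : ‖d + e‖ ^ 2 / (16 * L ^ 2) = (‖d + e‖ / (4 * L)) ^ 2 := by
        rw [div_pow]; ring
      have h2 : ‖d + e‖ / 2 = 2 * (‖d + e‖ / (4 * L)) * L := by
        field_simp
        ring
      rw [h1, h2]
      linarith only [sq_nonneg (‖d + e‖ / (4 * L) - L)]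
    have hsL : s / L / 4 ≤ α * s / L := by
      have h1 : 0 ≤ s / L := div_nonneg hs hL.le
      have h2 := mul_le_mul_of_nonneg_right hα1 h1
      rw [mul_div_assoc]
      linarith only [h1, h2]
    have e4 : ‖d + e‖ ^ 2 / (16 * L ^ 2) = ‖d + e‖ ^ 2 / (4 * L ^ 2) / 4 := by
      rw [div_div]; congr 1; ring
    rw [e4] at hde
    have e5 : α * ((dfc M κ u L (x + d) (z + δ) + dfc M κ u L (x + e) (z - w)) / 2) / L
        = (α * dfc M κ u L (x + d) (z + δ) / L + α * dfc M κ u L (x + e) (z - w) / L) / 2 := by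
      ring
    rw [e5] at hGL
    unfold pot
    rw [hzw]
    linarith only [hGL, hq, hj, hE, hde, hsL, sq_nonneg L]
  have hn1 : ‖z‖ - L * (1 + M) ≤ ‖z + δ‖ := by
    have h1 : ‖z‖ ≤ ‖z + δ‖ + ‖δ‖ := by
      calc ‖z‖ = ‖z + δ - δ‖ := by rw [add_sub_cancel_right]
        _ ≤ _ := norm_sub_le _ _
    linarith only [h1, hδ, hLM0]
  have hn2 : ‖z + δ‖ ≤ ‖z‖ + L * (1 + M) := by linarith only [htri, hδ, hLM0]
  by_cases hc : pot M κ α β u L x0 (x + d) (z + δ) ≤ pot M κ α β u L x0 x z - L ^ 2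
  · exact ⟨x + d, z + δ, hn1, hn2, hc⟩
  · refine ⟨x + e, z - w, ?_, ?_, ?_⟩
    · rw [hzw]; linarith only [hLM0, hL]
    · rw [hzw]; linarith only [hLM0, hL]
    · have hc' := not_le.1 hc
      linarith only [hc', havg]

/-- The value function is continuous in the state. -/
theorem Val_continuous {u : E → ℝ} (hu : Lip1 u) {m : ℝ} (hm : 0 < m) :
    Continuous fun p : E × E => Val u m p.1 p.2 := by
  have h1 := (hu.uc_lip hm).continuous
  have h2 := (hu.lc_lip hm).continuous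
  unfold Val
  (clear * - h1 h2; (clear * - h1 h2; fun_prop))

/-- Existence of nearly perfect states at small scales. -/
theorem near_perfect {M κ : ℝ} (hM : 0 < M) (hb : Bounds E M κ) {u : E → ℝ} (hu : LClass u)
    {x0 z0 : E} (hz0 : ‖z0‖ = 1) (hP : Perfect M κ u x0 z0) {ε : ℝ} (hε : 0 < ε) :
    ∃ L, 0 < L ∧ L ≤ ε ∧ ∃ x z : E, 1 / 2 - ε ≤ ‖z‖ ∧ ‖z‖ ≤ 1 / 2 ∧
      ‖x - x0‖ ≤ 28 / M ^ 2 + 17 / 4 ∧ M * ‖z‖ + κ * L - Val u L x z ≤ ε * L := by
  obtain ⟨β, hβd⟩ : ∃ β, β = 14 / M ^ 2 := ⟨_, rfl⟩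
  have hβ0 : 0 < β := by rw [hβd]; positivity
  have hβ : β * M ^ 2 = 14 := by rw [hβd]; field_simp
  have hCe : 28 / M ^ 2 + 17 / 4 = 2 * β + 17 / 4 := by rw [hβd]; ring
  rw [hCe]
  obtain ⟨α, hαd⟩ : ∃ α, α = max ((β + 1) ^ 2) ((2 * β + 17 / 4) / ε) := ⟨_, rfl⟩
  have hα : (β + 1) ^ 2 ≤ α := by rw [hαd]; exact le_max_left _ _
  have hα2 : (2 * β + 17 / 4) / ε ≤ α := by rw [hαd]; exact le_max_right _ _
  have hα0 : 0 < α := lt_of_lt_of_le (by (clear * - hβ0; positivity)) hα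
  obtain ⟨l, hl, hlb⟩ := hb.b1 (1 / α) (by (clear * - hα0; positivity))
  obtain ⟨L, hLd⟩ : ∃ L, L = min (min l (ε / (1 + M))) (min (1 / (8 * (1 + M)))
    (min (α * M / (2 * (β + 1))) (1 / (4 * β * (1 + M))))) := ⟨_, rfl⟩
  have hL : 0 < L := by rw [hLd]; (clear * - hl hε hM hα0 hβ0; positivity)
  have hLl : L ≤ l := by
    rw [hLd]; exact (min_le_left _ _).trans (min_le_left _ _)
  have hLε : L ≤ ε / (1 + M) := by
    rw [hLd]; exact (min_le_left _ _).trans (min_le_right _ _)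
  have hL8 : L ≤ 1 / (8 * (1 + M)) := by
    rw [hLd]; exact (min_le_right _ _).trans (min_le_left _ _)
  have hLα : L ≤ α * M / (2 * (β + 1)) := by
    rw [hLd]; exact (min_le_right _ _).trans ((min_le_right _ _).trans (min_le_left _ _))
  have hLβ : L ≤ 1 / (4 * β * (1 + M)) := by
    rw [hLd]; exact (min_le_right _ _).trans ((min_le_right _ _).trans (min_le_right _ _))
  rw [le_div_iff₀ (by positivity)] at hLε hL8 hLα hLβ
  have hαL : 2 * (β + 1) * L ≤ α * M := by linarith only [hLα]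
  have hLM0 : 0 < L * M := mul_pos hL hM
  have hη0 : 0 < L * (1 + M) := by (clear * - hL hM; positivity)
  have hη8 : L * (1 + M) ≤ 1 / 8 := by linarith only [hL8]
  have hηβ : β * (L * (1 + M)) ≤ 1 / 4 := by linarith only [hLβ]
  have hLM : L * M ≤ 1 := by linarith only [hη8, hL]
  have hLε' : L ≤ ε := by linarith only [hLε, hLM0]
  -- lower bound of the defect
  have hGlow : ∀ x z : E, 1 / 4 ≤ ‖z‖ → ‖z‖ ≤ 3 → -1 ≤ α * dfc M κ u L x z / L := by
    intro x z h1 h2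
    have h3 := hlb L hL hLl u hu x z h1 h2
    rw [le_div_iff₀ hL]
    have h4 : -(1 / α * L) ≤ dfc M κ u L x z := by unfold dfc; linarith only [h3]
    have h5 := mul_le_mul_of_nonneg_left h4 hα0.le
    have h6 : α * -(1 / α * L) = -L := by (clear * - hα0 hL; field_simp)
    linarith only [h5, h6]
  have hpot : ∀ x z : E, 1 / 4 ≤ ‖z‖ → ‖z‖ ≤ 3 →
      jb (x - x0) - 1 + (3 * β + 2) * ‖z‖ - β * ‖z‖ ^ 2 ≤ pot M κ α β u L x0 x z := by
    intro x z h1 h2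
    have h3 := hGlow x z h1 h2
    have h4 := hu.lip.En_le hL x
    unfold pot
    linarith only [h3, h4]
  obtain ⟨Φ, hΦ⟩ : ∃ Φ : E × E → ℝ, Φ = fun p => pot M κ α β u L x0 p.1 p.2 := ⟨_, rfl⟩
  have hΦe : ∀ x z : E, Φ (x, z) = pot M κ α β u L x0 x z := fun x z => by rw [hΦ]
  have hstart : Φ (x0, z0) ≤ 2 * β + 13 / 4 := by
    have h1 := hP L hL
    have h2 := hu.lip.En_nonneg hL x0
    have h3 : α * dfc M κ u L x0 z0 / L ≤ 0 := by
      apply div_nonpos_of_nonpos_of_nonneg _ hL.le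
      apply mul_nonpos_of_nonneg_of_nonpos hα0.le
      unfold dfc
      linarith only [h1]
    rw [hΦe]
    unfold pot
    rw [sub_self, jb_zero, hz0]
    linarith only [h2, h3]
  set S : Set (E × E) := {p | 1 / 2 < ‖p.2‖ ∧ ‖p.2‖ < 2 ∧ Φ p ≤ Φ (x0, z0)} with hS
  have hS0 : (x0, z0) ∈ S := by
    refine ⟨?_, ?_, le_rfl⟩
    · show 1 / 2 < ‖z0‖; rw [hz0]; norm_num
    · show ‖z0‖ < 2; rw [hz0]; norm_num
  have hbdd : BddBelow (Φ '' S) := by
    refine ⟨0, ?_⟩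
    rintro _ ⟨⟨x, z⟩, ⟨h1, h2, -⟩, rfl⟩
    simp only at h1 h2
    rw [hΦe]
    have h3 := hpot x z (by linarith only [h1]) (by linarith only [h2])
    have h4 := one_le_jb (x - x0)
    have h5 := pb_quad_nonneg hβ0 (norm_nonneg z) (by linarith only [h2])
    linarith only [h3, h4, h5]
  have hne : (Φ '' S).Nonempty := ⟨_, _, hS0, rfl⟩
  obtain ⟨_, ⟨⟨x, z⟩, ⟨hz1, hz2, hle⟩, rfl⟩, hlt⟩ :=
    exists_lt_of_csInf_lt hne (lt_add_of_pos_right (sInf (Φ '' S)) (by (clear * - hL; positivity) : 0 < L ^ 2))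
  simp only at hz1 hz2
  obtain ⟨x', z', hn1, hn2, hdrop⟩ := pot_drop (κ := κ) hM hβ hβ0 hα hu hL hαL hLM x0 x z
    hz1.le hz2.le
  rw [← hΦe, ← hΦe] at hdrop
  have hlt' : Φ (x', z') < sInf (Φ '' S) := by linarith only [hdrop, hlt]
  have hle' : Φ (x', z') ≤ Φ (x0, z0) := by
    linarith only [hdrop, hle, sq_nonneg L]
  have hnS : (x', z') ∉ S := fun h => absurd (csInf_le hbdd ⟨_, h, rfl⟩) (not_le.2 hlt')
  have hz4 : 1 / 4 ≤ ‖z'‖ := by linarith only [hn1, hη8, hz1]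
  have hz3 : ‖z'‖ ≤ 3 := by linarith only [hn2, hη8, hz2]
  have hp' := hpot x' z' hz4 hz3
  rw [← hΦe] at hp'
  have hj := one_le_jb (x' - x0)
  have hlow : ‖z'‖ ≤ 1 / 2 := by
    by_contra hc0
    have hc := not_le.1 hc0
    apply hnS
    refine ⟨hc, ?_, hle'⟩
    show ‖z'‖ < 2
    by_contra hc1
    have hc2 := not_lt.1 hc1
    obtain ⟨h, hh⟩ : ∃ h, h = ‖z'‖ - 2 := ⟨_, rfl⟩
    have hh0 : 0 ≤ h := by linarith only [hh, hc2]
    have hh1 : h ≤ L * (1 + M) := by linarith only [hh, hn2, hz2]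
    have ez : ‖z'‖ = 2 + h := by linarith only [hh]
    rw [ez] at hp'
    have h5 : β * h ≤ 1 / 4 := (mul_le_mul_of_nonneg_left hh1 hβ0.le).trans hηβ
    have h6 : 0 ≤ β * h := mul_nonneg hβ0.le hh0
    have h7 : β * h * h ≤ 1 / 4 * 1 :=
      mul_le_mul h5 (by linarith only [hh1, hη8]) hh0 (by norm_num)
    linarith only [hp', h5, h7, hh0, hj, hle', hstart]
  have hquad := pb_quad_nonneg hβ0 (norm_nonneg z') hz3
  refine ⟨L, hL, hLε', x', z', ?_, hlow, ?_, ?_⟩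
  · linarith only [hn1, hLε, hz1]
  · have := norm_le_jb (x' - x0)
    linarith only [this, hp', hquad, hle', hstart]
  · have h1 : α * dfc M κ u L x' z' / L ≤ 2 * β + 17 / 4 := by
      have h2 := hu.lip.En_le hL x'
      have h3 := hΦe x' z'
      unfold pot at h3
      linarith only [h2, h3, hj, hquad, hle', hstart]
    rw [div_le_iff₀ hL] at h1
    rw [div_le_iff₀ hε] at hα2
    have h4 : α * dfc M κ u L x' z' ≤ α * (ε * L) := by
      have := mul_le_mul_of_nonneg_right hα2 hL.le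
      linarith only [this, h1]
    exact le_of_mul_le_mul_left h4 hα0

theorem propB {M κ : ℝ} (hM : 0 < M) (hb : Bounds E M κ) :
    ∃ C : ℝ, ∀ u : E → ℝ, LClass u → ∀ x z : E, ‖z‖ = 1 → Perfect M κ u x z →
      ∃ x' z' : E, ‖z'‖ = 1 / 2 ∧ ‖x' - x‖ ≤ C ∧ Perfect M κ u x' z' := by
  refine ⟨28 / M ^ 2 + 17 / 4, fun u hu x0 z0 hz0 hP => ?_⟩
  -- states which are nearly perfect at all scales `m ≥ ε`
  have h1 : ∀ ε > 0, ∃ p : E × E, 1 / 2 - ε ≤ ‖p.2‖ ∧ ‖p.2‖ ≤ 1 / 2 ∧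
      ‖p.1 - x0‖ ≤ 28 / M ^ 2 + 17 / 4 ∧
      ∀ m, ε ≤ m → M * ‖p.2‖ + m * (κ - ε) ≤ Val u m p.1 p.2 := by
    intro ε hε
    obtain ⟨L, hL, hLε, x, z, hz1, hz2, hx, hG⟩ := near_perfect hM hb hu hz0 hP hε
    refine ⟨(x, z), hz1, hz2, hx, fun m hm => ?_⟩
    have hmL : L ≤ m := hLε.trans hm
    have hm0 : 0 < m := hε.trans_le hm
    have h2 := hu.Val_slope hL hmL x z
    have h3 := hb.b0 u hu x z
    simp only
    have h4 : L * (M * ‖z‖ + m * (κ - ε)) ≤ L * Val u m x z := by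
      have h5 : m * (M * ‖z‖ + κ * L - ε * L) ≤ m * Val u L x z :=
        mul_le_mul_of_nonneg_left (by linarith only [hG]) hm0.le
      have h6 : (m - L) * Dd u x z ≤ (m - L) * (M * ‖z‖) :=
        mul_le_mul_of_nonneg_left h3 (by linarith only [hLε, hm])
      linarith only [h2, h5, h6]
    exact le_of_mul_le_mul_left h4 hL
  choose! p hp1 hp2 hp3 hp4 using h1
  set ε : ℕ → ℝ := fun n => 1 / ((n : ℝ) + 1) with hεd
  have hε0 : ∀ n, 0 < ε n := fun n => by rw [hεd]; (clear * -; positivity)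
  have hεt : Tendsto ε atTop (𝓝 0) := tendsto_one_div_add_atTop_nhds_zero_nat
  have hK : IsCompact (closedBall x0 (28 / M ^ 2 + 17 / 4) ×ˢ closedBall (0 : E) (1 / 2)) :=
    (isCompact_closedBall _ _).prod (isCompact_closedBall _ _)
  have hmem : ∀ n, p (ε n) ∈ closedBall x0 (28 / M ^ 2 + 17 / 4) ×ˢ closedBall (0 : E) (1 / 2) := by
    intro n
    refine ⟨?_, ?_⟩
    · rw [mem_closedBall, dist_eq_norm]; exact hp3 _ (hε0 n)
    · rw [mem_closedBall_zero_iff]; exact hp2 _ (hε0 n)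
  obtain ⟨⟨x', z'⟩, hmem', φ, hφ, hlim⟩ := hK.tendsto_subseq hmem
  have hεφ : Tendsto (fun n => ε (φ n)) atTop (𝓝 0) := hεt.comp hφ.tendsto_atTop
  have hz' : Tendsto (fun n => ‖(p (ε (φ n))).2‖) atTop (𝓝 ‖z'‖) :=
    ((continuous_snd.tendsto _).comp hlim).norm
  refine ⟨x', z', ?_, ?_, fun m hm => ?_⟩
  · apply le_antisymm
    · exact le_of_tendsto' hz' fun n => hp2 _ (hε0 _)
    · have h2 : Tendsto (fun n => 1 / 2 - ε (φ n)) atTop (𝓝 (1 / 2 - 0)) := hεφ.const_sub _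
      rw [sub_zero] at h2
      exact le_of_tendsto_of_tendsto' h2 hz' fun n => hp1 _ (hε0 _)
  · have := hmem'.1
    rwa [mem_closedBall, dist_eq_norm] at this
  · have h2 : Tendsto (fun n => M * ‖(p (ε (φ n))).2‖ + m * (κ - ε (φ n))) atTop
        (𝓝 (M * ‖z'‖ + m * (κ - 0))) :=
      (hz'.const_mul M).add ((hεφ.const_sub κ).const_mul m)
    have h3 : Tendsto (fun n => Val u m (p (ε (φ n))).1 (p (ε (φ n))).2) atTop
        (𝓝 (Val u m x' z')) :=
      ((Val_continuous hu.lip hm).tendsto (x', z')).comp hlim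
    have h4 : ∀ᶠ n in atTop, M * ‖(p (ε (φ n))).2‖ + m * (κ - ε (φ n))
        ≤ Val u m (p (ε (φ n))).1 (p (ε (φ n))).2 := by
      filter_upwards [hεφ.eventually_lt_const hm] with n hn
      exact hp4 _ (hε0 _) m hn.le
    have h5 := le_of_tendsto_of_tendsto h2 h3 h4
    rw [sub_zero] at h5
    linarith only [h5]

end Vale.Agent.P080.Liou
end
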