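import Vale.Agent.P080.MathlibUsed
import Vale.Agent.P080.Bdl.B1
import Vale.Agent.P080.DefsAll
import Vale.Agent.P080.LvDefs

set_option linter.all false

section

section

set_option linter.unusedSectionVars false

namespace Vale.Agent.P080

open Topology Filter Metric Set
open scoped RealInnerProductSpace

variable {E : Type*} [NormedAddCommGroup E] [InnerProductSpace ℝ E] [FiniteDimensional ℝ E]

theorem frontier_nonempty_of_bounded [Nontrivial E] {V : Set E} (hV : IsOpen V)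
    (hb : Bornology.IsBounded V) (hne : V.Nonempty) : (frontier V).Nonempty := by
  rw [Set.nonempty_iff_ne_empty]
  intro h
  have h1 : IsClopen V := isClopen_iff_frontier_eq_empty.2 h
  rcases isClopen_iff.1 h1 with h2 | h2
  · exact hne.ne_empty h2
  · rw [h2] at hb
    exact NormedSpace.unbounded_univ ℝ E hb

/-- There is a frontier point in the direction of steepest ascent. -/
theorem ConeComp.exists_frontier_up [Nontrivial E] {u : E → ℝ} {Ω : Set E} (hu : ConeComp u Ω)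
    (hΩ : IsOpen Ω)
    {V : Set E} (hV : IsOpen V) (hb : Bornology.IsBounded V) (hc : closure V ⊆ Ω)
    {x : E} (hx : x ∈ V) :
    ∃ y ∈ frontier V, locLip u x * ‖y - x‖ ≤ u y - u x := by
  by_contra hcon
  push Not at hcon
  have hK : IsCompact (frontier V) :=
    hb.isCompact_closure.of_isClosed_subset isClosed_frontier frontier_subset_closure
  have hKne := frontier_nonempty_of_bounded hV hb ⟨x, hx⟩
  have hcon1 : ContinuousOn (fun y => (u y - u x) - locLip u x * ‖y - x‖) (frontier V) := by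
    have h1 : ContinuousOn u (frontier V) := hu.cont.mono (frontier_subset_closure.trans hc)
    (clear * - h1; fun_prop)
  obtain ⟨y0, hy0, hmax⟩ := hK.exists_isMaxOn hKne hcon1
  set m : ℝ := locLip u x * ‖y0 - x‖ - (u y0 - u x) with hm
  have hm0 : 0 < m := by
    have := hcon y0 hy0
    rw [hm]; linarith only [this]
  have hmax' : ∀ y ∈ frontier V, u y - u x ≤ locLip u x * ‖y - x‖ - m := by
    intro y hy
    have := hmax hy
    simp only [mem_ofPred_eq] at this
    rw [hm]; linarith only [this]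
  have hne : ∃ b, LipNear u x b := hu.exists_lipNear hΩ (hc (subset_closure hx))
  obtain ⟨D, hD⟩ := hK.bddAbove_image (f := fun y => ‖y - x‖) (by fun_prop)
  have hD' : ∀ y ∈ frontier V, ‖y - x‖ ≤ max D 1 := fun y hy =>
    (hD (mem_image_of_mem _ hy)).trans (le_max_left _ _)
  have hD1 : (0 : ℝ) < max D 1 := lt_of_lt_of_le one_pos (le_max_right _ _)
  rcases (locLip_nonneg u x).eq_or_lt with h0 | h0
  · -- zero slope
    have h1 := hu.above V hV hb hc y0 (u x - m) 0 le_rfl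
      (fun y hy => by
        have := hmax' y hy
        rw [← h0] at this
        linarith only [this])
      (fun h => by
        exfalso
        rw [frontier, hV.interior_eq] at hy0
        exact hy0.2 h) x hx
    linarith only [hm0, h1]
  · set b : ℝ := max (locLip u x - m / max D 1) 0 with hbdef
    have hblt : b < locLip u x := by
      rw [hbdef]
      apply max_lt _ h0
      have : 0 < m / max D 1 := by (clear * - hm0; positivity)
      linarith only [this]
    have hb0 : 0 ≤ b := le_max_right _ _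
    have h1 : ∀ y ∈ frontier V, u y - u x ≤ b * ‖y - x‖ := by
      intro y hy
      have h2 := hmax' y hy
      have h3 := hD' y hy
      have h4 : m / max D 1 * ‖y - x‖ ≤ m := by
        have : m / max D 1 * ‖y - x‖ ≤ m / max D 1 * max D 1 :=
          mul_le_mul_of_nonneg_left h3 (by (clear * - hm0; positivity))
        have h5 : m / max D 1 * max D 1 = m := by (clear * - hm0; field_simp)
        linarith only [this, h5]
      have h6 : (locLip u x - m / max D 1) * ‖y - x‖ ≤ b * ‖y - x‖ :=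
        mul_le_mul_of_nonneg_right (le_max_left _ _) (norm_nonneg _)
      have h7 : (locLip u x - m / max D 1) * ‖y - x‖
        = locLip u x * ‖y - x‖ - m / max D 1 * ‖y - x‖ := by ring
      linarith only [h2, h4, h6]
    have h2 := hu.lipNear_of_frontier hV hb hc hx hb0 h1
      (ε := (locLip u x - b) / 2) (by linarith only [hblt])
    have h3 := locLip_le (by linarith only [h0, hb0]) h2
    linarith

theorem ConeComp.exists_frontier_down [Nontrivial E] {u : E → ℝ} {Ω : Set E} (hu : ConeComp u Ω)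
    (hΩ : IsOpen Ω)
    {V : Set E} (hV : IsOpen V) (hb : Bornology.IsBounded V) (hc : closure V ⊆ Ω)
    {x : E} (hx : x ∈ V) :
    ∃ y ∈ frontier V, locLip u x * ‖y - x‖ ≤ u x - u y := by
  obtain ⟨y, hy, h⟩ := hu.neg.exists_frontier_up hΩ hV hb hc hx
  rw [locLip_neg] at h
  exact ⟨y, hy, by (clear * - h; linarith)⟩

/-- On a convex set where the local Lipschitz constant is at most `Λ`, `u` is `Λ`-Lipschitz. -/
theorem lipschitz_of_locLip_le {u : E → ℝ} {G : Set E} (hG : Convex ℝ G) {Λ : ℝ}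
    (hΛ : ∀ x ∈ G, (∃ b, LipNear u x b) ∧ locLip u x ≤ Λ) {x y : E} (hx : x ∈ G) (hy : y ∈ G) :
    |u x - u y| ≤ Λ * ‖x - y‖ := by
  have key : ∀ ε > 0, |u y - u x| ≤ (Λ + ε) * ‖y - x‖ + ε := by
    intro ε hε
    set f : ℝ → ℝ := fun t => u (x + t • (y - x)) with hf
    have hmem : ∀ t ∈ Icc (0 : ℝ) 1, x + t • (y - x) ∈ G := by
      intro t ht
      exact hG.add_smul_sub_mem hx hy ht
    have hloc : ∀ t ∈ Icc (0 : ℝ) 1, ∃ δ > 0, ∀ s, |s - t| < δ →
        |f s - f t| ≤ (Λ + ε) * ‖y - x‖ * |s - t| := by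
      intro t ht
      obtain ⟨hne, hle⟩ := hΛ _ (hmem t ht)
      obtain ⟨δ, hδ, h⟩ := lipNear_of_locLip_lt hne (lt_of_le_of_lt hle (by linarith only [hε] : Λ < Λ + ε))
      refine ⟨δ / (‖y - x‖ + 1), by (clear * - hδ; positivity), fun s hs => ?_⟩
      have h1 : ‖(x + s • (y - x)) - (x + t • (y - x))‖ = ‖y - x‖ * |s - t| := by
        have : (x + s • (y - x)) - (x + t • (y - x)) = (s - t) • (y - x) := by module
        rw [this, norm_smul, Real.norm_eq_abs, mul_comm]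
      have h2 : x + s • (y - x) ∈ ball (x + t • (y - x)) δ := by
        rw [mem_ball, dist_eq_norm, h1]
        have h3 : ‖y - x‖ * |s - t| ≤ (‖y - x‖ + 1) * |s - t| := by
          apply mul_le_mul_of_nonneg_right (by linarith only []) (abs_nonneg _)
        have h4 : (‖y - x‖ + 1) * |s - t| < (‖y - x‖ + 1) * (δ / (‖y - x‖ + 1)) :=
          mul_lt_mul_of_pos_left hs (by (clear * -; positivity))
        have h5 : (‖y - x‖ + 1) * (δ / (‖y - x‖ + 1)) = δ := by field_simp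
        linarith only [h3, h4, h5]
      have h6 := h _ h2 _ (mem_ball_self hδ)
      rw [h1] at h6
      simp only [hf]
      calc _ ≤ (Λ + ε) * (‖y - x‖ * |s - t|) := h6
        _ = _ := by ring
    -- continuity of `f` on `[0,1]`
    have hfc : ContinuousOn f (Icc 0 1) := by
      intro t ht
      obtain ⟨δ, hδ, h⟩ := hloc t ht
      apply ContinuousAt.continuousWithinAt
      rw [Metric.continuousAt_iff]
      intro η hη
      refine ⟨min δ (η / (|(Λ + ε) * ‖y - x‖| + 1)), by (clear * - hδ hη; positivity), fun {s} hs => ?_⟩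
      rw [Real.dist_eq] at hs ⊢
      have h1 := h s (lt_of_lt_of_le hs (min_le_left _ _))
      have h2 : |s - t| < η / (|(Λ + ε) * ‖y - x‖| + 1) := lt_of_lt_of_le hs (min_le_right _ _)
      calc |f s - f t| ≤ (Λ + ε) * ‖y - x‖ * |s - t| := h1
        _ ≤ |(Λ + ε) * ‖y - x‖| * |s - t| :=
            mul_le_mul_of_nonneg_right (le_abs_self _) (abs_nonneg _)
        _ ≤ (|(Λ + ε) * ‖y - x‖| + 1) * |s - t| :=
            mul_le_mul_of_nonneg_right (by linarith only []) (abs_nonneg _)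
        _ < (|(Λ + ε) * ‖y - x‖| + 1) * (η / (|(Λ + ε) * ‖y - x‖| + 1)) :=
            mul_lt_mul_of_pos_left h2 (by (clear * -; positivity))
        _ = η := by field_simp
    set s : Set ℝ := {t | |f t - f 0| ≤ ((Λ + ε) * ‖y - x‖) * t} with hs
    have hclosed : IsClosed (s ∩ Icc 0 1) := by
      have h1 : ContinuousOn (fun t => |f t - f 0| - ((Λ + ε) * ‖y - x‖) * t) (Icc 0 1) := by
        fun_prop
      have h2 := h1.preimage_isClosed_of_isClosed isClosed_Icc (isClosed_Iic (a := (0 : ℝ)))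
      convert h2 using 1
      ext t
      simp only [hs, mem_inter_iff, mem_ofPred_eq, mem_preimage, mem_Iic, sub_nonpos]
      (clear * -; tauto)
    have h0 : (0 : ℝ) ∈ s := by simp [hs]
    have hsub : Icc (0 : ℝ) 1 ⊆ s := by
      apply hclosed.Icc_subset_of_forall_mem_nhdsWithin h0
      intro t ht
      obtain ⟨δ, hδ, h⟩ := hloc t ⟨ht.2.1, ht.2.2.le⟩
      have h1 : Ioo t (t + δ) ∈ 𝓝[>] t := Ioo_mem_nhdsGT (by linarith)
      filter_upwards [h1] with r hr
      have h2 := h r (by rw [abs_of_pos (by linarith [hr.1])]; linarith [hr.2])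
      rw [abs_of_pos (by linarith [hr.1] : 0 < r - t)] at h2
      have h3 : |f t - f 0| ≤ ((Λ + ε) * ‖y - x‖) * t := ht.1
      have h4 : |f r - f 0| ≤ |f r - f t| + |f t - f 0| := by
        have : f r - f 0 = (f r - f t) + (f t - f 0) := by ring
        rw [this]; exact abs_add_le _ _
      simp only [hs, mem_ofPred_eq]
      linarith only [h2, h3, h4]
    have h1 := hsub (right_mem_Icc.2 zero_le_one)
    simp only [hs, mem_ofPred_eq, hf, one_smul, zero_smul, add_zero, mul_one] at h1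
    have h2 : x + (y - x) = y := by abel
    rw [h2] at h1
    linarith only [h1, hε]
  have h1 : |u y - u x| ≤ Λ * ‖y - x‖ := by
    have : ∀ ε > 0, |u y - u x| ≤ Λ * ‖y - x‖ + ε := by
      intro ε hε
      have h := key (ε / (‖y - x‖ + 1)) (by positivity)
      have h2 : ε / (‖y - x‖ + 1) * ‖y - x‖ + ε / (‖y - x‖ + 1) = ε := by
        field_simp
      linarith only [h, h2]
    exact le_of_forall_pos_le_add this
  rw [abs_sub_comm, norm_sub_rev]
  exact h1

/-- Lower bound for the local Lipschitz constant at a point touched by a ball on which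
`u` is below its value at the point. -/
theorem ConeComp.sub_le_of_ball {u : E → ℝ} {Ω : Set E} (hu : ConeComp u Ω) (hΩ : IsOpen Ω)
    {z x : E} {s : ℝ} (hs : 0 < s) (hc : closedBall z s ⊆ Ω) (hxz : ‖x - z‖ = s)
    (hle : ∀ y ∈ sphere z s, u y ≤ u x) : u x - u z ≤ locLip u x * s := by
  set κ : ℝ := (u x - u z) / s with hκ
  have hκs : κ * s = u x - u z := by rw [hκ]; (clear * - hs; field_simp)
  rcases le_or_gt κ 0 with h0 | h0
  · have := locLip_nonneg u x
    linarith only [hκs, (mul_nonneg (le_of_lt hs) this), (mul_nonneg (le_of_lt hs) (sub_nonneg.2         h0))]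
  have hcone : ∀ y ∈ ball z s, u y ≤ u z + κ * ‖y - z‖ := by
    apply hu.above (ball z s) isOpen_ball isBounded_ball
      ((closure_ball_subset_closedBall).trans hc) z (u z) κ h0.le
    · intro y hy
      have hy1 : y ∈ sphere z s := frontier_ball_subset_sphere hy
      have hy2 : ‖y - z‖ = s := by simpa only [mem_sphere_iff_norm] using hy1
      rw [hy2, hκs]
      have := hle y hy1
      linarith only [this]
    · intro _; exact le_rfl
  have hxΩ : x ∈ Ω := hc (by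
    rw [mem_closedBall, dist_eq_norm, hxz])
  have hne := hu.exists_lipNear hΩ hxΩ
  have hkey : κ ≤ locLip u x := by
    apply le_of_forall_pos_le_add
    intro ε hε
    obtain ⟨δ, hδ, h⟩ := lipNear_of_locLip_lt hne (by linarith only [hε] : locLip u x < locLip u x + ε)
    set τ : ℝ := min (δ / 2) (s / 2) with hτ
    have hτ0 : 0 < τ := by (clear * - hδ hs; positivity)
    have hτ1 : τ ≤ δ / 2 := min_le_left _ _
    have hτ2 : τ ≤ s / 2 := min_le_right _ _
    set y : E := x - (τ / s) • (x - z) with hy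
    have h1 : ‖y - x‖ = τ := by
      have : y - x = -((τ / s) • (x - z)) := by rw [hy]; abel
      rw [this, norm_neg, norm_smul, hxz, Real.norm_of_nonneg (by (clear * - hδ hs; positivity))]
      (clear * - hs hτ0; field_simp)
    have h2 : ‖y - z‖ = s - τ := by
      have : y - z = (1 - τ / s) • (x - z) := by rw [hy]; module
      rw [this, norm_smul, hxz, Real.norm_of_nonneg]
      · (clear * - hs; field_simp)
      · rw [sub_nonneg, div_le_one hs]; linarith only [hτ0, hτ2]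
    have h3 := hcone y (by rw [mem_ball, dist_eq_norm, h2]; linarith only [hτ0])
    have h4 := h x (mem_ball_self hδ) y (by rw [mem_ball, dist_eq_norm, h1]; linarith only [hτ0,
          hτ1])
    rw [h2] at h3
    rw [norm_sub_rev, h1] at h4
    have h5 := (abs_le.1 h4).2
    have h6 : κ * τ ≤ (locLip u x + ε) * τ := by
      have : κ * (s - τ) = κ * s - κ * τ := by ring
      rw [this, hκs] at h3
      linarith only [h3, h5]
    exact le_of_mul_le_mul_right h6 hτ0
  rw [← hκs]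
  exact mul_le_mul_of_nonneg_right hkey hs.le

/-- Upper bound for the local Lipschitz constant from a one-sided bound on a sphere. -/
theorem ConeComp.locLip_le_of_sphere {u : E → ℝ} {Ω : Set E} (hu : ConeComp u Ω)
    {x : E} {r m : ℝ} (hr : 0 < r) (hm : 0 ≤ m) (hc : closedBall x r ⊆ Ω)
    (hle : ∀ y ∈ sphere x r, u y - u x ≤ m) : locLip u x ≤ m / r := by
  apply le_of_forall_pos_le_add
  intro ε hε
  have h1 : LipNear u x (m / r + ε) := by
    apply hu.lipNear_of_frontier (V := ball x r) isOpen_ball isBounded_ball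
      ((closure_ball_subset_closedBall).trans hc) (mem_ball_self hr) (by positivity) _ hε
    intro y hy
    have hy1 : y ∈ sphere x r := frontier_ball_subset_sphere hy
    have hy2 : ‖y - x‖ = r := by simpa [dist_eq_norm] using hy1
    rw [hy2]
    have : m / r * r = m := by field_simp
    rw [this]
    exact hle y hy1
  exact locLip_le (by positivity) h1

end Vale.Agent.P080
end
end

section

section

set_option linter.unusedSectionVars false

namespace Vale.Agent.P080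

open Topology Filter Metric Set
open scoped RealInnerProductSpace

variable {E : Type*} [NormedAddCommGroup E] [InnerProductSpace ℝ E] [FiniteDimensional ℝ E]

variable [Nontrivial E]

end Vale.Agent.P080
end
end

section

section

set_option linter.unusedSectionVars false

namespace Vale.Agent.P080

open Topology Filter Metric Set
open scoped RealInnerProductSpace

variable {E : Type*} [NormedAddCommGroup E] [InnerProductSpace ℝ E] [FiniteDimensional ℝ E]
  [Nontrivial E]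

namespace Ring

variable {u : E → ℝ} {Ω K : Set E}

end Ring

end Vale.Agent.P080
end
end

section

section

set_option linter.unusedSectionVars false

namespace Vale.Agent.P080

open Topology Filter Metric Set
open scoped RealInnerProductSpace

variable {E : Type*} [NormedAddCommGroup E] [InnerProductSpace ℝ E] [FiniteDimensional ℝ E]
  [Nontrivial E]

namespace Ring

variable {u : E → ℝ} {Ω K : Set E}

end Ring

end Vale.Agent.P080
end
end

section

section

set_option linter.unusedSectionVars false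

namespace Vale.Agent.P080

open Topology Filter Metric Set
open scoped RealInnerProductSpace

variable {E : Type*} [NormedAddCommGroup E] [InnerProductSpace ℝ E]

/-- component of `x` orthogonal to `e` -/
def perp (e x : E) : E := x - ⟪x, e⟫ • e

theorem perp_sub (e x y : E) : perp e (x - y) = perp e x - perp e y := by
  unfold perp
  rw [inner_sub_left]
  module

theorem perp_add (e x y : E) : perp e (x + y) = perp e x + perp e y := by
  unfold perp
  rw [inner_add_left]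
  module

theorem perp_smul (e : E) (c : ℝ) (x : E) : perp e (c • x) = c • perp e x := by
  unfold perp
  rw [real_inner_smul_left]
  module

theorem perp_smul_self {e : E} (he : ‖e‖ = 1) (c : ℝ) : perp e (c • e) = 0 := by
  unfold perp
  rw [real_inner_smul_left, real_inner_self_eq_norm_sq, he]
  module

theorem perp_decomp (e x : E) : x = ⟪x, e⟫ • e + perp e x := by
  unfold perp; module

theorem inner_perp_self {e : E} (he : ‖e‖ = 1) (x : E) : ⟪perp e x, e⟫ = 0 := by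
  unfold perp
  rw [inner_sub_left, real_inner_smul_left, real_inner_self_eq_norm_sq, he]
  ring

theorem norm_sq_perp {e : E} (he : ‖e‖ = 1) (x : E) :
    ‖x‖ ^ 2 = ⟪x, e⟫ ^ 2 + ‖perp e x‖ ^ 2 := by
  have h1 : ‖perp e x‖ ^ 2 = ‖x‖ ^ 2 - ⟪x, e⟫ ^ 2 := by
    unfold perp
    rw [@norm_sub_sq_real, real_inner_smul_right, norm_smul, he, mul_pow, Real.norm_eq_abs, sq_abs]
    ring
  rw [h1]; ring

theorem norm_perp_le {e : E} (he : ‖e‖ = 1) (x : E) (c : ℝ) : ‖perp e x‖ ≤ ‖x - c • e‖ := by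
  have h1 := norm_sq_perp he (x - c • e)
  rw [perp_sub, perp_smul_self he, sub_zero] at h1
  have h2 : ‖perp e x‖ ^ 2 ≤ ‖x - c • e‖ ^ 2 := by rw [h1]; linarith only [sq_nonneg ⟪x - c • e,
        e⟫]
  exact le_of_sq_le_sq h2 (norm_nonneg _)

theorem norm_perp_le_norm {e : E} (he : ‖e‖ = 1) (x : E) : ‖perp e x‖ ≤ ‖x‖ := by
  simpa only [zero_smul, sub_zero] using norm_perp_le he x 0

theorem abs_inner_le_norm' {e : E} (he : ‖e‖ = 1) (x : E) : |⟪x, e⟫| ≤ ‖x‖ := by
  have := abs_real_inner_le_norm x e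
  rwa [he, mul_one] at this

theorem norm_le_abs_add_perp {e : E} (he : ‖e‖ = 1) (x : E) : ‖x‖ ≤ |⟪x, e⟫| + ‖perp e x‖ := by
  conv_lhs => rw [perp_decomp e x]
  refine (norm_add_le _ _).trans ?_
  rw [norm_smul, he, mul_one, Real.norm_eq_abs]

/-- Quantitative Taylor upper bound for the norm. -/
theorem norm_add_smul_le {m : E} (hm : ‖m‖ = 1) {w : E} {ρ : ℝ} (hρ : 0 < ρ)
    (hw : -(ρ / 2) ≤ ⟪w, m⟫) (c : ℝ) :
    ‖w + ρ • m‖ ≤ ρ + ⟪w, m⟫ + ‖w - c • m‖ ^ 2 / ρ := by
  have h1 := norm_sq_perp hm (w + ρ • m)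
  rw [perp_add, perp_smul_self hm, add_zero, inner_add_left, real_inner_smul_left,
    real_inner_self_eq_norm_sq, hm] at h1
  have h2 : ‖perp m w‖ ^ 2 ≤ ‖w - c • m‖ ^ 2 :=
    pow_le_pow_left₀ (norm_nonneg _) (norm_perp_le hm w c) 2
  have h3 : 0 ≤ ‖w - c • m‖ ^ 2 / ρ := by positivity
  have h4 : ‖w - c • m‖ ^ 2 / ρ * ρ = ‖w - c • m‖ ^ 2 := by (clear * - hρ; field_simp)
  have h5 : 0 ≤ ρ + ⟪w, m⟫ := by linarith only [hρ, hw]
  apply le_of_sq_le_sq _ (by (clear * - h5 hρ; positivity))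
  rw [h1]
  linarith only [(sq_nonneg (1 * (‖w - c • m‖ ^ 2 / ρ))), h2, h4, mul_nonneg h3 (by linarith : 0 ≤       2 * (ρ + ⟪w, m⟫) - ρ)]

theorem unit_sub_sq {a b : E} (ha : ‖a‖ = 1) (hb : ‖b‖ = 1) : ‖a - b‖ ^ 2 = 2 - 2 * ⟪a, b⟫ := by
  rw [@norm_sub_sq_real, ha, hb]; ring

variable [FiniteDimensional ℝ E]

theorem ConeComp.tube_up {u : E → ℝ} {Ω : Set E} (hu : ConeComp u Ω) (hΩ : IsOpen Ω)
    {e : E} (he : ‖e‖ = 1) {B : E} {ρ t : ℝ} (hρ : 0 < ρ) (ht : ‖perp e B‖ < t)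
    (hsub : closedBall B ρ ⊆ Ω) :
    ∃ y, 0 < ‖y - B‖ ∧ ‖y - B‖ ≤ ρ ∧ ‖perp e y‖ ≤ t ∧ (‖y - B‖ = ρ ∨ ‖perp e y‖ = t) ∧
      locLip u B * ‖y - B‖ ≤ u y - u B := by
  have hnt : Nontrivial E := ⟨⟨e, 0, by intro h; rw [h, norm_zero] at he; exact zero_ne_one he⟩⟩
  have hperp : Continuous (fun x => ‖perp e x‖) := by unfold perp; fun_prop
  set V : Set E := ball B ρ ∩ {x | ‖perp e x‖ < t} with hV
  have hVo : IsOpen V := isOpen_ball.inter (isOpen_lt hperp continuous_const)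
  have hVb : Bornology.IsBounded V := isBounded_ball.subset inter_subset_left
  have hcl : closure V ⊆ closedBall B ρ ∩ {x | ‖perp e x‖ ≤ t} := by
    apply closure_minimal
    · intro x hx
      exact ⟨ball_subset_closedBall hx.1, (show ‖perp e x‖ ≤ t from (show ‖perp e x‖ < t from hx.2).le)⟩
    · exact isClosed_closedBall.inter (isClosed_le hperp continuous_const)
  have hB : B ∈ V := ⟨mem_ball_self hρ, ht⟩
  obtain ⟨y, hy, hyle⟩ := hu.exists_frontier_up hΩ hVo hVb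
    ((hcl.trans inter_subset_left).trans hsub) hB
  rw [frontier, hVo.interior_eq] at hy
  have hy1 := hcl hy.1
  have hy2 : ‖y - B‖ ≤ ρ := by simpa [dist_eq_norm] using hy1.1
  have hy3 : ‖perp e y‖ ≤ t := hy1.2
  refine ⟨y, ?_, hy2, hy3, ?_, hyle⟩
  · rw [norm_pos_iff, sub_ne_zero]
    intro h
    exact hy.2 (h ▸ hB)
  · by_contra hcon
    push Not at hcon
    apply hy.2
    exact ⟨by rw [mem_ball, dist_eq_norm]; exact lt_of_le_of_ne hy2 hcon.1,
      lt_of_le_of_ne hy3 hcon.2⟩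

theorem ConeComp.tube_down {u : E → ℝ} {Ω : Set E} (hu : ConeComp u Ω) (hΩ : IsOpen Ω)
    {e : E} (he : ‖e‖ = 1) {B : E} {ρ t : ℝ} (hρ : 0 < ρ) (ht : ‖perp e B‖ < t)
    (hsub : closedBall B ρ ⊆ Ω) :
    ∃ y, 0 < ‖y - B‖ ∧ ‖y - B‖ ≤ ρ ∧ ‖perp e y‖ ≤ t ∧ (‖y - B‖ = ρ ∨ ‖perp e y‖ = t) ∧
      locLip u B * ‖y - B‖ ≤ u B - u y := by
  obtain ⟨y, h1, h2, h3, h4, h5⟩ := hu.neg.tube_up hΩ he hρ ht hsub
  rw [locLip_neg] at h5
  exact ⟨y, h1, h2, h3, h4, by linarith⟩

end Vale.Agent.P080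
end
end

section

section

set_option linter.unusedSectionVars false

namespace Vale.Agent.P080

open Topology Filter Metric Set
open scoped RealInnerProductSpace

variable {E : Type*} [NormedAddCommGroup E] [InnerProductSpace ℝ E] [FiniteDimensional ℝ E]

/-- Normalized situation around the origin: `u` is `1`-Lipschitz on a thin cylinder, its local
Lipschitz constant at `0` is at least `1 - g ^ 2`, and `u ≤ u 0 = 0` on the unit ball
centered at `-e`. -/
structure Setup (u : E → ℝ) (Ω : Set E) (e : E) (g : ℝ) : Prop where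
  hu : ConeComp u Ω
  hΩ : IsOpen Ω
  he : ‖e‖ = 1
  h4 : closedBall (0 : E) 4 ⊆ Ω
  hu0 : u 0 = 0
  hg0 : 0 < g
  hg1 : g ≤ 1
  hLip : ∀ x y : E, |⟪x, e⟫| ≤ 1 → ‖perp e x‖ ≤ 3 * g → |⟪y, e⟫| ≤ 1 → ‖perp e y‖ ≤ 3 * g →
    |u x - u y| ≤ ‖x - y‖
  hL : 1 - g ^ 2 ≤ locLip u 0
  hball : ∀ x : E, ‖x + e‖ ≤ 1 → u x ≤ 0

namespace Setup

variable {u : E → ℝ} {Ω : Set E} {e : E} {g : ℝ}

theorem up_inner (S : Setup u Ω e g) {y : E} (hy0 : 0 < ‖y‖) (hy : ‖y‖ ≤ 1 / 2)
    (hyp : ‖perp e y‖ ≤ 3 * g) (huy : (1 - g ^ 2) * ‖y‖ ≤ u y) :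
    ‖y - ‖y‖ • e‖ ≤ 2 * g * ‖y‖ := by
  have he := S.he
  have hg0 := S.hg0
  have hg1 := S.hg1
  set t := ‖y‖ with ht
  have hin := abs_le.1 (abs_inner_le_norm' he y)
  have key : t * (1 - 2 * g ^ 2) ≤ ⟪y, e⟫ := by
    rcases le_or_gt ‖y + e‖ 1 with hD | hD
    · have h1 := S.hball y hD
      have h2 : (1 - g ^ 2) * t ≤ 0 := huy.trans h1
      have h3 : 1 - g ^ 2 ≤ 0 := by
        by_contra h
        push Not at h
        have := mul_pos h hy0
        linarith only [huy, h1, this]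
      linarith
    · set D := ‖y + e‖ with hDdef
      have hDpos : 0 < D := by linarith only [hD]
      set z : E := (1 / D) • (y + e) - e with hz
      have hze : ‖z + e‖ = 1 := by
        have : z + e = (1 / D) • (y + e) := by rw [hz]; abel
        rw [this, norm_smul, Real.norm_of_nonneg (by positivity)]
        rw [← hDdef]; field_simp
      have huz := S.hball z hze.le
      have hyz : ‖y - z‖ = D - 1 := by
        have : y - z = (1 - 1 / D) • (y + e) := by rw [hz]; module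
        rw [this, norm_smul, ← hDdef, Real.norm_of_nonneg]
        · (clear * - hD; field_simp)
        · rw [sub_nonneg, div_le_one hDpos]; exact hD.le
      have hzp : ‖perp e z‖ ≤ 3 * g := by
        have : perp e z = (1 / D) • perp e y := by
          rw [hz, perp_sub, perp_smul, perp_add]
          have h1 : perp e e = 0 := by simpa using perp_smul_self he 1
          rw [h1]; simp
        rw [this, norm_smul, Real.norm_of_nonneg (by positivity)]
        have : 1 / D ≤ 1 := by rw [div_le_one hDpos]; exact hD.le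
        linarith only [hyp, (mul_nonneg (sub_nonneg.2 this) (norm_nonneg (perp e y)))]
      have hzi : ⟪z, e⟫ = (⟪y, e⟫ + 1) / D - 1 := by
        rw [hz, inner_sub_left, real_inner_smul_left, inner_add_left,
          real_inner_self_eq_norm_sq, he]
        ring
      have hzi2 : |⟪z, e⟫| ≤ 1 := by
        rw [hzi, abs_le]
        have h1 : 0 ≤ (⟪y, e⟫ + 1) / D := div_nonneg (by linarith only [hin.1, hy]) hDpos.le
        have h2 : (⟪y, e⟫ + 1) / D ≤ ⟪y, e⟫ + 1 := div_le_self (by linarith only [hin.1, hy]) hD.le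
        constructor
        · linarith only [h1]
        · linarith only [hin.2, h2, hy]
      have h1 := S.hLip y z (by rw [abs_le]; constructor <;> linarith only [hy, hin]) hyp hzi2 hzp
      rw [hyz] at h1
      have h2 : (1 - g ^ 2) * t ≤ D - 1 := by linarith only [huy, huz, (abs_le.1 h1).2]
      have hDsq : D ^ 2 = t ^ 2 + 2 * ⟪y, e⟫ + 1 := by
        rw [hDdef, @norm_add_sq_real, he, ht]; ring
      have h3 : 0 ≤ 1 - g ^ 2 := by linarith only [hg1, (mul_nonneg (le_of_lt hg0) (sub_nonneg.2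
                                        hg1))]
      have h4 : (1 + (1 - g ^ 2) * t) ^ 2 ≤ D ^ 2 := by
        apply pow_le_pow_left₀ _ (by linarith only [h2])
        (clear * - h3 hy0; positivity)
      have h5 : 0 ≤ g ^ 2 * t := by positivity
      linarith only [hDsq, h4, mul_nonneg h5 (by linarith : 0 ≤ 1 - t), sq_nonneg (g ^ 2 * t)]
  have h1 : ‖y - t • e‖ ^ 2 ≤ (2 * g * t) ^ 2 := by
    rw [@norm_sub_sq_real, real_inner_smul_right, norm_smul, he, ← ht,
      Real.norm_of_nonneg hy0.le]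
    linarith only [mul_le_mul_of_nonneg_left key hy0.le]
  exact le_of_sq_le_sq h1 (by positivity)

theorem exists_up (S : Setup u Ω e g) {τ : ℝ} (hτ : 0 < τ) (hτ2 : τ ≤ 1 / 2) :
    ∃ y : E, ‖y‖ = τ ∧ (1 - g ^ 2) * τ ≤ u y ∧ ‖y - τ • e‖ ≤ 2 * g * τ := by
  have he := S.he
  have hg0 := S.hg0
  have h0 : perp e (0 : E) = 0 := by unfold perp; simp
  obtain ⟨y, h1, h2, h3, h4, h5⟩ := S.hu.tube_up S.hΩ he (B := 0) (ρ := τ) (t := 3 * g) hτ
    (by rw [h0, norm_zero]; positivity)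
    ((closedBall_subset_closedBall (by linarith)).trans S.h4)
  rw [sub_zero] at h1 h2 h4 h5
  rw [S.hu0, sub_zero] at h5
  have h6 : (1 - g ^ 2) * ‖y‖ ≤ u y :=
    (mul_le_mul_of_nonneg_right S.hL (norm_nonneg _)).trans h5
  have h7 := S.up_inner h1 (by linarith only [hτ2, h2]) h3 h6
  have h8 : ‖perp e y‖ < 3 * g := by
    have := norm_perp_le he y ‖y‖
    linarith only [hg0, h7, this, (mul_nonneg (le_of_lt hg0) (sub_nonneg.2 h2)), (mul_nonneg         (sub_nonneg.2 hτ2) (le_of_lt hg0))]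
  have h9 : ‖y‖ = τ := by
    rcases h4 with h | h
    · exact h
    · exact absurd h (ne_of_lt h8)
  rw [h9] at h6 h7
  exact ⟨y, h9, h6, h7⟩

theorem exists_down (S : Setup u Ω e g) {τ : ℝ} (hτ : 0 < τ) (hτ2 : τ ≤ 1 / 2) :
    ∃ y : E, ‖y‖ = τ ∧ u y ≤ -((1 - g ^ 2) * τ) ∧ ‖y + τ • e‖ ≤ 5 * g * τ := by
  have he := S.he
  have hg0 := S.hg0
  have hg1 := S.hg1
  have h0 : perp e (0 : E) = 0 := by unfold perp; simp
  obtain ⟨y, h1, h2, h3, h4, h5⟩ := S.hu.tube_down S.hΩ he (B := 0) (ρ := τ) (t := 3 * g) hτ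
    (by rw [h0, norm_zero]; positivity)
    ((closedBall_subset_closedBall (by linarith only [hτ2])).trans S.h4)
  rw [sub_zero] at h1 h2 h4 h5
  rw [S.hu0, zero_sub] at h5
  have h6 : (1 - g ^ 2) * ‖y‖ ≤ - u y :=
    (mul_le_mul_of_nonneg_right S.hL (norm_nonneg _)).trans h5
  obtain ⟨x, hx1, hx2, hx3⟩ := S.exists_up h1 (by linarith only [hτ2, h2])
  set t := ‖y‖ with ht
  have hyin := abs_le.1 (abs_inner_le_norm' he y)
  have hxin := abs_le.1 (abs_inner_le_norm' he x)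
  have hxp : ‖perp e x‖ ≤ 3 * g := by
    have := norm_perp_le he x t
    linarith only [hg0, hx3, this, (mul_nonneg (le_of_lt hg0) (sub_nonneg.2 h2)), (mul_nonneg         (sub_nonneg.2 hτ2) (le_of_lt hg0))]
  have h7 := S.hLip x y (by rw [abs_le]; constructor <;> (first | (linarith only [hxin.1, hx1, h2,
                                                             hτ2]) | (linarith only [hxin.2, hx1,
                                                             h2, hτ2]))) hxp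
    (by rw [abs_le]; constructor <;> (first | (linarith only [hyin.1, h2, hτ2]) | (linarith only
                                         [hyin.2, h2, hτ2]))) h3
  have h8 : 2 * ((1 - g ^ 2) * t) ≤ ‖x - y‖ := by linarith only [h6, hx2, (abs_le.1 h7).2]
  have hpar : ‖x + y‖ ^ 2 = 4 * t ^ 2 - ‖x - y‖ ^ 2 := by
    rw [@norm_sub_sq_real, @norm_add_sq_real, hx1, ← ht]; ring
  have h9 : 0 ≤ 1 - g ^ 2 := by linarith only [hg1, (mul_nonneg (le_of_lt hg0) (sub_nonneg.2
                                    hg1))]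
  have h10 : (2 * ((1 - g ^ 2) * t)) ^ 2 ≤ ‖x - y‖ ^ 2 :=
    pow_le_pow_left₀ (by (clear * - h9 h1; positivity)) h8 2
  have h11 : ‖x + y‖ ≤ 3 * g * t := by
    apply le_of_sq_le_sq _ (by positivity)
    rw [hpar]
    linarith only [(sq_nonneg (3 * g * t)), h10, sq_nonneg (g ^ 2 * t)]
  have h12 : ‖y + t • e‖ ≤ 5 * g * t := by
    have : y + t • e = (x + y) - (x - t • e) := by abel
    rw [this]
    refine (norm_sub_le _ _).trans ?_
    linarith only [hx3, h11]
  have h13 : ‖perp e y‖ < 3 * g := by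
    have h := norm_perp_le he y (-t)
    rw [neg_smul, sub_neg_eq_add] at h
    linarith only [hg0, h12, h, (mul_nonneg (le_of_lt hg0) (sub_nonneg.2 h2)), (mul_nonneg         (sub_nonneg.2 hτ2) (le_of_lt hg0))]
  have h14 : ‖y‖ = τ := by
    rcases h4 with h | h
    · exact h
    · exact absurd h (ne_of_lt h13)
  rw [← ht] at h14
  rw [h14] at h6 h12
  exact ⟨y, h14, by linarith only [h6], h12⟩

end Setup

end Vale.Agent.P080
end
end

section

section

set_option linter.unusedSectionVars false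

namespace Vale.Agent.P080

open Topology Filter Metric Set
open scoped RealInnerProductSpace

variable {E : Type*} [NormedAddCommGroup E] [InnerProductSpace ℝ E]

/-- If `m` is a unit vector close to `e` then `⟪w, m⟫` is close to `⟪w, e⟫`. -/
theorem inner_sub_le_of_close {m e : E} (hm : ‖m‖ = 1) (he : ‖e‖ = 1) (w : E) {k : ℝ}
    (hk : ‖m - e‖ ≤ k) :
    |⟪w, m⟫ - ⟪w, e⟫| ≤ |⟪w, e⟫| * (k ^ 2 / 2) + ‖perp e w‖ * k := by
  have hk0 : 0 ≤ k := (norm_nonneg _).trans hk
  have h1 : ⟪w, m⟫ - ⟪w, e⟫ = ⟪w, e⟫ * ⟪e, m - e⟫ + ⟪perp e w, m - e⟫ := by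
    rw [← inner_sub_right]
    conv_lhs => rw [perp_decomp e w]
    rw [inner_add_left, real_inner_smul_left]
  have h2 : ⟪e, m - e⟫ = -(‖m - e‖ ^ 2 / 2) := by
    have := unit_sub_sq hm he
    rw [inner_sub_right, real_inner_self_eq_norm_sq, he, real_inner_comm, this]
    ring
  rw [h1]
  refine (abs_add_le _ _).trans (add_le_add ?_ ?_)
  · rw [abs_mul, h2, abs_neg, abs_of_nonneg (by positivity : 0 ≤ ‖m - e‖ ^ 2 / 2)]
    gcongr
  · refine (abs_real_inner_le_norm _ _).trans ?_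
    gcongr

variable [FiniteDimensional ℝ E]

namespace Setup

variable {u : E → ℝ} {Ω : Set E} {e : E} {g : ℝ}

theorem flat_aux {e : E} (he : ‖e‖ = 1) {g : ℝ} (hg0 : 0 < g) (hg1 : g ≤ 1) {m : E} (hm : ‖m‖ = 1)
    (hme : ‖m - e‖ ≤ 5 * g) {w : E} (hw1 : |⟪w, e⟫| ≤ 1 / 8) (hw2 : ‖perp e w‖ ≤ g / 8) :
    ‖w + (1 / 2 : ℝ) • m‖ ≤ 1 / 2 + ⟪w, e⟫ + 53 / 16 * g ^ 2 := by
  have h1 := inner_sub_le_of_close hm he w hme
  have h2 : |⟪w, m⟫ - ⟪w, e⟫| ≤ 35 / 16 * g ^ 2 := by
    refine h1.trans ?_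
    have : |⟪w, e⟫| * ((5 * g) ^ 2 / 2) + ‖perp e w‖ * (5 * g)
        ≤ (1 / 8) * ((5 * g) ^ 2 / 2) + (g / 8) * (5 * g) := by gcongr
    linarith only [this]
  have h3 : ‖w‖ ≤ 1 / 4 := by
    have := norm_le_abs_add_perp he w
    linarith only [hg1, hw1, hw2, this]
  have h4 : -(1 / 4) ≤ ⟪w, m⟫ := by
    have := abs_real_inner_le_norm w m
    rw [hm, mul_one] at this
    linarith only [h3, (abs_le.1 this).1]
  have h5 := norm_add_smul_le hm (w := w) (ρ := 1 / 2) (by norm_num) (by linarith only [h4]) ⟪w, e⟫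
  have h6 : ‖w - ⟪w, e⟫ • m‖ ≤ 3 / 4 * g := by
    have : w - ⟪w, e⟫ • m = perp e w - ⟪w, e⟫ • (m - e) := by unfold perp; module
    rw [this]
    refine (norm_sub_le _ _).trans ?_
    rw [norm_smul, Real.norm_eq_abs]
    have : |⟪w, e⟫| * ‖m - e‖ ≤ (1 / 8) * (5 * g) := by (clear * - hw1 hme; gcongr)
    linarith only [this, hw2]
  have h7 : ‖w - ⟪w, e⟫ • m‖ ^ 2 ≤ (3 / 4 * g) ^ 2 := pow_le_pow_left₀ (norm_nonneg _) h6 2
  have h8 : ‖w - ⟪w, e⟫ • m‖ ^ 2 / (1 / 2) ≤ 18 / 16 * g ^ 2 := by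
    rw [div_le_iff₀ (by norm_num)]
    linarith only [h7]
  linarith only [h5, h8, (abs_le.1 h2).2]

theorem flat (S : Setup u Ω e g) {x : E} (hx1 : |⟪x, e⟫| ≤ 1 / 8) (hx2 : ‖perp e x‖ ≤ g / 8) :
    |u x - ⟪x, e⟫| ≤ 4 * g ^ 2 := by
  have he := S.he
  have hg0 := S.hg0
  have hg1 := S.hg1
  have hg2 : 0 < g ^ 2 := by positivity
  rw [abs_le]
  constructor
  · obtain ⟨y, hy1, hy2, hy3⟩ := S.exists_up (τ := 1 / 2) (by norm_num) le_rfl
    have hn : ‖(2 : ℝ) • y‖ = 1 := by rw [norm_smul, hy1]; norm_num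
    have hne : ‖(2 : ℝ) • y - e‖ ≤ 5 * g := by
      have : (2 : ℝ) • y - e = (2 : ℝ) • (y - (1 / 2 : ℝ) • e) := by module
      rw [this, norm_smul, Real.norm_of_nonneg (by norm_num)]
      linarith only [hg0, hy3]
    have h := flat_aux he hg0 hg1 hn hne (w := -x) (by rw [inner_neg_left, abs_neg]; exact hx1)
      (by
        have : perp e (-x) = -perp e x := by unfold perp; rw [inner_neg_left]; module
        rw [this, norm_neg]; exact hx2)
    have h1 : ‖y - x‖ ≤ 1 / 2 - ⟪x, e⟫ + 53 / 16 * g ^ 2 := by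
      have h2 : -x + (1 / 2 : ℝ) • (2 : ℝ) • y = y - x := by module
      rw [h2, inner_neg_left] at h
      linarith only [h]
    have hyp : ‖perp e y‖ ≤ 3 * g := by
      have := norm_perp_le he y (1 / 2)
      linarith only [hg0, hy3, this]
    have hyi : |⟪y, e⟫| ≤ 1 := by
      have := abs_inner_le_norm' he y
      linarith only [hy1, this]
    have h3 := S.hLip y x hyi hyp (by linarith only [hx1]) (by linarith only [hx2, hg0])
    linarith only [hg2, hy2, h1, (abs_le.1 h3).2]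
  · obtain ⟨y, hy1, hy2, hy3⟩ := S.exists_down (τ := 1 / 2) (by norm_num) le_rfl
    have hn : ‖(-2 : ℝ) • y‖ = 1 := by rw [norm_smul, hy1]; norm_num
    have hne : ‖(-2 : ℝ) • y - e‖ ≤ 5 * g := by
      have : (-2 : ℝ) • y - e = (-2 : ℝ) • (y + (1 / 2 : ℝ) • e) := by module
      rw [this, norm_smul, Real.norm_eq_abs, abs_of_neg (by norm_num)]
      linarith only [hy3]
    have h := flat_aux he hg0 hg1 hn hne (w := x) hx1 hx2
    have h1 : ‖x - y‖ ≤ 1 / 2 + ⟪x, e⟫ + 53 / 16 * g ^ 2 := by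
      have h2 : x + (1 / 2 : ℝ) • (-2 : ℝ) • y = x - y := by module
      rwa [h2] at h
    have hyp : ‖perp e y‖ ≤ 3 * g := by
      have := norm_perp_le he y (-(1 / 2))
      rw [neg_smul, sub_neg_eq_add] at this
      linarith only [hg0, hy3, this]
    have hyi : |⟪y, e⟫| ≤ 1 := by
      have := abs_inner_le_norm' he y
      linarith only [hy1, this]
    have h3 := S.hLip x y (by linarith only [hx1]) (by linarith only [hx2, hg0]) hyi hyp
    linarith only [hg2, hy2, h1, (abs_le.1 h3).2]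

end Setup


end Vale.Agent.P080
end
end

section

section

set_option linter.unusedSectionVars false

namespace Vale.Agent.P080

open Topology Filter Metric Set
open scoped RealInnerProductSpace

variable {E : Type*} [NormedAddCommGroup E] [InnerProductSpace ℝ E]

theorem seg_aux {e : E} (he : ‖e‖ = 1) {g : ℝ} (hg0 : 0 < g) (hg1 : g ≤ 1) {v : E}
    (hv0 : 0 < ‖v‖) (hv : ‖v‖ ≤ 1 / 8000)
    (h : (1 - g ^ 2 / 1156) * ‖v‖ ≤ ⟪v, e⟫ + 8 * g ^ 2) : ‖perp e v‖ < g / 16 := by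
  by_contra hcon
  push Not at hcon
  have h1 := norm_sq_perp he v
  have h2 : ‖perp e v‖ ≤ ‖v‖ := norm_perp_le_norm he v
  set t := ‖v‖ with ht
  set a := ⟪v, e⟫ with ha
  set p := ‖perp e v‖ with hp
  have hg2 : g ^ 2 ≤ 1 := by linarith only [(mul_nonneg (le_of_lt hg0) (sub_nonneg.2 hcon)),
                                 (mul_nonneg (le_of_lt hg0) (sub_nonneg.2 h2)), (mul_nonneg
                                 (le_of_lt hv0) (sub_nonneg.2 hv)), (mul_nonneg (le_of_lt hv0)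
                                 (sub_nonneg.2 hcon)), (mul_nonneg (le_of_lt hv0) (sub_nonneg.2
                                 h2)), hv]
  have hg2' : 0 < g ^ 2 := by positivity
  have hp2 : (g / 16) ^ 2 ≤ p ^ 2 := pow_le_pow_left₀ (by positivity) hcon 2
  rcases le_or_gt 0 ((1 - g ^ 2 / 1156) * t - 8 * g ^ 2) with hc | hc
  · have h3 : ((1 - g ^ 2 / 1156) * t - 8 * g ^ 2) ^ 2 ≤ a ^ 2 :=
      pow_le_pow_left₀ hc (by linarith only [h]) 2
    have h4 : t ^ 2 - 2 / 1156 * g ^ 2 * t ^ 2 - 16 * g ^ 2 * t ≤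
        ((1 - g ^ 2 / 1156) * t - 8 * g ^ 2) ^ 2 := by
      have : ((1 - g ^ 2 / 1156) * t - 8 * g ^ 2) ^ 2 =
        t ^ 2 - 2 / 1156 * g ^ 2 * t ^ 2 - 16 * g ^ 2 * t + (g ^ 2 / 1156 * t + 8 * g ^ 2) ^ 2 := by
        ring
      rw [this]
      linarith only [(sq_nonneg (1 * (1 * g) ^ 2 * (1 * t) + 1 * 8 * (1156 * (1 * g) ^ 2)))]
    have h5 : g ^ 2 * t ≤ g ^ 2 * (1 / 8000) := mul_le_mul_of_nonneg_left hv hg2'.le
    have h6 : g ^ 2 * t ^ 2 ≤ g ^ 2 * (1 / 8000) := by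
      apply mul_le_mul_of_nonneg_left _ hg2'.le
      linarith only [h1, hg2', hp2, h3, h4, h5, (mul_nonneg hc (sub_nonneg.2 h5)), (mul_nonneg
          (sub_nonneg.2 hg2) (sub_nonneg.2 h5)), (mul_nonneg (sub_nonneg.2 hg2) (sub_nonneg.2
          h4)), (mul_nonneg (sub_nonneg.2 hg2) (sub_nonneg.2 h3)), (mul_nonneg (sub_nonneg.2 hg2)
          (sub_nonneg.2 hp2)), (congrArg (fun x => x * (g ^ 2 - 0)) h1)]
    linarith only [h1, hg2', hp2, h3, h4, h5, h6]
  · have h3 : t ≤ 16 * g ^ 2 := by linarith only [hg2', hc, (mul_nonneg (sub_nonneg.2 hv)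
                                       (le_of_lt hg2'))]
    have h4 : g / 16 ≤ 16 * g ^ 2 := by linarith only [hcon, h2, h3]
    have h5 : 1 / 256 ≤ g := by
      by_contra hh
      push Not at hh
      linarith only [h4, (mul_pos hg0 (sub_pos.2 hh))]
    linarith only [hv, hcon, h2, h5]

/-- approximate segment through `B` -/
structure Seg (u : E → ℝ) (e : E) (g : ℝ) (B η η' : E) : Prop where
  n1 : ‖η‖ = 1
  n2 : ‖η'‖ = 1
  c1 : ‖η - e‖ ≤ 358 * g
  c2 : ‖η' - e‖ ≤ 358 * g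
  c3 : ‖η - η'‖ ≤ 3 / 34 * g
  p1 : ‖perp e (B - (1 / 8000 : ℝ) • η)‖ ≤ 3 * g
  p2 : ‖perp e (B + (1 / 8000 : ℝ) • η')‖ ≤ 3 * g
  i1 : |⟪B - (1 / 8000 : ℝ) • η, e⟫| ≤ 1
  i2 : |⟪B + (1 / 8000 : ℝ) • η', e⟫| ≤ 1
  v1 : (1 - g ^ 2 / 1156) * (1 / 8000) ≤ u B - u (B - (1 / 8000 : ℝ) • η)
  v2 : (1 - g ^ 2 / 1156) * (1 / 8000) ≤ u (B + (1 / 8000 : ℝ) • η') - u B

variable [FiniteDimensional ℝ E]

namespace Setup

variable {u : E → ℝ} {Ω : Set E} {e : E} {g : ℝ}

theorem exists_seg (S : Setup u Ω e g) {B : E} (hB1 : |⟪B, e⟫| ≤ 1 / 100000000)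
    (hB2 : ‖perp e B‖ ≤ g / 100000000) (hBL : 1 - g ^ 2 / 1156 ≤ locLip u B) :
    ∃ η η' : E, Seg u e g B η η' := by
  have he := S.he
  have hg0 := S.hg0
  have hg1 := S.hg1
  have hg2 : g ^ 2 ≤ 1 := by nlinarith only [hg1, hg0]
  have hg2' : 0 < g ^ 2 := by positivity
  have hBn : ‖B‖ ≤ 1 / 50000000 := by
    have := norm_le_abs_add_perp he B
    linarith only [this, hg1, hB2, hB1]
  have hball : closedBall B (1 / 8000 : ℝ) ⊆ Ω := by
    refine Subset.trans ?_ S.h4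
    apply closedBall_subset_closedBall'
    rw [dist_zero_right]
    linarith only [hBn]
  have hflatB := S.flat (x := B) (by linarith only [hB1]) (by linarith only [hB2, hg0])
  -- a point is in the good region
  have hgood : ∀ y : E, ‖y - B‖ ≤ 1 / 8000 → |⟪y, e⟫| ≤ 1 / 8 := by
    intro y hy
    have h1 : ‖y‖ ≤ ‖y - B‖ + ‖B‖ := by
      have := norm_add_le (y - B) B
      rwa [sub_add_cancel] at this
    have := abs_inner_le_norm' he y
    linarith only [hBn, hy, h1, this]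
  have hperpd : ∀ y : E, ‖perp e y‖ = g / 8 → ¬ ‖perp e (y - B)‖ < g / 16 := by
    intro y hy hlt
    have h1 : ‖perp e y‖ ≤ ‖perp e (y - B)‖ + ‖perp e B‖ := by
      rw [perp_sub]
      have := norm_add_le (perp e y - perp e B) (perp e B)
      rwa [sub_add_cancel] at this
    linarith only [hB2, hg0, hy, hlt, h1]
  obtain ⟨y', h1, h2, h3, h4, h5⟩ := S.hu.tube_up S.hΩ he (B := B) (ρ := 1 / 8000) (t := g / 8)
    (by norm_num) (by linarith only [hB2, hg0]) hball
  obtain ⟨y, k1, k2, k3, k4, k5⟩ := S.hu.tube_down S.hΩ he (B := B) (ρ := 1 / 8000) (t := g / 8)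
    (by norm_num) (by linarith only [hB2, hg0]) hball
  have h6 : (1 - g ^ 2 / 1156) * ‖y' - B‖ ≤ u y' - u B :=
    (mul_le_mul_of_nonneg_right hBL (norm_nonneg _)).trans h5
  have k6 : (1 - g ^ 2 / 1156) * ‖y - B‖ ≤ u B - u y :=
    (mul_le_mul_of_nonneg_right hBL (norm_nonneg _)).trans k5
  have h7 := S.flat (x := y') (hgood y' h2) h3
  have k7 := S.flat (x := y) (hgood y k2) k3
  have h8 : (1 - g ^ 2 / 1156) * ‖y' - B‖ ≤ ⟪y' - B, e⟫ + 8 * g ^ 2 := by
    rw [inner_sub_left]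
    linarith only [h6, (abs_le.1 h7).2, (abs_le.1 hflatB).1]
  have k8 : (1 - g ^ 2 / 1156) * ‖B - y‖ ≤ ⟪B - y, e⟫ + 8 * g ^ 2 := by
    rw [inner_sub_left, norm_sub_rev]
    linarith only [k6, (abs_le.1 k7).1, (abs_le.1 hflatB).2]
  have h9 : ‖y' - B‖ = 1 / 8000 := by
    rcases h4 with h | h
    · exact h
    · exact absurd (seg_aux he hg0 hg1 h1 h2 h8) (hperpd y' h)
  have k9 : ‖y - B‖ = 1 / 8000 := by
    rcases k4 with h | h
    · exact h
    · have := seg_aux he hg0 hg1 (v := B - y) (by rwa [norm_sub_rev]) (by rwa [norm_sub_rev]) k8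
      have h' : ‖perp e (y - B)‖ < g / 16 := by
        rw [perp_sub] at this ⊢
        rwa [norm_sub_rev] at this
      exact absurd h' (hperpd y h)
  set η' : E := (8000 : ℝ) • (y' - B) with hη'
  set η : E := (8000 : ℝ) • (B - y) with hη
  have e1 : B + (1 / 8000 : ℝ) • η' = y' := by rw [hη']; module
  have e2 : B - (1 / 8000 : ℝ) • η = y := by rw [hη]; module
  have n1 : ‖η‖ = 1 := by
    rw [hη, norm_smul, norm_sub_rev, k9]; norm_num
  have n2 : ‖η'‖ = 1 := by
    rw [hη', norm_smul, h9]; norm_num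
  have d1 : ⟪η, e⟫ = 8000 * ⟪B - y, e⟫ := by rw [hη, real_inner_smul_left]
  have d2 : ⟪η', e⟫ = 8000 * ⟪y' - B, e⟫ := by rw [hη', real_inner_smul_left]
  rw [norm_sub_rev, k9] at k8
  rw [h9] at h8
  refine ⟨η, η', n1, n2, ?_, ?_, ?_, ?_, ?_, ?_, ?_, ?_, ?_⟩
  · apply le_of_sq_le_sq _ (by positivity)
    rw [unit_sub_sq n1 he]
    linarith only [hg2', k8, d1]
  · apply le_of_sq_le_sq _ (by positivity)
    rw [unit_sub_sq n2 he]
    linarith only [hg2', h8, d2]
  · have hLip := S.hLip y' y (by linarith only [hgood y' h2]) (by linarith only [hg0, h3]) (by linarith only [hgood y k2])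
      (by linarith only [hg0, k3])
    have m1 : y' - y = (1 / 8000 : ℝ) • (η + η') := by rw [hη, hη']; module
    rw [m1, norm_smul, Real.norm_of_nonneg (by norm_num)] at hLip
    rw [h9] at h6
    rw [k9] at k6
    have m2 : 2 * (1 - g ^ 2 / 1156) ≤ ‖η + η'‖ := by
      linarith only [h6, k6, (abs_le.1 hLip).2]
    have m3 : (2 * (1 - g ^ 2 / 1156)) ^ 2 ≤ ‖η + η'‖ ^ 2 := by
      apply pow_le_pow_left₀ _ m2
      linarith only [hg2]
    have m4 : ‖η - η'‖ ^ 2 = 4 - ‖η + η'‖ ^ 2 := by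
      rw [@norm_sub_sq_real, @norm_add_sq_real, n1, n2]; ring
    apply le_of_sq_le_sq _ (by positivity)
    rw [m4]
    linarith only [hg2', m3, sq_nonneg (g ^ 2)]
  · rw [e2]; linarith only [hg0, k3]
  · rw [e1]; linarith only [hg0, h3]
  · rw [e2]; linarith only [hgood y k2]
  · rw [e1]; linarith only [hgood y' h2]
  · rw [e2]; rw [k9] at k6; exact k6
  · rw [e1]; rw [h9] at h6; exact h6

end Setup

end Vale.Agent.P080
end
end

section

section

set_option linter.unusedSectionVars false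

namespace Vale.Agent.P080

open Topology Filter Metric Set
open scoped RealInnerProductSpace

variable {E : Type*} [NormedAddCommGroup E] [InnerProductSpace ℝ E]

theorem inner_eq_of_unit {a b : E} (ha : ‖a‖ = 1) (hb : ‖b‖ = 1) :
    ⟪a, b⟫ = 1 - ‖a - b‖ ^ 2 / 2 := by
  rw [unit_sub_sq ha hb]; ring

namespace Seg

variable {u : E → ℝ} {e : E} {g : ℝ} {B η η' : E}

theorem pairing (Sg : Seg u e g B η η') (he : ‖e‖ = 1) (hg0 : 0 < g)
    (hB1 : |⟪B, e⟫| ≤ 1 / 100000000) (hB2 : ‖perp e B‖ ≤ g / 100000000) :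
    |⟪B, η' - η⟫| ≤ 3 * g ^ 2 / 9248000 := by
  have h1 : ⟪B, η' - η⟫ = ⟪B, e⟫ * ⟪e, η' - η⟫ + ⟪perp e B, η' - η⟫ := by
    conv_lhs => rw [perp_decomp e B]
    rw [inner_add_left, real_inner_smul_left]
  have h2 : ⟪e, η' - η⟫ = (‖η - e‖ ^ 2 - ‖η' - e‖ ^ 2) / 2 := by
    rw [inner_sub_right, real_inner_comm, inner_eq_of_unit Sg.n2 he, real_inner_comm,
      inner_eq_of_unit Sg.n1 he]
    ring
  have h3 : |‖η - e‖ - ‖η' - e‖| ≤ 3 / 34 * g := by
    refine (abs_norm_sub_norm_le _ _).trans ?_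
    have : η - e - (η' - e) = η - η' := by abel
    rw [this]; exact Sg.c3
  have h4 : |⟪e, η' - η⟫| ≤ 3 / 34 * g * (358 * g) := by
    rw [h2]
    have : (‖η - e‖ ^ 2 - ‖η' - e‖ ^ 2) / 2 =
      (‖η - e‖ - ‖η' - e‖) * ((‖η - e‖ + ‖η' - e‖) / 2) := by ring
    rw [this, abs_mul, abs_of_nonneg (by (clear * -; positivity) : 0 ≤ (‖η - e‖ + ‖η' - e‖) / 2)]
    have h5 := Sg.c1
    have h6 := Sg.c2
    have : (‖η - e‖ + ‖η' - e‖) / 2 ≤ 358 * g := by linarith only [h5, h6]
    (clear * - h3 this hg0; gcongr)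
  have h5 : |⟪perp e B, η' - η⟫| ≤ g / 100000000 * (3 / 34 * g) := by
    refine (abs_real_inner_le_norm _ _).trans ?_
    rw [norm_sub_rev]
    have := Sg.c3
    (clear * - hB2 this hg0; gcongr)
  rw [h1]
  refine (abs_add_le _ _).trans ?_
  rw [abs_mul]
  have h6 : |⟪B, e⟫| * |⟪e, η' - η⟫| ≤ 1 / 100000000 * (3 / 34 * g * (358 * g)) := by (clear * - hB1 h4; gcongr)
  linarith only [h6, h5, (sq_nonneg (1 * g))]

theorem devi {e : E} {g : ℝ} {B m : E} (hB1 : |⟪B, e⟫| ≤ 1 / 100000000)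
    (hB2 : ‖perp e B‖ ≤ g / 100000000) (hm : ‖m - e‖ ≤ 358 * g) (hg0 : 0 < g) :
    ‖B - ⟪B, e⟫ • m‖ ≤ g / 272000 := by
  have : B - ⟪B, e⟫ • m = perp e B - ⟪B, e⟫ • (m - e) := by unfold perp; module
  rw [this]
  refine (norm_sub_le _ _).trans ?_
  rw [norm_smul, Real.norm_eq_abs]
  have : |⟪B, e⟫| * ‖m - e‖ ≤ 1 / 100000000 * (358 * g) := by gcongr
  linarith only [hB2, hg0, this]

variable [FiniteDimensional ℝ E] {Ω : Set E}

theorem main_ineq (Sg : Seg u e g B η η') (S : Setup u Ω e g)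
    (hB1 : |⟪B, e⟫| ≤ 1 / 100000000) (hB2 : ‖perp e B‖ ≤ g / 100000000) {x : E}
    (hx : ‖x‖ ≤ g / 136000) (hux : u x ≤ 0) : ⟪x, η'⟫ ≤ 15 * g ^ 2 / 9248000 := by
  have he := S.he
  have hg0 := S.hg0
  have hg1 := S.hg1
  have hxi : |⟪x, e⟫| ≤ 1 := by
    have := abs_inner_le_norm' he x
    linarith only [hx, hg1, this]
  have hxp : ‖perp e x‖ ≤ 3 * g := by
    have := norm_perp_le_norm he x
    linarith only [hx, hg0, this]
  have hBn : ‖B‖ ≤ 1 / 50000000 := by
    have := norm_le_abs_add_perp he B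
    linarith only [hB1, hB2, hg1, this]
  have h0 : perp e (0 : E) = 0 := by unfold perp; simp
  have l1 := S.hLip (B + (1 / 8000 : ℝ) • η') x Sg.i2 Sg.p2 hxi hxp
  have l2 := S.hLip 0 (B - (1 / 8000 : ℝ) • η) (by simp) (by rw [h0, norm_zero]; linarith only
        [hg0])
    Sg.i1 Sg.p1
  rw [S.hu0] at l2
  have q1 : ‖(B - x) + (1 / 8000 : ℝ) • η'‖ ≤ 1 / 8000 + ⟪B - x, η'⟫ +
      ‖(B - x) - ⟪B, e⟫ • η'‖ ^ 2 / (1 / 8000) := by
    apply norm_add_smul_le Sg.n2 (by norm_num)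
    have := abs_real_inner_le_norm (B - x) η'
    rw [Sg.n2, mul_one] at this
    have h := norm_sub_le B x
    linarith only [hx, hg1, hBn, h, (abs_le.1 this).1]
  have q2 : ‖(-B) + (1 / 8000 : ℝ) • η‖ ≤ 1 / 8000 + ⟪-B, η⟫ +
      ‖(-B) - (-⟪B, e⟫) • η‖ ^ 2 / (1 / 8000) := by
    apply norm_add_smul_le Sg.n1 (by norm_num)
    have := abs_real_inner_le_norm (-B) η
    rw [Sg.n1, mul_one, norm_neg] at this
    linarith only [hBn, (abs_le.1 this).1]
  have r1 : ‖(B - x) - ⟪B, e⟫ • η'‖ ≤ 3 * g / 272000 := by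
    have : (B - x) - ⟪B, e⟫ • η' = (B - ⟪B, e⟫ • η') - x := by abel
    rw [this]
    refine (norm_sub_le _ _).trans ?_
    have := devi hB1 hB2 Sg.c2 hg0
    linarith only [hx, this]
  have r2 : ‖(-B) - (-⟪B, e⟫) • η‖ ≤ g / 272000 := by
    have : (-B) - (-⟪B, e⟫) • η = -(B - ⟪B, e⟫ • η) := by module
    rw [this, norm_neg]
    exact devi hB1 hB2 Sg.c1 hg0
  have r3 := pow_le_pow_left₀ (norm_nonneg _) r1 2
  have r4 := pow_le_pow_left₀ (norm_nonneg _) r2 2
  have e1 : B + (1 / 8000 : ℝ) • η' - x = (B - x) + (1 / 8000 : ℝ) • η' := by abel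
  have e2 : 0 - (B - (1 / 8000 : ℝ) • η) = (-B) + (1 / 8000 : ℝ) • η := by abel
  rw [e1] at l1
  rw [e2] at l2
  have v1 := Sg.v1
  have v2 := Sg.v2
  have pr := Sg.pairing he hg0 hB1 hB2
  rw [inner_sub_right] at pr
  rw [inner_sub_left] at q1
  rw [inner_neg_left] at q2
  have s1 := (abs_le.1 l1).2
  have s2 := (abs_le.1 l2).2
  have s3 := (abs_le.1 pr).2
  have hd : ∀ t : ℝ, t / (1 / 8000) = t * 8000 := fun t => by ring
  rw [hd] at q1 q2
  linarith only [s3, s2, s1, v2, v1, r4, r3, q2, q1, hux]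

theorem lower_bound (Sg : Seg u e g B η η') (S : Setup u Ω e g)
    (hB1 : |⟪B, e⟫| ≤ 1 / 100000000) (hB2 : ‖perp e B‖ ≤ g / 100000000) :
    ‖η - e‖ ≤ 26 / 34 * g := by
  have he := S.he
  have hg0 := S.hg0
  have hg1 := S.hg1
  have hg2 : g ^ 2 ≤ 1 := by linarith only [hg1, (mul_nonneg (le_of_lt hg0) (sub_nonneg.2 hg1))]
  set s : ℝ := g / 272000 with hs
  have hs0 : 0 < s := by positivity
  have hs1 : s ≤ 1 := by rw [hs]; linarith only [hg1]
  -- first test point
  have t1 : ⟪-(s • e), η'⟫ ≤ 15 * g ^ 2 / 9248000 := by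
    apply Sg.main_ineq S hB1 hB2
    · rw [norm_neg, norm_smul, he, Real.norm_of_nonneg hs0.le, hs]; linarith only [hs, hs0]
    · apply S.hball
      have : -(s • e) + e = (1 - s) • e := by module
      rw [this, norm_smul, he, Real.norm_of_nonneg (by linarith only [hg1, hs])]
      linarith only [hs0]
  rw [inner_neg_left, real_inner_smul_left] at t1
  have hin0 : -(15 / 34 * g) ≤ ⟪e, η'⟫ := by
    have h1 : s * (-(15 / 34 * g)) ≤ s * ⟪e, η'⟫ := by
      have : s * (-(15 / 34 * g)) = -(15 * g ^ 2 / 9248000) := by rw [hs]; ring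
      rw [this]; linarith only [t1]
    exact le_of_mul_le_mul_left h1 hs0
  have hin1 : ⟪e, η'⟫ ≤ 1 := by
    have := abs_real_inner_le_norm e η'
    rw [he, Sg.n2, mul_one] at this
    exact (abs_le.1 this).2
  -- second test point
  have hq : ‖perp e η'‖ ≤ 16 / 34 * g := by
    rcases eq_or_ne (perp e η') 0 with hz | hz
    · rw [hz, norm_zero]; positivity
    obtain ⟨w, hw⟩ : ∃ w : E, w = (1 / ‖perp e η'‖) • perp e η' := ⟨_, rfl⟩
    have hpos : 0 < ‖perp e η'‖ := norm_pos_iff.2 hz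
    have hw1 : ‖w‖ = 1 := by
      rw [hw, norm_smul, Real.norm_of_nonneg (by positivity)]
      field_simp
    have hwe : ⟪w, e⟫ = 0 := by
      rw [hw, real_inner_smul_left, inner_perp_self he, mul_zero]
    have hwη : ⟪w, η'⟫ = ‖perp e η'‖ := by
      have : ⟪perp e η', η'⟫ = ‖perp e η'‖ ^ 2 := by
        conv_lhs => rw [perp_decomp e η']
        rw [inner_add_right, real_inner_smul_right]
        have : ⟪perp e (⟪η', e⟫ • e + perp e η'), e⟫ = 0 := inner_perp_self he _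
        rw [this, ← perp_decomp, real_inner_self_eq_norm_sq]
        ring
      rw [hw, real_inner_smul_left, this]
      field_simp
    have t2 : ⟪s • w - s ^ 2 • e, η'⟫ ≤ 15 * g ^ 2 / 9248000 := by
      apply Sg.main_ineq S hB1 hB2
      · refine (norm_sub_le _ _).trans ?_
        rw [norm_smul, norm_smul, hw1, he, Real.norm_of_nonneg hs0.le,
          Real.norm_of_nonneg (by positivity)]
        have : s ^ 2 ≤ s := by linarith only [(mul_nonneg (le_of_lt hs0) (sub_nonneg.2 hs1))]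
        have : g / 136000 = 2 * s := by rw [hs]; ring
        linarith
      · apply S.hball
        apply le_of_sq_le_sq _ zero_le_one
        have : s • w - s ^ 2 • e + e = s • w + (1 - s ^ 2) • e := by module
        rw [this, @norm_add_sq_real, real_inner_smul_left, real_inner_smul_right, hwe,
          norm_smul, norm_smul, hw1, he, Real.norm_of_nonneg hs0.le,
          Real.norm_of_nonneg (by linarith only [(mul_nonneg (le_of_lt hs0) (sub_nonneg.2 hs1)), hs, hg1])]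
        have hs2 : 0 ≤ 1 - s ^ 2 := by linarith only [(mul_nonneg (le_of_lt hs0) (sub_nonneg.2
                                           hs1)), hs, hg1]
        linarith only [mul_nonneg (sq_nonneg s) hs2]
    rw [inner_sub_left, real_inner_smul_left, real_inner_smul_left, hwη] at t2
    have h1 : s * ‖perp e η'‖ ≤ s * (16 / 34 * g) := by
      have h2 : 15 * g ^ 2 / 9248000 = s * (15 / 34 * g) := by rw [hs]; ring
      have h3 : s ^ 2 * ⟪e, η'⟫ ≤ s * (1 / 34 * g) := by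
        have : s ^ 2 * ⟪e, η'⟫ ≤ s ^ 2 * 1 := by (clear * - hin1 hg0; gcongr)
        have h4 : s ≤ 1 / 34 * g := by rw [hs]; linarith only [hs, hs0]
        linarith only [(congrArg (fun x => x * (1 / 34 * g - s)) hs), this, h2, (sq_nonneg (1 * s))]
      rw [h2] at t2
      linarith only [t2, h3]
    exact le_of_mul_le_mul_left h1 hs0
  have hsum := norm_sq_perp he η'
  rw [Sg.n2, real_inner_comm] at hsum
  have hq2 : ‖perp e η'‖ ^ 2 ≤ (16 / 34 * g) ^ 2 := pow_le_pow_left₀ (norm_nonneg _) hq 2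
  have hin2 : 0 ≤ ⟪e, η'⟫ := by
    by_contra hneg
    push Not at hneg
    linarith only [(congrArg (fun x => x * (1 - ⟪e, η'⟫)) hs), (mul_nonneg (sub_nonneg.2 hin0) (sub_nonneg.2 hin1)), hneg, hq2, hsum, t1, hs, hg2, hg1]
  have hη' : ‖η' - e‖ ≤ 23 / 34 * g := by
    apply le_of_sq_le_sq _ (by positivity)
    rw [unit_sub_sq Sg.n2 he, real_inner_comm]
    linarith only [hin1, hsum, hq2, (mul_nonneg (sub_nonneg.2 hin1) hin2)]
  have : η - e = (η - η') + (η' - e) := by abel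
  rw [this]
  refine (norm_add_le _ _).trans ?_
  have := Sg.c3
  linarith only [hη', this]

end Seg

variable [FiniteDimensional ℝ E]

namespace Setup

variable {u : E → ℝ} {Ω : Set E} {e : E} {g : ℝ}

/-- **Key Lemma.** -/
theorem key (S : Setup u Ω e g) (hL' : locLip u 0 ≤ 1 - g ^ 2) {B : E}
    (hB1 : |⟪B, e⟫| ≤ 1 / 100000000) (hB2 : ‖perp e B‖ ≤ g / 100000000) :
    locLip u B ≤ 1 - g ^ 2 / 1156 := by
  by_contra hcon
  push Not at hcon
  have he := S.he
  have hg0 := S.hg0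
  have hg1 := S.hg1
  have hg2 : g ^ 2 ≤ 1 := by linarith only [hg1, (mul_nonneg (le_of_lt hg0) (sub_nonneg.2 hg1))]
  have hg2' : 0 < g ^ 2 := by positivity
  obtain ⟨η, η', Sg⟩ := S.exists_seg hB1 hB2 hcon.le
  have hη := Sg.lower_bound S hB1 hB2
  have hBn : ‖B‖ ≤ 1 / 50000000 := by
    have := norm_le_abs_add_perp he B
    linarith only [hB1, hB2, hg1, this]
  -- the point `x = - s e`
  set x : E := (-(1 / 32000) : ℝ) • e with hx
  have hxn : ‖x‖ = 1 / 32000 := by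
    rw [hx, norm_smul, he, Real.norm_eq_abs, abs_of_neg (by norm_num)]; norm_num
  have hlow : u 0 - u x ≤ locLip u 0 * (1 / 32000) := by
    apply S.hu.sub_le_of_ball S.hΩ (by norm_num) _ (by rw [zero_sub, norm_neg, hxn])
    · intro y hy
      rw [S.hu0]
      apply S.hball
      have h1 : y + e = (y - x) + (1 - 1 / 32000 : ℝ) • e := by rw [hx]; module
      rw [h1]
      refine (norm_add_le _ _).trans ?_
      rw [mem_sphere, dist_eq_norm] at hy
      rw [hy, norm_smul, he, Real.norm_of_nonneg (by norm_num)]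
      norm_num
    · refine Subset.trans ?_ S.h4
      apply closedBall_subset_closedBall'
      rw [dist_zero_right, hxn]
      norm_num
  have h0 : perp e (0 : E) = 0 := by unfold perp; simp
  have hxi : |⟪x, e⟫| ≤ 1 := by
    have := abs_inner_le_norm' he x
    linarith only [hxn, this]
  have hxp : ‖perp e x‖ ≤ 3 * g := by
    have : perp e x = 0 := perp_smul_self he _
    rw [this, norm_zero]; positivity
  have l1 := S.hLip x (B - (1 / 8000 : ℝ) • η) hxi hxp Sg.i1 Sg.p1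
  have l2 := S.hLip (B + (1 / 8000 : ℝ) • η') 0 Sg.i2 Sg.p2 (by simp)
    (by rw [h0, norm_zero]; linarith only [hg0])
  rw [S.hu0] at l2 hlow
  have q1 : ‖(x - B) + (1 / 8000 : ℝ) • η‖ ≤ 1 / 8000 + ⟪x - B, η⟫ +
      ‖(x - B) - (-(1 / 32000) - ⟪B, e⟫) • η‖ ^ 2 / (1 / 8000) := by
    apply norm_add_smul_le Sg.n1 (by norm_num)
    have := abs_real_inner_le_norm (x - B) η
    rw [Sg.n1, mul_one] at this
    have h := norm_sub_le x B
    linarith only [(abs_le.1 this).1, h, hxn, hBn]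
  have q2 : ‖B + (1 / 8000 : ℝ) • η'‖ ≤ 1 / 8000 + ⟪B, η'⟫ +
      ‖B - ⟪B, e⟫ • η'‖ ^ 2 / (1 / 8000) := by
    apply norm_add_smul_le Sg.n2 (by norm_num)
    have := abs_real_inner_le_norm B η'
    rw [Sg.n2, mul_one] at this
    linarith only [hBn, (abs_le.1 this).1]
  have r1 : ‖(x - B) - (-(1 / 32000) - ⟪B, e⟫) • η‖ ≤ 15 / 2 * g / 272000 := by
    have : (x - B) - (-(1 / 32000) - ⟪B, e⟫) • η =
      (1 / 32000 : ℝ) • (η - e) - (B - ⟪B, e⟫ • η) := by rw [hx]; module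
    rw [this]
    refine (norm_sub_le _ _).trans ?_
    rw [norm_smul, Real.norm_of_nonneg (by norm_num)]
    have := Seg.devi hB1 hB2 Sg.c1 hg0
    linarith only [hη, this]
  have r2 : ‖B - ⟪B, e⟫ • η'‖ ≤ g / 272000 := Seg.devi hB1 hB2 Sg.c2 hg0
  have r3 := pow_le_pow_left₀ (norm_nonneg _) r1 2
  have r4 := pow_le_pow_left₀ (norm_nonneg _) r2 2
  have e1 : x - (B - (1 / 8000 : ℝ) • η) = (x - B) + (1 / 8000 : ℝ) • η := by abel
  rw [e1] at l1
  rw [sub_zero, sub_zero] at l2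
  have v1 := Sg.v1
  have v2 := Sg.v2
  have pr := Sg.pairing he hg0 hB1 hB2
  rw [inner_sub_right] at pr
  have hxη : ⟪x, η⟫ = -(1 / 32000) * (1 - ‖η - e‖ ^ 2 / 2) := by
    rw [hx, real_inner_smul_left, real_inner_comm, inner_eq_of_unit Sg.n1 he]
  rw [inner_sub_left, hxη] at q1
  have hη2 := pow_le_pow_left₀ (norm_nonneg _) hη 2
  have s1 := (abs_le.1 l1).2
  have s2 := (abs_le.1 l2).2
  have s3 := (abs_le.1 pr).2
  have hd : ∀ t : ℝ, t / (1 / 8000) = t * 8000 := fun t => by ring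
  rw [hd] at q1 q2
  linarith only [hL', hg2', hlow, q1, q2, r3, r4, v1, v2, hη2, s1, s2, s3]

end Setup

end Vale.Agent.P080
end
end

section

section

set_option linter.unusedSectionVars false

namespace Vale.Agent.P080

open Topology Filter Metric Set
open scoped RealInnerProductSpace Pointwise

variable {E : Type*} [NormedAddCommGroup E] [InnerProductSpace ℝ E]

theorem convex_cyl (e : E) (a b : ℝ) : Convex ℝ {x : E | |⟪x, e⟫| ≤ a ∧ ‖perp e x‖ ≤ b} := by
  intro x hx y hy s t hs ht hst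
  refine ⟨?_, ?_⟩
  · rw [inner_add_left, real_inner_smul_left, real_inner_smul_left]
    refine (abs_add_le _ _).trans ?_
    rw [abs_mul, abs_mul, abs_of_nonneg hs, abs_of_nonneg ht]
    have h1 := mul_le_mul_of_nonneg_left hx.1 hs
    have h2 := mul_le_mul_of_nonneg_left hy.1 ht
    calc s * |⟪x, e⟫| + t * |⟪y, e⟫| ≤ s * a + t * a := add_le_add h1 h2
      _ = a := by rw [← add_mul, hst, one_mul]
  · rw [perp_add, perp_smul, perp_smul]
    refine (norm_add_le _ _).trans ?_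
    rw [norm_smul, norm_smul, Real.norm_of_nonneg hs, Real.norm_of_nonneg ht]
    have h1 := mul_le_mul_of_nonneg_left hx.2 hs
    have h2 := mul_le_mul_of_nonneg_left hy.2 ht
    calc s * ‖perp e x‖ + t * ‖perp e y‖ ≤ s * b + t * b := add_le_add h1 h2
      _ = b := by rw [← add_mul, hst, one_mul]

/-- One-sided ball situation at the point `A`. -/
structure OneSided (u : E → ℝ) (Ω : Set E) (A e : E) (R₀ K : ℝ) : Prop where
  hu : ConeComp u Ω
  hΩ : IsOpen Ω
  he : ‖e‖ = 1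
  hR : 0 < R₀
  hK : 0 < K
  hsub : closedBall A (4 * R₀) ⊆ Ω
  hLip : ∀ x ∈ closedBall A (4 * R₀), locLip u x ≤ K
  hball : ∀ x ∈ closedBall (A - R₀ • e) R₀, u x ≤ u A

variable [FiniteDimensional ℝ E]

namespace OneSided

variable {u : E → ℝ} {Ω : Set E} {A e : E} {R₀ K : ℝ}

theorem setup (O : OneSided u Ω A e R₀ K) {R G : ℝ} (hR : 0 < R) (hRR : R ≤ R₀) (hG : 0 < G)
    (h : ∀ x : E, |⟪x - A, e⟫| ≤ R → ‖perp e (x - A)‖ ≤ 3 * R * √(G / (locLip u A + G)) →
      locLip u x ≤ locLip u A + G) :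
    Setup (rescale u A R (locLip u A + G)) ((fun x => A + R • x) ⁻¹' Ω) e
      (√(G / (locLip u A + G))) := by
  have hL := locLip_nonneg u A
  have hΛ : 0 < locLip u A + G := by linarith
  have hγ0 : 0 < G / (locLip u A + G) := by positivity
  have hγ1 : G / (locLip u A + G) ≤ 1 := by rw [div_le_one hΛ]; linarith
  have hs0 : 0 < √(G / (locLip u A + G)) := Real.sqrt_pos.2 hγ0
  have hs1 : √(G / (locLip u A + G)) ≤ 1 := by rw [Real.sqrt_le_one]; exact hγ1
  have he := O.he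
  have hcontΩ : IsOpen ((fun x => A + R • x) ⁻¹' Ω) := O.hΩ.preimage (by fun_prop)
  have h4 : closedBall (0 : E) 4 ⊆ (fun x => A + R • x) ⁻¹' Ω := by
    intro x hx
    apply O.hsub
    rw [mem_closedBall, dist_zero_right] at hx
    rw [mem_closedBall, dist_eq_norm, add_sub_cancel_left, norm_smul, Real.norm_of_nonneg hR.le]
    linarith only [hRR, (mul_nonneg (le_of_lt hR) (sub_nonneg.2 hx))]
  refine ⟨O.hu.rescale A hR hΛ, hcontΩ, he, h4, ?_, hs0, hs1, ?_, ?_, ?_⟩
  · unfold rescale; simp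
  · intro x y hx1 hx2 hy1 hy2
    have := lipschitz_of_locLip_le (u := rescale u A R (locLip u A + G))
      (convex_cyl e 1 (3 * √(G / (locLip u A + G)))) (Λ := 1) ?_
      (x := x) (y := y) ⟨hx1, hx2⟩ ⟨hy1, hy2⟩
    · rwa [one_mul] at this
    · intro z hz
      have hz1 : |⟪z, e⟫| ≤ 1 := hz.1
      have hz2 : ‖perp e z‖ ≤ 3 * √(G / (locLip u A + G)) := hz.2
      have hzn := norm_le_abs_add_perp he z
      refine ⟨?_, ?_⟩
      · apply (O.hu.rescale A hR hΛ).exists_lipNear hcontΩ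
        apply h4
        rw [mem_closedBall, dist_zero_right]
        linarith only [hs1, hz1, hz2, hzn]
      · rw [locLip_rescale hR hΛ, div_le_one hΛ]
        apply h
        · rw [add_sub_cancel_left, real_inner_smul_left, abs_mul, abs_of_pos hR]
          linarith only [(mul_nonneg (le_of_lt hR) (sub_nonneg.2 hz1))]
        · rw [add_sub_cancel_left, perp_smul, norm_smul, Real.norm_of_nonneg hR.le]
          linarith only [(mul_nonneg (le_of_lt hR) (sub_nonneg.2 hz2))]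
  · rw [locLip_rescale hR hΛ, smul_zero, add_zero, Real.sq_sqrt hγ0.le]
    apply le_of_eq
    field_simp
    ring
  · intro x hx
    unfold rescale
    apply div_nonpos_of_nonpos_of_nonneg _ (by positivity)
    rw [sub_nonpos]
    apply O.hball
    rw [mem_closedBall, dist_eq_norm]
    have h1 : A + R • x - (A - R₀ • e) = R • (x + e) + (R₀ - R) • e := by module
    rw [h1]
    refine (norm_add_le _ _).trans ?_
    rw [norm_smul, norm_smul, he, Real.norm_of_nonneg hR.le, Real.norm_of_nonneg (by linarith only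
          [hRR])]
    linarith only [(mul_nonneg (le_of_lt hR) (sub_nonneg.2 hx))]

theorem step (O : OneSided u Ω A e R₀ K) {R G : ℝ} (hR : 0 < R) (hRR : R ≤ R₀) (hG : 0 < G)
    (h : ∀ x : E, |⟪x - A, e⟫| ≤ R → ‖perp e (x - A)‖ ≤ 3 * R * √(G / (locLip u A + G)) →
      locLip u x ≤ locLip u A + G) :
    ∀ x : E, |⟪x - A, e⟫| ≤ R / 300000000 → ‖perp e (x - A)‖ ≤ 3 * (R / 300000000) *
      √((1155 / 1156 * G) / (locLip u A + 1155 / 1156 * G)) →
      locLip u x ≤ locLip u A + 1155 / 1156 * G := by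
  intro x hx1 hx2
  have hL := locLip_nonneg u A
  have hΛ : 0 < locLip u A + G := by linarith only [hG, hL]
  have hΛ' : 0 < locLip u A + 1155 / 1156 * G := by linarith only [hG, hL]
  have hγ0 : 0 < G / (locLip u A + G) := by positivity
  have S := O.setup hR hRR hG h
  have hmono : √((1155 / 1156 * G) / (locLip u A + 1155 / 1156 * G)) ≤
      √(G / (locLip u A + G)) := by
    apply Real.sqrt_le_sqrt
    rw [div_le_div_iff₀ hΛ' hΛ]
    linarith only [(mul_nonneg (le_of_lt hG) hL)]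
  have hs := Real.sqrt_nonneg (G / (locLip u A + G))
  have hk := S.key ?_ (B := R⁻¹ • (x - A)) ?_ ?_
  · rw [locLip_rescale hR hΛ, smul_smul, mul_inv_cancel₀ hR.ne', one_smul, add_sub_cancel,
      Real.sq_sqrt hγ0.le, div_le_iff₀ hΛ] at hk
    refine hk.trans (le_of_eq ?_)
    field_simp
    ring
  · rw [locLip_rescale hR hΛ, smul_zero, add_zero, Real.sq_sqrt hγ0.le]
    apply le_of_eq
    field_simp
    ring
  · rw [real_inner_smul_left, abs_mul, abs_of_pos (by positivity), inv_mul_le_iff₀ hR]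
    linarith only [hR, hx1]
  · rw [perp_smul, norm_smul, Real.norm_of_nonneg (by positivity), inv_mul_le_iff₀ hR]
    refine hx2.trans ?_
    have := mul_le_mul_of_nonneg_left hmono (by positivity : 0 ≤ 3 * (R / 300000000))
    linarith only [this]

end OneSided

end Vale.Agent.P080
end
end

section

section

set_option linter.unusedSectionVars false

namespace Vale.Agent.P080

open Topology Filter Metric Set
open scoped RealInnerProductSpace Pointwise

variable {E : Type*} [NormedAddCommGroup E] [InnerProductSpace ℝ E]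

variable [FiniteDimensional ℝ E]

end Vale.Agent.P080
end
end

section

section

set_option linter.unusedSectionVars false

namespace Vale.Agent.P080

open Topology Filter Metric Set
open scoped RealInnerProductSpace Pointwise

section

variable {E : Type} [NormedAddCommGroup E] [InnerProductSpace ℝ E] [FiniteDimensional ℝ E]

end

end Vale.Agent.P080
end
end

section

section

set_option linter.unusedSectionVars false

namespace Vale.Agent.P080

open Topology Filter Metric Set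
open scoped RealInnerProductSpace

/-- The touched-point estimate with constants `α`, `C`, in all finite-dimensional spaces. -/
def TouchedHyp (α C : ℝ) : Prop :=
    ∀ (E : Type) [NormedAddCommGroup E] [InnerProductSpace ℝ E] [FiniteDimensional ℝ E]
      {u : E → ℝ} {x₀ : E} {R M ρ : ℝ}, 0 < ρ → ρ ≤ R →
      ConeComp u (ball x₀ R) → (∀ x ∈ ball x₀ R, ∀ y ∈ ball x₀ R, u x - u y ≤ M) →
      ∀ x ∈ ball x₀ (R / 2), TouchedBy u (ball x₀ R) ρ x →
      DifferentiableAt ℝ u x ∧ ‖gradient u x‖ ≤ C * (M / R) ∧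
      (∀ y ∈ ball x₀ (R / 2),
        |u y - u x - ⟪gradient u x, y - x⟫| ≤ C * (M / R) * ρ * (‖y - x‖ / ρ) ^ (1 + α)) ∧
      ∀ y ∈ ball x₀ (R / 2), TouchedBy u (ball x₀ R) ρ y →
        ‖gradient u x - gradient u y‖ ≤ C * (M / R) * (‖x - y‖ / ρ) ^ α

end Vale.Agent.P080
end
end

section

section

set_option linter.unusedSectionVars false

namespace Vale.Agent.P080

open Topology Filter Metric Set
open scoped RealInnerProductSpace

section

variable {E : Type*} [NormedAddCommGroup E] [InnerProductSpace ℝ E] [FiniteDimensional ℝ E]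
  [Nontrivial E]

namespace Ring

variable {u : E → ℝ} {Ω K : Set E}

end Ring

end

end Vale.Agent.P080
end
end

section

section

namespace Vale.Agent.P080

open Metric
open scoped RealInnerProductSpace

end Vale.Agent.P080
end
end

section

attribute [-instance] ProperSMul.toContinuousSMul IsTopologicalTorsor.toContinuousSMul IdemSemiring.toCanonicallyOrderedAdd IdemSemiring.toMulLeftMono IdemSemiring.toMulRightMono AddQuantale.instAddLeftMono AddQuantale.instAddRightMono Quantale.instMulLeftMono Quantale.instMulRightMono FiniteDimensional.rclike_to_real IsScalarTower.complexToReal FiniteDimensional.complexToReal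

section
set_option linter.unusedSectionVars false

namespace Vale.Agent.P080

open Topology Filter Metric Set
open scoped RealInnerProductSpace

variable {E : Type*} [NormedAddCommGroup E] [InnerProductSpace ℝ E] [FiniteDimensional ℝ E]

theorem norm_le_of_inner_le {a : E} {C R : ℝ} (hR : 0 < R) (hC : 0 ≤ C)
    (h : ∀ y : E, ‖y‖ ≤ R → ⟪a, y⟫ ≤ C * R) : ‖a‖ ≤ C := by
  by_cases ha : a = 0
  · rw [ha, norm_zero]; exact hC
  have ha0 : 0 < ‖a‖ := norm_pos_iff.2 ha
  have h1 := h ((R / ‖a‖) • a) (by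
    rw [norm_smul, Real.norm_of_nonneg (by positivity), div_mul_cancel₀ _ ha0.ne'])
  rw [real_inner_smul_right, real_inner_self_eq_norm_sq] at h1
  have h2 : R / ‖a‖ * ‖a‖ ^ 2 = ‖a‖ * R := by field_simp
  rw [h2] at h1
  exact le_of_mul_le_mul_right h1 hR

theorem dir_close {e e' : E} {α ε : ℝ} (he : ‖e‖ = α) (hε : 0 ≤ ε) (h1 : α - ε ≤ ‖e'‖)
    (h2 : ‖e' - (1 / 2 : ℝ) • e‖ ≤ α / 2 + 2 * ε) : ‖e' - e‖ ^ 2 ≤ 6 * α * ε + 8 * ε ^ 2 := by
  have hα : 0 ≤ α := by rw [← he]; exact norm_nonneg _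
  have h3 : ‖e' - (1 / 2 : ℝ) • e‖ ^ 2 ≤ (α / 2 + 2 * ε) ^ 2 :=
    pow_le_pow_left₀ (norm_nonneg _) h2 _
  have h4 : ‖e' - (1 / 2 : ℝ) • e‖ ^ 2 = ‖e'‖ ^ 2 - ⟪e', e⟫ + α ^ 2 / 4 := by
    rw [norm_sub_sq_real, norm_smul, real_inner_smul_right, he, Real.norm_of_nonneg (by norm_num)]
    ring
  have h5 : ‖e' - e‖ ^ 2 = ‖e'‖ ^ 2 - 2 * ⟪e', e⟫ + α ^ 2 := by
    rw [norm_sub_sq_real, he]
  have h6 : α ^ 2 - ‖e'‖ ^ 2 ≤ 2 * α * ε := by
    rcases le_or_gt ε α with h | h
    · have : (α - ε) ^ 2 ≤ ‖e'‖ ^ 2 := pow_le_pow_left₀ (by linarith only [h]) h1 _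
      linarith only [this, sq_nonneg ε]
    · linarith only [(sq_nonneg (1 * ‖e'‖)), (sq_nonneg (1 * α)), (mul_nonneg hα (le_of_lt
          (sub_pos.2 h)))]
  linarith only [h3, h4, h5, h6]

theorem ConeComp.local_flat [Nontrivial E] {u : E → ℝ} {Ω : Set E} (hu : ConeComp u Ω)
    (hΩ : IsOpen Ω) {x0 : E} (hx0 : x0 ∈ Ω) {ε : ℝ} (hε : 0 < ε) :
    ∃ r1 > 0, ∀ R, 0 < R → R ≤ r1 → ∃ e' : E, locLip u x0 - ε ≤ ‖e'‖ ∧ ‖e'‖ ≤ locLip u x0 + ε ∧
      ∀ x, ‖x‖ ≤ R → |u (x0 + x) - u x0 - ⟪e', x⟫| ≤ ε * R := by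
  obtain ⟨θ, d, hθ, hθ1, hd, H⟩ := flat_scale (E := E) (locLip_nonneg u x0) hε
  have hne := hu.exists_lipNear hΩ hx0
  obtain ⟨δ, hδ, hlip⟩ := lipNear_of_locLip_lt hne (lt_add_of_pos_right (locLip u x0) hd)
  obtain ⟨r, hr, hball⟩ := Metric.isOpen_iff.1 hΩ x0 hx0
  refine ⟨θ * (min δ r / 2), by positivity, ?_⟩
  intro R hR hRr
  obtain ⟨R', hR'⟩ : ∃ R', R' = R / θ := ⟨_, rfl⟩
  have hR'0 : 0 < R' := by rw [hR']; positivity
  have hθR : θ * R' = R := by rw [hR']; field_simp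
  have hR'1 : R' ≤ min δ r / 2 := by
    rw [hR', div_le_iff₀ hθ]; linarith only [hRr]
  have hm1 : min δ r ≤ δ := min_le_left _ _
  have hm2 : min δ r ≤ r := min_le_right _ _
  have hm0 : 0 < min δ r := by positivity
  have hcl : closure (ball x0 R') ⊆ Ω := by
    refine closure_ball_subset_closedBall.trans ?_
    refine Subset.trans ?_ hball
    exact closedBall_subset_ball (by linarith only [hR'0, hR'1, hm2])
  obtain ⟨y1, hy1, h1⟩ := hu.exists_frontier_up hΩ isOpen_ball isBounded_ball hcl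
    (mem_ball_self hR'0)
  obtain ⟨y2, hy2, h2⟩ := hu.exists_frontier_down hΩ isOpen_ball isBounded_ball hcl
    (mem_ball_self hR'0)
  rw [frontier_ball x0 hR'0.ne', mem_sphere, dist_eq_norm] at hy1 hy2
  rw [hy1] at h1
  rw [hy2] at h2
  have hdR : 0 < d * R' := by positivity
  have hH1 : ∀ x y, ‖x‖ ≤ R' → ‖y‖ ≤ R' →
      |(fun x => u (x0 + x)) x - (fun x => u (x0 + x)) y| ≤ (locLip u x0 + d) * ‖x - y‖ := by
    intro x y hx hy
    have := hlip (x0 + x) (by rw [mem_ball, dist_eq_norm, add_sub_cancel_left]; linarith only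
          [hR'0, hR'1, hm1, hx])
      (x0 + y) (by rw [mem_ball, dist_eq_norm, add_sub_cancel_left]; linarith only [hR'0, hR'1,
            hm1, hy])
    rwa [add_sub_add_left_eq_sub] at this
  have hH2 : (locLip u x0 - d) * R' ≤ (fun x => u (x0 + x)) (y1 - x0) - (fun x => u (x0 + x)) 0 := by
    simp only [add_sub_cancel, add_zero]
    linarith only [h1, hdR]
  have hH3 : (locLip u x0 - d) * R' ≤ (fun x => u (x0 + x)) 0 - (fun x => u (x0 + x)) (y2 - x0) := by
    simp only [add_sub_cancel, add_zero]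
    linarith only [h2, hdR]
  obtain ⟨e', he1, he2, he3⟩ := H (fun x => u (x0 + x)) R' (y1 - x0) (y2 - x0) hR'0 hH1 hy1.le hy2.le
    hH2 hH3
  refine ⟨e', he1, he2, ?_⟩
  intro x hx
  have := he3 x (by rw [hθR]; exact hx)
  rw [hθR] at this
  simpa only [ge_iff_le, add_zero] using this

theorem ConeComp.exists_dir [Nontrivial E] {u : E → ℝ} {Ω : Set E} (hu : ConeComp u Ω)
    (hΩ : IsOpen Ω) {x0 : E} (hx0 : x0 ∈ Ω) :
    ∃ e : E, ‖e‖ = locLip u x0 ∧ ∀ ε > 0, ∀ r > 0, ∃ R, 0 < R ∧ R ≤ r ∧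
      ∀ x, ‖x‖ ≤ R → |u (x0 + x) - u x0 - ⟪e, x⟫| ≤ ε * R := by
  have h1 : ∀ n : ℕ, ∃ (R : ℝ) (e' : E), 0 < R ∧ R ≤ 1 / ((n : ℝ) + 1) ∧
      locLip u x0 - 1 / ((n : ℝ) + 1) ≤ ‖e'‖ ∧ ‖e'‖ ≤ locLip u x0 + 1 / ((n : ℝ) + 1) ∧
      ∀ x, ‖x‖ ≤ R → |u (x0 + x) - u x0 - ⟪e', x⟫| ≤ 1 / ((n : ℝ) + 1) * R := by
    intro n
    obtain ⟨r1, hr1, h⟩ := hu.local_flat hΩ hx0 (ε := 1 / ((n : ℝ) + 1)) (by positivity)
    obtain ⟨e', h2, h3, h4⟩ := h (min r1 (1 / ((n : ℝ) + 1))) (by positivity) (min_le_left _ _)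
    exact ⟨_, e', by positivity, min_le_right _ _, h2, h3, h4⟩
  choose R e' hR0 hR1 he1 he2 he3 using h1
  have hlim : Tendsto (fun n : ℕ => 1 / ((n : ℝ) + 1)) atTop (𝓝 0) :=
    tendsto_one_div_add_atTop_nhds_zero_nat
  have hK : IsCompact (closedBall (0 : E) (locLip u x0 + 1)) := isCompact_closedBall _ _
  obtain ⟨e, -, φ, hφ, hte⟩ := hK.tendsto_subseq (x := e') (by
    intro n
    rw [mem_closedBall, dist_zero_right]
    refine (he2 n).trans ?_
    have : 1 / ((n : ℝ) + 1) ≤ 1 := by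
      rw [div_le_one (by (clear * -; positivity))]
      have : (0 : ℝ) ≤ n := Nat.cast_nonneg n
      linarith
    linarith only [this])
  have hlimφ := hlim.comp hφ.tendsto_atTop
  refine ⟨e, ?_, ?_⟩
  · have hn : Tendsto (fun n => ‖e' (φ n)‖) atTop (𝓝 ‖e‖) := hte.norm
    have hl : Tendsto (fun n => locLip u x0 - 1 / ((φ n : ℝ) + 1)) atTop (𝓝 (locLip u x0 - 0)) :=
      tendsto_const_nhds.sub hlimφ
    have hr : Tendsto (fun n => locLip u x0 + 1 / ((φ n : ℝ) + 1)) atTop (𝓝 (locLip u x0 + 0)) :=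
      tendsto_const_nhds.add hlimφ
    rw [sub_zero] at hl
    rw [add_zero] at hr
    exact tendsto_nhds_unique hn
      (tendsto_of_tendsto_of_tendsto_of_le_of_le hl hr (fun n => he1 _) (fun n => he2 _))
  · intro ε hε r hr
    have e1 : ∀ᶠ n in atTop, 1 / ((φ n : ℝ) + 1) < min (ε / 2) r :=
      hlimφ.eventually (gt_mem_nhds (by (clear * - hε hr; positivity)))
    have e2 : ∀ᶠ n in atTop, ‖e' (φ n) - e‖ < ε / 2 := by
      have := (tendsto_iff_norm_sub_tendsto_zero.1 hte)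
      exact this.eventually (gt_mem_nhds (by positivity))
    obtain ⟨n, hn1, hn2⟩ := (e1.and e2).exists
    refine ⟨R (φ n), hR0 _, (hR1 _).trans (hn1.le.trans (min_le_right _ _)), ?_⟩
    intro x hx
    have h3 := he3 (φ n) x hx
    have h4 : u (x0 + x) - u x0 - ⟪e, x⟫
      = (u (x0 + x) - u x0 - ⟪e' (φ n), x⟫) + ⟪e' (φ n) - e, x⟫ := by
      rw [inner_sub_left]; ring
    rw [h4]
    refine (abs_add_le _ _).trans ?_
    have h5 : |⟪e' (φ n) - e, x⟫| ≤ ε / 2 * R (φ n) := by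
      refine (abs_real_inner_le_norm _ _).trans ?_
      (clear * - hn2 hx hε; gcongr)
    have h6 : 1 / ((φ n : ℝ) + 1) * R (φ n) ≤ ε / 2 * R (φ n) := by
      have := hn1.le.trans (min_le_left _ _)
      have := (hR0 (φ n)).le
      (clear u Ω hu hΩ x0 hx0 e' hR1 he1 he2 he3 hlim hK e hφ hte hlimφ hε hr e1 e2 hn2 x hx h3 h4 h5; gcongr)
    linarith only [h6, h5, h3]

end Vale.Agent.P080
end
end

section

attribute [-instance] ProperSMul.toContinuousSMul IsTopologicalTorsor.toContinuousSMul IdemSemiring.toCanonicallyOrderedAdd IdemSemiring.toMulLeftMono IdemSemiring.toMulRightMono AddQuantale.instAddLeftMono AddQuantale.instAddRightMono Quantale.instMulLeftMono Quantale.instMulRightMono FiniteDimensional.rclike_to_real IsScalarTower.complexToReal FiniteDimensional.complexToReal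

section
set_option linter.unusedSectionVars false

namespace Vale.Agent.P080

open Topology Filter Metric Set
open scoped RealInnerProductSpace

variable {E : Type*} [NormedAddCommGroup E] [InnerProductSpace ℝ E] [FiniteDimensional ℝ E]

theorem exists_lipNear_sub {u : E → ℝ} {x : E} (h : ∃ b, LipNear u x b) (c : E) :
    ∃ b, LipNear (fun y => u y - ⟪c, y⟫) x b := by
  obtain ⟨b, δ, hδ, hb⟩ := h
  refine ⟨b + ‖c‖, δ, hδ, ?_⟩
  intro y hy z hz
  have h1 := hb y hy z hz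
  have h2 : u y - ⟪c, y⟫ - (u z - ⟪c, z⟫) = (u y - u z) - ⟪c, y - z⟫ := by
    rw [inner_sub_right]; ring
  rw [h2]
  refine (abs_sub _ _).trans ?_
  have h3 := abs_real_inner_le_norm c (y - z)
  rw [add_mul]
  exact add_le_add h1 h3

theorem ConeComp.exists_lip_ball {u : E → ℝ} {Ω : Set E} (hu : ConeComp u Ω) (hΩ : IsOpen Ω)
    {x0 : E} (hx0 : x0 ∈ Ω) : ∃ L r0, 0 ≤ L ∧ 0 < r0 ∧ closedBall x0 r0 ⊆ Ω ∧
      ∀ x y, ‖x - x0‖ ≤ r0 → ‖y - x0‖ ≤ r0 → |u x - u y| ≤ L * ‖x - y‖ := by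
  obtain ⟨b, δ, hδ, hb⟩ := hu.exists_lipNear hΩ hx0
  obtain ⟨r, hr, hball⟩ := Metric.isOpen_iff.1 hΩ x0 hx0
  have hm1 : min δ r ≤ δ := min_le_left _ _
  have hm2 : min δ r ≤ r := min_le_right _ _
  have hm0 : 0 < min δ r := by positivity
  refine ⟨max b 0, min δ r / 2, le_max_right _ _, by positivity,
    (closedBall_subset_ball (by linarith only [hr, hm2])).trans hball, ?_⟩
  intro x y hx hy
  refine (hb x (by rw [mem_ball, dist_eq_norm]; linarith only [hm1, hm0, hx]) y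
    (by rw [mem_ball, dist_eq_norm]; linarith only [hm1, hm0, hy])).trans ?_
  gcongr
  exact le_max_left _ _

/-- The affine correction by half of the direction halves the local Lipschitz constant. -/
theorem ConeComp.locLip_half [Nontrivial E] {u : E → ℝ} {Ω : Set E} (hu : ConeComp u Ω)
    (hΩ : IsOpen Ω) {x0 e : E} (hx0 : x0 ∈ Ω)
    (hflat : ∀ ε > 0, ∀ r > 0, ∃ R, 0 < R ∧ R ≤ r ∧
      ∀ x, ‖x‖ ≤ R → |u (x0 + x) - u x0 - ⟪e, x⟫| ≤ ε * R) :
    locLip (fun y => u y - ⟪(1 / 2 : ℝ) • e, y⟫) x0 ≤ ‖e‖ / 2 := by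
  obtain ⟨c, hc⟩ : ∃ c : E, c = (1 / 2 : ℝ) • e := ⟨_, rfl⟩
  rw [← hc]
  obtain ⟨w, hw⟩ : ∃ w : E → ℝ, w = fun y => u y - ⟪c, y⟫ := ⟨_, rfl⟩
  rw [← hw]
  obtain ⟨k, hkdef⟩ : ∃ k, k = locLip w x0 := ⟨_, rfl⟩
  rw [← hkdef]
  by_contra hcon
  push Not at hcon
  have hk : 0 < k := lt_of_le_of_lt (by (clear * -; positivity)) hcon
  have hne : ∃ b, LipNear w x0 b := by
    rw [hw]; exact exists_lipNear_sub (hu.exists_lipNear hΩ hx0) c
  obtain ⟨L, r0, hL, hr0, hcb, hlipL⟩ := hu.exists_lip_ball hΩ hx0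
  have hη : 0 < (k ^ 2 - (‖e‖ / 2) ^ 2) / 2 := by
    have : (‖e‖ / 2) ^ 2 < k ^ 2 := by (clear * - hcon; gcongr)
    linarith only [this]
  obtain ⟨δ, r, t0, hδ, hr, ht0, H⟩ := pair_touch hu (e := e) (c := c) hL hk.le hr0 hcb hlipL hflat
    (by
      intro δ hδ
      obtain ⟨r, hr, h⟩ := lipNear_of_locLip_lt hne
        (show locLip w x0 < k + δ by rw [← hkdef]; linarith only [hδ])
      refine ⟨r / 2, by positivity, ?_⟩
      intro x y hx hy
      have h1 := (le_abs_self _).trans (h y (by rw [mem_ball, dist_eq_norm]; linarith only [hr,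
            hy])
        x (by rw [mem_ball, dist_eq_norm]; linarith only [hr, hx]))
      simp only [hw] at h1
      rw [inner_sub_right]
      linarith only [h1]) hη
  -- all small pairs have a smaller slope
  have hsmall : LipNear w x0 (max (k - δ) 0) := by
    refine ⟨min r (t0 / 2), by (clear * - hr ht0; positivity), ?_⟩
    have hm1 : min r (t0 / 2) ≤ r := min_le_left _ _
    have hm2 : min r (t0 / 2) ≤ t0 / 2 := min_le_right _ _
    have key : ∀ x ∈ ball x0 (min r (t0 / 2)), ∀ y ∈ ball x0 (min r (t0 / 2)),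
        w y - w x ≤ max (k - δ) 0 * ‖y - x‖ := by
      intro x hx y hy
      rw [mem_ball, dist_eq_norm] at hx hy
      by_cases hxy : y = x
      · rw [hxy]; simp only [sub_self, norm_zero, mul_zero, Std.le_refl]
      have hpos : 0 < ‖y - x‖ := norm_pos_iff.2 (sub_ne_zero.2 hxy)
      by_contra hgt
      push Not at hgt
      have h1 : (k - δ) * ‖y - x‖ < w y - w x :=
        lt_of_le_of_lt (mul_le_mul_of_nonneg_right (le_max_left _ _) hpos.le) hgt
      obtain ⟨z, hz⟩ : ∃ z : E, z = ‖y - x‖⁻¹ • (y - x) := ⟨_, rfl⟩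
      have hz1 : ‖z‖ = 1 := by
        rw [hz, norm_smul, norm_inv, norm_norm, inv_mul_cancel₀ hpos.ne']
      have hz2 : ‖y - x‖ • z = y - x := by
        rw [hz, smul_smul, mul_inv_cancel₀ hpos.ne', one_smul]
      have hle : ‖y - x‖ ≤ t0 := by
        have : y - x = (y - x0) - (x - x0) := by abel
        rw [this]
        refine (norm_sub_le _ _).trans ?_
        linarith only [hm2, hx, hy]
      have h2 := H x z ‖y - x‖ (by linarith only [hm1, hx]) hz1 hpos hle (by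
        rw [hz2, add_sub_cancel]
        have h3 : ⟪c, z⟫ * ‖y - x‖ = ⟪c, y - x⟫ := by
          rw [← hz2, real_inner_smul_right, hz2]; ring
        rw [h3, inner_sub_right]
        simp only [hw] at h1
        linarith only [h1])
      have h3 : ‖c + k • z‖ ^ 2 - ⟪e, c + k • z⟫ = k ^ 2 - (‖e‖ / 2) ^ 2 := by
        rw [norm_add_sq_real, inner_add_right, hc, norm_smul, norm_smul, hz1,
          real_inner_smul_right, real_inner_smul_right, real_inner_smul_left,
          real_inner_smul_right, real_inner_self_eq_norm_sq, Real.norm_of_nonneg hk.le,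
          Real.norm_of_nonneg (by norm_num : (0 : ℝ) ≤ 1 / 2)]
        ring
      rw [h3] at h2
      have h4 := (abs_le.1 h2).2
      linarith only [h4, hη]
    intro x hx y hy
    rw [abs_le]
    constructor
    · have := key x hx y hy
      rw [norm_sub_rev] at this
      linarith only [this]
    · have := key y hy x hx
      linarith only [this]
  have h1 := locLip_le (le_max_right _ _) hsmall
  rw [← hkdef] at h1
  have h2 : max (k - δ) 0 < k := max_lt (by linarith only [hδ]) hk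
  linarith only [h1, h2]

/-- Everywhere differentiability (Evans and Smart). -/
theorem ConeComp.hasGradientAt [Nontrivial E] {u : E → ℝ} {Ω : Set E} (hu : ConeComp u Ω)
    (hΩ : IsOpen Ω) {x0 : E} (hx0 : x0 ∈ Ω) :
    ∃ e : E, ‖e‖ = locLip u x0 ∧ HasGradientAt u e x0 := by
  obtain ⟨e, he, hflat⟩ := hu.exists_dir hΩ hx0
  refine ⟨e, he, ?_⟩
  have hhalf := hu.locLip_half hΩ hx0 hflat
  have hne : ∃ b, LipNear (fun y => u y - ⟪(1 / 2 : ℝ) • e, y⟫) x0 b :=
    exists_lipNear_sub (hu.exists_lipNear hΩ hx0) _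
  rw [hasGradientAt_iff_isLittleO_nhds_zero, Asymptotics.isLittleO_iff]
  intro ε hε
  obtain ⟨α, hα⟩ : ∃ α, α = locLip u x0 := ⟨_, rfl⟩
  have hα0 : 0 ≤ α := by rw [hα]; exact locLip_nonneg _ _
  obtain ⟨ε1, hε1, hε2, hε3⟩ : ∃ ε1 : ℝ, 0 < ε1 ∧ ε1 ≤ ε / 2 ∧
      6 * α * ε1 + 8 * ε1 ^ 2 ≤ (ε / 2) ^ 2 := by
    refine ⟨min (min 1 (ε / 2)) ((ε / 2) ^ 2 / (6 * α + 8)), by (clear * - hε hα0; positivity),
      (min_le_left _ _).trans (min_le_right _ _), ?_⟩
    have h1 : min (min 1 (ε / 2)) ((ε / 2) ^ 2 / (6 * α + 8)) ≤ 1 :=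
      (min_le_left _ _).trans (min_le_left _ _)
    have h2 : min (min 1 (ε / 2)) ((ε / 2) ^ 2 / (6 * α + 8)) ≤ (ε / 2) ^ 2 / (6 * α + 8) :=
      min_le_right _ _
    have h3 : 0 < min (min 1 (ε / 2)) ((ε / 2) ^ 2 / (6 * α + 8)) := by (clear * - hε hα0; positivity)
    have h4 : (6 * α + 8) * ((ε / 2) ^ 2 / (6 * α + 8)) = (ε / 2) ^ 2 := by (clear * - hα0 hε; field_simp)
    have h5 : (6 * α + 8) * min (min 1 (ε / 2)) ((ε / 2) ^ 2 / (6 * α + 8))
      ≤ (6 * α + 8) * ((ε / 2) ^ 2 / (6 * α + 8)) := by (clear * - h2 hα0; gcongr)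
    linarith only [h4, h5, (mul_nonneg (sub_nonneg.2 h1) (le_of_lt h3))]
  obtain ⟨r1, hr1, hfl⟩ := hu.local_flat hΩ hx0 hε1
  obtain ⟨δ, hδ, hlip⟩ := lipNear_of_locLip_lt hne (lt_of_le_of_lt hhalf
    (lt_add_of_pos_right (‖e‖ / 2) hε1))
  have hev : ∀ᶠ x : E in 𝓝 0, ‖x‖ < min r1 δ := by
    have := Metric.ball_mem_nhds (0 : E) (show 0 < min r1 δ by positivity)
    filter_upwards [this] with x hx
    simpa only [lt_inf_iff, mem_ball, dist_zero_right] using hx
  filter_upwards [hev] with x hx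
  have hx1 : ‖x‖ < r1 := lt_of_lt_of_le hx (min_le_left _ _)
  have hx2 : ‖x‖ < δ := lt_of_lt_of_le hx (min_le_right _ _)
  by_cases hx3 : x = 0
  · rw [hx3]; simp only [add_zero, sub_self, inner_zero_right, norm_zero, mul_zero, Std.le_refl]
  have hx0' : 0 < ‖x‖ := norm_pos_iff.2 hx3
  obtain ⟨e', he1, he2, he3⟩ := hfl ‖x‖ hx0' hx1.le
  have h1 : ‖e' - (1 / 2 : ℝ) • e‖ ≤ α / 2 + 2 * ε1 := by
    apply norm_le_of_inner_le hx0' (by (clear * - hα0 hε1; positivity))
    intro y hy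
    have h2 := (abs_le.1 (he3 y hy)).1
    have h3 := (le_abs_self _).trans (hlip (x0 + y) (by
      rw [mem_ball, dist_eq_norm, add_sub_cancel_left]; linarith only [hx2, hy]) x0 (mem_ball_self hδ))
    beta_reduce at h3
    rw [add_sub_cancel_left, inner_add_right] at h3
    have h4 : (‖e‖ / 2 + ε1) * ‖y‖ ≤ (‖e‖ / 2 + ε1) * ‖x‖ := by (clear * - hy hε1; gcongr)
    rw [inner_sub_left, hα, ← he]
    linarith only [h4, h3, h2]
  have h2 := dir_close (e := e) (e' := e') (α := α) (by rw [he, hα]) hε1.le (by rw [hα]; exact he1) h1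
  have h3 : ‖e' - e‖ ≤ ε / 2 := by
    apply le_of_sq_le_sq (h2.trans hε3) (by positivity)
  have h4 : u (x0 + x) - u x0 - ⟪e, x⟫ = (u (x0 + x) - u x0 - ⟪e', x⟫) + ⟪e' - e, x⟫ := by
    rw [inner_sub_left]; ring
  rw [Real.norm_eq_abs, h4]
  refine (abs_add_le _ _).trans ?_
  have h5 : |⟪e' - e, x⟫| ≤ ε / 2 * ‖x‖ := by
    refine (abs_real_inner_le_norm _ _).trans ?_
    (clear * - h3 hx3; gcongr)
  have h6 := he3 x le_rfl
  have h7 : ε1 * ‖x‖ ≤ ε / 2 * ‖x‖ := by (clear * - hε2 hx3; gcongr)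
  linarith only [h5, h6, h7]

end Vale.Agent.P080
end
end

section

attribute [-instance] ProperSMul.toContinuousSMul IsTopologicalTorsor.toContinuousSMul IdemSemiring.toCanonicallyOrderedAdd IdemSemiring.toMulLeftMono IdemSemiring.toMulRightMono AddQuantale.instAddLeftMono AddQuantale.instAddRightMono Quantale.instMulLeftMono Quantale.instMulRightMono FiniteDimensional.rclike_to_real IsScalarTower.complexToReal FiniteDimensional.complexToReal

section
set_option linter.unusedSectionVars false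

namespace Vale.Agent.P080

open Topology Filter Metric Set
open scoped RealInnerProductSpace

variable {E : Type*} [NormedAddCommGroup E] [InnerProductSpace ℝ E] [FiniteDimensional ℝ E]

end Vale.Agent.P080
end
end

section

attribute [-instance] ProperSMul.toContinuousSMul IsTopologicalTorsor.toContinuousSMul IdemSemiring.toCanonicallyOrderedAdd IdemSemiring.toMulLeftMono IdemSemiring.toMulRightMono AddQuantale.instAddLeftMono AddQuantale.instAddRightMono Quantale.instMulLeftMono Quantale.instMulRightMono FiniteDimensional.rclike_to_real IsScalarTower.complexToReal FiniteDimensional.complexToReal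

section
set_option linter.unusedSectionVars false

namespace Vale.Agent.P080

open Topology Filter Metric Set
open scoped RealInnerProductSpace

variable {E : Type*} [NormedAddCommGroup E] [InnerProductSpace ℝ E] [FiniteDimensional ℝ E]

end Vale.Agent.P080
end
end

section

section
set_option linter.unusedSectionVars false

namespace Vale.Agent.P080

open Topology Filter Metric Set
open scoped RealInnerProductSpace

variable {E : Type*} [NormedAddCommGroup E] [InnerProductSpace ℝ E] [FiniteDimensional ℝ E]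

end Vale.Agent.P080
end
end

section

section
set_option linter.unusedSectionVars false

namespace Vale.Agent.P080

open Topology Filter Metric Set
open scoped RealInnerProductSpace

variable {E : Type*} [NormedAddCommGroup E] [InnerProductSpace ℝ E] [FiniteDimensional ℝ E]

end Vale.Agent.P080
end
end

section

section
set_option linter.unusedSectionVars false

namespace Vale.Agent.P080

open Topology Filter Metric Set
open scoped RealInnerProductSpace

variable {E : Type*} [NormedAddCommGroup E] [InnerProductSpace ℝ E] [FiniteDimensional ℝ E]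

end Vale.Agent.P080
end
end

section

section
set_option linter.unusedSectionVars false

namespace Vale.Agent.P080

open Topology Filter Metric Set
open scoped RealInnerProductSpace

variable {E : Type*} [NormedAddCommGroup E] [InnerProductSpace ℝ E] [FiniteDimensional ℝ E]

end Vale.Agent.P080
end
end

section

section
set_option linter.unusedSectionVars false

namespace Vale.Agent.P080

open Topology Filter Metric Set
open scoped RealInnerProductSpace

section
variable {E : Type*} [NormedAddCommGroup E] [InnerProductSpace ℝ E] [FiniteDimensional ℝ E]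

end

end Vale.Agent.P080
end
end

section

section

namespace Vale.Agent.P080

end Vale.Agent.P080
end
end

section

end

section

/-! P080, (S1J): functions with comparison with cones are isotropic after rescaling. -/

open Set Filter
open scoped RealInnerProductSpace Topology

namespace Vale.Agent.P080.Zy

variable {E : Type*} [NormedAddCommGroup E] [InnerProductSpace ℝ E]

/-- the local Lipschitz constant in the concentric ball -/
theorem s1j_locLip [FiniteDimensional ℝ E] {u : E → ℝ} {x₀ p : E} {R M ρ : ℝ}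
    (hM : 0 < M) (hρ : 0 < ρ) (hu : ConeComp u (Metric.ball x₀ R))
    (hosc : ∀ x ∈ Metric.ball x₀ R, ∀ y ∈ Metric.ball x₀ R, u x - u y ≤ M)
    (hp : ‖p - x₀‖ + ρ < R) : locLip u p ≤ M / ρ := by
  have hsub : Metric.closedBall p ρ ⊆ Metric.ball x₀ R := by
    intro w hw
    rw [Metric.mem_closedBall, dist_eq_norm] at hw
    rw [Metric.mem_ball, dist_eq_norm]
    have e : w - x₀ = (w - p) + (p - x₀) := by abel
    rw [e]
    have n1 := norm_add_le (w - p) (p - x₀)
    linarith only [n1, hw, hp]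
  have hpm : p ∈ Metric.ball x₀ R := hsub (Metric.mem_closedBall_self hρ.le)
  refine hu.locLip_le_of_sphere hρ hM.le hsub fun y hy => ?_
  exact hosc y (hsub (Metric.sphere_subset_closedBall hy)) p hpm

/-- Lipschitz bound in the ball of radius `R / 4` about `x`. -/
theorem s1j_lip [FiniteDimensional ℝ E] {u : E → ℝ} {x₀ x : E} {R M : ℝ}
    (hR : 0 < R) (hM : 0 < M) (hu : ConeComp u (Metric.ball x₀ R))
    (hosc : ∀ x ∈ Metric.ball x₀ R, ∀ y ∈ Metric.ball x₀ R, u x - u y ≤ M)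
    (hx : ‖x - x₀‖ < R / 2) {y z : E} (hy : y ∈ Metric.ball x (R / 4))
    (hz : z ∈ Metric.ball x (R / 4)) : |u y - u z| ≤ 4 * M / R * ‖y - z‖ := by
  refine lipschitz_of_locLip_le (convex_ball x (R / 4)) (fun p hp => ?_) hy hz
  rw [Metric.mem_ball, dist_eq_norm] at hp
  have hp0 : ‖p - x₀‖ < R * (3 / 4) := by
    have e : p - x₀ = (p - x) + (x - x₀) := by abel
    rw [e]
    have n1 := norm_add_le (p - x) (x - x₀)
    linarith only [n1, hp, hx]
  refine ⟨hu.exists_lipNear Metric.isOpen_ball ?_, ?_⟩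
  · rw [Metric.mem_ball, dist_eq_norm]
    linarith only [hp0, hR]
  · have hρ : 0 < R / 4 := by linarith only [hR]
    have hcont := s1j_locLip (p := p) hM hρ hu hosc (by linarith only [hp0])
    refine hcont.trans (le_of_eq ?_)
    field_simp

/-- Convexity of the maxima, rescaled. -/
theorem s1j_up [FiniteDimensional ℝ E] {u : E → ℝ} {x₀ x : E} {R M : ℝ}
    (hR : 0 < R) (hM : 0 < M) (hu : ConeComp u (Metric.ball x₀ R))
    (hx : ‖x - x₀‖ < R / 2) : IsoUp 4 (fun y => u (x + (R / 16) • y) / (M / 4)) := by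
  intro y q l₁ l₂ a b hl₁ hl₂ ha hb hab h1 h2
  have hR16 : 0 < R / 16 := by linarith only [hR]
  have hM4 : 0 < M / 4 := by linarith only [hM]
  have key : ∀ l : ℝ, ‖y‖ + l * ‖q‖ < 4 →
      ‖(x + (R / 16) • y) - x₀‖ + l * ‖(R / 16) • q‖ < R := by
    intro l hl
    have e : (x + (R / 16) • y) - x₀ = (x - x₀) + (R / 16) • y := by abel
    rw [e]
    have n1 := norm_add_le (x - x₀) ((R / 16) • y)
    rw [norm_smul, Real.norm_of_nonneg hR16.le] at n1
    rw [norm_smul, Real.norm_of_nonneg hR16.le]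
    have n2 := mul_lt_mul_of_pos_left hl hR16
    have n3 : R / 16 * (‖y‖ + l * ‖q‖) = R / 16 * ‖y‖ + l * (R / 16 * ‖q‖) := by ring
    rw [n3] at n2
    linarith only [n1, n2, hx, hR]
  obtain ⟨q₁, q₂, hq₁, hq₂, hconv⟩ := coneComp_conv hu (x + (R / 16) • y) ((R / 16) • q)
    hl₁ hl₂ ha hb hab (key l₁ h1) (key l₂ h2)
  rw [norm_smul, Real.norm_of_nonneg hR16.le] at hq₁ hq₂
  have hn : ∀ w : E, ‖w‖ ≤ R / 16 * ‖q‖ → ‖(R / 16)⁻¹ • w‖ ≤ ‖q‖ := by
    intro w hw
    rw [norm_smul, norm_inv, Real.norm_of_nonneg hR16.le, inv_mul_le_iff₀ hR16]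
    exact hw
  have he : ∀ (l : ℝ) (w : E),
      x + (R / 16) • (y + l • (R / 16)⁻¹ • w) = x + (R / 16) • y + l • w := by
    intro l w
    rw [smul_add, smul_comm (R / 16) l, smul_inv_smul₀ hR16.ne', add_assoc]
  refine ⟨(R / 16)⁻¹ • q₁, (R / 16)⁻¹ • q₂, hn q₁ hq₁, hn q₂ hq₂, ?_⟩
  simp only [he]
  have e3 : x + (R / 16) • (y + (a * l₁ + b * l₂) • q) =
      x + (R / 16) • y + (a * l₁ + b * l₂) • (R / 16) • q := by
    rw [smul_add, smul_comm (R / 16) (a * l₁ + b * l₂), add_assoc]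
  rw [e3]
  have h4 := div_le_div_of_nonneg_right hconv hM4.le
  refine h4.trans (le_of_eq ?_)
  ring

theorem iso_of_coneComp [FiniteDimensional ℝ E] [Nontrivial E] {u : E → ℝ} {x₀ x : E} {R M : ℝ}
    (hR : 0 < R) (hM : 0 < M) (hu : ConeComp u (Metric.ball x₀ R))
    (hosc : ∀ x ∈ Metric.ball x₀ R, ∀ y ∈ Metric.ball x₀ R, u x - u y ≤ M)
    (hx : ‖x - x₀‖ < R / 2) : Iso 4 (fun y => u (x + (R / 16) • y) / (M / 4)) := by
  have hR16 : 0 < R / 16 := by linarith only [hR]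
  have hM4 : 0 < M / 4 := by linarith only [hM]
  refine ⟨?_, s1j_up hR hM hu hx, ?_⟩
  · intro y z hy hz
    have hmem : ∀ w : E, ‖w‖ < 4 → x + (R / 16) • w ∈ Metric.ball x (R / 4) := by
      intro w hw
      rw [Metric.mem_ball, dist_eq_norm, add_sub_cancel_left, norm_smul,
        Real.norm_of_nonneg hR16.le]
      have := mul_lt_mul_of_pos_left hw hR16
      linarith only [this]
    have h := s1j_lip hR hM hu hosc hx (hmem y hy) (hmem z hz)
    have e : x + (R / 16) • y - (x + (R / 16) • z) = (R / 16) • (y - z) := by module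
    rw [e, norm_smul, Real.norm_of_nonneg hR16.le] at h
    have e2 : u (x + (R / 16) • y) / (M / 4) - u (x + (R / 16) • z) / (M / 4) =
        (u (x + (R / 16) • y) - u (x + (R / 16) • z)) / (M / 4) := by ring
    rw [e2, abs_div, abs_of_pos hM4, div_le_iff₀ hM4]
    refine h.trans (le_of_eq ?_)
    field_simp
    norm_num
  · have h := s1j_up (x := x) hR hM hu.neg hx
    have e : (fun y => -(u (x + (R / 16) • y) / (M / 4))) =
        fun y => (fun w => - u w) (x + (R / 16) • y) / (M / 4) := by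
      funext y
      simp only [neg_div]
    rw [e]
    exact h

end Vale.Agent.P080.Zy
end

section

/-! P080, block S1, file S1K: the full interior estimate from Theorem Z. -/

open Set Filter Metric
open scoped RealInnerProductSpace Topology

namespace Vale.Agent.P080.Zy

variable {E : Type} [NormedAddCommGroup E] [InnerProductSpace ℝ E]

theorem fullEstimate [FiniteDimensional ℝ E] (hZ : TheoremZ E) :
    ∃ α : ℝ, 0 < α ∧ α < 1 ∧ ∃ C : ℝ, 0 < C ∧ FullEstimate E α C := by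
  obtain ⟨α, hα0, hα8, K, hK, hG⟩ := exists_good_decay hZ
  have hα1 : α < 1 := by linarith
  obtain ⟨C, hC, h⟩ := iso_expands hα0 hα1 hK hG
  exact ⟨α, hα0, hα1, 4608 * C, by linarith only [hC], fullEstimate_of hα0 hα1 hC h
    fun _ _ _ _ _ _ hR hM hu hosc hx => iso_of_coneComp hR hM hu hosc hx⟩

end Vale.Agent.P080.Zy
end

section

/-! F1: descent of the potential (step S5 of the proof of Theorem Z, P080). -/

open Set Filter Topology
open scoped RealInnerProductSpace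

namespace Vale.Agent.P080.Zy

variable {E : Type*} [NormedAddCommGroup E] [InnerProductSpace ℝ E]

namespace Descent

/-- concavity gain of the square root -/
theorem sqrt_part {τ L : ℝ} (hL : 0 < L) (hτ : L < τ) :
    √(τ + L) + √(τ - L) ≤ 2 * √τ - L ^ 2 / (4 * (τ * √τ)) := by
  have hτ0 : 0 < τ := hL.trans hτ
  obtain ⟨s, hs⟩ : ∃ s, s = √τ := ⟨_, rfl⟩
  have hs0 : 0 < s := by rw [hs]; exact Real.sqrt_pos.2 hτ0
  have hss : s ^ 2 = τ := by rw [hs]; exact Real.sq_sqrt hτ0.le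
  obtain ⟨a, ha⟩ : ∃ a, a = √(τ + L) := ⟨_, rfl⟩
  obtain ⟨b, hb⟩ : ∃ b, b = √(τ - L) := ⟨_, rfl⟩
  have ha0 : 0 ≤ a := by rw [ha]; exact Real.sqrt_nonneg _
  have hb0 : 0 ≤ b := by rw [hb]; exact Real.sqrt_nonneg _
  have haa : a ^ 2 = τ + L := by rw [ha]; exact Real.sq_sqrt (by linarith only [hL, hτ])
  have hbb : b ^ 2 = τ - L := by rw [hb]; exact Real.sq_sqrt (by linarith only [hτ])
  rw [← ha, ← hb, ← hs]
  have hden : 0 < τ * s := mul_pos hτ0 hs0
  obtain ⟨x, hx⟩ : ∃ x, x = L ^ 2 / (4 * (τ * s)) := ⟨_, rfl⟩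
  rw [← hx]
  have hx0 : 0 ≤ x := by rw [hx]; positivity
  have hxs : x * (4 * (τ * s)) = L ^ 2 := by rw [hx]; field_simp
  have hxs2 : 4 * x * s * τ = L ^ 2 := by linarith only [hxs]
  -- x ≤ s / 4
  have hx4 : x ≤ s / 4 := by
    by_contra hcon
    push Not at hcon
    have h1 : s / 4 * (4 * (τ * s)) < x * (4 * (τ * s)) := by
      apply mul_lt_mul_of_pos_right hcon; positivity
    have h2 : L ^ 2 < τ ^ 2 := by linarith only [mul_pos (sub_pos.2 hτ) (sub_pos.2 hL), mul_pos (sub_pos.2 hτ) (sub_pos.2 hτ)]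
    have h3 : s / 4 * (4 * (τ * s)) = τ ^ 2 := by rw [← hss]; ring
    linarith only [hxs, h1, h2, h3]
  -- (a b)^2 = τ^2 - L^2
  have hab : (a * b) ^ 2 = τ ^ 2 - L ^ 2 := by
    rw [mul_pow, haa, hbb]; ring
  have hab2 : a * b ≤ τ - L ^ 2 / (2 * τ) := by
    apply abs_le_of_sq_le_sq' _ _ |>.2
    · rw [hab]
      have : (τ - L ^ 2 / (2 * τ)) ^ 2 = τ ^ 2 - L ^ 2 + (L ^ 2 / (2 * τ)) ^ 2 := by
        field_simp; ring
      rw [this]
      nlinarith only []
    · have : L ^ 2 / (2 * τ) ≤ τ := by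
        rw [div_le_iff₀ (by positivity)]
        nlinarith only [hab]
      (clear * - this; linarith)
  have hsq : (a + b) ^ 2 ≤ (2 * s - x) ^ 2 := by
    have h1 : (a + b) ^ 2 = 2 * τ + 2 * (a * b) := by
      have : (a + b) ^ 2 = a ^ 2 + b ^ 2 + 2 * (a * b) := by ring
      rw [this, haa, hbb]; ring
    have h2 : (2 * s - x) ^ 2 = 4 * τ - 4 * x * s + x ^ 2 := by rw [← hss]; ring
    have h3 : 2 * (L ^ 2 / (2 * τ)) = 4 * x * s := by
      field_simp
      linarith only [hxs]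
    rw [h1, h2]
    nlinarith only [hab2, h3]
  have h5 : 0 ≤ 2 * s - x := by linarith only [hs0, hx4]
  exact (abs_le_of_sq_le_sq' hsq h5).2

/-- second-order upper bound of `√(1+‖y‖²)` -/
theorem psi_one (y h : E) :
    √(1 + ‖y + h‖ ^ 2) ≤ √(1 + ‖y‖ ^ 2) + ⟪y, h⟫ / √(1 + ‖y‖ ^ 2) + ‖h‖ ^ 2 / 2 := by
  obtain ⟨s, hs⟩ : ∃ s, s = √(1 + ‖y‖ ^ 2) := ⟨_, rfl⟩
  have hs2 : s ^ 2 = 1 + ‖y‖ ^ 2 := by rw [hs]; exact Real.sq_sqrt (by positivity)
  have hs1 : 1 ≤ s := by
    rw [hs, Real.le_sqrt (by norm_num) (by positivity)]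
    linarith only [sq_nonneg ‖y‖]
  have hs0 : 0 < s := by linarith only [hs1]
  rw [← hs]
  have h1 : √(1 + ‖y + h‖ ^ 2) ≤ s + (⟪y, h⟫ + ‖h‖ ^ 2 / 2) / s := by
    have e1 : ‖y + h‖ ^ 2 = ‖y‖ ^ 2 + 2 * ⟪y, h⟫ + ‖h‖ ^ 2 := norm_add_sq_real y h
    have e2 : 1 + ‖y + h‖ ^ 2 = s ^ 2 + 2 * (⟪y, h⟫ + ‖h‖ ^ 2 / 2) := by rw [hs2, e1]; ring
    obtain ⟨w, hw⟩ : ∃ w, w = ⟪y, h⟫ + ‖h‖ ^ 2 / 2 := ⟨_, rfl⟩
    rw [e2, ← hw]
    have hpos : 0 ≤ s + w / s := by
      have : 0 ≤ s ^ 2 + 2 * w := by rw [hw, ← e2]; positivity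
      have h3 : s + w / s = (s ^ 2 + w) / s := by field_simp
      rw [h3]
      apply div_nonneg _ hs0.le
      nlinarith only [hs2, e1, hw]
    rw [Real.sqrt_le_left hpos]
    have : (s + w / s) ^ 2 = s ^ 2 + 2 * w + (w / s) ^ 2 := by field_simp; ring
    rw [this]
    nlinarith only []
  have h2 : (⟪y, h⟫ + ‖h‖ ^ 2 / 2) / s ≤ ⟪y, h⟫ / s + ‖h‖ ^ 2 / 2 := by
    rw [add_div]
    have : ‖h‖ ^ 2 / 2 / s ≤ ‖h‖ ^ 2 / 2 := div_le_self (by positivity) hs1
    linarith only [this]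
  linarith only [h1, h2]

theorem psi_part (y p u : E) {L : ℝ} (hL : 0 < L) :
    √(1 + ‖y + L • p‖ ^ 2) + √(1 + ‖y + L • u‖ ^ 2) ≤
      2 * √(1 + ‖y‖ ^ 2) + L * ‖p + u‖ + L ^ 2 / 2 * (‖p‖ ^ 2 + ‖u‖ ^ 2) := by
  have h1 := psi_one y (L • p)
  have h2 := psi_one y (L • u)
  have hs0 : 0 < √(1 + ‖y‖ ^ 2) := Real.sqrt_pos.2 (by positivity)
  have e1 : ‖L • p‖ ^ 2 = L ^ 2 * ‖p‖ ^ 2 := by rw [norm_smul, mul_pow, Real.norm_eq_abs, sq_abs]
  have e2 : ‖L • u‖ ^ 2 = L ^ 2 * ‖u‖ ^ 2 := by rw [norm_smul, mul_pow, Real.norm_eq_abs, sq_abs]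
  have e3 : ⟪y, L • p⟫ / √(1 + ‖y‖ ^ 2) + ⟪y, L • u⟫ / √(1 + ‖y‖ ^ 2) ≤ L * ‖p + u‖ := by
    rw [← add_div, ← inner_add_right, ← smul_add, div_le_iff₀ hs0]
    have h3 : ⟪y, L • (p + u)⟫ ≤ ‖y‖ * ‖L • (p + u)‖ := real_inner_le_norm _ _
    have h4 : ‖y‖ ≤ √(1 + ‖y‖ ^ 2) := by
      rw [Real.le_sqrt (norm_nonneg _) (by positivity)]; linarith only []
    have h5 : ‖L • (p + u)‖ = L * ‖p + u‖ := by rw [norm_smul, Real.norm_of_nonneg hL.le]
    rw [h5] at h3
    calc ⟪y, L • (p + u)⟫ ≤ ‖y‖ * (L * ‖p + u‖) := h3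
      _ ≤ √(1 + ‖y‖ ^ 2) * (L * ‖p + u‖) := by
          apply mul_le_mul_of_nonneg_right h4; (clear * - hL; positivity)
      _ = L * ‖p + u‖ * √(1 + ‖y‖ ^ 2) := by ring
  rw [e1] at h1
  rw [e2] at h2
  linarith

/-- the potential -/
noncomputable def F (V : ℝ → E → ℝ) (q B L τ : ℝ) (y : E) : ℝ :=
  (q * τ - Psi V L τ (τ - 1) y) / L - En V L (τ - 1) y / 2 + √(1 + ‖y‖ ^ 2) + B * √τ

theorem log_absorb {K : ℝ} (hK : 0 < K) : ∃ C : ℝ, 0 ≤ C ∧ ∀ x : ℝ, 0 ≤ x →
    K * (1 + Real.log (1 + x)) ≤ √(1 + x ^ 2) / 2 + C := by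
  refine ⟨1 / 2 + K * |Real.log (2 * K)|, by positivity, fun x hx => ?_⟩
  have h1 : Real.log ((1 + x) / (2 * K)) ≤ (1 + x) / (2 * K) - 1 :=
    Real.log_le_sub_one_of_pos (by positivity)
  rw [Real.log_div (by positivity) (by positivity)] at h1
  have h2 : K * ((1 + x) / (2 * K)) = (1 + x) / 2 := by field_simp
  have h3 : K * (1 + Real.log (1 + x)) ≤ K * ((1 + x) / (2 * K)) + K * Real.log (2 * K) := by
    (clear * - hK h1; nlinarith)
  have h4 : K * Real.log (2 * K) ≤ K * |Real.log (2 * K)| := by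
    apply mul_le_mul_of_nonneg_left (le_abs_self _) hK.le
  have h5 : x ≤ √(1 + x ^ 2) := by
    rw [Real.le_sqrt hx (by positivity)]; linarith only []
  rw [h2] at h3
  linarith only [h3, h4, h5]

/-- lower bound of the potential -/
theorem F_lower [FiniteDimensional ℝ E] {C₀ q K C B L τ : ℝ} (hq : IsQ C₀ q E)
    {V : ℝ → E → ℝ} (hZ : ZClass C₀ V) (hL : 0 < L) (hL1 : L ≤ 1) (hτ : 0 < τ) (hτ2 : τ ≤ 2)
    (hK : 0 < K)
    (hen : ∀ (t : ℝ) (y : E), |t| ≤ 2 → ∀ L, 0 < L → L ≤ 1 →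
      Eup V L t y ≤ K * (1 + Real.log (1 + ‖y‖)) ∧ Edn V L t y ≤ K * (1 + Real.log (1 + ‖y‖)) ∧
      En V L t y ≤ K * (1 + Real.log (1 + ‖y‖)))
    (hC : ∀ x : ℝ, 0 ≤ x → (3 * K) * (1 + Real.log (1 + x)) ≤ √(1 + x ^ 2) / 2 + C) (y : E) :
    -q - C + √(1 + ‖y‖ ^ 2) / 2 + B * √τ ≤ F V q B L τ y ∧
      -q - 2 * K * (1 + Real.log (1 + ‖y‖)) ≤ (q * τ - Psi V L τ (τ - 1) y) / L := by
  have ht : |τ - 1| ≤ 2 := by rw [abs_le]; constructor <;> linarith
  obtain ⟨h1, h2, h3⟩ := hen (τ - 1) y ht L hL hL1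
  have h4 := hq.dc_le hZ hτ hL.le (τ - 1) y
  have h5 := hC ‖y‖ (norm_nonneg _)
  have h6 : -q - 2 * K * (1 + Real.log (1 + ‖y‖)) ≤ (q * τ - Psi V L τ (τ - 1) y) / L := by
    rw [le_div_iff₀ hL]
    unfold Psi
    have e1 : Eup V L (τ - 1) y * L = fu V L (τ - 1) y - V (τ - 1) y := by
      unfold Eup; (clear * - hL; field_simp)
    have e2 : Edn V L (τ - 1) y * L = V (τ - 1) y - fl V L (τ - 1) y := by
      unfold Edn; (clear * - hL; field_simp)
    have e3 := mul_le_mul_of_nonneg_right h1 hL.le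
    have e4 := mul_le_mul_of_nonneg_right h2 hL.le
    rw [e1] at e3
    rw [e2] at e4
    linarith
  refine ⟨?_, h6⟩
  have hlog : 0 ≤ 1 + Real.log (1 + ‖y‖) := by
    have : 0 ≤ Real.log (1 + ‖y‖) := Real.log_nonneg (by linarith only [norm_nonneg y])
    linarith only [this]
  unfold F
  linarith [mul_nonneg (le_of_lt (sub_pos.2 hK)) (sub_nonneg.2 hlog), mul_nonneg (mul_self_nonneg (1 : ℝ)) (sub_nonneg.2 h6), mul_nonneg (mul_self_nonneg (1 : ℝ)) (sub_nonneg.2 h5), mul_nonneg (mul_self_nonneg (1 : ℝ)) (sub_nonneg.2 h3)]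

/-- arithmetic of the interior step -/
theorem interior_arith {L r a b S X B τ ε : ℝ} (hL : 0 < L) (hL4 : L ≤ 1 / 4) (hr : 0 ≤ r)
    (ha : 0 ≤ a) (hb : 0 ≤ b) (hba : b ≤ a + r) (hS : 0 ≤ S)
    (hX : X = B * (L ^ 2 / (4 * (τ * √τ))))
    (hP : -(2 * ε) ≤ -S / (2 * L) - r ^ 2 / 8 + L * r + L ^ 2 / 2 * (a ^ 2 + b ^ 2) - X)
    (hε : ε = L ^ 2 / 2) (hτ : 0 < τ) : B ≤ 4 * (τ * √τ) * (9 + 2 * a ^ 2) := by
  have hden : 0 < τ * √τ := mul_pos hτ (Real.sqrt_pos.2 hτ)
  have h1 : L * r ≤ r ^ 2 / 32 + 8 * L ^ 2 := by linarith only [sq_nonneg (r / 16 - L)]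
  have h2 : b ^ 2 ≤ 3 / 2 * r ^ 2 + 3 * a ^ 2 := by linarith only [mul_nonneg (sub_nonneg.2 hba) (sub_nonneg.2 hb), mul_nonneg (sub_nonneg.2 hba) (sub_nonneg.2 hba), sq_nonneg (r / 2 - a)]
  have hL2 : L ^ 2 ≤ 1 / 16 := by nlinarith only [hL4, hL]
  have h3 : L ^ 2 / 2 * (a ^ 2 + b ^ 2) ≤ 3 / 64 * r ^ 2 + 2 * L ^ 2 * a ^ 2 := by
    have : L ^ 2 / 2 * (a ^ 2 + b ^ 2) ≤ L ^ 2 / 2 * (4 * a ^ 2 + 3 / 2 * r ^ 2) := by
      apply mul_le_mul_of_nonneg_left _ (by positivity); linarith only [h2]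
    have h4 : L ^ 2 * r ^ 2 ≤ 1 / 16 * r ^ 2 := mul_le_mul_of_nonneg_right hL2 (sq_nonneg r)
    linarith only [h4, this]
  have hS' : 0 ≤ S / (2 * L) := by positivity
  have h4 : X ≤ L ^ 2 * (9 + 2 * a ^ 2) := by
    rw [hε] at hP
    have e : -S / (2 * L) = -(S / (2 * L)) := by ring
    rw [e] at hP
    nlinarith only [hP, h3, hS']
  rw [hX] at h4
  have h5 : B * (L ^ 2 / (4 * (τ * √τ))) = L ^ 2 * (B / (4 * (τ * √τ))) := by ring
  rw [h5] at h4
  have h6 : B / (4 * (τ * √τ)) ≤ 9 + 2 * a ^ 2 := le_of_mul_le_mul_left h4 (by positivity)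
  rw [div_le_iff₀ (by positivity)] at h6
  linarith only [h6]

theorem tau_log {τ : ℝ} (hτ : 0 < τ) (hτ2 : τ ≤ 2) :
    τ * √τ ≤ 3 ∧ τ * √τ * (Real.log τ) ^ 2 ≤ 6 := by
  have hs0 : 0 < √τ := Real.sqrt_pos.2 hτ
  have hss : √τ ^ 2 = τ := Real.sq_sqrt hτ.le
  have hs : √τ ≤ 3 / 2 := by
    rw [Real.sqrt_le_left (by norm_num)]; linarith only [hτ2]
  have h1 : τ * √τ ≤ 3 := by nlinarith only [hτ2, hτ, hs]
  refine ⟨h1, ?_⟩
  rcases le_total τ 1 with h | h
  · have h2 : Real.log (1 / √τ) ≤ 1 / √τ - 1 := Real.log_le_sub_one_of_pos (by positivity)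
    have h3 : Real.log (1 / √τ) = - (Real.log τ / 2) := by
      rw [one_div, Real.log_inv, Real.log_sqrt hτ.le]
    have h4 : Real.log τ ≤ 0 := Real.log_nonpos hτ.le h
    have h5 : - Real.log τ ≤ 2 / √τ := by
      rw [h3] at h2
      have : 2 / √τ = 2 * (1 / √τ) := by ring
      rw [this]; linarith only [h2]
    have h6 : (Real.log τ) ^ 2 ≤ (2 / √τ) ^ 2 := by nlinarith only [h4, h5]
    have h7 : (2 / √τ) ^ 2 = 4 / τ := by rw [div_pow, hss]; norm_num
    rw [h7] at h6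
    calc τ * √τ * (Real.log τ) ^ 2 ≤ τ * √τ * (4 / τ) := by
          apply mul_le_mul_of_nonneg_left h6; positivity
      _ = 4 * √τ := by field_simp
      _ ≤ 6 := by linarith only [hs]
  · have h2 : Real.log τ ≤ τ - 1 := Real.log_le_sub_one_of_pos hτ
    have h3 : 0 ≤ Real.log τ := Real.log_nonneg h
    have h4 : (Real.log τ) ^ 2 ≤ 1 := by nlinarith only [hτ2, h2, h3]
    calc τ * √τ * (Real.log τ) ^ 2 ≤ τ * √τ * 1 := by
          apply mul_le_mul_of_nonneg_left h4; positivity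
      _ ≤ 6 := by linarith

/-- choice of `B` -/
theorem exists_B (c₁ c₂ a : ℝ) (hc₂ : 0 ≤ c₂) (ha : 0 ≤ a) : ∃ B₀ : ℝ, ∀ B, B₀ ≤ B → 0 ≤ B →
    c₁ + c₂ * (Real.log (2 + (a + 2 * B))) ^ 2 < B := by
  have key : ∀ s : ℝ, 1 ≤ s → (Real.log s) ^ 2 ≤ 16 * √s := by
    intro s hs
    have hs0 : 0 < s := by linarith
    have h1 : Real.log (√(√s)) ≤ √(√s) - 1 := Real.log_le_sub_one_of_pos (by positivity)
    have h2 : Real.log (√(√s)) = Real.log s / 4 := by
      rw [Real.log_sqrt (by positivity), Real.log_sqrt hs0.le]; ring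
    have h3 : 0 ≤ Real.log s := Real.log_nonneg hs
    have h4 : Real.log s ≤ 4 * √(√s) := by rw [h2] at h1; linarith only [h1]
    have h5 : √(√s) ^ 2 = √s := Real.sq_sqrt (by positivity)
    nlinarith only [h1, h2, h3, h5]
  refine ⟨2 * (|c₁| + 1 + a + 256 * c₂ * (1 + c₂)) + 2, fun B hB hB0 => ?_⟩
  have h1 := key (2 + (a + 2 * B)) (by linarith)
  obtain ⟨s, hs⟩ : ∃ s, s = 2 + (a + 2 * B) := ⟨_, rfl⟩
  rw [← hs] at h1 ⊢
  have hs0 : 0 ≤ s := by linarith
  -- √s ≤ s/(64 (1+c₂)) + 16 (1+c₂)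
  have h2 : √s ≤ s / (64 * (1 + c₂)) + 16 * (1 + c₂) := by
    obtain ⟨r, hr⟩ : ∃ r, r = √s := ⟨_, rfl⟩
    have hrr : r ^ 2 = s := by rw [hr]; exact Real.sq_sqrt hs0
    rw [← hr, ← hrr]
    have hd : 0 < 64 * (1 + c₂) := by positivity
    have : r ^ 2 / (64 * (1 + c₂)) + 16 * (1 + c₂) - r
        = (r - 32 * (1 + c₂)) ^ 2 / (64 * (1 + c₂)) := by
      field_simp; ring
    have h3 : 0 ≤ (r - 32 * (1 + c₂)) ^ 2 / (64 * (1 + c₂)) := by (clear * - hc₂; positivity)
    linarith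
  have h3 : c₂ * (Real.log s) ^ 2 ≤ c₂ * (16 * √s) := mul_le_mul_of_nonneg_left h1 hc₂
  have h4 : c₂ * (16 * √s) ≤ c₂ * (16 * (s / (64 * (1 + c₂)) + 16 * (1 + c₂))) := by
    apply mul_le_mul_of_nonneg_left _ hc₂; linarith
  have h5 : c₂ * (16 * (s / (64 * (1 + c₂)) + 16 * (1 + c₂)))
      = (c₂ / (1 + c₂)) * (s / 4) + 256 * c₂ * (1 + c₂) := by
    field_simp; ring
  have h6 : (c₂ / (1 + c₂)) * (s / 4) ≤ 1 * (s / 4) := by
    apply mul_le_mul_of_nonneg_right _ (by positivity)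
    rw [div_le_one (by positivity)]; linarith only []
  have h7 : c₁ ≤ |c₁| := le_abs_self _
  have h9 : c₂ * (Real.log s) ^ 2 ≤ s / 4 + 256 * c₂ * (1 + c₂) := by linarith only [h3, h4, h5, h6]
  have h10 : s / 4 = 1 / 2 + a / 4 + B / 2 := by rw [hs]; ring
  linarith only [ha, hB, hs, h3, h4, h5, h6, h7]

/-- one interior step: at an almost minimiser `B` is bounded by the velocity -/
theorem interior [FiniteDimensional ℝ E] {C₀ q : ℝ} {V : ℝ → E → ℝ}
    (hZ : ZClass C₀ V) {B L τ I : ℝ} (hL : 0 < L) (hL4 : L ≤ 1 / 4) (hτ : L < τ) (y : E)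
    (hB : 0 ≤ B)
    (hmin : F V q B L τ y ≤ I + L ^ 2 / 2)
    (hup : ∀ z, I ≤ F V q B L (τ + L) z) (hdn : ∀ z, I ≤ F V q B L (τ - L) z) :
    ∃ p : E, B ≤ 4 * (τ * √τ) * (9 + 2 * ‖p‖ ^ 2) ∧
      (∀ z, dc V (τ + 2 * L) τ (τ - 1) z ≤ dc V (τ + 2 * L) τ (τ - 1) y + ⟪p, z - y⟫
        + ‖z - y‖ ^ 2 / (2 * τ)) := by
  obtain ⟨p, u, S, hS, h1, h2, h3, -⟩ := one_step_dc hZ hL hτ (τ - 1) y
  refine ⟨p, ?_, h3⟩
  have hτ0 : 0 < τ := hL.trans hτ
  have e1 : τ - 1 + L = τ + L - 1 := by ring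
  have e2 : τ - 1 - L = τ - L - 1 := by ring
  rw [e1, e2] at h1 h2
  have hu := hup (y + L • p)
  have hd := hdn (y + L • u)
  have hψ := psi_part y p u hL
  have hs := sqrt_part hL hτ
  have hnb : ‖u‖ ≤ ‖p‖ + ‖p + u‖ := by
    have : u = (p + u) - p := by abel
    calc ‖u‖ = ‖(p + u) - p‖ := by rw [← this]
      _ ≤ ‖p + u‖ + ‖p‖ := norm_sub_le _ _
      _ = ‖p‖ + ‖p + u‖ := add_comm _ _
  refine interior_arith (L := L) (r := ‖p + u‖) (a := ‖p‖) (b := ‖u‖) (S := S)
    (X := B * (L ^ 2 / (4 * (τ * √τ)))) (ε := L ^ 2 / 2) hL hL4 (norm_nonneg _)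
    (norm_nonneg _) (norm_nonneg _) hnb hS rfl ?_ rfl hτ0
  unfold F at hmin hu hd
  have e3 : (q * (τ + L) - Psi V L (τ + L) (τ + L - 1) (y + L • p)) / L
      + (q * (τ - L) - Psi V L (τ - L) (τ - L - 1) (y + L • u)) / L
      - 2 * ((q * τ - Psi V L τ (τ - 1) y) / L) ≤ - S / L := by
    have : (q * (τ + L) - Psi V L (τ + L) (τ + L - 1) (y + L • p)) / L
      + (q * (τ - L) - Psi V L (τ - L) (τ - L - 1) (y + L • u)) / L
      - 2 * ((q * τ - Psi V L τ (τ - 1) y) / L) = (2 * Psi V L τ (τ - 1) y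
        - Psi V L (τ + L) (τ + L - 1) (y + L • p) - Psi V L (τ - L) (τ - L - 1) (y + L • u)) / L := by
      ring
    rw [this]
    exact div_le_div_of_nonneg_right (by linarith only [h1]) hL.le
  have e4 : - S / (2 * L) = - S / L + S / L / 2 := by field_simp; ring
  have e5 := mul_le_mul_of_nonneg_left hs hB
  rw [e4]
  linarith

/-- bound of the velocity in terms of the position -/
theorem vel_arith {K₃ K₄ τ N P : ℝ} (hτ : 0 < τ) (hτ2 : τ ≤ 2)
    (hN : 0 ≤ N) (hP0 : 0 ≤ P)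
    (hP : P ≤ K₃ + K₄ * (1 + |Real.log τ| + Real.log (2 + N))) :
    4 * (τ * √τ) * (9 + 2 * P ^ 2) ≤
      (108 + 72 * (K₃ + K₄) ^ 2 + 144 * K₄ ^ 2) + 72 * K₄ ^ 2 * (Real.log (2 + N)) ^ 2 := by
  obtain ⟨h1, h2⟩ := tau_log hτ hτ2
  have hden : 0 < τ * √τ := mul_pos hτ (Real.sqrt_pos.2 hτ)
  obtain ⟨w, hw⟩ : ∃ w, w = τ * √τ := ⟨_, rfl⟩
  obtain ⟨l, hl⟩ : ∃ l, l = |Real.log τ| := ⟨_, rfl⟩
  obtain ⟨g, hg⟩ : ∃ g, g = Real.log (2 + N) := ⟨_, rfl⟩
  have hl2 : l ^ 2 = (Real.log τ) ^ 2 := by rw [hl, sq_abs]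
  rw [← hw] at h1 h2 hden ⊢
  rw [← hl2] at h2
  rw [← hl, ← hg] at hP
  rw [← hg]
  have hl0 : 0 ≤ l := by rw [hl]; exact abs_nonneg _
  have hg0 : 0 ≤ g := by rw [hg]; exact Real.log_nonneg (by linarith)
  have h3 : P ^ 2 ≤ 3 * (K₃ + K₄) ^ 2 + 3 * (K₄ ^ 2 * l ^ 2) + 3 * (K₄ ^ 2 * g ^ 2) := by
    have h4 : P ≤ (K₃ + K₄) + K₄ * l + K₄ * g := by linarith only [hP]
    have h5 : P ^ 2 ≤ ((K₃ + K₄) + K₄ * l + K₄ * g) ^ 2 := by
      apply pow_le_pow_left₀ hP0 h4
    nlinarith only [h5, sq_nonneg ((K₃ + K₄) - K₄ * g), sq_nonneg (K₄ * l - K₄ * g)]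
  have h6 : w * P ^ 2 ≤ 3 * (3 * (K₃ + K₄) ^ 2) + 3 * K₄ ^ 2 * 6 + 3 * (3 * (K₄ ^ 2 * g ^ 2)) := by
    calc w * P ^ 2 ≤ w * (3 * (K₃ + K₄) ^ 2 + 3 * (K₄ ^ 2 * l ^ 2) + 3 * (K₄ ^ 2 * g ^ 2)) :=
          mul_le_mul_of_nonneg_left h3 hden.le
      _ = w * (3 * (K₃ + K₄) ^ 2) + 3 * K₄ ^ 2 * (w * l ^ 2) + w * (3 * (K₄ ^ 2 * g ^ 2)) := by
          ring
      _ ≤ 3 * (3 * (K₃ + K₄) ^ 2) + 3 * K₄ ^ 2 * 6 + 3 * (3 * (K₄ ^ 2 * g ^ 2)) := by
          have a1 : w * (3 * (K₃ + K₄) ^ 2) ≤ 3 * (3 * (K₃ + K₄) ^ 2) :=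
            mul_le_mul_of_nonneg_right h1 (by (clear * -; positivity))
          have a2 : 3 * K₄ ^ 2 * (w * l ^ 2) ≤ 3 * K₄ ^ 2 * 6 :=
            mul_le_mul_of_nonneg_left h2 (by positivity)
          have a3 : w * (3 * (K₄ ^ 2 * g ^ 2)) ≤ 3 * (3 * (K₄ ^ 2 * g ^ 2)) :=
            mul_le_mul_of_nonneg_right h1 (by (clear * -; positivity))
          linarith
  linarith

omit [InnerProductSpace ℝ E] in
/-- almost minimisers of a function on a finite range of levels -/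
theorem near_min (G : ℕ → E → ℝ) {a b c : ℕ} (hac : a ≤ c) (hcb : c ≤ b) (m₀ : ℝ)
    (hlow : ∀ j, a ≤ j → j ≤ b → ∀ y, m₀ ≤ G j y) {ε : ℝ} (hε : 0 < ε) :
    ∃ (j : ℕ) (y : E) (I : ℝ), a ≤ j ∧ j ≤ b ∧ G j y ≤ I + ε ∧ I ≤ G c 0 ∧
      ∀ j', a ≤ j' → j' ≤ b → ∀ z, I ≤ G j' z := by
  obtain ⟨S, hS⟩ : ∃ S : Set ℝ, S = {x | ∃ j : ℕ, a ≤ j ∧ j ≤ b ∧ ∃ y : E, x = G j y} := ⟨_, rfl⟩
  have hSbdd : BddBelow S := by
    refine ⟨m₀, ?_⟩
    rw [hS]
    rintro x ⟨j, h1, h2, y, rfl⟩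
    exact hlow j h1 h2 y
  have hmem : G c 0 ∈ S := by rw [hS]; exact ⟨c, hac, hcb, 0, rfl⟩
  obtain ⟨x, hxS, hx⟩ := Real.lt_sInf_add_pos ⟨_, hmem⟩ hε
  rw [hS] at hxS
  obtain ⟨j, h1, h2, y, hxy⟩ := hxS
  refine ⟨j, y, sInf S, h1, h2, by rw [← hxy]; exact hx.le, csInf_le hSbdd hmem, ?_⟩
  intro j' h1' h2' z
  exact csInf_le hSbdd (by rw [hS]; exact ⟨j', h1', h2', z, rfl⟩)

/-- the interior case is impossible when `B` is large -/
theorem no_interior [FiniteDimensional ℝ E] {C₀ q : ℝ} {V : ℝ → E → ℝ} (hZ : ZClass C₀ V)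
    {B L τ I N K₃ K₄ : ℝ} (hL : 0 < L) (hL4 : L ≤ 1 / 4) (hτ : L < τ) (hτ2 : τ ≤ 2) (y : E)
    (hB : 0 ≤ B) (hN : 0 ≤ N) (hy : ‖y‖ ≤ N) (hK₄ : 0 ≤ K₄)
    (h3 : ∀ (t : ℝ) (y : E) (τ v k : ℝ) (b : E), 0 < τ → IsCell C₀ V t y τ v k b →
      ∀ s, 0 ≤ s → s ≤ 4 * τ → ∀ p : E,
        (∀ z, dc V (τ + s) τ t z ≤ dc V (τ + s) τ t y + ⟪p, z - y⟫ + ‖z - y‖ ^ 2 / (2 * τ)) →
        ‖p - b‖ ≤ K₃)
    (h4 : ∀ (t : ℝ) (y : E) (r v k : ℝ) (b : E), 0 < r → IsCell C₀ V t y r v k b →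
      ‖b‖ ≤ K₄ * (1 + |Real.log r| + Real.log (1 + |t| + ‖y‖)))
    (hmin : F V q B L τ y ≤ I + L ^ 2 / 2)
    (hup : ∀ z, I ≤ F V q B L (τ + L) z) (hdn : ∀ z, I ≤ F V q B L (τ - L) z) :
    B ≤ (108 + 72 * (K₃ + K₄) ^ 2 + 144 * K₄ ^ 2) + 72 * K₄ ^ 2 * (Real.log (2 + N)) ^ 2 := by
  have hτ0 : 0 < τ := hL.trans hτ
  obtain ⟨p, hp1, hp2⟩ := interior (q := q) hZ hL hL4 hτ y hB hmin hup hdn
  obtain ⟨v, k, b, hcell⟩ := hZ.flat (τ - 1) y τ hτ0
  have hpb := h3 (τ - 1) y τ v k b hτ0 hcell (2 * L) (by positivity) (by linarith only [hL, hτ]) p hp2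
  have hb := h4 (τ - 1) y τ v k b hτ0 hcell
  have ht1 : |τ - 1| ≤ 1 := by rw [abs_le]; constructor <;> linarith only [hL, hτ, hτ2]
  have hlog2 : Real.log (1 + |τ - 1| + ‖y‖) ≤ Real.log (2 + N) :=
    Real.log_le_log (by (clear * -; positivity)) (by linarith only [hy, ht1])
  have hP : ‖p‖ ≤ K₃ + K₄ * (1 + |Real.log τ| + Real.log (2 + N)) := by
    have c1 : ‖p‖ ≤ ‖p - b‖ + ‖b‖ := by
      calc ‖p‖ = ‖(p - b) + b‖ := by rw [sub_add_cancel]
        _ ≤ ‖p - b‖ + ‖b‖ := norm_add_le _ _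
    have c2 : K₄ * (1 + |Real.log τ| + Real.log (1 + |τ - 1| + ‖y‖)) ≤
        K₄ * (1 + |Real.log τ| + Real.log (2 + N)) :=
      mul_le_mul_of_nonneg_left (by linarith only [hlog2]) hK₄
    linarith only [hpb, hb, c1, c2]
  exact hp1.trans (vel_arith hτ0 hτ2 hN (norm_nonneg p) hP)

/-- value of the potential at the start -/
theorem start [FiniteDimensional ℝ E] {V : ℝ → E → ℝ} {q B L K₁ : ℝ} (hL : 0 < L)
    (h1 : q - K₁ * L ≤ Psi V L 1 0 0) (h2 : -K₁ ≤ En V L 0 0) :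
    F V q B L 1 0 ≤ 3 / 2 * K₁ + 1 + B := by
  unfold F
  have e1 : (q * 1 - Psi V L 1 (1 - 1) 0) / L ≤ K₁ := by
    rw [div_le_iff₀ hL, sub_self]
    linarith
  have e2 : -K₁ ≤ En V L (1 - 1) 0 := by rw [sub_self]; exact h2
  have e3 : √(1 + ‖(0 : E)‖ ^ 2) = 1 := by simp
  rw [e3, Real.sqrt_one]
  generalize (q * 1 - Psi V L 1 (1 - 1) 0) / L = X at e1 ⊢
  generalize En V L (1 - 1) 0 = Y at e2 ⊢
  linarith only [e2, e1]

/-- conclusions at an almost minimiser -/
theorem final_arith {P X q K₂ K₁ G g s r B A N : ℝ}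
    (hF : X - P / 2 + s + r ≤ 3 / 2 * K₁ + 2 + B) (hX : -q - 2 * K₂ * g ≤ X)
    (hP : P ≤ K₂ * g) (hg : g ≤ G) (hK₂ : 0 ≤ K₂) (hs : 0 ≤ s) (hr : 0 ≤ r) (hN : 0 ≤ N)
    (hA : 3 / 2 * K₁ + 2 + q ≤ A) (hq : 0 ≤ q) (hG : 0 ≤ G) (_hAB : 0 ≤ A + B) :
    X ≤ N + 2 * (A + B + 3 * K₂ * G) ∧ -(N + 2 * (A + B + 3 * K₂ * G)) ≤ P := by
  have h1 : K₂ * g ≤ K₂ * G := mul_le_mul_of_nonneg_left hg hK₂
  have h2 : 0 ≤ K₂ * G := mul_nonneg hK₂ hG
  constructor <;> linarith

/-- the core of the descent for one function -/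
theorem core [FiniteDimensional ℝ E] {C₀ q : ℝ} (hq : IsQ C₀ q E) {V : ℝ → E → ℝ}
    (hZ : ZClass C₀ V) {K₁ K₂ K₃ K₄ C A B N G ρ L : ℝ} {m n : ℕ} (hm : 1 ≤ m) (hn : 4 ≤ n)
    (hρ : ρ = 1 / m) (hLρ : L = ρ / n) (hK₂ : 0 < K₂) (hK₄ : 0 ≤ K₄)
    (hE1 : q - K₁ * L ≤ Psi V L 1 0 0) (hE2 : -K₁ ≤ En V L 0 0)
    (hen : ∀ (t : ℝ) (y : E), |t| ≤ 2 → ∀ L, 0 < L → L ≤ 1 →
      Eup V L t y ≤ K₂ * (1 + Real.log (1 + ‖y‖)) ∧ Edn V L t y ≤ K₂ * (1 + Real.log (1 + ‖y‖)) ∧
      En V L t y ≤ K₂ * (1 + Real.log (1 + ‖y‖)))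
    (hC : ∀ x : ℝ, 0 ≤ x → (3 * K₂) * (1 + Real.log (1 + x)) ≤ √(1 + x ^ 2) / 2 + C)
    (h3 : ∀ (t : ℝ) (y : E) (τ v k : ℝ) (b : E), 0 < τ → IsCell C₀ V t y τ v k b →
      ∀ s, 0 ≤ s → s ≤ 4 * τ → ∀ p : E,
        (∀ z, dc V (τ + s) τ t z ≤ dc V (τ + s) τ t y + ⟪p, z - y⟫ + ‖z - y‖ ^ 2 / (2 * τ)) →
        ‖p - b‖ ≤ K₃)
    (h4 : ∀ (t : ℝ) (y : E) (r v k : ℝ) (b : E), 0 < r → IsCell C₀ V t y r v k b →
      ‖b‖ ≤ K₄ * (1 + |Real.log r| + Real.log (1 + |t| + ‖y‖)))
    (hA : A = 3 / 2 * K₁ + 2 + q + C) (hA0 : 0 ≤ A) (hBA : 5 / 2 * A + 1 ≤ B)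
    (hN : N = 2 * A + 2 * B) (hG : G = 1 + Real.log (1 + N))
    (hBkey : (108 + 72 * (K₃ + K₄) ^ 2 + 144 * K₄ ^ 2) +
      72 * K₄ ^ 2 * (Real.log (2 + N)) ^ 2 < B) :
    ∃ y : E, ‖y‖ ≤ N ∧ F V q B L ρ y ≤ 3 / 2 * K₁ + 2 + B ∧ 1 + Real.log (1 + ‖y‖) ≤ G := by
  have hB0 : 0 < B := by linarith only [hA0, hBA]
  have hN0 : 0 < N := by rw [hN]; (clear * - hA0 hB0; positivity)
  have hm0 : (0 : ℝ) < m := by exact_mod_cast (by omega : 0 < m)
  have hm1 : (1 : ℝ) ≤ m := by exact_mod_cast hm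
  have hn0 : (0 : ℝ) < n := by exact_mod_cast (by omega : 0 < n)
  have hn4 : (4 : ℝ) ≤ n := by exact_mod_cast hn
  have hρ0 : 0 < ρ := by rw [hρ]; positivity
  have hρ1 : ρ ≤ 1 := by rw [hρ, div_le_one hm0]; exact hm1
  have hL : 0 < L := by rw [hLρ]; positivity
  have hL4 : L ≤ 1 / 4 := by
    rw [hLρ, div_le_iff₀ hn0]; linarith only [hρ1, hn4]
  have hnL : (n : ℝ) * L = ρ := by rw [hLρ]; (clear * - hn hρ0; field_simp)
  have hmnL : (m : ℝ) * (n * L) = 1 := by rw [hnL, hρ]; field_simp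
  have hjτ : ∀ j : ℕ, n ≤ j → j ≤ 2 * (m * n) → 0 < (j : ℝ) * L ∧ (j : ℝ) * L ≤ 2 := by
    intro j hj1 hj2
    have hj0 : (0 : ℝ) < j := by exact_mod_cast (by omega : 0 < j)
    refine ⟨by (clear * - hj0 hL; positivity), ?_⟩
    have h5 : (j : ℝ) ≤ 2 * (m * n) := by exact_mod_cast hj2
    calc (j : ℝ) * L ≤ 2 * (m * n) * L := mul_le_mul_of_nonneg_right h5 hL.le
      _ = 2 * (m * (n * L)) := by ring
      _ = 2 := by rw [hmnL]; norm_num
  have hlow : ∀ (τ : ℝ), 0 < τ → τ ≤ 2 → ∀ y : E,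
      -q - C + √(1 + ‖y‖ ^ 2) / 2 + B * √τ ≤ F V q B L τ y := fun τ hτ hτ2 y =>
    (F_lower (B := B) hq hZ hL (by linarith only [hL4]) hτ hτ2 hK₂ hen hC y).1
  have hmn : n ≤ m * n := Nat.le_mul_of_pos_left n (by omega)
  have hcast : ((m * n : ℕ) : ℝ) * L = 1 := by
    push_cast; rw [mul_assoc]; exact hmnL
  obtain ⟨j, y, I, hj1, hj2, hmin, hI1, hI⟩ := near_min
    (fun (j : ℕ) (y : E) => F V q B L ((j : ℝ) * L) y) (a := n) (b := 2 * (m * n))
    (c := m * n) hmn (by omega) (-q - C) (by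
      intro j h1 h2 y
      obtain ⟨a1, a2⟩ := hjτ j h1 h2
      have b1 := hlow _ a1 a2 y
      have b2 : 0 ≤ √(1 + ‖y‖ ^ 2) := Real.sqrt_nonneg _
      have b3 : 0 ≤ B * √((j : ℝ) * L) := by (clear * - hB0 a1; positivity)
      show -q - C ≤ F V q B L ((j : ℝ) * L) y
      linarith only [b1, b2, b3]) (ε := L ^ 2 / 2) (by positivity)
  simp only [hcast] at hI1
  obtain ⟨hτ0, hτ2⟩ := hjτ j hj1 hj2
  have hst := start (B := B) hL hE1 hE2
  have hL2 : L ^ 2 / 2 ≤ 1 := by nlinarith only [hL, hL4]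
  have hFx : F V q B L ((j : ℝ) * L) y ≤ 3 / 2 * K₁ + 2 + B := by linarith only [hmin, hI1, hst, hL2]
  have hF1 := hlow _ hτ0 hτ2 y
  have hy : ‖y‖ ≤ N := by
    have b1 : ‖y‖ ≤ √(1 + ‖y‖ ^ 2) := by
      rw [Real.le_sqrt (norm_nonneg _) (by (clear * -; positivity))]; linarith only []
    have b3 : 0 ≤ B * √((j : ℝ) * L) := by (clear * - hB0 hτ0; positivity)
    rw [hN]
    linarith only [hA, hmin, hI1, hst, hL2, hF1, b1, b3]
  -- top is impossible
  have hjtop : j ≠ 2 * (m * n) := by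
    intro hj
    have e1 : (j : ℝ) * L = 2 := by
      rw [hj, Nat.cast_mul, mul_assoc, hcast]; norm_num
    have e2 : (7 : ℝ) / 5 ≤ √((j : ℝ) * L) := by
      rw [e1, Real.le_sqrt (by norm_num) (by norm_num)]; norm_num
    have b2 : 0 ≤ √(1 + ‖y‖ ^ 2) := Real.sqrt_nonneg _
    have b3 : B * (7 / 5) ≤ B * √((j : ℝ) * L) := mul_le_mul_of_nonneg_left e2 hB0.le
    linarith only [hA, hBA, hmin, hI1, hst, hL2, hF1, b2, b3]
  -- interior is impossible
  have hjbot : j = n := by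
    by_contra hne
    have hLτ : L < (j : ℝ) * L := by
      have : (1 : ℝ) < j := by exact_mod_cast (by omega : 1 < j)
      nlinarith only [hcast, this]
    have hup : ∀ z, I ≤ F V q B L ((j : ℝ) * L + L) z := by
      intro z
      have h := hI (j + 1) (by omega) (by omega) z
      have e : ((j + 1 : ℕ) : ℝ) * L = (j : ℝ) * L + L := by push_cast; ring
      simp only [e] at h
      exact h
    have hdn : ∀ z, I ≤ F V q B L ((j : ℝ) * L - L) z := by
      intro z
      have h := hI (j - 1) (by omega) (by omega) z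
      have e : ((j - 1 : ℕ) : ℝ) * L = (j : ℝ) * L - L := by
        rw [Nat.cast_sub (by omega : 1 ≤ j)]; push_cast; ring
      simp only [e] at h
      exact h
    have := no_interior (q := q) hZ hL hL4 hLτ hτ2 y hB0.le hN0.le hy hK₄ h3 h4 hmin hup hdn
    linarith only [hBkey, this]
  rw [hjbot, hnL] at hFx
  refine ⟨y, hy, hFx, ?_⟩
  rw [hG]
  have : Real.log (1 + ‖y‖) ≤ Real.log (1 + N) :=
    Real.log_le_log (by (clear * -; positivity)) (by linarith only [hy])
  linarith only [this]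

end Descent

/-- F1 -/
theorem descent [FiniteDimensional ℝ E] (C₀ q : ℝ) (hq : IsQ C₀ q E) (hq0 : 0 < q) :
    ∃ K : ℝ, 0 < K ∧ ∀ V : ℝ → E → ℝ, Ext C₀ q V → ∀ (m n : ℕ), 1 ≤ m → 4 ≤ n →
      ∀ ρ L : ℝ, ρ = 1 / m → L = ρ / n → ∃ y : E, ‖y‖ ≤ K ∧ q * ρ - K * L ≤ Psi V L ρ (ρ - 1) y ∧
        -K ≤ En V L (ρ - 1) y := by
  obtain ⟨K₁, hK₁, h1⟩ := ext_energy (E := E) C₀ q hq
  obtain ⟨K₂, hK₂, h2⟩ := energy_log (E := E) C₀
  obtain ⟨K₃, hK₃, h3⟩ := grad_bound (E := E) C₀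
  obtain ⟨K₄, hK₄, h4⟩ := cells_log (E := E) C₀
  obtain ⟨C, hC0, hC⟩ := Descent.log_absorb (K := 3 * K₂) (by positivity)
  obtain ⟨A, hA⟩ : ∃ A, A = 3 / 2 * K₁ + 2 + q + C := ⟨_, rfl⟩
  have hA0 : 0 < A := by rw [hA]; positivity
  obtain ⟨B₀, hB₀⟩ := Descent.exists_B (108 + 72 * (K₃ + K₄) ^ 2 + 144 * K₄ ^ 2) (72 * K₄ ^ 2)
    (2 * A) (by positivity) (by positivity)
  obtain ⟨B, hB⟩ : ∃ B, B = max B₀ (5 / 2 * A + 1) := ⟨_, rfl⟩
  have hBB : B₀ ≤ B := by rw [hB]; exact le_max_left _ _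
  have hBA : 5 / 2 * A + 1 ≤ B := by rw [hB]; exact le_max_right _ _
  have hB0 : 0 < B := by linarith only [hq0, hK₁, hC0, hA, hBA]
  have hBkey := hB₀ B hBB hB0.le
  obtain ⟨N, hN⟩ : ∃ N, N = 2 * A + 2 * B := ⟨_, rfl⟩
  rw [← hN] at hBkey
  have hN0 : 0 < N := by rw [hN]; (clear * - hA0 hB0; positivity)
  obtain ⟨G, hG⟩ : ∃ G, G = 1 + Real.log (1 + N) := ⟨_, rfl⟩
  have hG0 : 1 ≤ G := by
    have : 0 ≤ Real.log (1 + N) := Real.log_nonneg (by linarith only [hN, hBA, hA, hC0, hK₁, hq0])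
    linarith only [hG, this]
  refine ⟨N + 2 * (A + B + 3 * K₂ * G), by (clear * - hN0 hA0 hB0 hK₂ hG0; positivity), ?_⟩
  intro V hV m n hm hn ρ L hρ hLρ
  have hm0 : (0 : ℝ) < m := by exact_mod_cast (by omega : 0 < m)
  have hm1 : (1 : ℝ) ≤ m := by exact_mod_cast hm
  have hn0 : (0 : ℝ) < n := by exact_mod_cast (by omega : 0 < n)
  have hn4 : (4 : ℝ) ≤ n := by exact_mod_cast hn
  have hρ0 : 0 < ρ := by rw [hρ]; positivity
  have hρ1 : ρ ≤ 1 := by rw [hρ, div_le_one hm0]; exact hm1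
  have hL : 0 < L := by rw [hLρ]; (clear * - hρ0 hn; positivity)
  have hL4 : L ≤ 1 / 4 := by
    rw [hLρ, div_le_iff₀ hn0]; linarith only [hρ1, hn4]
  obtain ⟨-, hE2, hE3⟩ := h1 V hV
  have hZ := hV.cls
  have hen := h2 V hZ hV.norm
  obtain ⟨y, hy, hF, hg⟩ := Descent.core (B := B) (N := N) (G := G) hq hZ hm hn hρ hLρ hK₂ hK₄.le
    (hE2 L hL (by linarith only [hL4])) (hE3 L hL) hen hC (h3 V hZ)
    (fun t y r v k b hr hc => (h4 V hZ.flat hV.norm t y r v k b hr hc).1) hA hA0.le hBA hN hG hBkey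
  have hF2 := (Descent.F_lower (B := B) hq hZ hL (by linarith only [hL4]) hρ0 (by linarith only [hρ1]) hK₂ hen hC y).2
  have hEn : En V L (ρ - 1) y ≤ K₂ * (1 + Real.log (1 + ‖y‖)) :=
    (hen (ρ - 1) y (by rw [abs_le]; constructor <;> linarith only [hρ0, hρ1]) L hL (by linarith only [hL4])).2.2
  unfold Descent.F at hF
  have hA3 : 3 / 2 * K₁ + 2 + q ≤ A := by rw [hA]; linarith only [hC0]
  obtain ⟨r1, r2⟩ := Descent.final_arith hF hF2 hEn hg hK₂.le (Real.sqrt_nonneg _)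
    (by (clear * - hB0 hρ0; positivity)) hN0.le hA3 hq0.le (by linarith only [hG0]) (by positivity)
  refine ⟨y, ?_, ?_, r2⟩
  · have : 0 ≤ 2 * (A + B + 3 * K₂ * G) := by positivity
    linarith only [hy, this]
  · rw [div_le_iff₀ hL] at r1
    linarith only [r1]

end Vale.Agent.P080.Zy
end

section

/-! F2 of the proof of Theorem Z (P080): the limit of the descent. -/

open Set Filter Topology
open scoped RealInnerProductSpace

namespace Vale.Agent.P080.Zy

variable {E : Type*} [NormedAddCommGroup E] [InnerProductSpace ℝ E]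

namespace DescLim

theorem slope_bound {f : ℝ → ℝ} (hf : ConcaveOn ℝ (Ici 0) f) {L h K : ℝ} (hL : 0 < L)
    (hh : 2 * L < h) (hE : -K ≤ (f L - f (2 * L)) / L) : f h - f L ≤ K * (h - L) := by
  have h1 : f (2 * L) - f L ≤ K * L := by
    have := (le_div_iff₀ hL).1 hE
    linarith
  have h2 := hf.slope_anti_adjacent (x := L) (y := 2 * L) (z := h) (mem_Ici.2 hL.le)
    (mem_Ici.2 (by linarith)) (by linarith) hh
  have h3 : (f (2 * L) - f L) / (2 * L - L) ≤ K := by
    rw [div_le_iff₀ (by linarith)]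
    linarith only [h1]
  have h4 : (f h - f (2 * L)) / (h - 2 * L) ≤ K := le_trans h2 h3
  rw [div_le_iff₀ (by linarith only [hh])] at h4
  linarith only [h4, h1]

end DescLim

/-- F2 -/
theorem descent_limit [FiniteDimensional ℝ E] (C₀ q : ℝ) (hq : IsQ C₀ q E) (hq0 : 0 < q) :
    ∃ K : ℝ, 0 < K ∧ ∀ V : ℝ → E → ℝ, Ext C₀ q V → ∀ (m : ℕ), 1 ≤ m → ∀ ρ : ℝ, ρ = 1 / m →
      ∃ y : E, ‖y‖ ≤ K ∧ dc V ρ ρ (ρ - 1) y = V (ρ - 1) y + q * ρ ∧
        ∀ h, 0 < h → -K ≤ Edn V h (ρ - 1) y := by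
  obtain ⟨K, hK0, hK⟩ := descent (E := E) C₀ q hq hq0
  refine ⟨K, hK0, ?_⟩
  intro V hV m hm ρ hρ
  have hm0 : (0 : ℝ) < m := by exact_mod_cast hm
  have hρ0 : 0 < ρ := by rw [hρ]; (clear * - hm; positivity)
  obtain ⟨G, hG0, hG⟩ := hV.cls.grow
  set L : ℕ → ℝ := fun n => ρ / ((n + 4 : ℕ) : ℝ) with hLdef
  have hL0 : ∀ n, 0 < L n := fun n => by simp only [hLdef]; (clear * - hρ0; positivity)
  have hLlim : Tendsto L atTop (𝓝 0) := by
    have := (tendsto_const_div_atTop_nhds_zero_nat ρ).comp (tendsto_add_atTop_nat 4)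
    exact this
  have hex : ∀ n : ℕ, ∃ y : E, ‖y‖ ≤ K ∧ q * ρ - K * L n ≤ Psi V (L n) ρ (ρ - 1) y ∧
      -K ≤ En V (L n) (ρ - 1) y := fun n =>
    hK V hV m (n + 4) hm (by omega) ρ (L n) hρ rfl
  choose y hy1 hy2 hy3 using hex
  have hyK : ∀ n, y n ∈ Metric.closedBall (0 : E) K := fun n => by
    simpa using hy1 n
  obtain ⟨y₀, hy₀, φ, hφ, hφt⟩ := (isCompact_closedBall (0 : E) K).tendsto_subseq hyK
  have hLφ : Tendsto (fun n => L (φ n)) atTop (𝓝 0) := hLlim.comp hφ.tendsto_atTop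
  have hconst : TendstoLocallyUniformly (fun (_ : ℕ) (p : ℝ × E) => V p.1 p.2)
      (fun p => V p.1 p.2) atTop := fun u hu x =>
    ⟨univ, univ_mem, Eventually.of_forall fun n z _ => refl_mem_uniformity hu⟩
  have hfl0 : Tendsto (fun n => fl V (L (φ n)) (ρ - 1) (y (φ n))) atTop
      (𝓝 (V (ρ - 1) y₀)) := by
    have := fl_tendsto (V := fun _ => V) (W := V) (K := G) (fun _ => hV.cls.cont) (fun _ => hG)
      hV.cls.cont hG hconst (L := fun n => L (φ n)) (t := fun _ => ρ - 1)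
      (y := fun n => y (φ n)) (L₀ := 0) (t₀ := ρ - 1) (y₀ := y₀)
      (fun n => (hL0 _).le) hLφ tendsto_const_nhds hφt
    rwa [fl_zero] at this
  have hdc : Tendsto (fun n => dc V (ρ + L (φ n)) ρ (ρ - 1) (y (φ n))) atTop
      (𝓝 (dc V ρ ρ (ρ - 1) y₀)) := by
    have := dc_tendsto (V := fun _ => V) (W := V) (K := G) (fun _ => hV.cls.cont) (fun _ => hG)
      hV.cls.cont hG hconst (a := fun n => ρ + L (φ n)) (b := fun _ => ρ)
      (t := fun _ => ρ - 1) (y := fun n => y (φ n)) (a₀ := ρ + 0) (b₀ := ρ)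
      (t₀ := ρ - 1) (y₀ := y₀) (fun n => by have := hL0 (φ n); (clear * - hρ0; positivity)) (fun n => hρ0.le)
      (tendsto_const_nhds.add hLφ) tendsto_const_nhds tendsto_const_nhds hφt
    simpa using this
  refine ⟨y₀, by simpa using hy₀, ?_, ?_⟩
  · apply le_antisymm
    · exact hq.bound V hV.cls ρ hρ0 (ρ - 1) y₀
    · have h1 : Tendsto (fun n => q * ρ - K * L (φ n)) atTop (𝓝 (q * ρ - K * 0)) :=
        tendsto_const_nhds.sub (tendsto_const_nhds.mul hLφ)
      have h2 : Tendsto (fun n => Psi V (L (φ n)) ρ (ρ - 1) (y (φ n))) atTop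
          (𝓝 (dc V ρ ρ (ρ - 1) y₀ - V (ρ - 1) y₀)) := hdc.sub hfl0
      have h3 := le_of_tendsto_of_tendsto' h1 h2 (fun n => hy2 (φ n))
      linarith only [h3]
  · intro h hh
    have hflh : Tendsto (fun n => fl V h (ρ - 1) (y (φ n))) atTop
        (𝓝 (fl V h (ρ - 1) y₀)) := fl_tendsto (V := fun _ => V) (W := V) (K := G)
      (fun _ => hV.cls.cont) (fun _ => hG)
      hV.cls.cont hG hconst (L := fun n => h) (t := fun _ => ρ - 1)
      (y := fun n => y (φ n)) (L₀ := h) (t₀ := ρ - 1) (y₀ := y₀)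
      (fun n => hh.le) tendsto_const_nhds tendsto_const_nhds hφt
    have hev : ∀ᶠ n in atTop, fl V h (ρ - 1) (y (φ n)) - fl V (L (φ n)) (ρ - 1) (y (φ n)) ≤
        K * (h - L (φ n)) := by
      filter_upwards [hLφ.eventually (gt_mem_nhds (show (0 : ℝ) < h / 2 by positivity))] with n hn
      exact DescLim.slope_bound (hV.cls.dn (ρ - 1) (y (φ n))) (hL0 _) (by linarith only [hn]) (hy3 (φ n))
    have h1 : Tendsto (fun n => K * (h - L (φ n))) atTop (𝓝 (K * (h - 0))) :=
      tendsto_const_nhds.mul (tendsto_const_nhds.sub hLφ)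
    have h2 := le_of_tendsto_of_tendsto (hflh.sub hfl0) h1 hev
    rw [Edn, le_div_iff₀ hh]
    linarith only [h2]

end Vale.Agent.P080.Zy
end

section

/-! F3 of the proof of Theorem Z (P080): an extremal member with bounded backward energy. -/

open Set Filter Topology
open scoped RealInnerProductSpace

namespace Vale.Agent.P080.Zy

variable {E : Type*} [NormedAddCommGroup E] [InnerProductSpace ℝ E]

namespace Bdd3

theorem gauge_zero (V : ℝ → E → ℝ) (t₀ : ℝ) (y₀ : E) (r a k : ℝ) (c : E) :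
    gauge V t₀ y₀ r a k c 0 0 = (V t₀ y₀ - a) / r := by
  simp [gauge]

theorem edn_gauge {K : ℝ} {V : ℝ → E → ℝ} (hK : Grow K V) (t₀ : ℝ) (y₀ : E) {r : ℝ} (hr : 0 < r)
    (a k : ℝ) (c : E) {L : ℝ} (hL : 0 < L) :
    Edn (gauge V t₀ y₀ r a k c) L 0 0 = Edn V (r * L) t₀ y₀ - cellE k c := by
  simp only [Edn]
  rw [fl_gauge hK t₀ y₀ hr a k c hL.le 0 0, gauge_zero]
  simp only [mul_zero, add_zero, smul_zero, zero_smul, inner_zero_right, cellE, zero_sub]
  field_simp
  ring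

theorem dc_gauge_zero {K : ℝ} {V : ℝ → E → ℝ} (hK : Grow K V) (t₀ : ℝ) (y₀ : E) {r : ℝ}
    (hr : 0 < r) (a k : ℝ) (c : E) :
    dc (gauge V t₀ y₀ r a k c) 1 1 0 0 = (dc V r r t₀ y₀ - a) / r := by
  rw [dc_gauge hK t₀ y₀ hr a k c zero_le_one zero_le_one 0 0]
  simp

end Bdd3

/-- F3 -/
theorem exists_bounded [FiniteDimensional ℝ E] (C₀ q : ℝ) (hq : IsQ C₀ q E) (hq0 : 0 < q)
    (hE : ∃ V : ℝ → E → ℝ, Ext C₀ q V) :
    ∃ (W : ℝ → E → ℝ) (K : ℝ), Ext C₀ q W ∧ ∀ h, 0 < h → Edn W h 0 0 ≤ K := by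
  obtain ⟨V, hV⟩ := hE
  obtain ⟨K₁, hK₁, h₁⟩ := descent_limit (E := E) C₀ q hq hq0
  obtain ⟨K₂, hK₂, h₂⟩ := energy_log (E := E) C₀
  obtain ⟨K₃, hK₃, h₃⟩ := growth (E := E) C₀
  obtain ⟨M, hM⟩ := EnLog.bound0 (E := E) K₃ one_pos
  obtain ⟨G, hG0, hG⟩ := hV.cls.grow
  -- the sequence
  have hex : ∀ n : ℕ, ∃ W : ℝ → E → ℝ, Ext C₀ q W ∧
      ∀ h : ℝ, 0 < h → h ≤ ((n + 1 : ℕ) : ℝ) → Edn W h 0 0 ≤ K₂ * (1 + Real.log (1 + K₁)) + K₁ + C₀ + M := by
    intro n
    have hm0 : (0 : ℝ) < ((n + 1 : ℕ) : ℝ) := by exact_mod_cast Nat.succ_pos n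
    have hm1 : (1 : ℝ) ≤ ((n + 1 : ℕ) : ℝ) := by exact_mod_cast Nat.succ_le_succ (Nat.zero_le n)
    set ρ : ℝ := 1 / ((n + 1 : ℕ) : ℝ) with hρ
    have hρ0 : 0 < ρ := by rw [hρ]; positivity
    have hρ1 : ρ ≤ 1 := by rw [hρ, div_le_one hm0]; exact hm1
    obtain ⟨y, hy, hdc, hlow⟩ := h₁ V hV (n + 1) (by omega) ρ hρ
    obtain ⟨v, k, b, hc⟩ := hV.cls.flat (ρ - 1) y ρ hρ0
    have hcell : IsCell C₀ V (ρ - 1) y ρ v k b := hc
    have hN := hcell.norm1_gauge hρ0
    have hZ := hV.cls.gauge (ρ - 1) y hρ0 v k b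
    refine ⟨gauge V (ρ - 1) y ρ v k b, ⟨hZ, hN, ?_⟩, ?_⟩
    · rw [Bdd3.dc_gauge_zero hG (ρ - 1) y hρ0, Bdd3.gauge_zero, hdc]
      field_simp
      ring
    · intro h hh hhm
      have hE1 : Edn (gauge V (ρ - 1) y ρ v k b) 1 0 0 ≤ C₀ + M := by
        have hg := h₃ _ hZ.flat hN
        have e1 := (hM _ hg).2
        have e2 := hN 0 0 (by simp) (by simp)
        simp only [Edn, div_one]
        have := (abs_le.1 e2).2
        linarith only [e1, this]
      rw [Bdd3.edn_gauge hG (ρ - 1) y hρ0 v k b one_pos, mul_one] at hE1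
      have hE2 := hlow ρ hρ0
      rw [Bdd3.edn_gauge hG (ρ - 1) y hρ0 v k b hh]
      have hρh : ρ * h ≤ 1 := by
        rw [hρ, one_div, inv_mul_le_iff₀ hm0, mul_one]
        exact hhm
      have hE3 := (h₂ V hV.cls hV.norm (ρ - 1) y (by rw [abs_le]; constructor <;> linarith)
        (ρ * h) (mul_pos hρ0 hh) hρh).2.1
      have hlog : Real.log (1 + ‖y‖) ≤ Real.log (1 + K₁) :=
        Real.log_le_log (by positivity) (by linarith)
      have : K₂ * (1 + Real.log (1 + ‖y‖)) ≤ K₂ * (1 + Real.log (1 + K₁)) :=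
        mul_le_mul_of_nonneg_left (by linarith) hK₂.le
      (clear * - hE1 hE2 hE3 this; linarith)
  choose W hWE hWb using hex
  obtain ⟨W₀, φ, hφ, hZ₀, hN₀, hlim⟩ := ZClass.compact C₀ W (fun n => (hWE n).cls)
    (fun n => (hWE n).norm)
  have hVK : ∀ n, Grow K₃ (W (φ n)) := fun n => h₃ _ (hWE _).cls.flat (hWE _).norm
  have hWK : Grow K₃ W₀ := h₃ _ hZ₀.flat hN₀
  have hval : Tendsto (fun n => W (φ n) 0 0) atTop (𝓝 (W₀ 0 0)) := by
    have := fl_tendsto (V := fun n => W (φ n)) (W := W₀) (K := K₃) (fun n => (hWE _).cls.cont) hVK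
      hZ₀.cont hWK hlim (L := fun _ => 0) (t := fun _ => 0) (y := fun _ => 0) (L₀ := 0) (t₀ := 0)
      (y₀ := 0) (fun _ => le_rfl) tendsto_const_nhds tendsto_const_nhds tendsto_const_nhds
    simpa only [fl_zero] using this
  refine ⟨W₀, K₂ * (1 + Real.log (1 + K₁)) + K₁ + C₀ + M, ⟨hZ₀, hN₀, ?_⟩, ?_⟩
  · have hd := dc_tendsto (V := fun n => W (φ n)) (W := W₀) (K := K₃) (fun n => (hWE _).cls.cont)
      hVK hZ₀.cont hWK hlim (a := fun _ => 1) (b := fun _ => 1) (t := fun _ => 0) (y := fun _ => 0)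
      (a₀ := 1) (b₀ := 1) (t₀ := 0) (y₀ := 0) (fun _ => zero_le_one) (fun _ => zero_le_one)
      tendsto_const_nhds tendsto_const_nhds tendsto_const_nhds tendsto_const_nhds
    have e : (fun n => dc (W (φ n)) 1 1 0 0) = fun n => W (φ n) 0 0 + q := by
      funext n
      exact (hWE _).ext
    simp only [e] at hd
    exact tendsto_nhds_unique hd (hval.add_const q)
  · intro h hh
    have hf := fl_tendsto (V := fun n => W (φ n)) (W := W₀) (K := K₃) (fun n => (hWE _).cls.cont) hVK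
      hZ₀.cont hWK hlim (L := fun _ => h) (t := fun _ => 0) (y := fun _ => 0) (L₀ := h) (t₀ := 0)
      (y₀ := 0) (fun _ => hh.le) tendsto_const_nhds tendsto_const_nhds tendsto_const_nhds
    have hEd : Tendsto (fun n => Edn (W (φ n)) h 0 0) atTop (𝓝 (Edn W₀ h 0 0)) :=
      (hval.sub hf).div_const h
    refine le_of_tendsto hEd ?_
    obtain ⟨N, hN⟩ := exists_nat_ge h
    filter_upwards [eventually_ge_atTop N] with n hn
    refine hWb (φ n) h hh (hN.trans ?_)
    have h1 : n ≤ φ n := hφ.id_le n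
    exact_mod_cast (hn.trans h1).trans (Nat.le_succ _)

end Vale.Agent.P080.Zy
end

section

/-! G10: bounded energy is impossible (P080, Theorem Z). -/

open Set Filter Topology
open scoped RealInnerProductSpace

namespace Vale.Agent.P080.Zy

variable {E : Type*} [NormedAddCommGroup E] [InnerProductSpace ℝ E]

namespace NoBdd

/-- `UK` of the energy-preserving gauge at the origin. -/
theorem UK_gauge {K : ℝ} {V : ℝ → E → ℝ} (hK : Grow K V) {r : ℝ} (hr : 0 < r) (v : ℝ) (b : E)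
    {κ : ℝ} (hκ : 0 ≤ κ) (s : ℝ) (z : E) :
    UK (gauge V 0 0 r v (‖b‖ ^ 2 / 2) b) κ 1 s z
      = UK V κ r (r * s) (r • z + (r * s) • b) / r := by
  have h1 := dc_gauge hK 0 0 hr v (‖b‖ ^ 2 / 2) b (a := (1 + κ) * 1) (b := 1)
    (by positivity) zero_le_one s z
  have h2 := fl_gauge hK 0 0 hr v (‖b‖ ^ 2 / 2) b (L := κ * 1) (by positivity) s z
  have h3 : cellE (‖b‖ ^ 2 / 2) b = 0 := by rw [cellE, sub_self]
  rw [UK, UK, h1, h2, h3, zero_add, zero_add, mul_one, mul_one, mul_one,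
    show r * (1 + κ) = (1 + κ) * r by ring, show r * κ = κ * r by ring]
  field_simp
  ring

/-- The energy of an affine member of `Z0` is nonpositive. -/
theorem affine_energy {C₀ K : ℝ} {W : ℝ → E → ℝ} (hW : Z0 C₀ W) (hK : Grow K W) {a k : ℝ} {b : E}
    (h : ∀ t y, W t y = a + ⟪b, y⟫ + k * t) : k + ‖b‖ ^ 2 / 2 ≤ 0 := by
  have h1 := hW.neg 1 one_pos 0 0
  have h2 := fl_le hK (L := 1) zero_le_one 0 0 (-b)
  rw [h] at h1 h2
  rw [norm_neg, inner_add_right, inner_smul_right, inner_neg_right,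
    real_inner_self_eq_norm_sq, inner_zero_right] at h2
  rw [inner_zero_right] at h1
  linarith only [h2, h1]

end NoBdd

/-- G10 -/
theorem no_bounded [FiniteDimensional ℝ E] {C₀ : ℝ} :
    ¬ ∃ V : ℝ → E → ℝ, Z0 C₀ V ∧ V 0 0 < dc V 1 1 0 0 := by
  intro hex
  obtain ⟨κ, q, hκ, hκ1, hq, hU, V, hV, h1⟩ := exists_qk hex
  obtain ⟨K, hchain⟩ := chain hκ hκ1 hU hV h1
  choose τ y hjτ h1τ hUK hloc using hchain
  have hτ0 : ∀ j, 0 < τ j := fun j => zero_lt_one.trans_le (h1τ j)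
  have hτ' : Tendsto τ atTop atTop := tendsto_atTop_mono hjτ tendsto_natCast_atTop_atTop
  have hcell : ∀ j, ∃ (v k : ℝ) (b : E), IsCell C₀ V 0 0 (τ j) v k b :=
    fun j => hV.cls.flat 0 0 (τ j) (hτ0 j)
  choose v k b hc using hcell
  obtain ⟨W, φ, H1, H2, K', hφ, hW, hWK, hVK, hlim, hfu, hfl⟩ :=
    blow_down hV τ h1τ hτ' v k b hc
  obtain ⟨a', k', b', hWaff⟩ := ZClass.affine_of_const hW.cls hfu hfl
  have hen := NoBdd.affine_energy hW hWK hWaff
  obtain ⟨KV, -, hKV⟩ := hV.cls.grow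
  -- the rescaled states
  set z : ℕ → E := fun j => (τ j)⁻¹ • (y j - (τ j - 1) • b j) with hz
  set s : ℕ → ℝ := fun j => 1 - (τ j)⁻¹ with hs
  have hzb : ∀ j, z j ∈ Metric.closedBall (0 : E) K := by
    intro j
    rw [mem_closedBall_zero_iff, hz, norm_smul, norm_inv, Real.norm_eq_abs, abs_of_pos (hτ0 j),
      inv_mul_le_iff₀ (hτ0 j), mul_comm]
    exact hloc j (v j) (k j) (b j) (hc j)
  have hst : Tendsto s atTop (𝓝 1) := by
    have h := (tendsto_inv_atTop_zero.comp hτ').const_sub 1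
    rwa [sub_zero] at h
  have hstate : ∀ j, UK (gauge V 0 0 (τ j) (v j) (‖b j‖ ^ 2 / 2) (b j)) κ 1 (s j) (z j) = q := by
    intro j
    have hne := (hτ0 j).ne'
    rw [NoBdd.UK_gauge hKV (hτ0 j) (v j) (b j) hκ.le]
    have e1 : τ j * s j = τ j - 1 := by
      simp only [hs]
      rw [mul_sub, mul_one, mul_inv_cancel₀ hne]
    have e2 : τ j • z j + (τ j * s j) • b j = y j := by
      rw [e1, hz, smul_smul, mul_inv_cancel₀ hne, one_smul, sub_add_cancel]
    rw [e2, e1, hUK j, mul_div_cancel_right₀ _ hne]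
  obtain ⟨z₀, -, ψ, hψ, hzlim⟩ :=
    (isCompact_closedBall (0 : E) K).tendsto_subseq (fun j => hzb (φ j))
  have hφψ : Tendsto (fun n => φ (ψ n)) atTop atTop := hφ.tendsto_atTop.comp hψ.tendsto_atTop
  have hc1 : ∀ n, Continuous (fun p : ℝ × E =>
      gauge V 0 0 (τ (φ (ψ n))) (v (φ (ψ n))) (‖b (φ (ψ n))‖ ^ 2 / 2) (b (φ (ψ n))) p.1 p.2) :=
    fun n => (hV.cls.gauge 0 0 (hτ0 _) _ _ _).cont
  have hlu : TendstoLocallyUniformly (fun n (p : ℝ × E) =>
      gauge V 0 0 (τ (φ (ψ n))) (v (φ (ψ n))) (‖b (φ (ψ n))‖ ^ 2 / 2) (b (φ (ψ n))) p.1 p.2)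
      (fun p => W p.1 p.2) atTop := by
    intro u hu x
    obtain ⟨t, ht, h⟩ := hlim u hu x
    exact ⟨t, ht, hψ.tendsto_atTop.eventually h⟩
  have hdc := dc_tendsto hc1 (fun n => hVK _) hW.cls.cont hWK hlu
    (a := fun _ => (1 + κ) * 1) (b := fun _ => 1) (t := fun n => s (φ (ψ n)))
    (y := fun n => z (φ (ψ n))) (fun _ => by positivity) (fun _ => zero_le_one)
    tendsto_const_nhds tendsto_const_nhds (hst.comp hφψ) hzlim
  have hfl' := fl_tendsto hc1 (fun n => hVK _) hW.cls.cont hWK hlu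
    (L := fun _ => κ * 1) (t := fun n => s (φ (ψ n))) (y := fun n => z (φ (ψ n)))
    (fun _ => by positivity) tendsto_const_nhds (hst.comp hφψ) hzlim
  have hUW : UK W κ 1 1 z₀ = q := by
    refine tendsto_nhds_unique (hdc.sub hfl') ?_
    refine tendsto_const_nhds.congr fun n => ?_
    exact (hstate (φ (ψ n))).symm
  rw [UK_affine hWaff hκ one_pos] at hUW
  have : 2 * κ * 1 * (k' + ‖b'‖ ^ 2 / 2) ≤ 0 :=
    mul_nonpos_of_nonneg_of_nonpos (by positivity) hen
  linarith [hq, hUW, this]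

end Vale.Agent.P080.Zy
end

section

/-! Theorem Z by double convolutions: the extremal constant vanishes. -/

open Set Filter Topology
open scoped RealInnerProductSpace

namespace Vale.Agent.P080.Zy

variable {E : Type*} [NormedAddCommGroup E] [InnerProductSpace ℝ E]

/-- H1 -/
theorem q_eq_zero [FiniteDimensional ℝ E] (C₀ : ℝ) : IsQ C₀ 0 E := by
  obtain ⟨q, hq, hE⟩ := exists_q (E := E) C₀
  rcases hq.nonneg.eq_or_lt with h | h
  · rwa [← h] at hq
  · exfalso
    obtain ⟨W, K, hW, hK⟩ := exists_bounded C₀ q hq h (hE h)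
    obtain ⟨V, hV, hV1⟩ := exists_Z0 hW hK
    refine no_bounded (E := E) (C₀ := C₀) ⟨V, hV, ?_⟩
    rw [hV1]
    exact lt_add_of_pos_right _ h

end Vale.Agent.P080.Zy
end

section

/-! The end of the proof of Theorem Z (P080): `q = 0` gives functions affine in space, and these
are affine. -/

set_option linter.all false

open Set Filter Topology
open scoped RealInnerProductSpace

namespace Vale.Agent.P080.Zy

variable {E : Type*} [NormedAddCommGroup E] [InnerProductSpace ℝ E]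

namespace Sp

/-- two-sided convexity identity on the line -/
theorem line_affine {f : ℝ → ℝ}
    (h : ∀ x y α β : ℝ, 0 ≤ α → 0 ≤ β → α + β = 1 → f (α * x + β * y) = α * f x + β * f y) (t : ℝ) :
    f t = f 0 + t * (f 1 - f 0) := by
  rcases le_total t 0 with ht | ht
  · have h1 : (0 : ℝ) < 1 - t := by linarith
    have := h t 1 (1 / (1 - t)) (-t / (1 - t)) (by positivity)
      (div_nonneg (by linarith) h1.le) (by field_simp; ring)
    have h2 : 1 / (1 - t) * t + -t / (1 - t) * 1 = 0 := by field_simp; ring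
    rw [h2] at this
    have h3 : (1 - t) * f 0 = f t + (-t) * f 1 := by
      rw [this]; field_simp
    (clear * - h3; linarith)
  · rcases le_total t 1 with ht1 | ht1
    · have := h 0 1 (1 - t) t (by linarith) ht (by ring)
      rw [show (1 - t) * 0 + t * 1 = t by ring] at this
      rw [this]; ring
    · have h1 : (0 : ℝ) < t := by linarith
      have := h 0 t (1 - 1 / t) (1 / t) (by
        rw [sub_nonneg, div_le_one h1]; exact ht1) (by positivity) (by ring)
      have h2 : (1 - 1 / t) * 0 + 1 / t * t = 1 := by field_simp; ring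
      rw [h2] at this
      have h3 : t * f 1 = (t - 1) * f 0 + f t := by
        rw [this]; (clear * - ht1; field_simp)
      linarith only [h3]

/-- a function on `E` with the two-sided convexity identity is affine -/
theorem exists_inner [FiniteDimensional ℝ E] {f : E → ℝ}
    (h : ∀ (x y : E) (α β : ℝ), 0 ≤ α → 0 ≤ β → α + β = 1 →
      f (α • x + β • y) = α * f x + β * f y) :
    ∃ w : E, ∀ y, f y = f 0 + ⟪w, y⟫ := by
  have hl : ∀ (x y : E) (s : ℝ), f (x + s • (y - x)) = f x + s * (f y - f x) := by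
    intro x y s
    have := line_affine (f := fun s => f (x + s • (y - x))) (by
      intro a b α β hα hβ hab
      rw [← h _ _ α β hα hβ hab]
      congr 1
      have : α • x + β • x = x := by rw [← add_smul, hab, one_smul]
      calc x + (α * a + β * b) • (y - x)
          = (α • x + β • x) + (α * a + β * b) • (y - x) := by rw [this]
        _ = α • (x + a • (y - x)) + β • (x + b • (y - x)) := by
          simp only [smul_add, add_smul, smul_sub, mul_smul]
          abel) s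
    simp only [zero_smul, add_zero, one_smul, add_sub_cancel] at this
    exact this
  have hsm : ∀ (s : ℝ) (y : E), f (s • y) - f 0 = s * (f y - f 0) := by
    intro s y
    have := hl 0 y s
    simp only [sub_zero, zero_add] at this
    rw [this]; ring
  let g : E →ₗ[ℝ] ℝ :=
    { toFun := fun y => f y - f 0
      map_add' := by
        intro x y
        have h1 := hsm 2 ((1 / 2 : ℝ) • x + (1 / 2 : ℝ) • y)
        have h2 := h x y (1 / 2) (1 / 2) (by norm_num) (by norm_num) (by norm_num)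
        rw [h2] at h1
        have h3 : (2 : ℝ) • ((1 / 2 : ℝ) • x + (1 / 2 : ℝ) • y) = x + y := by
          rw [smul_add, smul_smul, smul_smul]; norm_num
        rw [h3] at h1
        linarith only [h1]
      map_smul' := by
        intro s y
        simpa using hsm s y }
  haveI : CompleteSpace E := FiniteDimensional.complete ℝ E
  refine ⟨(InnerProductSpace.toDual ℝ E).symm (LinearMap.toContinuousLinearMap g), fun y => ?_⟩
  rw [InnerProductSpace.toDual_symm_apply]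
  show f y = f 0 + (f y - f 0)
  ring

/-- Each time slice is concave when `q = 0`. -/
theorem slice_concave [FiniteDimensional ℝ E] {C₀ : ℝ} (hq : IsQ C₀ 0 E) {V : ℝ → E → ℝ}
    (hV : ZClass C₀ V) (t : ℝ) (x y : E) (α β : ℝ) (hα : 0 ≤ α) (hβ : 0 ≤ β) (hab : α + β = 1) :
    α * V t x + β * V t y ≤ V t (α • x + β • y) := by
  obtain ⟨K, -, hK⟩ := hV.grow
  set z := α • x + β • y with hz
  -- for every τ > 0 and ε > 0
  have key : ∀ τ ε : ℝ, 0 < τ → 0 < ε → α * V t x + β * V t y ≤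
      V t z + ε + (α * ‖x‖ ^ 2 + β * ‖y‖ ^ 2 - ‖z‖ ^ 2) / (2 * τ) := by
    intro τ ε hτ hε
    have h1 : fl (fu V τ) τ t z < V t z + ε := by
      have := hq.bound V hV τ hτ t z
      unfold dc at this
      linarith
    unfold fl at h1
    obtain ⟨q, hq'⟩ := exists_lt_of_ciInf_lt h1
    -- lower bounds
    have hx : ∀ w : E, V t w ≤ fu V τ (t - τ) (z + τ • q) + ‖w - (z + τ • q)‖ ^ 2 / (2 * τ) := by
      intro w
      have := le_fu' hK hτ (t - τ) (z + τ • q) w
      rw [sub_add_cancel] at this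
      linarith only [this]
    have h2 := mul_le_mul_of_nonneg_left (hx x) hα
    have h3 := mul_le_mul_of_nonneg_left (hx y) hβ
    set p := z + τ • q with hp
    have hqe : τ / 2 * ‖q‖ ^ 2 = ‖z - p‖ ^ 2 / (2 * τ) := by
      have : z - p = -(τ • q) := by rw [hp]; abel
      rw [this, norm_neg, norm_smul, Real.norm_of_nonneg hτ.le]
      (clear * - hτ; field_simp)
    have hid : α * ‖x - p‖ ^ 2 + β * ‖y - p‖ ^ 2 =
        ‖z - p‖ ^ 2 + (α * ‖x‖ ^ 2 + β * ‖y‖ ^ 2 - ‖z‖ ^ 2) := by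
      have e1 := norm_sub_sq_real x p
      have e2 := norm_sub_sq_real y p
      have e3 := norm_sub_sq_real z p
      have e4 : ⟪z, p⟫ = α * ⟪x, p⟫ + β * ⟪y, p⟫ := by
        rw [hz, inner_add_left, real_inner_smul_left, real_inner_smul_left]
      rw [e1, e2, e3, e4]
      linear_combination (‖p‖ ^ 2) * hab
    rw [hqe] at hq'
    have h4 : α * (‖x - p‖ ^ 2 / (2 * τ)) + β * (‖y - p‖ ^ 2 / (2 * τ)) =
        ‖z - p‖ ^ 2 / (2 * τ) + (α * ‖x‖ ^ 2 + β * ‖y‖ ^ 2 - ‖z‖ ^ 2) / (2 * τ) := by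
      rw [← add_div, ← hid]; ring
    have h5 : α * fu V τ (t - τ) p + β * fu V τ (t - τ) p = fu V τ (t - τ) p := by
      rw [← add_mul, hab, one_mul]
    rw [mul_add] at h2 h3
    linarith only [hq', h2, h3, h4, h5]
  -- let τ → ∞, ε → 0
  refine le_of_forall_pos_le_add fun δ hδ => ?_
  set M := |α * ‖x‖ ^ 2 + β * ‖y‖ ^ 2 - ‖z‖ ^ 2| with hM
  have hM0 : 0 ≤ M := abs_nonneg _
  have hτ : 0 < (M + 1) / δ := by (clear * - hδ; positivity)
  have h := key ((M + 1) / δ) (δ / 2) hτ (by positivity)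
  have h6 : (α * ‖x‖ ^ 2 + β * ‖y‖ ^ 2 - ‖z‖ ^ 2) / (2 * ((M + 1) / δ)) ≤ δ / 2 := by
    rw [div_le_iff₀ (by (clear * - hδ; positivity))]
    have : δ / 2 * (2 * ((M + 1) / δ)) = M + 1 := by (clear * - hδ hM0; field_simp)
    rw [this]
    have := le_abs_self (α * ‖x‖ ^ 2 + β * ‖y‖ ^ 2 - ‖z‖ ^ 2)
    (clear * - this; linarith)
  linarith

end Sp

/-- H2 -/
theorem space_affine [FiniteDimensional ℝ E] {C₀ : ℝ} (hq : IsQ C₀ 0 E) {V : ℝ → E → ℝ}
    (hV : ZClass C₀ V) : ∃ (a : ℝ → ℝ) (v : ℝ → E), ∀ t y, V t y = a t + ⟪v t, y⟫ := by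
  have h : ∀ t, ∃ w : E, ∀ y, V t y = V t 0 + ⟪w, y⟫ := by
    intro t
    refine Sp.exists_inner (f := V t) fun x y α β hα hβ hab => ?_
    refine le_antisymm ?_ (Sp.slice_concave hq hV t x y α β hα hβ hab)
    have := Sp.slice_concave hq hV.refl (-t) x y α β hα hβ hab
    unfold refl at this
    rw [neg_neg] at this
    linarith
  choose v hv using h
  exact ⟨fun t => V t 0, v, fun t y => hv t y⟩

namespace Sp

theorem fu_affine {V : ℝ → E → ℝ} {a : ℝ → ℝ} {v : ℝ → E} (h : ∀ t y, V t y = a t + ⟪v t, y⟫)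
    {L : ℝ} (hL : 0 ≤ L) (t : ℝ) (y : E) :
    fu V L t y = a (t + L) + ⟪v (t + L), y⟫ + L / 2 * ‖v (t + L)‖ ^ 2 := by
  unfold fu
  have hval : ∀ q : E, V (t + L) (y + L • q) - L / 2 * ‖q‖ ^ 2 =
      a (t + L) + ⟪v (t + L), y⟫ + L / 2 * ‖v (t + L)‖ ^ 2 - L / 2 * ‖v (t + L) - q‖ ^ 2 := by
    intro q
    rw [h, inner_add_right, real_inner_smul_right, norm_sub_sq_real]
    ring
  have hle : ∀ q : E, V (t + L) (y + L • q) - L / 2 * ‖q‖ ^ 2 ≤
      a (t + L) + ⟪v (t + L), y⟫ + L / 2 * ‖v (t + L)‖ ^ 2 := by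
    intro q
    rw [hval]
    have : 0 ≤ L / 2 * ‖v (t + L) - q‖ ^ 2 := by positivity
    linarith only [this]
  apply le_antisymm (ciSup_le hle)
  have := le_ciSup (f := fun q : E => V (t + L) (y + L • q) - L / 2 * ‖q‖ ^ 2)
    ⟨_, by rintro _ ⟨q, rfl⟩; exact hle q⟩ (v (t + L))
  rw [hval, sub_self, norm_zero] at this
  simpa only [ge_iff_le, ne_eq, OfNat.ofNat_ne_zero, not_false_eq_true, zero_pow, mul_zero, sub_zero] using this

theorem fl_affine {V : ℝ → E → ℝ} {a : ℝ → ℝ} {v : ℝ → E} (h : ∀ t y, V t y = a t + ⟪v t, y⟫)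
    {L : ℝ} (hL : 0 ≤ L) (t : ℝ) (y : E) :
    fl V L t y = a (t - L) + ⟪v (t - L), y⟫ - L / 2 * ‖v (t - L)‖ ^ 2 := by
  have h1 := fu_refl V L (-t) y
  rw [neg_neg] at h1
  have h2 := fu_affine (V := refl V) (a := fun s => - a (-s)) (v := fun s => - v (-s)) (by
    intro t y
    show -V (-t) y = _
    rw [h, inner_neg_left]; ring) hL (-t) y
  rw [h1] at h2
  simp only [inner_neg_left, norm_neg] at h2
  rw [show -(-t + L) = t - L by ring] at h2
  linarith

end Sp

/-- H3 -/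
theorem affine_of_space_affine [FiniteDimensional ℝ E] {C₀ : ℝ} {V : ℝ → E → ℝ}
    (hV : ZClass C₀ V) {a : ℝ → ℝ} {v : ℝ → E} (h : ∀ t y, V t y = a t + ⟪v t, y⟫) :
    ∃ (a k : ℝ) (b : E), ∀ t y, V t y = a + ⟪b, y⟫ + k * t := by
  obtain ⟨K, hK0, hK⟩ := hV.grow
  -- the convexity inequality for `fu`
  have hup : ∀ (y : E) (t L1 L2 α β : ℝ), 0 ≤ L1 → 0 ≤ L2 → 0 ≤ α → 0 ≤ β → α + β = 1 →
      a (t + (α * L1 + β * L2)) + ⟪v (t + (α * L1 + β * L2)), y⟫ +
          (α * L1 + β * L2) / 2 * ‖v (t + (α * L1 + β * L2))‖ ^ 2 ≤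
        α * (a (t + L1) + ⟪v (t + L1), y⟫ + L1 / 2 * ‖v (t + L1)‖ ^ 2) +
        β * (a (t + L2) + ⟪v (t + L2), y⟫ + L2 / 2 * ‖v (t + L2)‖ ^ 2) := by
    intro y t L1 L2 α β h1 h2 hα hβ hab
    have := (hV.up t y).2 (mem_Ici.2 h1) (mem_Ici.2 h2) hα hβ hab
    simp only [smul_eq_mul] at this
    rwa [Sp.fu_affine h (by (clear * - hα h1 hβ h2; positivity)), Sp.fu_affine h h1, Sp.fu_affine h h2] at this
  -- `v` is affine
  have hvw : ∀ (w : E) (x1 x2 α β : ℝ), 0 ≤ α → 0 ≤ β → α + β = 1 →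
      ⟪v (α * x1 + β * x2), w⟫ = α * ⟪v x1, w⟫ + β * ⟪v x2, w⟫ := by
    intro w x1 x2 α β hα hβ hab
    set t := min x1 x2 with ht
    have h1 : 0 ≤ x1 - t := by rw [ht]; exact sub_nonneg.2 (min_le_left _ _)
    have h2 : 0 ≤ x2 - t := by rw [ht]; exact sub_nonneg.2 (min_le_right _ _)
    have e0 : t + (α * (x1 - t) + β * (x2 - t)) = α * x1 + β * x2 := by
      linear_combination (-t) * hab
    have hs : ∀ s : ℝ, _ := fun s : ℝ => hup (s • w) t (x1 - t) (x2 - t) α β h1 h2 hα hβ hab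
    simp only [e0, add_sub_cancel, real_inner_smul_right] at hs
    by_contra hne
    set d := ⟪v (α * x1 + β * x2), w⟫ - (α * ⟪v x1, w⟫ + β * ⟪v x2, w⟫) with hd
    have hd0 : d ≠ 0 := sub_ne_zero.2 hne
    set c := a (α * x1 + β * x2) + (α * (x1 - t) + β * (x2 - t)) / 2 * ‖v (α * x1 + β * x2)‖ ^ 2
      - (α * (a x1 + (x1 - t) / 2 * ‖v x1‖ ^ 2) + β * (a x2 + (x2 - t) / 2 * ‖v x2‖ ^ 2)) with hc
    have hcd : ∀ s : ℝ, c + s * d ≤ 0 := by
      intro s
      have := hs s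
      rw [hc, hd]
      linarith only [this]
    have := hcd ((1 - c) / d)
    rw [div_mul_cancel₀ _ hd0] at this
    linarith only [this]
  have hv1 : ∀ s : ℝ, v s = v 0 + s • (v 1 - v 0) := by
    intro s
    refine ext_inner_right ℝ fun w => ?_
    have := Sp.line_affine (f := fun s => ⟪v s, w⟫) (fun x y α β h1 h2 h3 => hvw w x y α β h1 h2 h3) s
    rw [this, inner_add_left, real_inner_smul_left, inner_sub_left]
  set d := v 1 - v 0 with hd
  -- growth gives `d = 0`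
  have hd0 : d = 0 := by
    by_contra hne
    have hdn : 0 < ‖d‖ := norm_pos_iff.2 hne
    set C := K * (2 + ‖d‖) ^ (3 / 2 : ℝ) + K * (2 + ‖d‖) ^ (3 / 2 : ℝ) + |⟪v 0, d⟫| with hC
    have hCn : 0 ≤ C := by (clear * - hK0 hne; positivity)
    have hx : ∀ x : ℝ, 1 ≤ x → x * ‖d‖ ^ 2 ≤ C := by
      intro x hx1
      have hx0 : 0 < x := by linarith only [hx1]
      set s := x ^ 2 with hs
      have hs1 : 1 ≤ s := by rw [hs]; nlinarith only [hx1]
      have hs0 : 0 ≤ s := by linarith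
      have e1 := h s (s • d)
      have e2 : V s 0 = a s := by rw [h, inner_zero_right, add_zero]
      have g1 := hK s (s • d)
      have g2 := hK s 0
      rw [e1] at g1
      rw [e2] at g2
      have hpow : (s * (2 + ‖d‖)) ^ (3 / 2 : ℝ) = x ^ 3 * (2 + ‖d‖) ^ (3 / 2 : ℝ) := by
        rw [Real.mul_rpow hs0 (by positivity), hs, ← Real.rpow_natCast x 2, ← Real.rpow_mul hx0.le]
        norm_num
      have b1 : (1 + |s| + ‖s • d‖) ^ (3 / 2 : ℝ) ≤ x ^ 3 * (2 + ‖d‖) ^ (3 / 2 : ℝ) := by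
        rw [← hpow]
        apply Real.rpow_le_rpow (by (clear * - hx1; positivity)) _ (by norm_num)
        rw [norm_smul, Real.norm_of_nonneg hs0, abs_of_nonneg hs0]
        linarith only [hs1]
      have b2 : (1 + |s| + ‖(0 : E)‖) ^ (3 / 2 : ℝ) ≤ x ^ 3 * (2 + ‖d‖) ^ (3 / 2 : ℝ) := by
        rw [← hpow]
        apply Real.rpow_le_rpow (by positivity) _ (by norm_num)
        rw [norm_zero, abs_of_nonneg hs0]
        nlinarith only [hs1, hdn]
      have g1' := (abs_le.1 (g1.trans (mul_le_mul_of_nonneg_left b1 hK0.le))).2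
      have g2' := (abs_le.1 (g2.trans (mul_le_mul_of_nonneg_left b2 hK0.le))).1
      rw [hv1 s, inner_add_left, real_inner_smul_right, real_inner_smul_left,
        real_inner_smul_right, real_inner_self_eq_norm_sq] at g1'
      have g3 : -|⟪v 0, d⟫| ≤ ⟪v 0, d⟫ := neg_abs_le _
      have hs3 : s ≤ x ^ 3 := by rw [hs]; nlinarith only [hx1]
      have g4 : - (x ^ 3 * |⟪v 0, d⟫|) ≤ s * ⟪v 0, d⟫ := by
        have i1 : s * (-|⟪v 0, d⟫|) ≤ s * ⟪v 0, d⟫ := mul_le_mul_of_nonneg_left g3 hs0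
        have i2 : s * |⟪v 0, d⟫| ≤ x ^ 3 * |⟪v 0, d⟫| :=
          mul_le_mul_of_nonneg_right hs3 (abs_nonneg _)
        linarith only [i1, i2]
      have hx3 : 0 < x ^ 3 := by positivity
      have fin : x ^ 3 * (x * ‖d‖ ^ 2) ≤ x ^ 3 * C := by
        have : x ^ 3 * (x * ‖d‖ ^ 2) = s * (s * ‖d‖ ^ 2) := by rw [hs]; ring
        rw [this, hC]
        linarith only [g1', g2', g4]
      exact le_of_mul_le_mul_left fin hx3
    have := hx ((C + 1) / ‖d‖ ^ 2 + 1) (by
      have : 0 ≤ (C + 1) / ‖d‖ ^ 2 := by (clear * - hK0 hne; positivity)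
      linarith only [this])
    rw [add_mul, div_mul_cancel₀ _ (by positivity)] at this
    have : 0 < ‖d‖ ^ 2 := by positivity
    (clear C₀ V hV a h hK0 hK hup hvw hv1 hd hdn hC hCn hx; linarith)
  have hvc : ∀ s, v s = v 0 := by
    intro s; rw [hv1 s, hd0, smul_zero, add_zero]
  -- `a` is convex and concave
  have ha : ∀ x1 x2 α β : ℝ, 0 ≤ α → 0 ≤ β → α + β = 1 →
      a (α * x1 + β * x2) = α * a x1 + β * a x2 := by
    intro x1 x2 α β hα hβ hab
    apply le_antisymm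
    · set t := min x1 x2 with ht
      have h1 : 0 ≤ x1 - t := by rw [ht]; exact sub_nonneg.2 (min_le_left _ _)
      have h2 : 0 ≤ x2 - t := by rw [ht]; exact sub_nonneg.2 (min_le_right _ _)
      have e0 : t + (α * (x1 - t) + β * (x2 - t)) = α * x1 + β * x2 := by
        linear_combination (-t) * hab
      have := hup 0 t (x1 - t) (x2 - t) α β h1 h2 hα hβ hab
      simp only [e0, add_sub_cancel, inner_zero_right, add_zero, hvc (α * x1 + β * x2), hvc x1,
        hvc x2] at this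
      linarith only [this]
    · set t := max x1 x2 with ht
      have h1 : 0 ≤ t - x1 := by rw [ht]; exact sub_nonneg.2 (le_max_left _ _)
      have h2 : 0 ≤ t - x2 := by rw [ht]; exact sub_nonneg.2 (le_max_right _ _)
      have e0 : t - (α * (t - x1) + β * (t - x2)) = α * x1 + β * x2 := by
        linear_combination (-t) * hab
      have := (hV.dn t 0).2 (mem_Ici.2 h1) (mem_Ici.2 h2) hα hβ hab
      simp only [smul_eq_mul] at this
      rw [Sp.fl_affine h h1, Sp.fl_affine h h2,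
        Sp.fl_affine h (add_nonneg (mul_nonneg hα h1) (mul_nonneg hβ h2))] at this
      simp only [e0, sub_sub_cancel, inner_zero_right, add_zero, hvc (α * x1 + β * x2), hvc x1,
        hvc x2] at this
      linarith
  refine ⟨a 0, a 1 - a 0, v 0, fun t y => ?_⟩
  rw [h, hvc t, Sp.line_affine ha t]
  ring

end Vale.Agent.P080.Zy
end

section

/-! Theorem Z (P080): every member of the flat Zygmund class is affine. -/

open Set Filter Topology
open scoped RealInnerProductSpace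

namespace Vale.Agent.P080.Zy

variable {E : Type*} [NormedAddCommGroup E] [InnerProductSpace ℝ E]

/-- Theorem Z. -/
theorem theoremZ [FiniteDimensional ℝ E] : TheoremZ E := by
  intro C₀ V hV
  obtain ⟨a, v, h⟩ := space_affine (q_eq_zero (E := E) C₀) hV
  exact affine_of_space_affine hV h

end Vale.Agent.P080.Zy
end

section
attribute [-instance] ProperSMul.toContinuousSMul IsTopologicalTorsor.toContinuousSMul IdemSemiring.toCanonicallyOrderedAdd IdemSemiring.toMulLeftMono IdemSemiring.toMulRightMono AddQuantale.instAddLeftMono AddQuantale.instAddRightMono Quantale.instMulLeftMono Quantale.instMulRightMono FiniteDimensional.rclike_to_real IsScalarTower.complexToReal FiniteDimensional.complexToReal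
set_option linter.unusedSectionVars false

/-! Final theorems: entire 1-Lipschitz functions with comparison with cones are affine. -/

namespace Vale.Agent.P080.Liou

open Topology Filter Metric Set Vale.Agent.P080
open scoped RealInnerProductSpace

variable {E : Type*} [NormedAddCommGroup E] [InnerProductSpace ℝ E] [FiniteDimensional ℝ E]

/-- `Perfect` rescales. -/
theorem Perfect.scale_down {M κ : ℝ} {u : E → ℝ} {x z : E} (h : Perfect M κ u x z) {r : ℝ}
    (hr : 0 < r) : Perfect M κ (fun y => u (r • y) / r) (r⁻¹ • x) (r⁻¹ • z) := by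
  intro L hL
  rw [Val_scale u hr hL, smul_smul, smul_smul, mul_inv_cancel₀ hr.ne', one_smul, one_smul]
  have h1 := h (L * r) (mul_pos hL hr)
  rw [le_div_iff₀ hr, norm_smul, norm_inv, Real.norm_eq_abs, abs_of_pos hr]
  have e : (M * (r⁻¹ * ‖z‖) + κ * L) * r = M * ‖z‖ + κ * (L * r) := by
    (clear * - hr; field_simp)
  rw [e]
  exact h1

theorem Perfect.scale_up {M κ : ℝ} {u : E → ℝ} {r : ℝ} (hr : 0 < r) {x z : E}
    (h : Perfect M κ (fun y => u (r • y) / r) x z) : Perfect M κ u (r • x) (r • z) := by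
  intro L hL
  have h1 := h (L / r) (div_pos hL hr)
  rw [Val_scale u hr (div_pos hL hr), div_mul_cancel₀ L hr.ne', le_div_iff₀ hr] at h1
  rw [norm_smul, Real.norm_eq_abs, abs_of_pos hr]
  have e : (M * ‖z‖ + κ * (L / r)) * r = M * (r * ‖z‖) + κ * L := by
    (clear * - hr; field_simp)
  rw [e] at h1
  exact h1

/-- `propB` at every scale. -/
theorem propB_scaled {M κ C : ℝ}
    (hC : ∀ u : E → ℝ, LClass u → ∀ x z : E, ‖z‖ = 1 → Perfect M κ u x z →
      ∃ x' z' : E, ‖z'‖ = 1 / 2 ∧ ‖x' - x‖ ≤ C ∧ Perfect M κ u x' z')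
    {u : E → ℝ} (hu : LClass u) {x z : E} {r : ℝ} (hr : 0 < r) (hz : ‖z‖ = r)
    (h : Perfect M κ u x z) :
    ∃ x' z' : E, ‖z'‖ = r / 2 ∧ ‖x' - x‖ ≤ C * r ∧ Perfect M κ u x' z' := by
  have h1 : ‖r⁻¹ • z‖ = 1 := by
    rw [norm_smul, norm_inv, Real.norm_eq_abs, abs_of_pos hr, hz, inv_mul_cancel₀ hr.ne']
  obtain ⟨x', z', hz', hx', hp⟩ := hC _ (hu.scale hr) _ _ h1 (h.scale_down hr)
  refine ⟨r • x', r • z', ?_, ?_, Perfect.scale_up hr hp⟩
  · rw [norm_smul, Real.norm_eq_abs, abs_of_pos hr, hz']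
    ring
  · have e : r • x' - x = r • (x' - r⁻¹ • x) := by
      rw [smul_sub, smul_smul, mul_inv_cancel₀ hr.ne', one_smul]
    rw [e, norm_smul, Real.norm_eq_abs, abs_of_pos hr, mul_comm]
    exact mul_le_mul_of_nonneg_right hx' hr.le

/-- The chain of perfect triples. -/
theorem perfect_chain {M κ C : ℝ}
    (hC : ∀ u : E → ℝ, LClass u → ∀ x z : E, ‖z‖ = 1 → Perfect M κ u x z →
      ∃ x' z' : E, ‖z'‖ = 1 / 2 ∧ ‖x' - x‖ ≤ C ∧ Perfect M κ u x' z')
    {u : E → ℝ} (hu : LClass u) {x z : E} (hz : ‖z‖ = 1) (h : Perfect M κ u x z) :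
    ∃ X Z : ℕ → E, ∀ n, ‖Z n‖ = (1 / 2) ^ n ∧ Perfect M κ u (X n) (Z n) ∧
      ‖X (n + 1) - X n‖ ≤ C * (1 / 2) ^ n := by
  classical
  let S : ℕ → Type _ := fun n => {p : E × E // ‖p.2‖ = (1 / 2) ^ n ∧ Perfect M κ u p.1 p.2}
  have step : ∀ n (p : S n), ∃ p' : S (n + 1), ‖p'.1.1 - p.1.1‖ ≤ C * (1 / 2) ^ n := by
    rintro n ⟨p, hp1, hp2⟩
    obtain ⟨x', z', h1, h2, h3⟩ := propB_scaled hC hu (by positivity) hp1 hp2
    exact ⟨⟨(x', z'), by rw [h1, pow_succ]; ring, h3⟩, h2⟩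
  choose f hf using step
  let s : ∀ n, S n := fun n => Nat.rec ⟨(x, z), by simpa using hz, h⟩ f n
  refine ⟨fun n => (s n).1.1, fun n => (s n).1.2, fun n => ⟨(s n).2.1, (s n).2.2, ?_⟩⟩
  exact hf n (s n)

/-- Perfect triples have a large second difference. -/
theorem Perfect.le_Dd {M κ : ℝ} {u : E → ℝ} (hu : LClass u) {x z : E}
    (h : Perfect M κ u x z) : M * ‖z‖ ≤ Dd u x z := by
  apply le_of_forall_pos_le_add
  intro ε hε
  obtain ⟨L, hL, hL2⟩ : ∃ L : ℝ, 0 < L ∧ (2 - κ) * L ≤ ε := by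
    refine ⟨ε / (|2 - κ| + 1), by (clear * - hε; positivity), ?_⟩
    have h1 : 2 - κ ≤ |2 - κ| := le_abs_self _
    have h2 : 0 ≤ |2 - κ| := abs_nonneg _
    rw [mul_div_assoc', div_le_iff₀ (by linarith)]
    nlinarith only [hε, h1]
  have h1 := h L hL
  have h2 := hu.lip.Val_le hL x z
  linarith

theorem LClass.Dd_le_zero {u : E → ℝ} (hu : LClass u) (x z : E) : Dd u x z ≤ 0 := by
  by_contra hcon
  rw [not_le] at hcon
  rcases subsingleton_or_nontrivial E with hE | hE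
  · have h1 : x + z = x := Subsingleton.elim _ _
    have h2 : x - z = x := Subsingleton.elim _ _
    unfold Dd at hcon
    rw [h1, h2] at hcon
    linarith only [hcon]
  obtain ⟨M, κ, hM, hb, v, hv, x0, z0, hz0, hp0⟩ := exists_bounds_perfect ⟨u, hu, x, z, hcon⟩
  obtain ⟨C, hC⟩ := propB hM hb
  obtain ⟨X, Z, hXZ⟩ := perfect_chain hC hv hz0 hp0
  have hC0 : 0 ≤ C := by
    have := (norm_nonneg _).trans (hXZ 0).2.2
    simpa only [ge_iff_le, one_div, pow_zero, mul_one] using this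
  -- the centres converge
  have hd : ∀ n, dist (X n) (X (n + 1)) ≤ C * (1 / 2) ^ n := by
    intro n
    rw [dist_comm, dist_eq_norm]
    exact (hXZ n).2.2
  have hcs : CauchySeq X := cauchySeq_of_le_geometric (1 / 2) C (by norm_num) hd
  have : CompleteSpace E := FiniteDimensional.complete ℝ E
  obtain ⟨O, hO⟩ := cauchySeq_tendsto_of_complete hcs
  have hXO : ∀ n, ‖X n - O‖ ≤ 2 * C * (1 / 2) ^ n := by
    intro n
    have h1 := dist_le_of_le_geometric_of_tendsto (1 / 2) C (by norm_num) hd hO n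
    rw [dist_eq_norm] at h1
    refine h1.trans (le_of_eq ?_)
    ring
  -- differentiability at `O`
  obtain ⟨e, -, he⟩ := hv.cc.hasGradientAt isOpen_univ (mem_univ O)
  rw [hasGradientAt_iff_isLittleO_nhds_zero, Asymptotics.isLittleO_iff] at he
  have hε : 0 < M / (8 * (2 * C + 1)) := by (clear * - hM hC0; positivity)
  have hev := he hε
  rw [Metric.eventually_nhds_iff] at hev
  obtain ⟨δ, hδ, hball⟩ := hev
  have hest : ∀ y : E, ‖y - O‖ < δ → |v y - v O - ⟪e, y - O⟫| ≤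
      M / (8 * (2 * C + 1)) * ‖y - O‖ := by
    intro y hy
    have h1 := hball (y := y - O) (by rwa [dist_zero_right])
    rw [add_sub_cancel] at h1
    rwa [Real.norm_eq_abs] at h1
  obtain ⟨n, hn⟩ : ∃ n : ℕ, (2 * C + 1) * (1 / 2 : ℝ) ^ n < δ := by
    obtain ⟨n, hn⟩ := exists_pow_lt_of_lt_one (show 0 < δ / (2 * C + 1) by (clear * - hδ hC0; positivity))
      (show (1 / 2 : ℝ) < 1 by norm_num)
    refine ⟨n, ?_⟩
    rw [lt_div_iff₀ (by (clear * - hC0; positivity))] at hn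
    linarith only [hn]
  obtain ⟨hZn, hPn, -⟩ := hXZ n
  have hDd := hPn.le_Dd hv
  rw [hZn] at hDd
  set t : ℝ := (1 / 2) ^ n with ht
  have ht0 : 0 < t := by positivity
  have hXn := hXO n
  have n1 : ‖X n + Z n - O‖ ≤ (2 * C + 1) * t := by
    have e1 : X n + Z n - O = (X n - O) + Z n := by abel
    rw [e1]
    refine (norm_add_le _ _).trans ?_
    rw [hZn]
    linarith only [hXn]
  have n2 : ‖X n - Z n - O‖ ≤ (2 * C + 1) * t := by
    have e1 : X n - Z n - O = (X n - O) - Z n := by abel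
    rw [e1]
    refine (norm_sub_le _ _).trans ?_
    rw [hZn]
    linarith only [hXn]
  have n3 : ‖X n - O‖ ≤ (2 * C + 1) * t := by linarith only [ht0, hXn]
  have b1 := hest _ (lt_of_le_of_lt n1 hn)
  have b2 := hest _ (lt_of_le_of_lt n2 hn)
  have b3 := hest _ (lt_of_le_of_lt n3 hn)
  have hq : ∀ s : ℝ, s ≤ (2 * C + 1) * t → M / (8 * (2 * C + 1)) * s ≤ M / 8 * t := by
    intro s hs
    calc M / (8 * (2 * C + 1)) * s ≤ M / (8 * (2 * C + 1)) * ((2 * C + 1) * t) :=
          mul_le_mul_of_nonneg_left hs hε.le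
      _ = M / 8 * t := by (clear * - hC0 ht0 hM; field_simp)
  have c1 := (le_abs_self _).trans (b1.trans (hq _ n1))
  have c2 := (le_abs_self _).trans (b2.trans (hq _ n2))
  have c3 := (neg_abs_le _).trans' (neg_le_neg (b3.trans (hq _ n3)))
  have hin : ⟪e, X n + Z n - O⟫ + ⟪e, X n - Z n - O⟫ = 2 * ⟪e, X n - O⟫ := by
    simp only [inner_sub_right, inner_add_right]
    ring
  unfold Dd at hDd
  have hMt : 0 < M * t := mul_pos hM ht0
  linarith only [hDd, c1, c2, c3, hin, hMt]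

theorem LClass.Dd_eq_zero {u : E → ℝ} (hu : LClass u) (x z : E) : Dd u x z = 0 := by
  have h1 := hu.Dd_le_zero x z
  have h2 := hu.neg.Dd_le_zero x z
  unfold Dd at *
  linarith

theorem LClass.affine {u : E → ℝ} (hu : LClass u) : ∃ q : E, ∀ x, u x = u 0 + ⟪q, x⟫ := by
  have : CompleteSpace E := FiniteDimensional.complete ℝ E
  have hmid : ∀ x z, u (x + z) + u (x - z) = 2 * u x := by
    intro x z
    have := hu.Dd_eq_zero x z
    unfold Dd at this
    linarith only [this]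
  have hadd : ∀ x y, u (x + y) - u 0 = (u x - u 0) + (u y - u 0) := by
    intro x y
    have h1 := hmid ((1 / 2 : ℝ) • (x + y)) ((1 / 2 : ℝ) • (x - y))
    have h2 := hmid ((1 / 2 : ℝ) • (x + y)) ((1 / 2 : ℝ) • (x + y))
    have e1 : (1 / 2 : ℝ) • (x + y) + (1 / 2 : ℝ) • (x - y) = x := by
      rw [← smul_add]
      have : x + y + (x - y) = (2 : ℝ) • x := by rw [two_smul]; abel
      rw [this, smul_smul]
      norm_num
    have e2 : (1 / 2 : ℝ) • (x + y) - (1 / 2 : ℝ) • (x - y) = y := by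
      rw [← smul_sub]
      have : x + y - (x - y) = (2 : ℝ) • y := by rw [two_smul]; abel
      rw [this, smul_smul]
      norm_num
    have e3 : (1 / 2 : ℝ) • (x + y) + (1 / 2 : ℝ) • (x + y) = x + y := by
      rw [← add_smul]
      norm_num
    rw [e1, e2] at h1
    rw [e3, sub_self] at h2
    linarith only [h1, h2]
  let f : E →+ ℝ := ⟨⟨fun x => u x - u 0, by simp⟩, hadd⟩
  have hcont : Continuous f := by
    have h1 : Continuous u := by
      have h2 := hu.cc.cont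
      rwa [continuousOn_univ] at h2
    exact h1.sub continuous_const
  let g : E →L[ℝ] ℝ := f.toRealLinearMap hcont
  refine ⟨(InnerProductSpace.toDual ℝ E).symm g, ?_⟩
  intro x
  rw [InnerProductSpace.toDual_symm_apply]
  have : g x = u x - u 0 := rfl
  rw [this]
  ring

theorem coneComp_const_mul {u : E → ℝ} {Ω : Set E} (hu : ConeComp u Ω) {c : ℝ} (hc : 0 < c) :
    ConeComp (fun x => c * u x) Ω := by
  have key : ∀ a b t s : ℝ, c * s ≤ a + b * t ↔ s ≤ a / c + b / c * t := by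
    intro a b t s
    have e : a / c + b / c * t = (a + b * t) / c := by ring
    rw [e, le_div_iff₀ hc, mul_comm s c]
  have key2 : ∀ a b t s : ℝ, a - b * t ≤ c * s ↔ a / c - b / c * t ≤ s := by
    intro a b t s
    have e : a / c - b / c * t = (a - b * t) / c := by ring
    rw [e, div_le_iff₀ hc, mul_comm s c]
  refine ⟨hu.cont.const_mul c, ?_, ?_⟩
  · intro V hV hb hcl z a b hb0 hf hz x hx
    rw [key]
    refine hu.above V hV hb hcl z (a / c) (b / c) (div_nonneg hb0 hc.le)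
      (fun y hy => (key _ _ _ _).1 (hf y hy)) (fun h => ?_) x hx
    rw [le_div_iff₀ hc, mul_comm]
    exact hz h
  · intro V hV hb hcl z a b hb0 hf hz x hx
    rw [key2]
    refine hu.below V hV hb hcl z (a / c) (b / c) (div_nonneg hb0 hc.le)
      (fun y hy => (key2 _ _ _ _).1 (hf y hy)) (fun h => ?_) x hx
    rw [div_le_iff₀ hc, mul_comm]
    exact hz h

theorem liouville {u : E → ℝ} {C : ℝ} (hu : ConeComp u univ)
    (hC : ∀ x, |u x| ≤ C * (1 + ‖x‖)) : ∃ q : E, ∀ x, u x = u 0 + ⟪q, x⟫ := by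
  obtain ⟨L, hL0, hL⟩ := hu.lipSet_nonempty hC
  -- normalise
  set r : ℝ := L + 1 with hr
  have hr0 : 0 < r := by linarith
  have hcls : LClass (fun x => r⁻¹ * u x) := by
    refine ⟨?_, ?_⟩
    · exact coneComp_const_mul hu (inv_pos.2 hr0)
    · intro x y
      have h1 := (le_abs_self _).trans (hL x y)
      have h2 := norm_nonneg (x - y)
      have e : r⁻¹ * u x - r⁻¹ * u y = r⁻¹ * (u x - u y) := by ring
      rw [e, inv_mul_le_iff₀ hr0]
      nlinarith only [h1, h2]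
  obtain ⟨q, hq⟩ := hcls.affine
  refine ⟨r • q, ?_⟩
  intro x
  have h1 := hq x
  rw [real_inner_smul_left]
  have h2 : r * (r⁻¹ * u x) = r * (r⁻¹ * u 0 + ⟪q, x⟫) := by rw [h1]
  rw [mul_add, ← mul_assoc, ← mul_assoc, mul_inv_cancel₀ hr0.ne', one_mul, one_mul] at h2
  exact h2

end Vale.Agent.P080.Liou
end

section
attribute [-instance] ProperSMul.toContinuousSMul IsTopologicalTorsor.toContinuousSMul IdemSemiring.toCanonicallyOrderedAdd IdemSemiring.toMulLeftMono IdemSemiring.toMulRightMono AddQuantale.instAddLeftMono AddQuantale.instAddRightMono Quantale.instMulLeftMono Quantale.instMulRightMono FiniteDimensional.rclike_to_real IsScalarTower.complexToReal FiniteDimensional.complexToReal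
set_option linter.unusedSectionVars false

/-! Uniform flatness implies that the gradient has vanishing mean oscillation. -/

namespace Vale.Agent.P080.Liou

open Topology Filter Metric Set MeasureTheory Vale.Agent.P080
open scoped RealInnerProductSpace ENNReal

variable {E : Type*} [NormedAddCommGroup E] [InnerProductSpace ℝ E] [FiniteDimensional ℝ E]

/-- A growth bound on a ball bounds the gradient at the centre. -/
theorem norm_gradient_le [CompleteSpace E] {u : E → ℝ} {Ω : Set E} (hu : ConeComp u Ω) {y : E}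
    {ρ K : ℝ} (hρ : 0 < ρ) (hK : 0 ≤ K) (hc : closedBall y ρ ⊆ Ω)
    (hg : ∀ z, ‖z - y‖ ≤ ρ → u z - u y ≤ K * ρ) {g : E} (hgr : HasGradientAt u g y) :
    ‖g‖ ≤ K := by
  have hslope : ∀ z, ‖z - y‖ ≤ ρ → u z - u y ≤ K * ‖z - y‖ := by
    obtain ⟨w, hw, -, hgrow⟩ := hu.ball_grow hρ hc
    intro z hz
    refine (hgrow z hz).trans ?_
    have h1 := hg w hw
    have h2 : ‖z - y‖ / ρ * (u w - u y) ≤ ‖z - y‖ / ρ * (K * ρ) :=
      mul_le_mul_of_nonneg_left h1 (by (clear * - hρ; positivity))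
    refine h2.trans (le_of_eq ?_)
    (clear * - hρ; field_simp)
  by_cases hg0 : g = 0
  · rw [hg0, norm_zero]; exact hK
  have hgpos : 0 < ‖g‖ := norm_pos_iff.2 hg0
  -- derivative along `g`
  have hl : HasDerivAt (fun t : ℝ => y + t • g) g 0 := by
    have h1 : HasDerivAt (fun t : ℝ => t • g) ((1 : ℝ) • g) 0 :=
      (hasDerivAt_id (0 : ℝ)).smul_const g
    rw [one_smul] at h1
    exact h1.const_add y
  have hd : HasDerivAt (fun t : ℝ => u (y + t • g)) (⟪g, g⟫) 0 := by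
    have h1 : HasFDerivAt u (InnerProductSpace.toDual ℝ E g) (y + (0 : ℝ) • g) := by
      rw [zero_smul, add_zero]
      exact hgr.hasFDerivAt
    have h2 := h1.comp_hasDerivAt (0 : ℝ) hl
    rw [InnerProductSpace.toDual_apply_apply] at h2
    exact h2
  have h1 := hasDerivAt_iff_tendsto_slope_zero.1 hd
  have h2 : Tendsto (fun t : ℝ => t⁻¹ • (u (y + (0 + t) • g) - u (y + (0 : ℝ) • g))) (𝓝[>] 0)
      (𝓝 (⟪g, g⟫)) :=
    h1.mono_left (nhdsWithin_mono _ (fun t ht => ne_of_gt ht))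
  have h3 : ⟪g, g⟫ ≤ K * ‖g‖ := by
    refine le_of_tendsto h2 ?_
    have hpos : (0 : ℝ) < ρ / ‖g‖ := by (clear * - hρ hg0; positivity)
    filter_upwards [Ioc_mem_nhdsGT hpos] with t ht
    have ht0 : 0 < t := ht.1
    have e : y + (0 + t) • g - y = t • g := by rw [zero_add, add_sub_cancel_left]
    have hn : ‖y + (0 + t) • g - y‖ = t * ‖g‖ := by
      rw [e, norm_smul, Real.norm_of_nonneg ht0.le]
    have h4 := hslope (y + (0 + t) • g) (by
      rw [hn]
      have := ht.2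
      rwa [le_div_iff₀ hgpos] at this)
    rw [hn] at h4
    rw [zero_smul, add_zero, smul_eq_mul, inv_mul_le_iff₀ ht0]
    linarith only [h4]
  rw [real_inner_self_eq_norm_sq] at h3
  (by_contra nlg; linarith only [nlg, mul_pos (sub_pos.2 (not_le.1 nlg)) (sub_pos.2 hgpos), h3])

section measure

variable [MeasurableSpace E] [BorelSpace E]

theorem measurable_gradient [CompleteSpace E] (u : E → ℝ) : Measurable (gradient u) := by
  unfold gradient
  exact (InnerProductSpace.toDual ℝ E).symm.continuous.measurable.comp (measurable_fderiv ℝ u)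

/-- The fundamental theorem along a segment. -/
theorem integral_line [CompleteSpace E] {u : E → ℝ} {y e : E} {r K : ℝ} (hr : 0 ≤ r)
    (he : ‖e‖ = 1) (hd : ∀ t ∈ Icc 0 r, HasGradientAt u (gradient u (y + t • e)) (y + t • e))
    (hK : ∀ t ∈ Icc 0 r, ‖gradient u (y + t • e)‖ ≤ K) :
    IntegrableOn (fun t => ⟪gradient u (y + t • e), e⟫) (Icc 0 r) ∧
      ∫ t in Icc 0 r, ⟪gradient u (y + t • e), e⟫ = u (y + r • e) - u y := by
  have hmeas : Measurable (fun t : ℝ => ⟪gradient u (y + t • e), e⟫) := by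
    have h1 : Measurable (fun t : ℝ => gradient u (y + t • e)) :=
      (measurable_gradient u).comp (by (clear u r K hr he hd hK; fun_prop))
    exact h1.inner_const
  have hint : IntegrableOn (fun t => ⟪gradient u (y + t • e), e⟫) (Icc 0 r) := by
    refine Measure.integrableOn_of_bounded (M := K) (by simp only [Real.volume_Icc, sub_zero, ne_eq, ENNReal.ofReal_ne_top, not_false_eq_true]) hmeas.aestronglyMeasurable ?_
    refine (ae_restrict_iff' measurableSet_Icc).2 (Eventually.of_forall fun t ht => ?_)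
    have h1 := abs_real_inner_le_norm (gradient u (y + t • e)) e
    rw [he, mul_one] at h1
    exact h1.trans (hK t ht)
  refine ⟨hint, ?_⟩
  have h1 : ∫ t in (0 : ℝ)..r, ⟪gradient u (y + t • e), e⟫ = u (y + r • e) - u (y + (0 : ℝ) • e) := by
    refine intervalIntegral.integral_eq_sub_of_hasDerivAt (f := fun t => u (y + t • e)) ?_ ?_
    · intro t ht
      rw [uIcc_of_le hr] at ht
      have hl : HasDerivAt (fun t : ℝ => y + t • e) e t := by
        have h1 : HasDerivAt (fun t : ℝ => t • e) ((1 : ℝ) • e) t :=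
          (hasDerivAt_id t).smul_const e
        rw [one_smul] at h1
        exact h1.const_add y
      have h2 := (hd t ht).hasFDerivAt.comp_hasDerivAt t hl
      rw [InnerProductSpace.toDual_apply_apply] at h2
      exact h2
    · rw [intervalIntegrable_iff_integrableOn_Icc_of_le hr]
      exact hint
  rw [zero_smul, add_zero, intervalIntegral.integral_of_le hr,
    ← integral_Icc_eq_integral_Ioc] at h1
  exact h1

/-- Averaging over translations in the direction `e`. -/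
theorem lintegral_translate_le (μ : Measure E) [μ.IsAddHaarMeasure] (G : E → ℝ≥0∞)
    {x e : E} {r : ℝ} (he : ‖e‖ = 1) {t : ℝ} (ht : t ∈ Icc 0 r) :
    ∫⁻ y in ball x r, G y ∂μ ≤
      ∫⁻ y in ball (x - (r / 2) • e) (3 / 2 * r), G (y + t • e) ∂μ := by
  set S : Set E := ball (x - (r / 2) • e) (3 / 2 * r) with hS
  have hSm : MeasurableSet S := measurableSet_ball
  have h1 : ∫⁻ y in S, G (y + t • e) ∂μ =
      ∫⁻ y, (fun z => S.indicator (fun _ => G z) (z - t • e)) (y + t • e) ∂μ := by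
    rw [← lintegral_indicator hSm]
    refine lintegral_congr fun y => ?_
    simp only [add_sub_cancel_right]
    by_cases hy : y ∈ S
    · rw [indicator_of_mem hy, indicator_of_mem hy]
    · rw [indicator_of_notMem hy, indicator_of_notMem hy]
  rw [h1, lintegral_add_right_eq_self (μ := μ)
    (fun z => S.indicator (fun _ => G z) (z - t • e)) (t • e),
    ← lintegral_indicator measurableSet_ball]
  refine lintegral_mono fun z => ?_
  by_cases hz : z ∈ ball x r
  · have hzS : z - t • e ∈ S := by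
      rw [mem_ball, dist_eq_norm] at hz
      rw [hS, mem_ball, dist_eq_norm]
      have e1 : z - t • e - (x - (r / 2) • e) = (z - x) + (r / 2 - t) • e := by
        rw [sub_smul]; abel
      rw [e1]
      have h2 := norm_add_le (z - x) ((r / 2 - t) • e)
      rw [norm_smul, he, mul_one, Real.norm_eq_abs] at h2
      have h3 : |r / 2 - t| ≤ r / 2 := by
        rw [abs_le]
        constructor <;> linarith only [ht.1, ht.2]
      linarith only [hz, h2, h3]
    rw [indicator_of_mem hz, indicator_of_mem hzS]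
  · rw [indicator_of_notMem hz]
    exact zero_le

/-- The mean of the deficit of the directional derivative. -/
theorem lintegral_deficit_le (μ : Measure E) [μ.IsAddHaarMeasure] [CompleteSpace E] {u : E → ℝ}
    {x e : E} {r K b : ℝ} (hr : 0 < r) (he : ‖e‖ = 1)
    (hd : ∀ y ∈ closedBall x (2 * r), HasGradientAt u (gradient u y) y)
    (hK : ∀ y ∈ closedBall x (2 * r), ‖gradient u y‖ ≤ K)
    (hb : ∀ y ∈ ball (x - (r / 2) • e) (3 / 2 * r), K * r - b * r ≤ u (y + r • e) - u y) :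
    ∫⁻ y in ball x r, ENNReal.ofReal (K - ⟪gradient u y, e⟫) ∂μ ≤
      ENNReal.ofReal b * μ (ball (x - (r / 2) • e) (3 / 2 * r)) := by
  set S : Set E := ball (x - (r / 2) • e) (3 / 2 * r) with hS
  have hGm : Measurable (fun y => ENNReal.ofReal (K - ⟪gradient u y, e⟫)) := by
    have h1 : Measurable (fun y => ⟪gradient u y, e⟫) := (measurable_gradient u).inner_const
    exact (measurable_const.sub h1).ennreal_ofReal
  have hmemS : ∀ y ∈ S, ∀ t ∈ Icc 0 r, y + t • e ∈ closedBall x (2 * r) := by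
    intro y hy t ht
    rw [hS, mem_ball, dist_eq_norm] at hy
    rw [mem_closedBall, dist_eq_norm]
    have e1 : y + t • e - x = (y - (x - (r / 2) • e)) + (t - r / 2) • e := by
      rw [sub_smul]; abel
    rw [e1]
    have h2 := norm_add_le (y - (x - (r / 2) • e)) ((t - r / 2) • e)
    rw [norm_smul, he, mul_one, Real.norm_eq_abs] at h2
    have h3 : |t - r / 2| ≤ r / 2 := by
      rw [abs_le]
      constructor <;> linarith only [ht.1, ht.2]
    linarith only [hy, h2, h3]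
  -- the inner integral
  have hinner : ∀ y ∈ S, ∫⁻ t in Icc 0 r, ENNReal.ofReal (K - ⟪gradient u (y + t • e), e⟫) ≤
      ENNReal.ofReal (b * r) := by
    intro y hy
    obtain ⟨hint, hval⟩ := integral_line (u := u) (y := y) (K := K) hr.le he
      (fun t ht => hd _ (hmemS y hy t ht)) (fun t ht => hK _ (hmemS y hy t ht))
    have hconst : IntegrableOn (fun _ : ℝ => K) (Icc 0 r) := integrableOn_const (by simp only [Real.volume_Icc, sub_zero, ne_eq, ENNReal.ofReal_ne_top, not_false_eq_true])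
    have hsub : IntegrableOn (fun t => K - ⟪gradient u (y + t • e), e⟫) (Icc 0 r) :=
      hconst.sub hint
    rw [← ofReal_integral_eq_lintegral_ofReal hsub]
    · apply ENNReal.ofReal_le_ofReal
      rw [integral_sub hconst hint, hval, setIntegral_const]
      simp only [smul_eq_mul, Measure.real, Real.volume_Icc, sub_zero]
      rw [ENNReal.toReal_ofReal hr.le]
      have := hb y hy
      linarith only [this]
    · refine (ae_restrict_iff' measurableSet_Icc).2 (Eventually.of_forall fun t ht => ?_)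
      have h1 := real_inner_le_norm (gradient u (y + t • e)) e
      rw [he, mul_one] at h1
      have h2 := hK _ (hmemS y hy t ht)
      simp only [Pi.zero_apply]
      (clear b hr hd hb hGm hint hval hconst hsub; linarith)
  have hmain : ENNReal.ofReal r * ∫⁻ y in ball x r, ENNReal.ofReal (K - ⟪gradient u y, e⟫) ∂μ ≤
      ENNReal.ofReal r * (ENNReal.ofReal b * μ S) := by
    calc ENNReal.ofReal r * ∫⁻ y in ball x r, ENNReal.ofReal (K - ⟪gradient u y, e⟫) ∂μ
        = ∫⁻ _ in Icc (0 : ℝ) r,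
            (∫⁻ y in ball x r, ENNReal.ofReal (K - ⟪gradient u y, e⟫) ∂μ) := by
          rw [setLIntegral_const, Real.volume_Icc, sub_zero, mul_comm]
      _ ≤ ∫⁻ t in Icc (0 : ℝ) r,
            (∫⁻ y in S, ENNReal.ofReal (K - ⟪gradient u (y + t • e), e⟫) ∂μ) := by
          refine setLIntegral_mono' measurableSet_Icc fun t ht => ?_
          exact lintegral_translate_le μ _ he ht
      _ = ∫⁻ y in S, (∫⁻ t in Icc (0 : ℝ) r,
            ENNReal.ofReal (K - ⟪gradient u (y + t • e), e⟫)) ∂μ := by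
          refine lintegral_lintegral_swap ?_
          refine Measurable.aemeasurable ?_
          have h1 : Measurable (fun p : ℝ × E => p.2 + p.1 • e) := by (clear u x r K b hr he hd hK S hb hS hGm hmemS hinner; fun_prop)
          exact hGm.comp h1
      _ ≤ ∫⁻ _ in S, ENNReal.ofReal (b * r) ∂μ := by
          refine setLIntegral_mono' measurableSet_ball fun y hy => hinner y hy
      _ = ENNReal.ofReal r * (ENNReal.ofReal b * μ S) := by
          rw [setLIntegral_const, mul_comm b r, ENNReal.ofReal_mul hr.le, mul_assoc]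
  have hr0 : ENNReal.ofReal r ≠ 0 := by
    rw [Ne, ENNReal.ofReal_eq_zero, not_le]; exact hr
  exact (ENNReal.mul_le_mul_iff_right hr0 ENNReal.ofReal_ne_top).1 hmain

theorem measure_ball_three_halves (μ : Measure E) [μ.IsAddHaarMeasure] (x y : E) (r : ℝ) :
    μ (ball y (3 / 2 * r)) =
      ENNReal.ofReal ((3 / 2 : ℝ) ^ Module.finrank ℝ E) * μ (ball x r) := by
  rw [Measure.addHaar_ball_mul_of_pos μ y (by norm_num : (0 : ℝ) < 3 / 2) r,
    Measure.addHaar_ball_center μ x r]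

/-- Vanishing mean oscillation of the gradient. -/
theorem vmo_coneComp [Nontrivial E] [CompleteSpace E] (hL : LiouvilleProp E) (μ : Measure E)
    [μ.IsAddHaarMeasure] {ε : ℝ} (hε : 0 < ε) :
    ∃ δ > 0, ∀ (u : E → ℝ) (x0 : E) (R M : ℝ), 0 < R → ConeComp u (ball x0 R) →
      (∀ x ∈ ball x0 R, ∀ y ∈ ball x0 R, u x - u y ≤ M) →
      ∀ x : E, ‖x - x0‖ ≤ R / 2 → ∀ r, 0 < r → r ≤ δ * R →
        ∃ q : E, ∫⁻ y in ball x r, ENNReal.ofReal (‖gradient u y - q‖ ^ 2) ∂μ ≤
          ENNReal.ofReal (ε * (M / R) ^ 2) * μ (ball x r) := by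
  obtain ⟨c, hc⟩ : ∃ c : ℝ, c = (3 / 2 : ℝ) ^ Module.finrank ℝ E := ⟨_, rfl⟩
  have hc0 : 0 < c := by rw [hc]; positivity
  obtain ⟨ε1, hε1, hε2, hε3⟩ : ∃ ε1 : ℝ, 0 < ε1 ∧ ε1 ≤ 1 ∧ (64 + 288 * c) * ε1 ≤ ε := by
    refine ⟨min 1 (ε / (64 + 288 * c)), by (clear * - hε hc0; positivity), min_le_left _ _, ?_⟩
    have h1 : min 1 (ε / (64 + 288 * c)) ≤ ε / (64 + 288 * c) := min_le_right _ _
    have h2 : 0 < 64 + 288 * c := by (clear * - hc0; positivity)
    rw [le_div_iff₀ h2] at h1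
    linarith only [h1]
  obtain ⟨δ1, hδ1, hflat⟩ := uniform_flat hL hε1
  refine ⟨min (δ1 / 4) (1 / 16), by (clear * - hδ1; positivity), ?_⟩
  intro u x0 R M hR hcc hM x hx r hr hrR
  have hr1 : 4 * r ≤ δ1 * R := by
    have h1 : min (δ1 / 4) (1 / 16) * R ≤ δ1 / 4 * R :=
      mul_le_mul_of_nonneg_right (min_le_left _ _) hR.le
    linarith only [hrR, h1]
  have hr2 : 4 * r ≤ R / 4 := by
    have h1 : min (δ1 / 4) (1 / 16) * R ≤ 1 / 16 * R :=
      mul_le_mul_of_nonneg_right (min_le_right _ _) hR.le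
    linarith only [hrR, h1]
  obtain ⟨q, hq⟩ := hflat u x0 R M hR hcc hM x hx (4 * r) (by linarith only [hr]) hr1
  have hxb : x ∈ ball x0 R := by rw [mem_ball, dist_eq_norm]; linarith only [hx, hr, hr2]
  have hM0 : 0 ≤ M := by
    have := hM x hxb x hxb
    linarith only [this]
  obtain ⟨l, hl⟩ : ∃ l : ℝ, l = M / R := ⟨_, rfl⟩
  have hl0 : 0 ≤ l := by rw [hl]; (clear * - hM0 hR; positivity)
  rw [← hl] at hq ⊢
  obtain ⟨b, hb⟩ : ∃ b : ℝ, b = 8 * ε1 * l := ⟨_, rfl⟩
  have hb0 : 0 ≤ b := by rw [hb]; (clear * - hε1 hl0; positivity)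
  obtain ⟨a, ha⟩ : ∃ a : ℝ, a = ‖q‖ := ⟨_, rfl⟩
  have ha0 : 0 ≤ a := by rw [ha]; exact norm_nonneg q
  -- all the points used lie in the ball
  have hin : ∀ y : E, ‖y - x‖ ≤ 4 * r → y ∈ ball x0 R := by
    intro y hy
    rw [mem_ball, dist_eq_norm]
    have e1 : y - x0 = (y - x) + (x - x0) := by abel
    rw [e1]
    have := norm_add_le (y - x) (x - x0)
    linarith only [hx, hr, hr2, hy, this]
  have hdiff : ∀ y z : E, ‖y - x‖ ≤ 4 * r → ‖z - x‖ ≤ 4 * r →
      |u z - u y - ⟪q, z - y⟫| ≤ b * r := by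
    intro y z hy hz
    have h1 := hq y hy
    have h2 := hq z hz
    have e1 : u z - u y - ⟪q, z - y⟫ =
        (u z - u x - ⟪q, z - x⟫) - (u y - u x - ⟪q, y - x⟫) := by
      simp only [inner_sub_right]
      ring
    rw [e1]
    refine (abs_sub _ _).trans ?_
    rw [hb]
    linarith only [h1, h2]
  have hgrow : ∀ y z : E, ‖y - x‖ ≤ 2 * r → ‖z - y‖ ≤ r → u z - u y ≤ (a + b) * r := by
    intro y z hy hz
    have h1 : ‖z - x‖ ≤ 4 * r := by
      have e1 : z - x = (z - y) + (y - x) := by abel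
      rw [e1]
      have := norm_add_le (z - y) (y - x)
      linarith only [hr, hy, hz, this]
    have h2 := (le_abs_self _).trans (hdiff y z (by linarith only [hr, hy]) h1)
    have h3 := real_inner_le_norm q (z - y)
    rw [← ha] at h3
    have h4 : a * ‖z - y‖ ≤ a * r := mul_le_mul_of_nonneg_left hz ha0
    linarith only [h2, h3, h4]
  have hgrad : ∀ y ∈ closedBall x (2 * r), HasGradientAt u (gradient u y) y := by
    intro y hy
    rw [mem_closedBall, dist_eq_norm] at hy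
    obtain ⟨g, -, hg⟩ := hcc.hasGradientAt isOpen_ball (hin y (by linarith only [hr, hy]))
    rw [hg.gradient]
    exact hg
  have hnorm : ∀ y ∈ closedBall x (2 * r), ‖gradient u y‖ ≤ a + b := by
    intro y hy
    have hy' : ‖y - x‖ ≤ 2 * r := by rwa [mem_closedBall, dist_eq_norm] at hy
    refine norm_gradient_le hcc hr (by linarith only [hb0, ha0]) ?_ (fun z hz => hgrow y z hy' hz) (hgrad y hy)
    intro z hz
    rw [mem_closedBall, dist_eq_norm] at hz
    apply hin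
    have e1 : z - x = (z - y) + (y - x) := by abel
    rw [e1]
    have := norm_add_le (z - y) (y - x)
    linarith only [hr, hy', hz, this]
  refine ⟨q, ?_⟩
  have hbsq : b ^ 2 ≤ 64 * ε1 * l ^ 2 := by
    rw [hb]
    have h1 : ε1 ^ 2 ≤ ε1 := by nlinarith only [hε1, hε2]
    have h2 : 0 ≤ l ^ 2 := sq_nonneg l
    nlinarith only [h1]
  by_cases hq0 : q = 0
  · have ha' : a = 0 := by rw [ha, hq0, norm_zero]
    rw [← setLIntegral_const]
    refine setLIntegral_mono' measurableSet_ball fun y hy => ?_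
    apply ENNReal.ofReal_le_ofReal
    have h1 := hnorm y (by
      rw [mem_closedBall]
      rw [mem_ball] at hy
      linarith only [hr, hy])
    rw [ha', zero_add] at h1
    rw [hq0, sub_zero]
    have h2 : ‖gradient u y‖ ^ 2 ≤ b ^ 2 := pow_le_pow_left₀ (norm_nonneg _) h1 2
    have h3 : 64 * ε1 ≤ ε := by nlinarith only [hε3, hc0, hε1]
    have h4 : 64 * ε1 * l ^ 2 ≤ ε * l ^ 2 := mul_le_mul_of_nonneg_right h3 (sq_nonneg l)
    (clear hL hε δ1 hδ1 hflat x0 R M hR hcc hM x hx r hr hrR hr1 hr2 q hxb hM0 hq hl hl0 hb0 a ha ha0 hin hdiff hgrow hgrad hnorm hq0 ha' hy; linarith)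
  · have hapos : 0 < a := by rw [ha]; exact norm_pos_iff.2 hq0
    obtain ⟨e, he⟩ : ∃ e : E, e = a⁻¹ • q := ⟨_, rfl⟩
    have he1 : ‖e‖ = 1 := by
      rw [he, norm_smul, norm_inv, Real.norm_of_nonneg ha0, ← ha, inv_mul_cancel₀ hapos.ne']
    have hqe : q = a • e := by
      rw [he, smul_smul, mul_inv_cancel₀ hapos.ne', one_smul]
    have hinner : ∀ t : ℝ, ⟪q, t • e⟫ = a * t := by
      intro t
      rw [hqe, real_inner_smul_left, real_inner_smul_right, real_inner_self_eq_norm_sq, he1]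
      ring
    -- bound for the slope
    have ha9 : a ≤ 9 * l := by
      have hn : ‖(x + (4 * r) • e) - x‖ = 4 * r := by
        rw [add_sub_cancel_left, norm_smul, he1, mul_one, Real.norm_of_nonneg (by linarith only [hr])]
      have h1 := hq (x + (4 * r) • e) hn.le
      have h2 := ConeComp_lip_ball hR hcc hM (x := x + (4 * r) • e) (y := x) (by
        have e1 : x + (4 * r) • e - x0 = ((x + (4 * r) • e) - x) + (x - x0) := by abel
        rw [e1]
        have := norm_add_le ((x + (4 * r) • e) - x) (x - x0)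
        rw [hn] at this
        linarith only [hx, hr2, this]) (by linarith only [hx, hr, hr2])
      rw [hn, mul_div_assoc, ← hl] at h2
      rw [add_sub_cancel_left, hinner] at h1
      have h3 := (abs_le.1 h1).1
      have h4 : a * (4 * r) ≤ (9 * l) * (4 * r) := by
        have h5 : ε1 * l * (4 * r) ≤ 1 * l * (4 * r) := by (clear * - hε2 hl0 hr; gcongr)
        linarith only [h2, h3, h5]
      exact le_of_mul_le_mul_right h4 (by linarith only [hr])
    have hdef := lintegral_deficit_le μ (u := u) (x := x) (e := e) (r := r) (K := a + b)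
      (b := 2 * b) hr he1 hgrad hnorm (by
        intro y hy
        rw [mem_ball, dist_eq_norm] at hy
        have e1 : y - x = (y - (x - (r / 2) • e)) - (r / 2) • e := by abel
        have hn1 : ‖(r / 2) • e‖ = r / 2 := by
          rw [norm_smul, he1, mul_one, Real.norm_of_nonneg (by linarith only [hr])]
        have hy1 : ‖y - x‖ ≤ 2 * r := by
          rw [e1]
          have := norm_sub_le (y - (x - (r / 2) • e)) ((r / 2) • e)
          linarith only [hy, hn1, this]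
        have hn2 : ‖r • e‖ = r := by
          rw [norm_smul, he1, mul_one, Real.norm_of_nonneg hr.le]
        have hy2 : ‖y + r • e - x‖ ≤ 4 * r := by
          have e2 : y + r • e - x = (y - x) + r • e := by abel
          rw [e2]
          have := norm_add_le (y - x) (r • e)
          linarith only [hr, hy1, hn2, this]
        have h1 := (abs_le.1 (hdiff y (y + r • e) (by linarith only [hr, hy1]) hy2)).1
        rw [add_sub_cancel_left, hinner] at h1
        linarith only [h1])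
    rw [measure_ball_three_halves μ x _ r, ← hc] at hdef
    have hfm : Measurable (fun y => ENNReal.ofReal (a + b - ⟪gradient u y, e⟫)) := by
      have h1 : Measurable (fun y => ⟪gradient u y, e⟫) := (measurable_gradient u).inner_const
      exact (measurable_const.sub h1).ennreal_ofReal
    calc ∫⁻ y in ball x r, ENNReal.ofReal (‖gradient u y - q‖ ^ 2) ∂μ
        ≤ ∫⁻ y in ball x r, (ENNReal.ofReal (b ^ 2) +
            ENNReal.ofReal (2 * a) * ENNReal.ofReal (a + b - ⟪gradient u y, e⟫)) ∂μ := by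
          refine setLIntegral_mono' measurableSet_ball fun y hy => ?_
          have hy' : y ∈ closedBall x (2 * r) := by
            rw [mem_closedBall]
            rw [mem_ball] at hy
            linarith only [hr, hy]
          have h1 := hnorm y hy'
          have h2 : ⟪gradient u y, q⟫ = a * ⟪gradient u y, e⟫ := by
            rw [hqe, real_inner_smul_right]
          have h3 : ‖gradient u y‖ ^ 2 ≤ (a + b) ^ 2 := pow_le_pow_left₀ (norm_nonneg _) h1 2
          have h4 : ⟪gradient u y, e⟫ ≤ a + b := by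
            have := real_inner_le_norm (gradient u y) e
            rw [he1, mul_one] at this
            (clear hL ε hε c hc hc0 hε2 hε3 hδ1 hflat M hM hr1 hxb hM0 hl hbsq hq0 hapos he he1 hqe hinner ha9 hdef hfm h2 h3; linarith)
          rw [← ENNReal.ofReal_mul (by linarith only [hapos]), ← ENNReal.ofReal_add (sq_nonneg b)
            (mul_nonneg (by linarith only [hapos]) (by (clear hL ε hε c hc hc0 hε2 hε3 hδ1 hflat M hM hr1 hxb hM0 hl hbsq hqe hinner ha9 hdef hfm h2 h3; linarith)))]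
          apply ENNReal.ofReal_le_ofReal
          rw [norm_sub_sq_real, h2, ← ha]
          (clear hL ε hε c hc hc0 hε2 hε3 hδ1 hflat M hM hr1 hxb hM0 hl hbsq hq0 hapos he he1 hqe hinner ha9 hdef hfm h2 h4; linarith)
      _ = ENNReal.ofReal (b ^ 2) * μ (ball x r) + ENNReal.ofReal (2 * a) *
            ∫⁻ y in ball x r, ENNReal.ofReal (a + b - ⟪gradient u y, e⟫) ∂μ := by
          rw [lintegral_add_left measurable_const, setLIntegral_const,
            lintegral_const_mul _ hfm]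
      _ ≤ ENNReal.ofReal (b ^ 2) * μ (ball x r) + ENNReal.ofReal (2 * a) *
            (ENNReal.ofReal (2 * b) * (ENNReal.ofReal c * μ (ball x r))) := by
          (clear hL ε hε hc hc0 ε1 hε1 hε2 hε3 δ1 hδ1 hflat x0 R M hR hcc hM hx hr hrR hr1 hr2 q hxb hM0 l hq hl hl0 hb hb0 ha ha0 hin hdiff hgrow hgrad hnorm hbsq hq0 hapos he he1 hqe hinner ha9 hfm; gcongr)
      _ = ENNReal.ofReal (b ^ 2 + 2 * a * (2 * b * c)) * μ (ball x r) := by
          rw [ENNReal.ofReal_add (sq_nonneg b) (by (clear * - hapos hb0 hc0; positivity)),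
            ENNReal.ofReal_mul (by (clear * - hapos; positivity) : 0 ≤ 2 * a),
            ENNReal.ofReal_mul (by (clear * - hb0; positivity) : 0 ≤ 2 * b)]
          ring
      _ ≤ ENNReal.ofReal (ε * l ^ 2) * μ (ball x r) := by
          gcongr
          have h1 : 2 * a * (2 * b * c) ≤ 2 * (9 * l) * (2 * b * c) := by (clear * - ha9 hb0 hc0; gcongr)
          have h2 : 2 * (9 * l) * (2 * b * c) = 288 * c * ε1 * l ^ 2 := by
            rw [hb]; ring
          have h3 : (64 + 288 * c) * ε1 * l ^ 2 ≤ ε * l ^ 2 :=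
            mul_le_mul_of_nonneg_right hε3 (sq_nonneg l)
          linarith only [hbsq, h1, h2, h3]

end measure

end Vale.Agent.P080.Liou
end

section
set_option linter.unusedSectionVars false

/-! The Liouville theorem, uniform flatness and vanishing mean oscillation of the gradient for
infinity-harmonic functions. -/

namespace Vale.Agent.P080.Liou

open Topology Filter Metric Set MeasureTheory Vale.Agent.P080
open scoped RealInnerProductSpace

theorem liouvilleProp (E : Type*) [NormedAddCommGroup E] [InnerProductSpace ℝ E]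
    [FiniteDimensional ℝ E] : LiouvilleProp E := fun _ hu => hu.affine

theorem liouville_harmonic (d : ℕ) (u : EuclideanSpace ℝ (Fin d) → ℝ) (C : ℝ)
    (hu : IsInfHarmonicOn u univ) (hC : ∀ x, |u x| ≤ C * (1 + ‖x‖)) :
    ∃ q : EuclideanSpace ℝ (Fin d), ∀ x, u x = u 0 + ⟪q, x⟫ :=
  liouville hu.coneComp hC

theorem uniform_flat_harmonic (d : ℕ) (ε : ℝ) (hε : 0 < ε) :
    ∃ δ > 0, ∀ (u : EuclideanSpace ℝ (Fin d) → ℝ) (x0 : EuclideanSpace ℝ (Fin d)) (R M : ℝ),
      0 < R → IsInfHarmonicOn u (ball x0 R) →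
      (∀ x ∈ ball x0 R, ∀ y ∈ ball x0 R, u x - u y ≤ M) →
      ∀ x, ‖x - x0‖ ≤ R / 2 → ∀ r, 0 < r → r ≤ δ * R →
        ∃ q : EuclideanSpace ℝ (Fin d), ∀ y, ‖y - x‖ ≤ r →
          |u y - u x - ⟪q, y - x⟫| ≤ ε * (M / R) * r := by
  obtain ⟨δ, hδ, h⟩ := uniform_flat (liouvilleProp (EuclideanSpace ℝ (Fin d))) hε
  exact ⟨δ, hδ, fun u x0 R M hR hu hM x hx r hr hrR =>
    h u x0 R M hR hu.coneComp hM x hx r hr hrR⟩

theorem vmo_harmonic (d : ℕ) (ε : ℝ) (hε : 0 < ε) :
    ∃ δ > 0, ∀ (u : EuclideanSpace ℝ (Fin d) → ℝ) (x0 : EuclideanSpace ℝ (Fin d)) (R M : ℝ),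
      0 < R → IsInfHarmonicOn u (ball x0 R) →
      (∀ x ∈ ball x0 R, ∀ y ∈ ball x0 R, u x - u y ≤ M) →
      ∀ x, ‖x - x0‖ ≤ R / 2 → ∀ r, 0 < r → r ≤ δ * R →
        ∃ q : EuclideanSpace ℝ (Fin d),
          ∫⁻ y in ball x r, ENNReal.ofReal (‖gradient u y - q‖ ^ 2) ≤
            ENNReal.ofReal (ε * (M / R) ^ 2) * volume (ball x r) := by
  rcases subsingleton_or_nontrivial (EuclideanSpace ℝ (Fin d)) with h0 | h0
  · refine ⟨1, one_pos, fun u x0 R M _ _ _ x _ r _ _ => ⟨0, ?_⟩⟩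
    have h1 : ∀ y, ENNReal.ofReal (‖gradient u y - 0‖ ^ 2) = 0 := by
      intro y
      rw [Subsingleton.elim (gradient u y - 0) 0, norm_zero]
      simp
    simp only [h1, lintegral_zero]
    exact zero_le
  · obtain ⟨δ, hδ, h⟩ := vmo_coneComp (liouvilleProp (EuclideanSpace ℝ (Fin d)))
      (volume : Measure (EuclideanSpace ℝ (Fin d))) hε
    exact ⟨δ, hδ, fun u x0 R M hR hu hM x hx r hr hrR =>
      h u x0 R M hR hu.coneComp hM x hx r hr hrR⟩

end Vale.Agent.P080.Liou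
end
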